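import Mathlib
set_option autoImplicit false
namespace Crest.Agent.R310.Scal

/-- `exp w ≤ 1 + w + (e - 2) w²` on `[0,1]` -/
theorem exp_quad {w : ℝ} (h0 : 0 ≤ w) (h1 : w ≤ 1) :
    Real.exp w ≤ 1 + w + (Real.exp 1 - 2) * w ^ 2 := by
  have hs : ∀ x : ℝ, HasSum (fun n : ℕ => x ^ (n + 2) / ((n + 2).factorial : ℝ))
      (Real.exp x - 1 - x) := by
    intro x
    have h := NormedSpace.expSeries_div_hasSum_exp (𝔸 := ℝ) x
    rw [← Real.exp_eq_exp_ℝ] at h
    have h2 := (hasSum_nat_add_iff' (f := fun n : ℕ => x ^ n / (n.factorial : ℝ)) 2).2 h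
    simpa [Finset.sum_range_succ, sub_sub] using h2
  have hA := hs w
  have hB := (hs 1).mul_left (w ^ 2)
  have hle := hasSum_le (fun n => ?_) hA hB
  · nlinarith [hle]
  · have hf : (0 : ℝ) < ((n + 2).factorial : ℝ) := by positivity
    rw [one_pow, ← mul_div_assoc, mul_one]
    apply div_le_div_of_nonneg_right _ hf.le
    rw [pow_add]
    have : w ^ n ≤ 1 := pow_le_one₀ h0 h1
    nlinarith [sq_nonneg w]

theorem mul_exp_neg_le (t : ℝ) : t * Real.exp (-t) ≤ Real.exp (-1) := by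
  have h := Real.add_one_le_exp (t - 1)
  have h2 : t ≤ Real.exp (t - 1) := by linarith
  calc t * Real.exp (-t) ≤ Real.exp (t - 1) * Real.exp (-t) :=
        mul_le_mul_of_nonneg_right h2 (Real.exp_pos _).le
    _ = Real.exp (-1) := by rw [← Real.exp_add]; ring_nf

/-- the constant `1/e` -/
noncomputable def E : ℝ := Real.exp (-1)

theorem E_gt : (0.36787944 : ℝ) < E := lt_trans (by norm_num) Real.exp_neg_one_gt_d9
theorem E_lt : E < (0.36787945 : ℝ) := lt_trans Real.exp_neg_one_lt_d9 (by norm_num)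
theorem E_pos : 0 < E := Real.exp_pos _
theorem exp_one_mul_E : Real.exp 1 * E = 1 := by
  rw [E, ← Real.exp_add]; simp

/-- `λ(x) = ((x - 2/e)/(1 - 2/e))` clamped to `[0,1]` -/
noncomputable def lam (x : ℝ) : ℝ := max 0 (min 1 ((x - 2 * E) / (1 - 2 * E)))

theorem q_pos : 0 < 1 - 2 * E := by have := E_lt; linarith

theorem lam_nonneg (x : ℝ) : 0 ≤ lam x := le_max_left _ _
theorem lam_le_one (x : ℝ) : lam x ≤ 1 := max_le zero_le_one (min_le_left _ _)
theorem lam_mono {x y : ℝ} (h : x ≤ y) : lam x ≤ lam y := by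
  have hq := q_pos
  unfold lam
  apply max_le_max le_rfl
  apply min_le_min le_rfl
  apply div_le_div_of_nonneg_right _ hq.le
  linarith
theorem lam_of_le {x : ℝ} (h : x ≤ 2 * E) : lam x = 0 := by
  have hq := q_pos
  unfold lam
  apply max_eq_left
  refine le_trans (min_le_right _ _) ?_
  exact div_nonpos_of_nonpos_of_nonneg (by linarith) hq.le
theorem lam_of_ge {x : ℝ} (h : 1 ≤ x) : lam x = 1 := by
  have hq := q_pos
  unfold lam
  have : 1 ≤ (x - 2 * E) / (1 - 2 * E) := by rw [le_div_iff₀ hq]; linarith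
  rw [min_eq_left this]; simp
theorem lam_mul {x : ℝ} (h : 2 * E ≤ x) (h1 : x ≤ 1) : (1 - 2 * E) * lam x = x - 2 * E := by
  have hq := q_pos
  unfold lam
  have h2 : 0 ≤ (x - 2 * E) / (1 - 2 * E) := div_nonneg (by linarith) hq.le
  have h3 : (x - 2 * E) / (1 - 2 * E) ≤ 1 := by rw [div_le_one hq]; linarith
  rw [min_eq_right h3, max_eq_right h2]
  field_simp

theorem exp_mul_ge {t : ℝ} (h0 : 0 ≤ t) (h1 : t ≤ 1) : 2 * E ≤ Real.exp (-t) * (1 + t) := by
  have h := Real.add_one_le_exp (1 - t)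
  have h2 : Real.exp (-t) = Real.exp (1 - t) * E := by
    rw [E, ← Real.exp_add]; ring_nf
  rw [h2]
  have hE := E_pos
  have h3 : 2 ≤ Real.exp (1 - t) * (1 + t) := by nlinarith
  nlinarith

/-- first half of (R0) -/
theorem R0a {t β : ℝ} (ht0 : 0 ≤ t) (ht1 : t ≤ 1) (hβ1 : β ≤ 1) :
    β * Real.exp (-(t * lam β)) ≤ Real.exp (-t) * (1 + t - t * lam β) := by
  have hE := E_pos
  have hq := q_pos
  rcases le_total β (2 * E) with hβ | hβ
  · rw [lam_of_le hβ]
    have := exp_mul_ge ht0 ht1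
    simp only [mul_zero, neg_zero, Real.exp_zero, mul_one, sub_zero]
    linarith
  · have hl := lam_mul hβ hβ1
    set l := lam β with hldef
    have hl0 : 0 ≤ l := lam_nonneg β
    have hl1 : l ≤ 1 := lam_le_one β
    -- z = 1 - l, w = t z
    set w := t * (1 - l) with hw
    have hw0 : 0 ≤ w := mul_nonneg ht0 (by linarith)
    have hwz : w ≤ 1 - l := by rw [hw]; nlinarith
    have hw1 : w ≤ 1 := by linarith
    have hexp : Real.exp (-(t * l)) = Real.exp (-t) * Real.exp w := by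
      rw [← Real.exp_add]; congr 1; rw [hw]; ring
    rw [hexp]
    have h1 : 1 + t - t * l = 1 + w := by rw [hw]; ring
    rw [h1]
    have hβeq : β = 1 - (1 - 2 * E) * (1 - l) := by linarith
    have hk := exp_quad hw0 hw1
    have hew : w ≤ Real.exp (w - 1) := by linarith [Real.add_one_le_exp (w - 1)]
    have hew2 : Real.exp w = Real.exp 1 * Real.exp (w - 1) := by
      rw [← Real.exp_add]; ring_nf
    have hee : Real.exp 1 * w ≤ Real.exp w := by
      rw [hew2]; exact mul_le_mul_of_nonneg_left hew (Real.exp_pos _).le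
    -- (1 - q w) e^w ≤ 1 + w
    have hmain : (1 - (1 - 2 * E) * w) * Real.exp w ≤ 1 + w := by
      have h2 : (1 - 2 * E) * w * (Real.exp 1 * w) ≤ (1 - 2 * E) * w * Real.exp w :=
        mul_le_mul_of_nonneg_left hee (mul_nonneg hq.le hw0)
      have h3 : (1 - 2 * E) * w * (Real.exp 1 * w) = (Real.exp 1 - 2) * w ^ 2 := by
        have := exp_one_mul_E
        linear_combination (-2 * w ^ 2) * this
      nlinarith
    have hstep : β * Real.exp w ≤ 1 + w := by
      refine le_trans ?_ hmain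
      apply mul_le_mul_of_nonneg_right _ (Real.exp_pos _).le
      nlinarith
    calc β * (Real.exp (-t) * Real.exp w) = Real.exp (-t) * (β * Real.exp w) := by ring
      _ ≤ Real.exp (-t) * (1 + w) := mul_le_mul_of_nonneg_left hstep (Real.exp_pos _).le

/-- second half of (R0) -/
theorem R0b {t β : ℝ} (ht0 : 0 ≤ t) (ht1 : t ≤ 1) (hβ1 : β ≤ 1) :
    β * Real.exp (-(t * lam β)) ≤ (1 - t * lam β) * (1 - β)
      + Real.exp (-t) * β * (1 + t - t * lam β) := by
  have hE := E_pos
  have hq := q_pos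
  rcases le_total β (2 * E) with hβ | hβ
  · rw [lam_of_le hβ]
    have := exp_mul_ge ht0 ht1
    simp only [mul_zero, neg_zero, Real.exp_zero, mul_one, sub_zero, one_mul]
    rcases le_total β 0 with hb | hb
    · have h4 : Real.exp (-t) * (1 + t) ≤ 1 := by
        have h5 := Real.add_one_le_exp t
        have h6 : Real.exp (-t) * Real.exp t = 1 := by rw [← Real.exp_add]; simp
        nlinarith [Real.exp_pos (-t)]
      nlinarith
    · have h7 := E_lt
      have h8 := E_gt
      nlinarith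
  · have hl := lam_mul hβ hβ1
    set l := lam β with hldef
    have hl0 : 0 ≤ l := lam_nonneg β
    have hl1 : l ≤ 1 := lam_le_one β
    set w := t * (1 - l) with hw
    have hw0 : 0 ≤ w := mul_nonneg ht0 (by linarith)
    have hwz : w ≤ 1 - l := by rw [hw]; nlinarith
    have hw1 : w ≤ 1 := by linarith
    have hexp : Real.exp (-(t * l)) = Real.exp (-t) * Real.exp w := by
      rw [← Real.exp_add]; congr 1; rw [hw]; ring
    rw [hexp]
    have hβeq : β = 1 - (1 - 2 * E) * (1 - l) := by linarith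
    have hk := exp_quad hw0 hw1
    set s := Real.exp (-t) with hs
    have hs0 : 0 < s := Real.exp_pos _
    have hts : t * s ≤ E := mul_exp_neg_le t
    have hβ0 : 0 ≤ β := by linarith
    -- key: (e-2) s t ≤ q
    have hkey : (Real.exp 1 - 2) * (t * s) ≤ 1 - 2 * E := by
      have h1 : 0 ≤ Real.exp 1 - 2 := by
        have := Real.exp_one_gt_d9; linarith
      calc (Real.exp 1 - 2) * (t * s) ≤ (Real.exp 1 - 2) * E :=
            mul_le_mul_of_nonneg_left hts h1
        _ = 1 - 2 * E := by linear_combination exp_one_mul_E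
    -- s (e^w - 1 - w) ≤ s (e-2) w^2 = (e-2) s t * t (1-l)^2 ≤ q t (1-l)^2
    have h2 : s * (Real.exp w - 1 - w) ≤ (1 - 2 * E) * (t * (1 - l) ^ 2) := by
      have h3 : s * (Real.exp w - 1 - w) ≤ s * ((Real.exp 1 - 2) * w ^ 2) :=
        mul_le_mul_of_nonneg_left (by linarith) hs0.le
      have h4 : s * ((Real.exp 1 - 2) * w ^ 2)
          = ((Real.exp 1 - 2) * (t * s)) * (t * (1 - l) ^ 2) := by rw [hw]; ring
      rw [h4] at h3
      refine h3.trans (mul_le_mul_of_nonneg_right hkey ?_)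
      exact mul_nonneg ht0 (sq_nonneg _)
    have h5 : β * (s * (Real.exp w - 1 - w)) ≤ (1 - 2 * E) * (t * (1 - l) ^ 2) := by
      have h6 : 0 ≤ (1 - 2 * E) * (t * (1 - l) ^ 2) :=
        mul_nonneg hq.le (mul_nonneg ht0 (sq_nonneg _))
      nlinarith
    have h7 : (1 - 2 * E) * (t * (1 - l) ^ 2) ≤ (1 - 2 * E) * (1 - l) * (1 - t * l) := by
      have : t * (1 - l) ≤ 1 - t * l := by nlinarith
      nlinarith [mul_nonneg hq.le (by linarith : (0:ℝ) ≤ 1 - l)]
    have h8 : (1 - 2 * E) * (1 - l) = 1 - β := by linarith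
    rw [h8] at h7
    have h9 : 1 + t - t * l = 1 + w := by rw [hw]; ring
    rw [h9]
    nlinarith

section gaps
variable {E x δ : ℝ}

theorem gap0 (h1 : (0.36787944 : ℝ) < E) (h2 : E < (0.36787945 : ℝ)) (hx : 2 * E ≤ x) :
    8 * ((x - 2 * E) * (1 - x)) ≤ 5 * E * (1 - 2 * E) * x := by
  have ha : (x - 2 * E) * (1 - x) ≤ (1 - 2 * E) ^ 2 / 4 := by
    nlinarith [sq_nonneg (x - 2 * E - (1 - x))]
  have hb : 5 * E * (1 - 2 * E) * (2 * E) ≤ 5 * E * (1 - 2 * E) * x := by
    apply mul_le_mul_of_nonneg_left hx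
    nlinarith
  have hc : 2 * (1 - 2 * E) ≤ 5 * E * (2 * E) := by nlinarith
  have hd : 2 * (1 - 2 * E) * (1 - 2 * E) ≤ 5 * E * (2 * E) * (1 - 2 * E) :=
    mul_le_mul_of_nonneg_right hc (by linarith)
  nlinarith

theorem c0_nonneg (h1 : (0.36787944 : ℝ) < E) (h2 : E < (0.36787945 : ℝ))
    (hx1 : x ≤ 1) : (x - 2 * E) * (8 - 11 / 2 * x) ≤ 5 / 2 * (1 - 2 * E) * x := by
  have : 5 / 2 * (1 - 2 * E) * x - (x - 2 * E) * (8 - 11 / 2 * x)
      = (1 - x) * (5 / 2 - 8 * (1 - 2 * E) + 11 / 2 * (1 - x)) := by ring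
  have h3 : 0 ≤ (1 - x) * (5 / 2 - 8 * (1 - 2 * E) + 11 / 2 * (1 - x)) := by
    apply mul_nonneg (by linarith)
    linarith
  linarith

theorem gapA (h1 : (0.36787944 : ℝ) < E) (h2 : E < (0.36787945 : ℝ)) (hx : 2 * E ≤ x)
    (hx1 : x ≤ 1) (hδ : x / 2 - E ≤ δ) :
    (x - 2 * E) * (8 - 11 * δ) * (2 * δ + 2 * E - x)
      ≤ 5 * E * (1 - 2 * E) * x * (δ + 2 * E) := by
  obtain ⟨v, hv⟩ : ∃ v, v = x - 2 * E := ⟨_, rfl⟩
  obtain ⟨η, hη⟩ : ∃ η, η = δ - (x / 2 - E) := ⟨_, rfl⟩
  have hv0 : 0 ≤ v := by linarith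
  have hv1 : v ≤ 0.26424112 := by linarith
  have hη0 : 0 ≤ η := by linarith
  have hxv : x = v + 2 * E := by linarith
  have hδη : δ = η + v / 2 := by linarith
  have hq : (0.0972087 : ℝ) ≤ E * (1 - 2 * E) := by nlinarith
  have e1 : 5 * E * (1 - 2 * E) * x * (δ + 2 * E) - (x - 2 * E) * (8 - 11 * δ) * (2 * δ + 2 * E - x)
      = 22 * v * (η - 53 / 200) ^ 2
        + η * (v * (44 * (53 / 200) - 16 + 11 * v) + 5 * (E * (1 - 2 * E)) * (v + 2 * E))
        + (5 * (E * (1 - 2 * E)) * (v + 2 * E) * (v / 2 + 2 * E) - 22 * v * (53 / 200) ^ 2) := by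
    rw [hδη, hxv]; ring
  have e2 : 0 ≤ v * (44 * (53 / 200) - 16 + 11 * v) + 5 * (E * (1 - 2 * E)) * (v + 2 * E) := by
    have : 5 * 0.0972087 * (v + 2 * E) ≤ 5 * (E * (1 - 2 * E)) * (v + 2 * E) := by
      apply mul_le_mul_of_nonneg_right _ (by linarith)
      linarith
    nlinarith [sq_nonneg (v - 0.175)]
  have e3 : 0 ≤ 5 * (E * (1 - 2 * E)) * (v + 2 * E) * (v / 2 + 2 * E) - 22 * v * (53 / 200) ^ 2 := by
    have a1 : 5 * 0.0972087 * ((v + 2 * E) * (v / 2 + 2 * E))
        ≤ 5 * (E * (1 - 2 * E)) * ((v + 2 * E) * (v / 2 + 2 * E)) := by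
      apply mul_le_mul_of_nonneg_right _ (by positivity)
      linarith
    have a2 : (v + 0.73575888) * (v / 2 + 0.73575888) ≤ (v + 2 * E) * (v / 2 + 2 * E) := by
      apply mul_le_mul <;> linarith
    nlinarith [sq_nonneg v]
  have e4 : 0 ≤ 22 * v * (η - 53 / 200) ^ 2 := by positivity
  have e5 := mul_nonneg hη0 e2
  linarith

theorem gapB (h1 : (0.36787944 : ℝ) < E) (h2 : E < (0.36787945 : ℝ)) (hx : 2 * E ≤ x)
    (hx1 : x ≤ 1) (hδ : x / 2 ≤ δ) :
    (x - 2 * E) * (8 - 11 * δ) * (2 * δ - (1 - E) * x) ≤ 5 * E * (1 - 2 * E) * x * δ := by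
  obtain ⟨η, hη⟩ : ∃ η, η = δ - x / 2 := ⟨_, rfl⟩
  have hη0 : 0 ≤ η := by linarith
  have hδη : δ = x / 2 + η := by linarith
  have hc := c0_nonneg (x := x) h1 h2 hx1
  have e1 : 5 * E * (1 - 2 * E) * x * δ - (x - 2 * E) * (8 - 11 * δ) * (2 * δ - (1 - E) * x)
      = (E * x) * (5 / 2 * (1 - 2 * E) * x - (x - 2 * E) * (8 - 11 / 2 * x))
        + η * (5 * E * (1 - 2 * E) * x - (x - 2 * E) * (16 - 11 * x - 11 * E * x))
        + 22 * (x - 2 * E) * η ^ 2 := by
    rw [hδη]; ring
  have e2 : 0 ≤ (E * x) * (5 / 2 * (1 - 2 * E) * x - (x - 2 * E) * (8 - 11 / 2 * x)) := by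
    apply mul_nonneg (mul_nonneg (by linarith) (by linarith)) (by linarith)
  have e3 : 0 ≤ 5 * E * (1 - 2 * E) * x - (x - 2 * E) * (16 - 11 * x - 11 * E * x) := by
    obtain ⟨v, hv⟩ : ∃ v, v = x - 2 * E := ⟨_, rfl⟩
    have hv0 : 0 ≤ v := by linarith
    have hxv : x = v + 2 * E := by linarith
    have hq : (0.0972087 : ℝ) ≤ E * (1 - 2 * E) := by nlinarith
    have a1 : 5 * E * (1 - 2 * E) * x - (x - 2 * E) * (16 - 11 * x - 11 * E * x)
        = 10 * E * (E * (1 - 2 * E)) + v * (5 * (E * (1 - 2 * E)) - 16 + 22 * E + 22 * E ^ 2)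
          + 11 * (1 + E) * v ^ 2 := by rw [hxv]; ring
    have a2 : 0.3576 ≤ 10 * E * (E * (1 - 2 * E)) := by nlinarith
    have a3 : -4.4435 ≤ 5 * (E * (1 - 2 * E)) - 16 + 22 * E + 22 * E ^ 2 := by nlinarith
    have a4 : v * (-4.4435) ≤ v * (5 * (E * (1 - 2 * E)) - 16 + 22 * E + 22 * E ^ 2) :=
      mul_le_mul_of_nonneg_left a3 hv0
    have a5 : 15.04 * v ^ 2 ≤ 11 * (1 + E) * v ^ 2 := by
      apply mul_le_mul_of_nonneg_right _ (sq_nonneg v)
      linarith
    rw [a1]
    nlinarith [sq_nonneg (v - 0.1477)]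
  have e4 : 0 ≤ 22 * (x - 2 * E) * η ^ 2 := by
    apply mul_nonneg (by linarith) (sq_nonneg _)
  have e5 := mul_nonneg hη0 e3
  linarith

theorem gap1 (h1 : (0.36787944 : ℝ) < E) (h2 : E < (0.36787945 : ℝ)) (hx : 2 * E ≤ x)
    (hx1 : x ≤ 1) (hδ2 : δ ≤ x / 2) :
    (x - 2 * E) * (8 - 11 * δ) * (E + δ - x / 2) ≤ 5 * E * (1 - 2 * E) * (x - δ) := by
  obtain ⟨ρ, hρ⟩ : ∃ ρ, ρ = x / 2 - δ := ⟨_, rfl⟩
  have hρ0 : 0 ≤ ρ := by linarith
  have hδρ : δ = x / 2 - ρ := by linarith
  have hc := c0_nonneg (x := x) h1 h2 hx1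
  have e1 : 5 * E * (1 - 2 * E) * (x - δ) - (x - 2 * E) * (8 - 11 * δ) * (E + δ - x / 2)
      = E * (5 / 2 * (1 - 2 * E) * x - (x - 2 * E) * (8 - 11 / 2 * x))
        + ρ * (5 * E * (1 - 2 * E) - (x - 2 * E) * (11 * E - 8 + 11 / 2 * x))
        + 11 * (x - 2 * E) * ρ ^ 2 := by
    rw [hδρ]; ring
  have e2 : 0 ≤ E * (5 / 2 * (1 - 2 * E) * x - (x - 2 * E) * (8 - 11 / 2 * x)) :=
    mul_nonneg (by linarith) (by linarith)
  have e3 : 0 ≤ 5 * E * (1 - 2 * E) - (x - 2 * E) * (11 * E - 8 + 11 / 2 * x) := by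
    have hq : (0.0972087 : ℝ) ≤ E * (1 - 2 * E) := by nlinarith
    have a1 : (x - 2 * E) * (11 * E - 8 + 11 / 2 * x) ≤ 0.26424112 * (11 * E - 8 + 11 / 2 * x) := by
      apply mul_le_mul_of_nonneg_right (by linarith)
      linarith
    nlinarith
  have e4 : 0 ≤ 11 * (x - 2 * E) * ρ ^ 2 := by
    apply mul_nonneg (by linarith) (sq_nonneg _)
  have e5 := mul_nonneg hρ0 e3
  linarith

theorem gap1' (h1 : (0.36787944 : ℝ) < E) (h2 : E < (0.36787945 : ℝ)) (hx : 2 * E ≤ x)
    (hx1 : x ≤ 1) (hδ : x / 2 ≤ δ) (hδ8 : 11 * δ ≤ 8) :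
    (x - 2 * E) * (8 - 11 * δ) * E ≤ 5 * E * (1 - 2 * E) * (x - δ) := by
  have hc := c0_nonneg (x := x) h1 h2 hx1
  -- linear in δ between x/2 and 8/11
  have key : (x - 2 * E) * (8 - 11 * δ) ≤ 5 * (1 - 2 * E) * (x - δ) := by
    have e1 : (8 - 11 / 2 * x) * (5 * (1 - 2 * E) * (x - δ) - (x - 2 * E) * (8 - 11 * δ))
        = (8 - 11 * δ) * (5 / 2 * (1 - 2 * E) * x - (x - 2 * E) * (8 - 11 / 2 * x))
          + (11 * δ - 11 / 2 * x) * (5 * (1 - 2 * E) * (x - 8 / 11)) := by ring
    have e2 : 0 ≤ (8 - 11 * δ) * (5 / 2 * (1 - 2 * E) * x - (x - 2 * E) * (8 - 11 / 2 * x)) :=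
      mul_nonneg (by linarith) (by linarith)
    have e3 : 0 ≤ (11 * δ - 11 / 2 * x) * (5 * (1 - 2 * E) * (x - 8 / 11)) :=
      mul_nonneg (by linarith) (mul_nonneg (by linarith) (by linarith))
    have e4 : 0 < 8 - 11 / 2 * x := by linarith
    have e5 : 0 ≤ (8 - 11 / 2 * x) * (5 * (1 - 2 * E) * (x - δ) - (x - 2 * E) * (8 - 11 * δ)) := by
      rw [e1]; linarith
    have := nonneg_of_mul_nonneg_right e5 e4
    linarith
  nlinarith
end gaps


section core
variable {x f δ : ℝ}

/-- The scalar inequality with everything divided by `f`; `h` is any number below the two branch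
values. -/
theorem core (hx : 2 * E ≤ x) (hx1 : x ≤ 1) (hf0 : 0 ≤ f) (hf1 : f ≤ 1) (hδ0 : 0 ≤ δ)
    (hδ8 : 11 * δ ≤ 8) {h : ℝ}
    (hh1 : h ≤ 1 - (1 - E) * f - max (x - 2 * (f * δ)) 0 / 2)
    (hh2 : h ≤ 1 - (1 - E) * f - max (x - 2 * (f * δ)) 0 + E * f) :
    (x - 2 * E) * (8 - 11 * δ) * h ≤ 5 * E * (1 - 2 * E) * (x - f * δ) := by
  have hE1 := E_gt
  have hE2 := E_lt
  have hP : 0 ≤ (x - 2 * E) * (8 - 11 * δ) := mul_nonneg (by linarith) (by linarith)
  have hfδ : f * δ ≤ δ := by nlinarith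
  have hg0 := gap0 hE1 hE2 hx
  have hRpos : 0 ≤ 5 * E * (1 - 2 * E) * (x - f * δ) := by
    apply mul_nonneg (mul_nonneg (by linarith) (by linarith))
    linarith
  rcases le_total (x - 2 * (f * δ)) 0 with hr | hr
  · -- r = 0
    rw [max_eq_right hr] at hh1
    have hh : h ≤ 1 - (1 - E) * f := by linarith
    refine (mul_le_mul_of_nonneg_left hh hP).trans ?_
    -- here 2 f δ ≥ x, so 2 δ ≥ x
    have hbx : x / 2 ≤ δ := by linarith
    have hB := gapB (δ := δ) hE1 hE2 hx hx1 hbx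
    have h1' := gap1' (δ := δ) hE1 hE2 hx hx1 hbx hδ8
    rcases eq_or_lt_of_le hbx with hb | hb
    · -- x = 2 δ, then f = 1
      have hδpos : 0 < δ := by linarith
      have hf : f = 1 := by
        have : 2 * δ * (1 - f) ≤ 0 := by nlinarith
        nlinarith
      rw [hf]
      calc (x - 2 * E) * (8 - 11 * δ) * (1 - (1 - E) * 1)
          = (x - 2 * E) * (8 - 11 * δ) * E := by ring
        _ ≤ _ := by simpa using h1'
    · have hid : (2 * δ - x) * (5 * E * (1 - 2 * E) * (x - f * δ)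
            - (x - 2 * E) * (8 - 11 * δ) * (1 - (1 - E) * f))
          = (1 - f) * (5 * E * (1 - 2 * E) * x * δ
              - (x - 2 * E) * (8 - 11 * δ) * (2 * δ - (1 - E) * x))
            + (2 * (f * δ) - x) * (5 * E * (1 - 2 * E) * (x - δ)
              - (x - 2 * E) * (8 - 11 * δ) * E) := by ring
      have h3 : 0 ≤ (2 * δ - x) * (5 * E * (1 - 2 * E) * (x - f * δ)
            - (x - 2 * E) * (8 - 11 * δ) * (1 - (1 - E) * f)) := by
        rw [hid]
        apply add_nonneg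
        · exact mul_nonneg (by linarith) (by linarith)
        · exact mul_nonneg (by linarith) (by linarith)
      have := nonneg_of_mul_nonneg_right h3 (by linarith)
      linarith
  · rw [max_eq_left hr] at hh1 hh2
    rcases le_total (x - 2 * (f * δ)) (2 * E * f) with hr2 | hr2
    · -- region 1 : h1
      refine (mul_le_mul_of_nonneg_left hh1 hP).trans ?_
      have ha : x / 2 - E ≤ δ := by nlinarith
      have hA := gapA (δ := δ) hE1 hE2 hx hx1 ha
      rcases le_total (x / 2) δ with hb | hb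
      · have hB := gapB (δ := δ) hE1 hE2 hx hx1 hb
        have hid : (2 * E * x) * (5 * E * (1 - 2 * E) * (x - f * δ)
            - (x - 2 * E) * (8 - 11 * δ) * (1 - (1 - E) * f - (x - 2 * (f * δ)) / 2))
          = (x - 2 * (f * δ)) * (5 * E * (1 - 2 * E) * x * (δ + 2 * E)
              - (x - 2 * E) * (8 - 11 * δ) * (2 * δ + 2 * E - x))
            + (2 * (f * δ) + 2 * E * f - x) * (5 * E * (1 - 2 * E) * x * δ
              - (x - 2 * E) * (8 - 11 * δ) * (2 * δ - (1 - E) * x)) := by ring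
        have h3 : 0 ≤ (2 * E * x) * (5 * E * (1 - 2 * E) * (x - f * δ)
            - (x - 2 * E) * (8 - 11 * δ) * (1 - (1 - E) * f - (x - 2 * (f * δ)) / 2)) := by
          rw [hid]
          apply add_nonneg
          · exact mul_nonneg (by linarith) (by linarith)
          · exact mul_nonneg (by linarith) (by linarith)
        have := nonneg_of_mul_nonneg_right h3 (by nlinarith)
        linarith
      · have h1 := gap1 (δ := δ) hE1 hE2 hx hx1 hb
        rcases eq_or_lt_of_le ha with hae | hae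
        · -- x = 2δ + 2E, then f = 1
          have hf : f = 1 := by
            have : (2 * δ + 2 * E) * (1 - f) ≤ 0 := by nlinarith
            nlinarith
          rw [hf]
          calc (x - 2 * E) * (8 - 11 * δ) * (1 - (1 - E) * 1 - (x - 2 * (1 * δ)) / 2)
              = (x - 2 * E) * (8 - 11 * δ) * (E + δ - x / 2) := by ring
            _ ≤ _ := by simpa using h1
        · have hid : (2 * δ + 2 * E - x) * (5 * E * (1 - 2 * E) * (x - f * δ)
              - (x - 2 * E) * (8 - 11 * δ) * (1 - (1 - E) * f - (x - 2 * (f * δ)) / 2))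
            = (1 - f) * (5 * E * (1 - 2 * E) * x * (δ + 2 * E)
                - (x - 2 * E) * (8 - 11 * δ) * (2 * δ + 2 * E - x))
              + (2 * (f * δ) + 2 * E * f - x) * (5 * E * (1 - 2 * E) * (x - δ)
                - (x - 2 * E) * (8 - 11 * δ) * (E + δ - x / 2)) := by ring
          have h3 : 0 ≤ (2 * δ + 2 * E - x) * (5 * E * (1 - 2 * E) * (x - f * δ)
              - (x - 2 * E) * (8 - 11 * δ) * (1 - (1 - E) * f - (x - 2 * (f * δ)) / 2)) := by
            rw [hid]
            apply add_nonneg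
            · exact mul_nonneg (by linarith) (by linarith)
            · exact mul_nonneg (by linarith) (by linarith)
          have := nonneg_of_mul_nonneg_right h3 (by linarith)
          linarith
    · -- region 2 : h2
      have hh : h ≤ 1 - x - f * (1 - 2 * E - 2 * δ) := by nlinarith
      have hg : (x - 2 * E) * (8 - 11 * δ) * (1 - x) ≤ 5 * E * (1 - 2 * E) * x := by
        have : (x - 2 * E) * (8 - 11 * δ) * (1 - x) ≤ 8 * ((x - 2 * E) * (1 - x)) := by
          have h5 : 0 ≤ (x - 2 * E) * (1 - x) := mul_nonneg (by linarith) (by linarith)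
          nlinarith
        linarith
      rcases le_total x (2 * δ + 2 * E) with ha | ha
      · refine (mul_le_mul_of_nonneg_left hh hP).trans ?_
        have hA := gapA (δ := δ) hE1 hE2 hx hx1 (by linarith)
        have hid : x * (5 * E * (1 - 2 * E) * (x - f * δ)
            - (x - 2 * E) * (8 - 11 * δ) * (1 - x - f * (1 - 2 * E - 2 * δ)))
          = (x - 2 * (f * δ) - 2 * E * f) * (5 * E * (1 - 2 * E) * x
              - (x - 2 * E) * (8 - 11 * δ) * (1 - x))
            + f * (5 * E * (1 - 2 * E) * x * (δ + 2 * E)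
              - (x - 2 * E) * (8 - 11 * δ) * (2 * δ + 2 * E - x)) := by ring
        have h3 : 0 ≤ x * (5 * E * (1 - 2 * E) * (x - f * δ)
            - (x - 2 * E) * (8 - 11 * δ) * (1 - x - f * (1 - 2 * E - 2 * δ))) := by
          rw [hid]
          apply add_nonneg
          · exact mul_nonneg (by linarith) (by linarith)
          · exact mul_nonneg hf0 (by linarith)
        have := nonneg_of_mul_nonneg_right h3 (by linarith)
        linarith
      · have hh' : h ≤ (1 - f) * (1 - x) := by nlinarith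
        refine (mul_le_mul_of_nonneg_left hh' hP).trans ?_
        have h4 : (x - 2 * E) * (8 - 11 * δ) * ((1 - f) * (1 - x))
            ≤ (1 - f) * (5 * E * (1 - 2 * E) * x) := by
          have := mul_le_mul_of_nonneg_left hg (by linarith : (0 : ℝ) ≤ 1 - f)
          calc (x - 2 * E) * (8 - 11 * δ) * ((1 - f) * (1 - x))
              = (1 - f) * ((x - 2 * E) * (8 - 11 * δ) * (1 - x)) := by ring
            _ ≤ _ := this
        have h5 : (1 - f) * (5 * E * (1 - 2 * E) * x) ≤ 5 * E * (1 - 2 * E) * (x - f * δ) := by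
          have hq : 0 ≤ 5 * E * (1 - 2 * E) := mul_nonneg (by linarith) (by linarith)
          have h6 : f * δ ≤ f * x := mul_le_mul_of_nonneg_left (by linarith) hf0
          have h7 : (1 - f) * x ≤ x - f * δ := by linarith
          have h8 := mul_le_mul_of_nonneg_left h7 hq
          calc (1 - f) * (5 * E * (1 - 2 * E) * x) = 5 * E * (1 - 2 * E) * ((1 - f) * x) := by ring
            _ ≤ _ := h8
        linarith

end core

/-- **(L')**, normalised to `F = 1`. -/
theorem Lprime_one {κ d C : ℝ} (hκ : 0 ≤ κ) (hd : 0 ≤ d) (hC : 0 ≤ C)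
    (hf : (11 * d + 5 * C) / 8 ≤ 1) {h : ℝ}
    (hh1 : h ≤ 1 - (1 - E) * ((11 * d + 5 * C) / 8) - max (κ - d) 0 / 2)
    (hh2 : h ≤ 1 - (1 - E) * ((11 * d + 5 * C) / 8) - max (κ - d) 0
      + E * ((11 * d + 5 * C) / 8)) :
    lam (d + κ) * max h 0 * C ≤ κ * E * ((11 * d + 5 * C) / 8) := by
  obtain ⟨f, hfdef⟩ : ∃ f, f = (11 * d + 5 * C) / 8 := ⟨_, rfl⟩
  rw [← hfdef] at hf hh1 hh2 ⊢
  have hE := E_pos
  have hE1 := E_gt
  have hE2 := E_lt
  have hf0 : 0 ≤ f := by rw [hfdef]; positivity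
  have hRHS : 0 ≤ κ * E * f := by positivity
  rcases le_total h 0 with hh0 | hh0
  · rw [max_eq_right hh0]; simpa using hRHS
  rw [max_eq_left hh0]
  rcases eq_or_lt_of_le hf0 with hfz | hfpos
  · have : C = 0 := by nlinarith
    rw [this]; simpa using hRHS
  rcases le_total (d + κ) (2 * E) with hx | hx
  · rw [lam_of_le hx]; simpa using hRHS
  -- δ = d / f
  obtain ⟨δ, hδ⟩ : ∃ δ, δ = d / f := ⟨_, rfl⟩
  have hfδ : f * δ = d := by rw [hδ]; field_simp
  have hδ0 : 0 ≤ δ := by rw [hδ]; positivity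
  have hC5 : 5 * C = f * (8 - 11 * δ) := by
    have : f * (8 - 11 * δ) = 8 * f - 11 * (f * δ) := by ring
    rw [this, hfδ, hfdef]; ring
  have hδ8 : 11 * δ ≤ 8 := by
    have : 0 ≤ f * (8 - 11 * δ) := by rw [← hC5]; linarith
    have := nonneg_of_mul_nonneg_right this hfpos
    linarith
  have hd1 : d ≤ 8 / 11 := by nlinarith
  -- the core inequality at `y ≤ 1`
  have hcore : ∀ y : ℝ, 2 * E ≤ y → y ≤ 1 →
      h ≤ 1 - (1 - E) * f - max (y - 2 * d) 0 / 2 →
      h ≤ 1 - (1 - E) * f - max (y - 2 * d) 0 + E * f →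
      (y - 2 * E) * h * C ≤ (1 - 2 * E) * ((y - d) * E * f) := by
    intro y hy0 hy1 hy2 hy3
    have := core (x := y) (f := f) (δ := δ) (h := h) hy0 hy1 hf0 hf hδ0 hδ8
      (by rw [hfδ]; exact hy2) (by rw [hfδ]; exact hy3)
    rw [hfδ] at this
    have h2 := mul_le_mul_of_nonneg_left this hf0
    have h3 : f * ((y - 2 * E) * (8 - 11 * δ) * h) = (y - 2 * E) * h * (5 * C) := by
      rw [hC5]; ring
    rw [h3] at h2
    nlinarith
  rcases le_total (d + κ) 1 with hx1 | hx1
  · have hl := lam_mul hx hx1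
    have h1 := hcore (d + κ) hx hx1 (by rw [show d + κ - 2 * d = κ - d by ring]; exact hh1)
      (by rw [show d + κ - 2 * d = κ - d by ring]; exact hh2)
    rw [← hl, show d + κ - d = κ by ring] at h1
    have h2 : (1 - 2 * E) * (lam (d + κ) * h * C) ≤ (1 - 2 * E) * (κ * E * f) := by
      calc _ = (1 - 2 * E) * lam (d + κ) * h * C := by ring
        _ ≤ _ := h1
    exact le_of_mul_le_mul_left h2 q_pos
  · rw [lam_of_ge hx1, one_mul]
    have hm : max (1 - 2 * d) 0 ≤ max (κ - d) 0 := max_le_max (by linarith) le_rfl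
    have h1 := hcore 1 (by linarith) le_rfl (by linarith) (by linarith)
    have h2 : (1 - 2 * E) * (h * C) ≤ (1 - 2 * E) * ((1 - d) * E * f) := by
      calc _ = (1 - 2 * E) * h * C := by ring
        _ ≤ _ := h1
    have h3 := le_of_mul_le_mul_left h2 q_pos
    refine h3.trans ?_
    have : (1 - d) * (E * f) ≤ κ * (E * f) :=
      mul_le_mul_of_nonneg_right (by linarith) (by positivity)
    nlinarith


/-- The barrier `B_F(t) = (1-t)(F-f)^+ + e^{-t} min(F,f)`. -/
noncomputable def Bf (F f t : ℝ) : ℝ := (1 - t) * (F - min F f) + Real.exp (-t) * min F f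

/-- **(R0)**: the tangent line of `B_F` at `t`, evaluated at `θ = t λ(b/F)`, dominates `B_b(θ)`. -/
theorem R0 {F b f t : ℝ} (hF : 0 < F) (hb : 0 ≤ b) (hbF : b ≤ F) (hf : 0 ≤ f)
    (ht0 : 0 ≤ t) (ht1 : t ≤ 1) :
    Bf b f (t * lam (b / F)) ≤ (1 - t * lam (b / F)) * (F - min F f)
      + Real.exp (-t) * min F f * (1 + t - t * lam (b / F)) := by
  obtain ⟨β, hβ⟩ : ∃ β, β = b / F := ⟨_, rfl⟩
  have hbβ : b = F * β := by rw [hβ]; field_simp
  have hβ0 : 0 ≤ β := by rw [hβ]; positivity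
  have hβ1 : β ≤ 1 := by rw [hβ, div_le_one hF]; exact hbF
  rw [← hβ]
  have hl0 := lam_nonneg β
  have hl1 := lam_le_one β
  set θ := t * lam β with hθ
  have hθ0 : 0 ≤ θ := mul_nonneg ht0 hl0
  have hθt : θ ≤ t := by rw [hθ]; nlinarith
  have hA := R0a (t := t) (β := β) ht0 ht1 hβ1
  have hB := R0b (t := t) (β := β) ht0 ht1 hβ1
  rw [← hθ] at hA hB
  have hs0 := Real.exp_pos (-t)
  have he0 := Real.exp_pos (-θ)
  unfold Bf
  rcases le_total F f with h1 | h1
  · rw [min_eq_left h1, min_eq_left (hbF.trans h1), hbβ]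
    have := mul_le_mul_of_nonneg_left hA hF.le
    nlinarith
  · rw [min_eq_right h1]
    have hA' := mul_le_mul_of_nonneg_left hA hF.le
    have hB' := mul_le_mul_of_nonneg_left hB hF.le
    rcases le_total b f with h2 | h2
    · -- b ≤ f ≤ F : convex combination of `f = b` and `f = F`
      rw [min_eq_left h2, hbβ]
      rw [hbβ] at h2
      simp only [sub_self, mul_zero, zero_add]
      -- (1-β) F * goal
      rcases eq_or_lt_of_le hβ1 with hb1 | hb1
      · have : f = F := by rw [hb1] at h2; linarith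
        rw [this, hb1]
        rw [hb1] at hA'
        nlinarith
      · have key : (1 - β) * ((1 - θ) * (F - f) + Real.exp (-t) * f * (1 + t - θ)
              - Real.exp (-θ) * (F * β))
            = ((F - f) / F) * (F * ((1 - θ) * (1 - β) + Real.exp (-t) * β * (1 + t - θ))
                  - F * (β * Real.exp (-θ)))
              + ((f - F * β) / F) * (F * (Real.exp (-t) * (1 + t - θ))
                  - F * (β * Real.exp (-θ))) := by
          field_simp
          ring
        have hk : 0 ≤ (1 - β) * ((1 - θ) * (F - f) + Real.exp (-t) * f * (1 + t - θ)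
              - Real.exp (-θ) * (F * β)) := by
          rw [key]
          apply add_nonneg
          · exact mul_nonneg (div_nonneg (by linarith) hF.le) (by linarith)
          · exact mul_nonneg (div_nonneg (by linarith) hF.le) (by linarith)
        have := nonneg_of_mul_nonneg_right hk (by linarith)
        linarith
    · -- f ≤ b : convex combination of `f = 0` and `f = b`
      rw [min_eq_right h2, hbβ]
      rw [hbβ] at h2
      rcases eq_or_lt_of_le hβ0 with hb0 | hb0
      · have hf0 : f = 0 := by rw [← hb0] at h2; linarith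
        rw [hf0, ← hb0]
        have : θ ≤ 1 := hθt.trans ht1
        nlinarith
      · have key : β * ((1 - θ) * (F - f) + Real.exp (-t) * f * (1 + t - θ)
              - ((1 - θ) * (F * β - f) + Real.exp (-θ) * f))
            = (f / F) * (F * ((1 - θ) * (1 - β) + Real.exp (-t) * β * (1 + t - θ))
                  - F * (β * Real.exp (-θ)))
              + ((F * β - f) / F) * (F * ((1 - θ) * (1 - β))) := by
          field_simp
          ring
        have hk : 0 ≤ β * ((1 - θ) * (F - f) + Real.exp (-t) * f * (1 + t - θ)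
              - ((1 - θ) * (F * β - f) + Real.exp (-θ) * f)) := by
          rw [key]
          apply add_nonneg
          · exact mul_nonneg (div_nonneg hf hF.le) (by linarith)
          · apply mul_nonneg (div_nonneg (by linarith) hF.le)
            exact mul_nonneg hF.le (mul_nonneg (by linarith) (by linarith))
        have := nonneg_of_mul_nonneg_right hk hb0
        linarith

/-- **(L')** for arbitrary `F > 0`. -/
theorem Lprime {F κ d C : ℝ} (hF : 0 < F) (hκ : 0 ≤ κ) (hd : 0 ≤ d) (hC : 0 ≤ C)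
    (hf : (11 * d + 5 * C) / 8 ≤ F) {h : ℝ}
    (hh1 : h ≤ F - (1 - E) * ((11 * d + 5 * C) / 8) - max (κ - d) 0 / 2)
    (hh2 : h ≤ F - (1 - E) * ((11 * d + 5 * C) / 8) - max (κ - d) 0
      + E * ((11 * d + 5 * C) / 8)) :
    lam ((d + κ) / F) * max h 0 * C ≤ κ * E * ((11 * d + 5 * C) / 8) := by
  have hF' : F ≠ 0 := hF.ne'
  have hmd : ∀ z : ℝ, max (z / F) 0 = max z 0 / F := by
    intro z
    rcases le_total z 0 with hz | hz
    · rw [max_eq_right hz, max_eq_right (div_nonpos_of_nonpos_of_nonneg hz hF.le), zero_div]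
    · rw [max_eq_left hz, max_eq_left (div_nonneg hz hF.le)]
  have hm : max (κ / F - d / F) 0 = max (κ - d) 0 / F := by
    rw [← sub_div, hmd]
  have e0 : (11 * (d / F) + 5 * (C / F)) / 8 = ((11 * d + 5 * C) / 8) / F := by field_simp
  have h1 := Lprime_one (κ := κ / F) (d := d / F) (C := C / F) (h := h / F)
    (by positivity) (by positivity) (by positivity)
    (by rw [e0, div_le_one hF]; exact hf)
    (by
      rw [hm, e0, div_le_iff₀ hF]
      have : (1 - (1 - E) * ((11 * d + 5 * C) / 8 / F) - max (κ - d) 0 / F / 2) * F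
          = F - (1 - E) * ((11 * d + 5 * C) / 8) - max (κ - d) 0 / 2 := by
        field_simp
      rw [this]; exact hh1)
    (by
      rw [hm, e0, div_le_iff₀ hF]
      have : (1 - (1 - E) * ((11 * d + 5 * C) / 8 / F) - max (κ - d) 0 / F
            + E * ((11 * d + 5 * C) / 8 / F)) * F
          = F - (1 - E) * ((11 * d + 5 * C) / 8) - max (κ - d) 0
            + E * ((11 * d + 5 * C) / 8) := by
        field_simp
      rw [this]; exact hh2)
  rw [e0, ← add_div] at h1
  rw [hmd h] at h1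
  have h2 : lam ((d + κ) / F) * (max h 0 / F) * (C / F) * (F * F)
      ≤ κ / F * E * (((11 * d + 5 * C) / 8) / F) * (F * F) :=
    mul_le_mul_of_nonneg_right h1 (by positivity)
  have e1 : lam ((d + κ) / F) * (max h 0 / F) * (C / F) * (F * F)
      = lam ((d + κ) / F) * max h 0 * C := by field_simp
  have e2 : κ / F * E * (((11 * d + 5 * C) / 8) / F) * (F * F)
      = κ * E * ((11 * d + 5 * C) / 8) := by field_simp
  rw [e1, e2] at h2
  exact h2

end Crest.Agent.R310.Scal
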