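/-
R310 (S0482), exact-k step in the slack world ("Theorem E'"), abstract form.

Potentials `R m T` (price `lam m`, geometric grid with ratio `q`), non-monotone predicted counts
allowed.  Only used: `R ≥ 0`, `R` nonincreasing in `T`, concavity in the price along the grid,
the mixed descent inequality `(*)`, and `R = cost` when no star is alive; all of them only up to
an additive evaluation error `e1` (so the rules may use approximately evaluated potentials).
-/
import Mathlib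

set_option autoImplicit false

namespace Crest.Agent.R310.SlackK

open Finset

variable {σ : Type*} [Fintype σ] [DecidableEq σ]

/-- The abstract data of the exact-`k` step. -/
structure Data (σ : Type*) [Fintype σ] [DecidableEq σ] where
  /-- number of grid prices -/
  M : ℕ
  hM : 0 < M
  /-- lowest price -/
  lam0 : ℝ
  hlam0 : 0 < lam0
  /-- grid ratio -/
  q : ℝ
  hq : 1 < q
  /-- penalty -/
  r : ℕ → ℝ
  /-- potential minus opening cost -/
  R : ℕ → Finset σ → ℝ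
  /-- alive stars at a grid price -/
  A : ℕ → Finset σ → Finset σ
  /-- cost -/
  c : Finset σ → ℝ
  /-- masses -/
  y : σ → ℝ
  n0 : ℝ
  hn0 : 0 ≤ n0
  G : ℝ
  B : ℝ
  hB : 0 < B
  X : ℝ
  hX : 0 ≤ X
  err : ℝ
  /-- evaluation error allowance -/
  e1 : ℝ
  he1 : 0 ≤ e1
  R_nonneg : ∀ m T, m < M → - e1 ≤ R m T
  R_anti : ∀ m T i, m < M → R m (insert i T) ≤ R m T + e1
  R_conc : ∀ m T, m + 2 < M → R (m + 2) T - R (m + 1) T ≤ q * (R (m + 1) T - R m T) + e1
  y_pos : ∀ l T, ∀ i ∈ A l T, 0 < y i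
  A_out : ∀ l T, ∀ i ∈ A l T, i ∉ T
  mixed : ∀ l m T, l ≤ m → m < M →
    ∑ i ∈ A l T, y i * (lam0 * q ^ m + R m (insert i T) - R m T) ≤
      (lam0 * q ^ m - lam0 * q ^ l + e1) * ∑ i ∈ A l T, y i
  final : ∀ l m T, A l T = ∅ → l ≤ m → m < M → |R m T - c T| ≤ e1
  start : ∀ m, m < M → R m ∅ ≤ lam0 * q ^ m * n0 + G + e1
  r_nonneg : ∀ m, e1 ≤ r m
  r_mono : ∀ m, r m + 2 * e1 ≤ r (m + 1)
  r_conv : ∀ m, m + 2 < M → q * (r (m + 1) - r m) + q * X + e1 ≤ r (m + 2) - r (m + 1)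
  err_nonneg : e1 ≤ err
  err_le : err ≤ lam0 * q ^ (M - 1)
  err_ge : ∀ m, m + 2 < M → lam0 * q ^ (m + 2) - lam0 * q ^ m + e1 ≤ err
  err_ge1 : ∀ m, m + 1 < M → lam0 * q ^ (m + 1) - lam0 * q ^ m + e1 ≤ err

namespace Data

variable (d : Data σ)

/-- grid prices -/
def lam (m : ℕ) : ℝ := d.lam0 * d.q ^ m

/-- top price -/
def lamM : ℝ := d.lam (d.M - 1)

/-- change of the potential (at grid price `m`) when opening `i` -/
def D (m : ℕ) (T : Finset σ) (i : σ) : ℝ := d.lam m + d.R m (insert i T) - d.R m T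

/-- the penalised normalised potential -/
def g (m : ℕ) (T : Finset σ) : ℝ := d.R m T + d.lam m * ((T.card : ℝ) - d.n0) - d.r m

/-- weights of the free step -/
def p (m : ℕ) (T : Finset σ) (θ : ℝ) : ℝ := max (d.g m T - θ) 0

/-- quadratic potential -/
def Psi (T : Finset σ) (θ : ℝ) : ℝ := ∑ m ∈ range d.M, (d.p m T θ) ^ 2

/-- forced step -/
def Forced (T : Finset σ) (θ : ℝ) (T' : Finset σ) (θ' : ℝ) : Prop :=
  ∃ i, i ∉ T ∧ T' = insert i T ∧ θ' = θ + d.lamM + d.e1 ∧ ∃ m, m < d.M ∧ d.D m T i ≤ - (d.B * d.lamM)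

/-- free step -/
def Free (T : Finset σ) (θ : ℝ) (T' : Finset σ) (θ' : ℝ) : Prop :=
  ∃ i, i ∉ T ∧ T' = insert i T ∧ θ' = θ + d.err ∧
    (∀ j, j ∉ T → ∀ m, m < d.M → - (d.B * d.lamM) < d.D m T j) ∧
    (∀ j, j ∉ T → ∑ m ∈ range d.M, d.p m T θ * d.D m T i ≤ ∑ m ∈ range d.M, d.p m T θ * d.D m T j)

lemma lam_pos (m : ℕ) : 0 < d.lam m :=
  mul_pos d.hlam0 (pow_pos (lt_trans one_pos d.hq) _)

lemma lam_mono {l m : ℕ} (h : l ≤ m) : d.lam l ≤ d.lam m := by
  unfold lam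
  exact mul_le_mul_of_nonneg_left (pow_le_pow_right₀ d.hq.le h) d.hlam0.le

lemma lam_le_lamM {m : ℕ} (h : m < d.M) : d.lam m ≤ d.lamM :=
  d.lam_mono (by omega)

lemma lamM_pos : 0 < d.lamM := d.lam_pos _

lemma lam_succ (m : ℕ) : d.lam (m + 1) = d.q * d.lam m := by
  unfold lam; ring

lemma D_le {m : ℕ} (hm : m < d.M) (T : Finset σ) (i : σ) : d.D m T i ≤ d.lam m + d.e1 := by
  unfold D
  have := d.R_anti m T i hm
  linarith

lemma g_insert (m : ℕ) (T : Finset σ) (i : σ) (hi : i ∉ T) :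
    d.g m (insert i T) = d.g m T + d.D m T i := by
  unfold g D
  rw [card_insert_of_notMem hi]
  push_cast
  ring

lemma p_nonneg (m : ℕ) (T : Finset σ) (θ : ℝ) : 0 ≤ d.p m T θ := le_max_right _ _

lemma g_le_of_Psi {m : ℕ} (hm : m < d.M) {T : Finset σ} {θ : ℝ} (h : d.Psi T θ ≤ d.X ^ 2) :
    d.g m T ≤ θ + d.X := by
  have h1 : (d.p m T θ) ^ 2 ≤ d.X ^ 2 := by
    refine le_trans ?_ h
    unfold Psi
    exact single_le_sum (f := fun m => (d.p m T θ) ^ 2) (fun _ _ => sq_nonneg _) (mem_range.2 hm)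
  have h2 : d.p m T θ ≤ d.X := by
    have := abs_le_of_sq_le_sq h1 d.hX
    exact le_trans (le_abs_self _) this
  have h3 : d.g m T - θ ≤ d.p m T θ := le_max_left _ _
  linarith

/-- slope differences of `g` along the grid -/
lemma g_conc {m : ℕ} (hm : m + 2 < d.M) (T : Finset σ) :
    d.g (m + 2) T - d.g (m + 1) T ≤ d.q * (d.g (m + 1) T - d.g m T) - d.q * d.X := by
  unfold g
  have h1 := d.R_conc m T hm
  have h2 := d.r_conv m hm
  have e1 : d.lam (m + 1) = d.q * d.lam m := d.lam_succ m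
  have e2 : d.lam (m + 2) = d.q * (d.q * d.lam m) := by
    rw [show m + 2 = (m + 1) + 1 by ring, d.lam_succ, d.lam_succ]
  rw [e2, e1]
  nlinarith [h1, h2]

/-- to the left of an index with nonnegative slope the slopes are at least `X` -/
lemma slope_left {T : Finset σ} {n : ℕ} (hn : n + 1 < d.M) (h : 0 ≤ d.g (n + 1) T - d.g n T) :
    ∀ k, k + 1 ≤ n → d.X ≤ d.g (n - k) T - d.g (n - (k + 1)) T := by
  have hq0 : (0 : ℝ) < d.q := lt_trans one_pos d.hq
  intro k
  induction k with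
  | zero =>
    intro hk
    obtain ⟨a, rfl⟩ : ∃ a, n = a + 1 := ⟨n - 1, by omega⟩
    have h1 := d.g_conc (m := a) (by omega) T
    have : 0 ≤ d.q * (d.g (a + 1) T - d.g a T - d.X) := by
      have : d.g (a + 2) T = d.g (a + 1 + 1) T := rfl
      nlinarith [h1, h]
    have := nonneg_of_mul_nonneg_right this hq0
    simpa using by linarith
  | succ k ih =>
    intro hk
    have ih' := ih (by omega)
    obtain ⟨a, ha⟩ : ∃ a, n - (k + 1) = a + 1 := ⟨n - (k + 1) - 1, by omega⟩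
    have hb : n - k = a + 2 := by omega
    have hc : n - (k + 1 + 1) = a := by omega
    rw [ha, hb] at ih'
    rw [ha, hc]
    have h1 := d.g_conc (m := a) (by omega) T
    have hX := d.hX
    have : 0 ≤ d.q * (d.g (a + 1) T - d.g a T - d.X) := by
      nlinarith [h1, ih']
    have := nonneg_of_mul_nonneg_right this hq0
    linarith

/-- to the right of an index with nonpositive slope the slopes are at most `-X` -/
lemma slope_right {T : Finset σ} {n : ℕ} (h : d.g (n + 1) T - d.g n T ≤ 0) :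
    ∀ k, n + k + 2 < d.M → d.g (n + k + 2) T - d.g (n + k + 1) T ≤ - d.X := by
  have hq1 := d.hq
  have hX := d.hX
  intro k
  induction k with
  | zero =>
    intro hk
    have h1 := d.g_conc (m := n) (by omega) T
    have : d.g (n + 0 + 2) T = d.g (n + 2) T := rfl
    have : d.g (n + 0 + 1) T = d.g (n + 1) T := rfl
    nlinarith [h1, h]
  | succ k ih =>
    intro hk
    have ih' := ih (by omega)
    have h1 := d.g_conc (m := n + k + 1) (by omega) T
    have e1 : d.g (n + k + 1 + 2) T = d.g (n + (k + 1) + 2) T := by congr 1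
    have e2 : d.g (n + k + 1 + 1) T = d.g (n + k + 2) T := by congr 1
    have e3 : d.g (n + (k + 1) + 1) T = d.g (n + k + 2) T := by congr 1
    rw [e1, e2] at h1
    rw [e3]
    nlinarith [h1, ih']

/-- Existence of a maximising index together with the gap property. -/
lemma exists_argmax (T : Finset σ) :
    ∃ m, m < d.M ∧ (∀ j, j < d.M → d.g j T ≤ d.g m T) ∧
      (∀ j, j < d.M → (j + 2 ≤ m ∨ m + 2 ≤ j) → d.g j T ≤ d.g m T - d.X) := by
  obtain ⟨m, hm, hmax⟩ := exists_max_image (range d.M) (fun m => d.g m T)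
    ⟨0, mem_range.2 d.hM⟩
  have hm' := mem_range.1 hm
  have hmax' : ∀ j, j < d.M → d.g j T ≤ d.g m T := fun j hj => hmax j (mem_range.2 hj)
  refine ⟨m, hm', hmax', ?_⟩
  intro j hj hcase
  rcases hcase with h | h
  · obtain ⟨n, rfl⟩ : ∃ n, m = n + 1 := ⟨m - 1, by omega⟩
    have h0 : 0 ≤ d.g (n + 1) T - d.g n T := by
      have := hmax' n (by omega); linarith
    have h1 := d.slope_left (n := n) (by omega) h0 (n - j - 1) (by omega)
    have e1 : n - (n - j - 1) = j + 1 := by omega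
    have e2 : n - (n - j - 1 + 1) = j := by omega
    rw [e1, e2] at h1
    have h2 := hmax' (j + 1) (by omega)
    linarith
  · have h0 : d.g (m + 1) T - d.g m T ≤ 0 := by
      have := hmax' (m + 1) (by omega); linarith
    obtain ⟨k, rfl⟩ : ∃ k, j = m + k + 2 := ⟨j - m - 2, by omega⟩
    have h1 := d.slope_right h0 k hj
    have h2 := hmax' (m + k + 1) (by omega)
    linarith

/-- The key step: if the alive set at the index just below the maximiser is nonempty then some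
alive star is good for the quadratic potential. -/
lemma exists_good {T : Finset σ} {θ : ℝ} {m : ℕ} (hm : m < d.M)
    (hgap : ∀ j, j < d.M → (j + 2 ≤ m ∨ m + 2 ≤ j) → d.g j T ≤ d.g m T - d.X)
    (hΨ : d.Psi T θ ≤ d.X ^ 2) (hA : (d.A (m - 1) T).Nonempty) :
    ∃ j, j ∉ T ∧ ∑ n ∈ range d.M, d.p n T θ * (d.D n T j - d.err) ≤ 0 := by
  by_contra hcon
  push Not at hcon
  have hpos : ∀ j ∈ d.A (m - 1) T,
      0 < d.y j * ∑ n ∈ range d.M, d.p n T θ * (d.D n T j - d.err) := by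
    intro j hj
    exact mul_pos (d.y_pos _ _ j hj) (hcon j (d.A_out _ _ j hj))
  have hsum : 0 < ∑ j ∈ d.A (m - 1) T,
      d.y j * ∑ n ∈ range d.M, d.p n T θ * (d.D n T j - d.err) := sum_pos hpos hA
  have hswap : ∑ j ∈ d.A (m - 1) T,
      d.y j * ∑ n ∈ range d.M, d.p n T θ * (d.D n T j - d.err)
      = ∑ n ∈ range d.M, d.p n T θ *
        (∑ j ∈ d.A (m - 1) T, d.y j * d.D n T j - d.err * ∑ j ∈ d.A (m - 1) T, d.y j) := by
    simp_rw [mul_sum]
    rw [sum_comm]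
    refine sum_congr rfl fun n _ => ?_
    rw [mul_sub, mul_sum, mul_sum, ← sum_sub_distrib]
    refine sum_congr rfl fun j _ => ?_
    ring
  have hY : 0 ≤ ∑ j ∈ d.A (m - 1) T, d.y j := sum_nonneg fun j hj => (d.y_pos _ _ j hj).le
  have hle : ∑ n ∈ range d.M, d.p n T θ *
        (∑ j ∈ d.A (m - 1) T, d.y j * d.D n T j - d.err * ∑ j ∈ d.A (m - 1) T, d.y j) ≤ 0 := by
    refine sum_nonpos fun n hn => ?_
    have hn' := mem_range.1 hn
    by_cases hcase : n + 2 ≤ m ∨ m + 2 ≤ n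
    · have h1 := hgap n hn' hcase
      have h2 := d.g_le_of_Psi hm hΨ
      have h3 : d.p n T θ = 0 := by
        unfold p
        exact max_eq_right (by linarith)
      rw [h3, zero_mul]
    · push Not at hcase
      have hmn : m - 1 ≤ n := by omega
      have h1 := d.mixed (m - 1) n T hmn hn'
      have h2 : d.lam0 * d.q ^ n - d.lam0 * d.q ^ (m - 1) + d.e1 ≤ d.err := by
        have hcases : n = m - 1 ∨ n = m - 1 + 1 ∨ n = m - 1 + 2 := by omega
        rcases hcases with h | h | h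
        · rw [h]; simpa using d.err_nonneg
        · rw [h]; exact d.err_ge1 _ (by omega)
        · rw [h]; exact d.err_ge _ (by omega)
      have h3 : ∑ j ∈ d.A (m - 1) T, d.y j * d.D n T j
          ≤ d.err * ∑ j ∈ d.A (m - 1) T, d.y j := by
        refine le_trans ?_ (mul_le_mul_of_nonneg_right h2 hY)
        exact h1
      exact mul_nonpos_of_nonneg_of_nonpos (d.p_nonneg _ _ _) (by linarith)
  rw [hswap] at hsum
  linarith

lemma sq_max_le (a b : ℝ) : (max (a + b) 0) ^ 2 ≤ (max a 0) ^ 2 + 2 * (max a 0 * b) + b ^ 2 := by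
  rcases le_total 0 a with ha | ha
  · rw [max_eq_left ha]
    rcases le_total 0 (a + b) with h | h
    · rw [max_eq_left h]; nlinarith
    · rw [max_eq_right h]; nlinarith [sq_nonneg (a + b)]
  · rw [max_eq_right ha]
    rcases le_total 0 (a + b) with h | h
    · rw [max_eq_left h]; nlinarith
    · rw [max_eq_right h]; nlinarith [sq_nonneg b]

/-- Change of `Psi` in a free step. -/
lemma Psi_free {T T' : Finset σ} {θ θ' : ℝ} (h : d.Free T θ T' θ') {m : ℕ} (hm : m < d.M)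
    (hgap : ∀ j, j < d.M → (j + 2 ≤ m ∨ m + 2 ≤ j) → d.g j T ≤ d.g m T - d.X)
    (hΨ : d.Psi T θ ≤ d.X ^ 2) (hA : (d.A (m - 1) T).Nonempty) :
    d.Psi T' θ' ≤ d.Psi T θ + d.M * ((d.B + 2) * d.lamM) ^ 2 := by
  obtain ⟨i, hi, rfl, rfl, hbd, hmin⟩ := h
  obtain ⟨j, hj, hjle⟩ := d.exists_good hm hgap hΨ hA
  have h1 : ∑ n ∈ range d.M, d.p n T θ * (d.D n T i - d.err) ≤ 0 := by
    have := hmin j hj
    simp_rw [mul_sub, sum_sub_distrib] at hjle ⊢
    linarith
  unfold Psi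
  have hterm : ∀ n ∈ range d.M, (d.p n (insert i T) (θ + d.err)) ^ 2
      ≤ (d.p n T θ) ^ 2 + 2 * (d.p n T θ * (d.D n T i - d.err)) + ((d.B + 2) * d.lamM) ^ 2 := by
    intro n hn
    have hn' := mem_range.1 hn
    unfold p
    rw [d.g_insert n T i hi, show d.g n T + d.D n T i - (θ + d.err)
      = (d.g n T - θ) + (d.D n T i - d.err) by ring]
    refine le_trans (sq_max_le _ _) ?_
    have hlow := hbd i hi n hn'
    have hup := d.D_le hn' T i
    have hup2 := d.lam_le_lamM hn'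
    have he0 := d.err_nonneg
    have he2 := d.he1
    have he1 : d.err ≤ d.lamM := d.err_le
    have hL := d.lamM_pos
    have hB := d.hB
    have habs : |d.D n T i - d.err| ≤ (d.B + 2) * d.lamM := by
      rw [abs_le]
      constructor
      · nlinarith
      · nlinarith [mul_pos hB hL]
    have hsq : (d.D n T i - d.err) ^ 2 ≤ ((d.B + 2) * d.lamM) ^ 2 := by
      rw [← sq_abs]
      exact pow_le_pow_left₀ (abs_nonneg _) habs 2
    linarith
  refine le_trans (sum_le_sum hterm) ?_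
  rw [sum_add_distrib, sum_add_distrib, ← mul_sum, sum_const, card_range, nsmul_eq_mul]
  linarith

/-- Change of `Psi` in a forced step. -/
lemma Psi_forced {T T' : Finset σ} {θ θ' : ℝ} (h : d.Forced T θ T' θ') :
    d.Psi T' θ' ≤ d.Psi T θ := by
  obtain ⟨i, hi, rfl, rfl, -⟩ := h
  unfold Psi
  refine sum_le_sum fun n hn => ?_
  have hn' := mem_range.1 hn
  unfold p
  rw [d.g_insert n T i hi]
  have h1 := d.D_le hn' T i
  have h2 := d.lam_le_lamM hn'
  refine pow_le_pow_left₀ (le_max_right _ _) (max_le_max (by linarith) le_rfl) 2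

/-- Total of the potentials. -/
def tot (T : Finset σ) : ℝ := ∑ m ∈ range d.M, d.R m T

lemma tot_insert_le (T : Finset σ) (i : σ) : d.tot (insert i T) ≤ d.tot T + d.M * d.e1 := by
  unfold tot
  have h : ∑ m ∈ range d.M, d.R m (insert i T) ≤ ∑ m ∈ range d.M, (d.R m T + d.e1) :=
    sum_le_sum fun m hm => d.R_anti m T i (mem_range.1 hm)
  rw [sum_add_distrib, sum_const, card_range, nsmul_eq_mul] at h
  exact h

lemma tot_forced {T T' : Finset σ} {θ θ' : ℝ} (h : d.Forced T θ T' θ') :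
    d.tot T' + d.B * d.lamM ≤ d.tot T + d.M * d.e1 := by
  obtain ⟨i, hi, rfl, rfl, m, hm, hD⟩ := h
  unfold tot
  have hmem := mem_range.2 hm
  have h0 : (d.M : ℝ) * d.e1 = ∑ m ∈ range d.M, d.e1 := by
    rw [sum_const, card_range, nsmul_eq_mul]
  rw [h0, ← sum_add_distrib, ← add_sum_erase _ _ hmem,
    ← add_sum_erase (range d.M) (fun m => d.R m T + d.e1) hmem]
  have h1 : ∑ x ∈ (range d.M).erase m, d.R x (insert i T)
      ≤ ∑ x ∈ (range d.M).erase m, (d.R x T + d.e1) :=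
    sum_le_sum fun x hx => d.R_anti x T i (mem_range.1 (mem_of_mem_erase hx))
  unfold D at hD
  have := d.lam_pos m
  have := d.he1
  linarith

lemma tot_nonneg (T : Finset σ) : - (d.M * d.e1) ≤ d.tot T := by
  unfold tot
  have h : ∑ m ∈ range d.M, (- d.e1) ≤ ∑ m ∈ range d.M, d.R m T :=
    sum_le_sum fun m hm => d.R_nonneg m T (mem_range.1 hm)
  rw [sum_const, card_range, nsmul_eq_mul] at h
  linarith

lemma tot_start : d.tot ∅ ≤ d.M * (d.lamM * d.n0 + d.G) + d.M * d.e1 := by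
  unfold tot
  have : ∀ m ∈ range d.M, d.R m ∅ ≤ d.lamM * d.n0 + d.G + d.e1 := by
    intro m hm
    have hm' := mem_range.1 hm
    have h1 := d.start m hm'
    have h2 := mul_le_mul_of_nonneg_right (d.lam_le_lamM hm') d.hn0
    unfold lam at h2
    linarith
  refine le_trans (sum_le_sum this) ?_
  rw [sum_const, card_range, nsmul_eq_mul]
  exact le_of_eq (by ring)

/-- The invariant along a run in which the critical alive set is never empty. -/
lemma invariant (K : ℕ) (run : ℕ → Finset σ) (θ : ℕ → ℝ) (h0 : run 0 = ∅) (hθ0 : θ 0 = d.G)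
    (hstep : ∀ t < K, d.Forced (run t) (θ t) (run (t + 1)) (θ (t + 1)) ∨
      d.Free (run t) (θ t) (run (t + 1)) (θ (t + 1)))
    (halive : ∀ t < K, ∀ m, m < d.M → (∀ j, j < d.M → d.g j (run t) ≤ d.g m (run t)) →
      (d.A (m - 1) (run t)).Nonempty)
    (hX : (K : ℝ) * (d.M * ((d.B + 2) * d.lamM) ^ 2) ≤ d.X ^ 2) :
    ∀ t ≤ K, (run t).card = t ∧
      d.Psi (run t) (θ t) ≤ t * (d.M * ((d.B + 2) * d.lamM) ^ 2) ∧
      θ t ≤ d.G + t * d.err + 2 * (d.tot ∅ - d.tot (run t) + t * (d.M * d.e1)) / d.B := by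
  have hMe : 0 ≤ (d.M : ℝ) * d.e1 := mul_nonneg (Nat.cast_nonneg _) d.he1
  intro t
  induction t with
  | zero =>
    intro _
    refine ⟨by rw [h0]; simp, ?_, by rw [h0, hθ0]; simp⟩
    rw [h0, hθ0]
    unfold Psi
    rw [Nat.cast_zero, zero_mul]
    refine le_of_eq (sum_eq_zero fun m hm => ?_)
    have hm' := mem_range.1 hm
    have : d.p m ∅ d.G = 0 := by
      unfold p g
      apply max_eq_right
      have h1 := d.start m hm'
      have h2 := d.r_nonneg m
      unfold lam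
      simp only [card_empty, Nat.cast_zero, zero_sub]
      linarith
    rw [this]; ring
  | succ t ih =>
    intro ht
    obtain ⟨ih1, ih2, ih3⟩ := ih (by omega)
    have htK : t < K := by omega
    have hC : (0 : ℝ) ≤ d.M * ((d.B + 2) * d.lamM) ^ 2 :=
      mul_nonneg (Nat.cast_nonneg _) (sq_nonneg _)
    have hΨX : d.Psi (run t) (θ t) ≤ d.X ^ 2 := by
      refine le_trans ih2 (le_trans ?_ hX)
      exact mul_le_mul_of_nonneg_right (by exact_mod_cast htK.le) hC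
    rcases hstep t htK with h | h
    · have hΨ := d.Psi_forced h
      have htot := d.tot_forced h
      obtain ⟨i, hi, hT, hθ, -⟩ := id h
      refine ⟨?_, ?_, ?_⟩
      · rw [hT, card_insert_of_notMem hi, ih1]
      · refine le_trans hΨ (le_trans ih2 ?_)
        exact mul_le_mul_of_nonneg_right (by push_cast; linarith) hC
      · rw [hθ]
        have hB := d.hB
        have h1 : 2 * d.lamM
            ≤ 2 * (d.tot (run t) - d.tot (run (t + 1)) + d.M * d.e1) / d.B := by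
          rw [le_div_iff₀ hB]
          linarith
        have h2 : 2 * (d.tot ∅ - d.tot (run (t + 1)) + ((t : ℝ) + 1) * (d.M * d.e1)) / d.B
            = 2 * (d.tot ∅ - d.tot (run t) + t * (d.M * d.e1)) / d.B
              + 2 * (d.tot (run t) - d.tot (run (t + 1)) + d.M * d.e1) / d.B := by
          rw [← add_div]; ring_nf
        have he := d.err_nonneg
        have he1 := d.he1
        have he2 : d.err ≤ d.lamM := d.err_le
        push_cast
        rw [h2]
        linarith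
    · obtain ⟨m, hm, hmax, hgap⟩ := d.exists_argmax (run t)
      have hΨ := d.Psi_free h hm hgap hΨX (halive t htK m hm hmax)
      obtain ⟨i, hi, hT, hθ, -⟩ := id h
      refine ⟨?_, ?_, ?_⟩
      · rw [hT, card_insert_of_notMem hi, ih1]
      · refine le_trans hΨ ?_
        push_cast
        linarith
      · rw [hθ, hT]
        have hB := d.hB
        have h1 := d.tot_insert_le (run t) i
        have h2 : 2 * (d.tot ∅ - d.tot (run t) + t * (d.M * d.e1)) / d.B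
            ≤ 2 * (d.tot ∅ - d.tot (insert i (run t)) + ((t : ℝ) + 1) * (d.M * d.e1)) / d.B :=
          div_le_div_of_nonneg_right (by linarith) hB.le
        push_cast
        linarith

/-- The final error bound. -/
noncomputable def bound (K : ℕ) : ℝ :=
  d.G + K * d.err + 2 * (d.M * (d.lamM * d.n0 + d.G) + ((K : ℝ) + 2) * (d.M * d.e1)) / d.B
    + d.X + d.r (d.M - 1) + d.e1

lemma r_le {m : ℕ} (hm : m < d.M) : d.r m ≤ d.r (d.M - 1) := by
  have : ∀ k, d.r m ≤ d.r (m + k) := by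
    intro k
    induction k with
    | zero => simp
    | succ k ih =>
      have h1 := d.r_mono (m + k)
      have h2 := d.he1
      have h3 : d.r (m + (k + 1)) = d.r (m + k + 1) := rfl
      linarith
  have h := this (d.M - 1 - m)
  rwa [show m + (d.M - 1 - m) = d.M - 1 by omega] at h

/-- **Theorem E'** (abstract form).  Along every run of `K` forced/free steps there is a time
`t < K` at which `t` stars are open and the cost is at most `bound K + lam0 * n0`, provided `K` is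
so large that `K` openings are unaffordable at the top price. -/
theorem exists_good_prefix (K : ℕ) (run : ℕ → Finset σ) (θ : ℕ → ℝ)
    (h0 : run 0 = ∅) (hθ0 : θ 0 = d.G)
    (hstep : ∀ t < K, (run t = univ) ∨ d.Forced (run t) (θ t) (run (t + 1)) (θ (t + 1)) ∨
      d.Free (run t) (θ t) (run (t + 1)) (θ (t + 1)))
    (hX : (K : ℝ) * (d.M * ((d.B + 2) * d.lamM) ^ 2) ≤ d.X ^ 2)
    (hK : d.bound K < d.lamM * ((K : ℝ) - d.n0)) :
    ∃ t < K, (run t).card = t ∧ d.c (run t) ≤ d.bound K + d.lam0 * d.n0 := by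
  classical
  -- the first time at which the critical alive set is empty
  let P : ℕ → Prop := fun t => ∃ m, m < d.M ∧ (∀ j, j < d.M → d.g j (run t) ≤ d.g m (run t)) ∧
      d.A (m - 1) (run t) = ∅
  by_cases hex : ∃ t, t < K ∧ P t
  · -- take the least such `t`
    let t := Nat.find hex
    have ht : t < K ∧ P t := Nat.find_spec hex
    have hmin : ∀ s < t, ¬ P s := fun s hs hPs =>
      Nat.find_min hex hs ⟨by omega, hPs⟩
    have halive : ∀ s < t, ∀ m, m < d.M → (∀ j, j < d.M → d.g j (run s) ≤ d.g m (run s)) →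
        (d.A (m - 1) (run s)).Nonempty := by
      intro s hs m hm hmax
      by_contra hne
      exact hmin s hs ⟨m, hm, hmax, not_nonempty_iff_eq_empty.1 hne⟩
    have hstep' : ∀ s < t, d.Forced (run s) (θ s) (run (s + 1)) (θ (s + 1)) ∨
        d.Free (run s) (θ s) (run (s + 1)) (θ (s + 1)) := by
      intro s hs
      rcases hstep s (by omega) with h | h
      · exfalso
        obtain ⟨m, hm, hmax, -⟩ := d.exists_argmax (run s)
        obtain ⟨i, hi⟩ := halive s hs m hm hmax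
        have := d.A_out _ _ i hi
        rw [h] at this
        exact this (mem_univ _)
      · exact h
    have hC : (0 : ℝ) ≤ d.M * ((d.B + 2) * d.lamM) ^ 2 :=
      mul_nonneg (Nat.cast_nonneg _) (sq_nonneg _)
    have hX' : (t : ℝ) * (d.M * ((d.B + 2) * d.lamM) ^ 2) ≤ d.X ^ 2 :=
      le_trans (mul_le_mul_of_nonneg_right (by exact_mod_cast ht.1.le) hC) hX
    obtain ⟨i1, i2, i3⟩ := d.invariant t run θ h0 hθ0 hstep' halive hX' t le_rfl
    obtain ⟨m, hm, hmax, hA⟩ := ht.2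
    have hΨ : d.Psi (run t) (θ t) ≤ d.X ^ 2 := le_trans i2 hX'
    have hm1 : m - 1 < d.M := by omega
    have hg := d.g_le_of_Psi hm1 hΨ
    have hR := (abs_le.1 (d.final _ _ _ hA le_rfl hm1)).1
    have hMe : 0 ≤ (d.M : ℝ) * d.e1 := mul_nonneg (Nat.cast_nonneg _) d.he1
    have herr0 : 0 ≤ d.err := le_trans d.he1 d.err_nonneg
    have htK' : (t : ℝ) ≤ K := by exact_mod_cast ht.1.le
    have hθ : θ t ≤ d.G + K * d.err
        + 2 * (d.M * (d.lamM * d.n0 + d.G) + ((K : ℝ) + 2) * (d.M * d.e1)) / d.B := by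
      have h1 : 2 * (d.tot ∅ - d.tot (run t) + t * (d.M * d.e1)) / d.B
          ≤ 2 * (d.M * (d.lamM * d.n0 + d.G) + ((K : ℝ) + 2) * (d.M * d.e1)) / d.B := by
        apply div_le_div_of_nonneg_right _ d.hB.le
        have h3 := d.tot_nonneg (run t)
        have h4 := d.tot_start
        have h5 : (t : ℝ) * (d.M * d.e1) ≤ K * (d.M * d.e1) :=
          mul_le_mul_of_nonneg_right htK' hMe
        linarith
      have h2 : (t : ℝ) * d.err ≤ K * d.err :=
        mul_le_mul_of_nonneg_right htK' herr0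
      linarith
    refine ⟨t, ht.1, i1, ?_⟩
    have hr := d.r_le hm1
    have hlam0n0 : 0 ≤ d.lam0 * d.n0 := mul_nonneg d.hlam0.le d.hn0
    have hbound : θ t + d.X + d.r (d.M - 1) + d.e1 ≤ d.bound K := by unfold bound; linarith
    have hgdef : d.c (run t) - d.e1 + d.lam (m - 1) * ((t : ℝ) - d.n0) - d.r (m - 1)
        ≤ d.g (m - 1) (run t) := by
      unfold g; rw [i1]; linarith
    rcases le_or_gt d.n0 (t : ℝ) with hcase | hcase
    · have : 0 ≤ d.lam (m - 1) * ((t : ℝ) - d.n0) :=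
        mul_nonneg (d.lam_pos _).le (by linarith)
      linarith
    · -- then the maximiser is at the lowest price
      have hm0 : m = 0 := by
        by_contra hne
        obtain ⟨n, rfl⟩ : ∃ n, m = n + 1 := ⟨m - 1, by omega⟩
        have e : n + 1 - 1 = n := by omega
        rw [e] at hA
        have hR1 := (abs_le.1 (d.final _ _ _ hA le_rfl (by omega : n < d.M))).1
        have hR2 := (abs_le.1 (d.final _ _ _ hA (by omega : n ≤ n + 1) hm)).2
        have h1 := hmax n (by omega)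
        unfold g at h1
        rw [i1, d.lam_succ] at h1
        have hr1 := d.r_mono n
        have hq := d.hq
        have hl := d.lam_pos n
        have h2 : 0 < (d.q - 1) * d.lam n * (d.n0 - t) :=
          mul_pos (mul_pos (by linarith) hl) (by linarith)
        nlinarith
      subst hm0
      have e : (0 : ℕ) - 1 = 0 := rfl
      rw [e] at hgdef hg hr
      have hl0 : d.lam 0 = d.lam0 := by unfold lam; simp
      rw [hl0] at hgdef
      have : d.lam0 * ((t : ℝ) - d.n0) ≥ - (d.lam0 * d.n0) := by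
        have : 0 ≤ d.lam0 * (t : ℝ) := mul_nonneg d.hlam0.le (Nat.cast_nonneg _)
        nlinarith
      linarith
  · exfalso
    push Not at hex
    have halive : ∀ s < K, ∀ m, m < d.M → (∀ j, j < d.M → d.g j (run s) ≤ d.g m (run s)) →
        (d.A (m - 1) (run s)).Nonempty := by
      intro s hs m hm hmax
      by_contra hne
      exact hex s hs ⟨m, hm, hmax, not_nonempty_iff_eq_empty.1 hne⟩
    have hstep' : ∀ s < K, d.Forced (run s) (θ s) (run (s + 1)) (θ (s + 1)) ∨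
        d.Free (run s) (θ s) (run (s + 1)) (θ (s + 1)) := by
      intro s hs
      rcases hstep s hs with h | h
      · exfalso
        obtain ⟨m, hm, hmax, -⟩ := d.exists_argmax (run s)
        obtain ⟨i, hi⟩ := halive s hs m hm hmax
        have := d.A_out _ _ i hi
        rw [h] at this
        exact this (mem_univ _)
      · exact h
    obtain ⟨i1, i2, i3⟩ := d.invariant K run θ h0 hθ0 hstep' halive hX K le_rfl
    have hM1 : d.M - 1 < d.M := by have := d.hM; omega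
    have hg := d.g_le_of_Psi hM1 (le_trans i2 hX)
    have hθ : θ K ≤ d.G + K * d.err
        + 2 * (d.M * (d.lamM * d.n0 + d.G) + ((K : ℝ) + 2) * (d.M * d.e1)) / d.B := by
      have h1 : 2 * (d.tot ∅ - d.tot (run K) + K * (d.M * d.e1)) / d.B
          ≤ 2 * (d.M * (d.lamM * d.n0 + d.G) + ((K : ℝ) + 2) * (d.M * d.e1)) / d.B := by
        apply div_le_div_of_nonneg_right _ d.hB.le
        have := d.tot_nonneg (run K)
        have := d.tot_start
        linarith
      linarith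
    unfold g at hg
    rw [i1] at hg
    have hR := d.R_nonneg (d.M - 1) (run K) hM1
    have : d.lam (d.M - 1) = d.lamM := rfl
    rw [this] at hg
    unfold bound at hK
    linarith

end Data

/-! ### Concrete parameters -/

/-- A system of potentials for all prices. -/
structure Pot (σ : Type*) [Fintype σ] [DecidableEq σ] where
  /-- `R lam T` = potential at price `lam` minus `lam * |T|` -/
  R : ℝ → Finset σ → ℝ
  /-- alive stars at price `lam` -/
  A : ℝ → Finset σ → Finset σ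
  /-- cost -/
  c : Finset σ → ℝ
  /-- masses -/
  y : σ → ℝ
  n0 : ℝ
  hn0 : 0 ≤ n0
  G : ℝ
  hG : 0 < G
  R_nonneg : ∀ a T, 0 < a → 0 ≤ R a T
  R_anti : ∀ a T i, 0 < a → R a (insert i T) ≤ R a T
  R_conc : ∀ a b e T, 0 < a → a < b → b < e → (b - a) * (R e T - R b T) ≤ (e - b) * (R b T - R a T)
  y_pos : ∀ a T, 0 < a → ∀ i ∈ A a T, 0 < y i
  A_out : ∀ a T, 0 < a → ∀ i ∈ A a T, i ∉ T
  mixed : ∀ a b T, 0 < a → a ≤ b →
    ∑ i ∈ A a T, y i * (b + R b (insert i T) - R b T) ≤ (b - a) * ∑ i ∈ A a T, y i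
  final : ∀ a b T, 0 < a → a ≤ b → A a T = ∅ → R b T = c T
  start : ∀ a, 0 < a → R a ∅ ≤ a * n0 + G

/-- Numerical parameters (rational), depending only on the accuracy and the slack. -/
structure Params where
  /-- slack -/
  δ : ℚ
  /-- accuracy -/
  ε : ℚ
  M : ℕ
  q : ℚ
  B : ℚ
  ζ : ℚ
  /-- tolerated evaluation error (relative to `G / k`) -/
  η : ℚ
  k0 : ℕ
  hδ : 0 < δ
  hδ1 : δ < 1
  hε : 0 < ε
  hM : 0 < M
  hq : 1 < q
  hq2 : 4 * (q - 1) ≤ 1
  hB : 0 < B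
  hζ : 0 < ζ
  hη : 0 < η
  hk0 : 0 < k0
  p1 : 12 * (q - 1) ≤ ε * δ
  p2 : 3 ≤ ε * δ * q ^ (M - 1)
  p3 : M * (3 / δ + 1) ≤ ε * B
  p4 : ζ ≤ ε
  p5 : ζ * (q ^ 2) ^ (M - 1) ≤ ε * ((q ^ 2 - 1) * (q - 1))
  p6 : 8 * M * ((B + 2) * (3 / δ)) ^ 2 ≤ ζ ^ 2 * k0
  p7 : 2 * η ≤ ζ
  p8 : η ≤ 1
  hε1 : 10 * ε ≤ 1

theorem exists_params (ε δ : ℚ) (hε : 0 < ε) (hε1 : 10 * ε ≤ 1) (hδ : 0 < δ) (hδ1 : δ < 1) :
    ∃ P : Params, P.δ = δ ∧ P.ε = ε := by
  set q : ℚ := 1 + ε * δ / 12 with hqdef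
  have hεδ : 0 < ε * δ := mul_pos hε hδ
  have hq : 1 < q := by rw [hqdef]; linarith
  obtain ⟨n, hn⟩ := pow_unbounded_of_one_lt (3 / (ε * δ)) hq
  set M : ℕ := n + 1 with hMdef
  have hMr : (0 : ℚ) < M := by rw [hMdef]; positivity
  set B : ℚ := M * (3 / δ + 1) / ε with hBdef
  have hB : 0 < B := by
    rw [hBdef]
    have : 0 < 3 / δ := by positivity
    positivity
  set Q : ℚ := (q ^ 2) ^ (M - 1) / ((q ^ 2 - 1) * (q - 1)) with hQdef
  have hq1 : 0 < (q ^ 2 - 1) * (q - 1) := by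
    apply mul_pos <;> nlinarith
  have hQ : 0 ≤ Q := by rw [hQdef]; positivity
  set ζ : ℚ := ε / (1 + Q) with hζdef
  have hζ : 0 < ζ := by rw [hζdef]; positivity
  obtain ⟨k0, hk0⟩ := exists_nat_gt (8 * M * ((B + 2) * (3 / δ)) ^ 2 / ζ ^ 2)
  have hζε : ζ ≤ ε := by rw [hζdef]; exact div_le_self hε.le (by linarith)
  refine ⟨⟨δ, ε, M, q, B, ζ, ζ / 2, k0 + 1, hδ, hδ1, hε, by omega, hq, ?_, hB, hζ, by positivity,
    by omega, ?_, ?_, ?_, hζε, ?_, ?_, by linarith, by linarith, hε1⟩, rfl, rfl⟩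
  · rw [hqdef]; nlinarith
  · rw [hqdef]; linarith
  · rw [div_lt_iff₀ hεδ] at hn
    have : M - 1 = n := by omega
    rw [this]
    linarith
  · rw [hBdef]; apply le_of_eq; field_simp
  · have h1 : ζ * Q ≤ ε := by
      rw [hζdef, div_mul_eq_mul_div, div_le_iff₀ (by positivity)]
      nlinarith
    rw [hQdef, mul_div_assoc', div_le_iff₀ hq1] at h1
    exact h1
  · rw [div_lt_iff₀ (by positivity)] at hk0
    have : (0 : ℚ) < ζ ^ 2 := by positivity
    push_cast
    nlinarith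

namespace Params

variable (P : Params)

/-- top price for guess `G` and budget `k` -/
noncomputable def lamTop (G : ℝ) (k : ℕ) : ℝ := 3 * G / (P.δ * k)

/-- bottom price -/
noncomputable def lamBot (G : ℝ) (k : ℕ) : ℝ := P.lamTop G k / (P.q : ℝ) ^ (P.M - 1)

/-- penalty -/
noncomputable def pen (G : ℝ) (m : ℕ) : ℝ :=
  (P.ζ : ℝ) * G / (((P.q : ℝ) ^ 2 - 1) * ((P.q : ℝ) - 1)) * ((P.q : ℝ) ^ 2) ^ m

/-- evaluation error allowance (the evaluations themselves must have error at most `tol / 6`) -/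
noncomputable def tol (G : ℝ) (k : ℕ) : ℝ := P.η * G / k

/-- the error allowance of a free step -/
noncomputable def errv (G : ℝ) (k : ℕ) : ℝ := 2 * ((P.q : ℝ) - 1) * P.lamTop G k + P.tol G k

lemma hqr : (1 : ℝ) < P.q := by exact_mod_cast P.hq
lemma hδr : (0 : ℝ) < P.δ := by exact_mod_cast P.hδ
lemma hεr : (0 : ℝ) < P.ε := by exact_mod_cast P.hε
lemma hBr : (0 : ℝ) < P.B := by exact_mod_cast P.hB
lemma hζr : (0 : ℝ) < P.ζ := by exact_mod_cast P.hζ
lemma hηr : (0 : ℝ) < P.η := by exact_mod_cast P.hη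
lemma hδ1r : (P.δ : ℝ) < 1 := by exact_mod_cast P.hδ1
lemma hqr2 : 4 * ((P.q : ℝ) - 1) ≤ 1 := by exact_mod_cast P.hq2
lemma p7r : 2 * (P.η : ℝ) ≤ P.ζ := by exact_mod_cast P.p7
lemma p8r : (P.η : ℝ) ≤ 1 := by exact_mod_cast P.p8

lemma tol_nonneg {G : ℝ} {k : ℕ} (hG : 0 < G) : 0 ≤ P.tol G k := by
  have := P.hηr
  unfold tol
  positivity

lemma tol_le {G : ℝ} {k : ℕ} (hG : 0 < G) (hk : 0 < k) : P.tol G k ≤ P.η * G := by
  have := P.hηr
  have hk' : (1 : ℝ) ≤ k := by exact_mod_cast hk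
  unfold tol
  exact div_le_self (by positivity) hk'

lemma tol_mul {G : ℝ} {k : ℕ} (hk : 0 < k) : P.tol G k * k = P.η * G := by
  have hk' : (0 : ℝ) < k := by exact_mod_cast hk
  unfold tol
  field_simp

lemma q2 : 0 < ((P.q : ℝ) ^ 2 - 1) * ((P.q : ℝ) - 1) := by
  have := P.hqr
  apply mul_pos <;> nlinarith

lemma lamTop_pos {G : ℝ} {k : ℕ} (hG : 0 < G) (hk : 0 < k) : 0 < P.lamTop G k := by
  have := P.hδr
  have hk' : (0 : ℝ) < k := by exact_mod_cast hk
  unfold lamTop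
  positivity

lemma lamBot_pos {G : ℝ} {k : ℕ} (hG : 0 < G) (hk : 0 < k) : 0 < P.lamBot G k :=
  div_pos (P.lamTop_pos hG hk) (pow_pos (lt_trans one_pos P.hqr) _)

lemma lamBot_mul (G : ℝ) (k : ℕ) : P.lamBot G k * (P.q : ℝ) ^ (P.M - 1) = P.lamTop G k := by
  unfold lamBot
  have : (0 : ℝ) < (P.q : ℝ) ^ (P.M - 1) := pow_pos (lt_trans one_pos P.hqr) _
  field_simp

/-- the penalty increments dominate twice the tolerance -/
lemma pen_step {G : ℝ} {k : ℕ} (hG : 0 < G) (hk : 0 < k) (m : ℕ) :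
    P.pen G m + 2 * P.tol G k ≤ P.pen G (m + 1) := by
  have h0 := P.q2
  have h1 := P.hζr
  have h3 := P.hqr
  have h4 := P.hqr2
  have hp : (1 : ℝ) ≤ ((P.q : ℝ) ^ 2) ^ m := one_le_pow₀ (by nlinarith)
  have e : P.pen G (m + 1) - P.pen G m = P.ζ * G / ((P.q : ℝ) - 1) * ((P.q : ℝ) ^ 2) ^ m := by
    unfold pen
    have hq1 : (P.q : ℝ) - 1 ≠ 0 := by linarith
    have hq2 : (P.q : ℝ) ^ 2 - 1 ≠ 0 := by nlinarith
    field_simp
    ring
  have h5 : P.ζ * G ≤ P.ζ * G / ((P.q : ℝ) - 1) * ((P.q : ℝ) ^ 2) ^ m := by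
    have h6 : P.ζ * G ≤ P.ζ * G / ((P.q : ℝ) - 1) := by
      rw [le_div_iff₀ (by linarith)]
      have : 0 < P.ζ * G := by positivity
      nlinarith
    have h7 : 0 ≤ P.ζ * G / ((P.q : ℝ) - 1) := by
      apply div_nonneg (by positivity) (by linarith)
    exact le_trans h6 (le_mul_of_one_le_right h7 hp)
  have h6 := P.tol_le hG hk
  have h7 := P.p7r
  nlinarith

lemma tol_le_pen {G : ℝ} {k : ℕ} (hG : 0 < G) (hk : 0 < k) (m : ℕ) :
    P.tol G k ≤ P.pen G m := by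
  have h0 := P.q2
  have h1 := P.hζr
  have h3 := P.hqr
  have h4 := P.hqr2
  have hp : (1 : ℝ) ≤ ((P.q : ℝ) ^ 2) ^ m := one_le_pow₀ (by nlinarith)
  have h5 : P.ζ * G ≤ P.pen G m := by
    unfold pen
    have h6 : P.ζ * G ≤ P.ζ * G / (((P.q : ℝ) ^ 2 - 1) * ((P.q : ℝ) - 1)) := by
      rw [le_div_iff₀ h0]
      have h8 : ((P.q : ℝ) ^ 2 - 1) * ((P.q : ℝ) - 1) ≤ 1 := by nlinarith
      have : 0 < P.ζ * G := by positivity
      nlinarith
    exact le_trans h6 (le_mul_of_one_le_right (div_nonneg (by positivity) h0.le) hp)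
  have h6 := P.tol_le hG hk
  have h7 := P.p7r
  have h8 := P.hηr
  nlinarith

variable {σ : Type*} [Fintype σ] [DecidableEq σ]

/-- The table `R'` of evaluated potentials is accurate enough. -/
def Acc (Φ : Pot σ) (k : ℕ) (R' : ℕ → Finset σ → ℝ) : Prop :=
  ∀ m T, m < P.M → |R' m T - Φ.R (P.lamBot Φ.G k * (P.q : ℝ) ^ m) T| ≤ P.tol Φ.G k / 6

/-- The abstract data attached to a system of potentials. -/
noncomputable def toData (Φ : Pot σ) (k : ℕ) (hk : 0 < k) (R' : ℕ → Finset σ → ℝ)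
    (hR' : P.Acc Φ k R') : Data σ where
  M := P.M
  hM := P.hM
  lam0 := P.lamBot Φ.G k
  hlam0 := P.lamBot_pos Φ.hG hk
  q := P.q
  hq := P.hqr
  r := P.pen Φ.G
  R := R'
  A := fun m T => Φ.A (P.lamBot Φ.G k * (P.q : ℝ) ^ m) T
  c := Φ.c
  y := Φ.y
  n0 := Φ.n0
  hn0 := Φ.hn0
  G := Φ.G
  B := P.B
  hB := P.hBr
  X := P.ζ * Φ.G / 2
  hX := div_nonneg (mul_nonneg P.hζr.le Φ.hG.le) (by norm_num)
  err := P.errv Φ.G k
  e1 := P.tol Φ.G k
  he1 := P.tol_nonneg Φ.hG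
  R_nonneg := by
    intro m T hm
    have h1 := Φ.R_nonneg _ T (mul_pos (P.lamBot_pos Φ.hG hk) (pow_pos (lt_trans one_pos P.hqr) m))
    have h2 := (abs_le.1 (hR' m T hm)).1
    have h3 := P.tol_nonneg (k := k) Φ.hG
    linarith
  R_anti := by
    intro m T i hm
    have h1 := Φ.R_anti _ T i (mul_pos (P.lamBot_pos Φ.hG hk) (pow_pos (lt_trans one_pos P.hqr) m))
    have h2 := (abs_le.1 (hR' m T hm)).1
    have h4 := (abs_le.1 (hR' m (insert i T) hm)).2
    have h3 := P.tol_nonneg (k := k) Φ.hG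
    linarith
  R_conc := by
    intro m T hm2
    have a0 := (abs_le.1 (hR' m T (by omega))).2
    have a1 := (abs_le.1 (hR' (m + 1) T (by omega))).1
    have a2 := (abs_le.1 (hR' (m + 2) T (by omega))).2
    have htol := P.tol_nonneg (k := k) Φ.hG
    have hq4 := P.hqr2
    have hq := P.hqr
    have hl := P.lamBot_pos Φ.hG hk
    have hp : (0 : ℝ) < (P.q : ℝ) ^ m := pow_pos (lt_trans one_pos hq) _
    set a := P.lamBot Φ.G k * (P.q : ℝ) ^ m with ha
    have ha0 : 0 < a := mul_pos hl hp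
    have e1 : P.lamBot Φ.G k * (P.q : ℝ) ^ (m + 1) = P.q * a := by rw [ha]; ring
    have e2 : P.lamBot Φ.G k * (P.q : ℝ) ^ (m + 2) = P.q * (P.q * a) := by rw [ha]; ring
    rw [e1] at a1
    rw [e2] at a2
    have h := Φ.R_conc a (P.q * a) (P.q * (P.q * a)) T ha0 (by nlinarith)
      (by nlinarith [mul_pos (lt_trans one_pos hq) ha0])
    have h2 : 0 < ((P.q : ℝ) - 1) * a := mul_pos (by linarith) ha0
    have e3 : (P.q : ℝ) * a - a = (P.q - 1) * a := by ring
    have e4 : (P.q : ℝ) * (P.q * a) - P.q * a = P.q * ((P.q - 1) * a) := by ring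
    rw [e3, e4] at h
    have h3 : ((P.q : ℝ) - 1) * a * (Φ.R (P.q * (P.q * a)) T - Φ.R (P.q * a) T)
        ≤ (P.q - 1) * a * (P.q * (Φ.R (P.q * a) T - Φ.R a T)) := by nlinarith
    have h4 := le_of_mul_le_mul_left h3 h2
    have h5 : (P.q : ℝ) * (Φ.R (P.q * a) T - Φ.R a T)
        ≤ P.q * (R' (m + 1) T - R' m T + 2 * (P.tol Φ.G k / 6)) :=
      mul_le_mul_of_nonneg_left (by linarith) (by linarith)
    nlinarith
  y_pos := fun m T => Φ.y_pos _ _ (mul_pos (P.lamBot_pos Φ.hG hk) (pow_pos (lt_trans one_pos P.hqr) _))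
  A_out := fun m T => Φ.A_out _ _ (mul_pos (P.lamBot_pos Φ.hG hk) (pow_pos (lt_trans one_pos P.hqr) _))
  mixed := by
    intro l m T hlm hm
    have h := Φ.mixed (P.lamBot Φ.G k * (P.q : ℝ) ^ l) (P.lamBot Φ.G k * (P.q : ℝ) ^ m) T
      (mul_pos (P.lamBot_pos Φ.hG hk) (pow_pos (lt_trans one_pos P.hqr) _))
      (mul_le_mul_of_nonneg_left (pow_le_pow_right₀ P.hqr.le hlm) (P.lamBot_pos Φ.hG hk).le)
    have htol := P.tol_nonneg (k := k) Φ.hG
    have h0 := (abs_le.1 (hR' m T hm)).1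
    have hy : ∀ i ∈ Φ.A (P.lamBot Φ.G k * (P.q : ℝ) ^ l) T, 0 < Φ.y i :=
      Φ.y_pos _ _ (mul_pos (P.lamBot_pos Φ.hG hk) (pow_pos (lt_trans one_pos P.hqr) _))
    have h1 : ∑ i ∈ Φ.A (P.lamBot Φ.G k * (P.q : ℝ) ^ l) T,
        Φ.y i * (P.lamBot Φ.G k * (P.q : ℝ) ^ m + R' m (insert i T) - R' m T)
        ≤ ∑ i ∈ Φ.A (P.lamBot Φ.G k * (P.q : ℝ) ^ l) T,
          (Φ.y i * (P.lamBot Φ.G k * (P.q : ℝ) ^ m
            + Φ.R (P.lamBot Φ.G k * (P.q : ℝ) ^ m) (insert i T)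
            - Φ.R (P.lamBot Φ.G k * (P.q : ℝ) ^ m) T) + P.tol Φ.G k * Φ.y i) := by
      refine sum_le_sum fun i hi => ?_
      have h2 := (abs_le.1 (hR' m (insert i T) hm)).2
      have h3 := hy i hi
      have h4 : P.lamBot Φ.G k * (P.q : ℝ) ^ m + R' m (insert i T) - R' m T
          ≤ (P.lamBot Φ.G k * (P.q : ℝ) ^ m
            + Φ.R (P.lamBot Φ.G k * (P.q : ℝ) ^ m) (insert i T)
            - Φ.R (P.lamBot Φ.G k * (P.q : ℝ) ^ m) T) + P.tol Φ.G k := by linarith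
      have h5 := mul_le_mul_of_nonneg_left h4 h3.le
      linarith
    refine le_trans h1 ?_
    rw [sum_add_distrib, ← mul_sum, add_mul]
    linarith
  final := by
    intro l m T hA hlm hm
    have h := Φ.final (P.lamBot Φ.G k * (P.q : ℝ) ^ l) (P.lamBot Φ.G k * (P.q : ℝ) ^ m) T
      (mul_pos (P.lamBot_pos Φ.hG hk) (pow_pos (lt_trans one_pos P.hqr) _))
      (mul_le_mul_of_nonneg_left (pow_le_pow_right₀ P.hqr.le hlm) (P.lamBot_pos Φ.hG hk).le) hA
    have h1 := hR' m T hm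
    rw [h] at h1
    have htol := P.tol_nonneg (k := k) Φ.hG
    linarith
  start := by
    intro m hm
    have h := Φ.start _ (mul_pos (P.lamBot_pos Φ.hG hk) (pow_pos (lt_trans one_pos P.hqr) m))
    have h1 := (abs_le.1 (hR' m ∅ hm)).2
    have htol := P.tol_nonneg (k := k) Φ.hG
    linarith
  r_nonneg := fun m => P.tol_le_pen Φ.hG hk m
  r_mono := fun m => P.pen_step Φ.hG hk m
  r_conv := by
    intro m _
    have h0 := P.q2
    have h1 := P.hζr
    have h2 := Φ.hG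
    have h3 := P.hqr
    have hp : (1 : ℝ) ≤ ((P.q : ℝ) ^ 2) ^ m := one_le_pow₀ (by nlinarith)
    have e : P.pen Φ.G (m + 2) - P.pen Φ.G (m + 1) - P.q * (P.pen Φ.G (m + 1) - P.pen Φ.G m)
        = P.q * (P.ζ * Φ.G) * ((P.q : ℝ) ^ 2) ^ m := by
      unfold pen
      obtain ⟨c, hc⟩ : ∃ c : ℝ, c = (P.ζ : ℝ) * Φ.G / (((P.q : ℝ) ^ 2 - 1) * ((P.q : ℝ) - 1)) :=
        ⟨_, rfl⟩
      have hc2 : c * (((P.q : ℝ) ^ 2 - 1) * ((P.q : ℝ) - 1)) = P.ζ * Φ.G := by
        rw [hc]; exact div_mul_cancel₀ _ h0.ne'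
      rw [← hc, ← hc2]
      ring
    have h4 : P.q * (P.ζ * Φ.G) ≤ P.q * (P.ζ * Φ.G) * ((P.q : ℝ) ^ 2) ^ m := by
      apply le_mul_of_one_le_right _ hp
      have : (0 : ℝ) < P.q := by linarith
      positivity
    have h5 := P.tol_le Φ.hG hk
    have h6 := P.p7r
    have h7 : P.tol Φ.G k ≤ P.ζ * Φ.G / 2 := by nlinarith
    have h8 : 0 < P.ζ * Φ.G := by positivity
    nlinarith
  err_nonneg := by
    have h3 := P.hqr
    have := P.lamTop_pos Φ.hG hk
    unfold errv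
    have : 0 ≤ 2 * ((P.q : ℝ) - 1) * P.lamTop Φ.G k := by
      apply mul_nonneg _ this.le
      linarith
    linarith
  err_le := by
    have h3 := P.hqr2
    have h4 := P.lamTop_pos Φ.hG hk
    have h5 := P.hδr
    have h6 := P.hδ1r
    have h7 := P.p8r
    have h8 := Φ.hG
    have hk' : (0 : ℝ) < k := by exact_mod_cast hk
    rw [P.lamBot_mul]
    have h9 : P.tol Φ.G k ≤ P.lamTop Φ.G k / 2 := by
      unfold tol lamTop
      rw [div_div, div_le_div_iff₀ hk' (by positivity)]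
      have h10 : (P.η : ℝ) * (P.δ * 2) ≤ 3 := by nlinarith [P.hηr]
      have h11 : 0 < Φ.G * k := by positivity
      nlinarith
    unfold errv
    nlinarith
  err_ge := by
    intro m hm
    have hq := P.hqr
    have hl := P.lamBot_pos Φ.hG hk
    have hp : (0 : ℝ) < (P.q : ℝ) ^ m := pow_pos (lt_trans one_pos hq) _
    have h1 : P.lamBot Φ.G k * (P.q : ℝ) ^ (m + 2) ≤ P.lamTop Φ.G k := by
      rw [← P.lamBot_mul]
      exact mul_le_mul_of_nonneg_left (pow_le_pow_right₀ hq.le (by omega)) hl.le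
    unfold errv
    have e : P.lamBot Φ.G k * (P.q : ℝ) ^ (m + 2) = P.lamBot Φ.G k * (P.q : ℝ) ^ m * P.q ^ 2 := by ring
    have ha : 0 < P.lamBot Φ.G k * (P.q : ℝ) ^ m := mul_pos hl hp
    rw [e] at h1 ⊢
    set a := P.lamBot Φ.G k * (P.q : ℝ) ^ m
    have h2 : a * P.q ^ 2 - a ≤ 2 * (P.q - 1) * (a * P.q ^ 2) := by
      have : 0 ≤ (P.q - 1) * a * (2 * P.q ^ 2 - P.q - 1) := by
        apply mul_nonneg (mul_nonneg (by linarith) ha.le)
        nlinarith
      nlinarith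
    have h3 : 2 * ((P.q : ℝ) - 1) * (a * P.q ^ 2) ≤ 2 * (P.q - 1) * P.lamTop Φ.G k :=
      mul_le_mul_of_nonneg_left h1 (by linarith)
    linarith
  err_ge1 := by
    intro m hm
    have hq := P.hqr
    have hl := P.lamBot_pos Φ.hG hk
    have hp : (0 : ℝ) < (P.q : ℝ) ^ m := pow_pos (lt_trans one_pos hq) _
    have h1 : P.lamBot Φ.G k * (P.q : ℝ) ^ (m + 1) ≤ P.lamTop Φ.G k := by
      rw [← P.lamBot_mul]
      exact mul_le_mul_of_nonneg_left (pow_le_pow_right₀ hq.le (by omega)) hl.le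
    unfold errv
    have e : P.lamBot Φ.G k * (P.q : ℝ) ^ (m + 1) = P.lamBot Φ.G k * (P.q : ℝ) ^ m * P.q := by ring
    have ha : 0 < P.lamBot Φ.G k * (P.q : ℝ) ^ m := mul_pos hl hp
    rw [e] at h1 ⊢
    set a := P.lamBot Φ.G k * (P.q : ℝ) ^ m
    have h2 : a * P.q - a ≤ 2 * (P.q - 1) * (a * P.q) := by
      have : 0 ≤ (P.q - 1) * a * (2 * P.q - 1) := by
        apply mul_nonneg (mul_nonneg (by linarith) ha.le)
        nlinarith
      nlinarith
    have h3 : 2 * ((P.q : ℝ) - 1) * (a * P.q) ≤ 2 * (P.q - 1) * P.lamTop Φ.G k :=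
      mul_le_mul_of_nonneg_left h1 (by linarith)
    linarith

/-- Numerical bound: with the chosen parameters the final bound is `(1 + 10 ε) G`. -/
lemma bound_le (Φ : Pot σ) (k : ℕ) (hk : 0 < k) (hn : Φ.n0 ≤ k) (R' : ℕ → Finset σ → ℝ)
    (hR' : P.Acc Φ k R') :
    (P.toData Φ k hk R' hR').bound (k + 1) + P.lamBot Φ.G k * Φ.n0 ≤ (1 + 10 * P.ε) * Φ.G := by
  have hG := Φ.hG
  have hn0 := Φ.hn0
  have hδ := P.hδr
  have hδ1 := P.hδ1r
  have hε := P.hεr
  have hB := P.hBr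
  have hζ := P.hζr
  have hq := P.hqr
  have hk' : (1 : ℝ) ≤ k := by exact_mod_cast hk
  have hkpos : (0 : ℝ) < k := by linarith
  have hLk : P.lamTop Φ.G k * k = 3 / P.δ * Φ.G := by
    unfold lamTop; field_simp
  have hL0 := P.lamTop_pos Φ.hG hk
  have htol0 := P.tol_nonneg (k := k) Φ.hG
  have htolk := P.tol_mul (G := Φ.G) hk
  have htol1 := P.tol_le Φ.hG hk
  have h27 := P.p7r
  have h28 := P.p8r
  have hζε : (P.ζ : ℝ) ≤ P.ε := by exact_mod_cast P.p4
  -- tolerance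
  have t0 : 2 * P.η * Φ.G ≤ P.ε * Φ.G := mul_le_mul_of_nonneg_right (by linarith) hG.le
  -- first term
  have t1 : ((k + 1 : ℕ) : ℝ) * P.errv Φ.G k ≤ 2 * (P.ε * Φ.G) := by
    have hp1 : 12 * ((P.q : ℝ) - 1) ≤ P.ε * P.δ := by exact_mod_cast P.p1
    have h1 : ((k + 1 : ℕ) : ℝ) * P.lamTop Φ.G k ≤ 2 * (3 / P.δ * Φ.G) := by
      rw [← hLk]; push_cast; nlinarith
    have h2 : ((k + 1 : ℕ) : ℝ) * P.errv Φ.G k
        = 2 * (P.q - 1) * (((k + 1 : ℕ) : ℝ) * P.lamTop Φ.G k)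
          + (P.tol Φ.G k * k + P.tol Φ.G k) := by unfold errv; push_cast; ring
    rw [h2, htolk]
    have h3 : 2 * ((P.q : ℝ) - 1) * (((k + 1 : ℕ) : ℝ) * P.lamTop Φ.G k)
        ≤ 2 * (P.q - 1) * (2 * (3 / P.δ * Φ.G)) :=
      mul_le_mul_of_nonneg_left h1 (by linarith)
    have h4 : 2 * ((P.q : ℝ) - 1) * (2 * (3 / P.δ * Φ.G)) = 12 * (P.q - 1) / P.δ * Φ.G := by ring
    rw [h4] at h3
    have h5 : 12 * ((P.q : ℝ) - 1) / P.δ * Φ.G ≤ P.ε * Φ.G := by
      refine mul_le_mul_of_nonneg_right ?_ hG.le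
      rw [div_le_iff₀ hδ]
      exact hp1
    linarith
  -- second term
  have hp3 : (P.M : ℝ) * (3 / P.δ + 1) ≤ P.ε * P.B := by exact_mod_cast P.p3
  have hM : (0 : ℝ) ≤ P.M := Nat.cast_nonneg _
  have t2 : 2 * ((P.M : ℝ) * (P.lamTop Φ.G k * Φ.n0 + Φ.G)
      + (((k + 1 : ℕ) : ℝ) + 2) * (P.M * P.tol Φ.G k)) / P.B ≤ 4 * (P.ε * Φ.G) := by
    rw [div_le_iff₀ hB]
    have h1 : P.lamTop Φ.G k * Φ.n0 ≤ 3 / P.δ * Φ.G := by
      rw [← hLk]; exact mul_le_mul_of_nonneg_left hn hL0.le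
    have h2 : (P.M : ℝ) * (P.lamTop Φ.G k * Φ.n0 + Φ.G) ≤ P.ε * P.B * Φ.G := by
      calc (P.M : ℝ) * (P.lamTop Φ.G k * Φ.n0 + Φ.G) ≤ P.M * (3 / P.δ * Φ.G + Φ.G) :=
            mul_le_mul_of_nonneg_left (by linarith) hM
        _ = P.M * (3 / P.δ + 1) * Φ.G := by ring
        _ ≤ P.ε * P.B * Φ.G := mul_le_mul_of_nonneg_right hp3 hG.le
    have h3 : (((k + 1 : ℕ) : ℝ) + 2) * (P.M * P.tol Φ.G k) ≤ P.ε * P.B * Φ.G := by
      have h4 : (((k + 1 : ℕ) : ℝ) + 2) * P.tol Φ.G k ≤ 4 * (P.η * Φ.G) := by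
        push_cast
        nlinarith
      have h5 : (((k + 1 : ℕ) : ℝ) + 2) * (P.M * P.tol Φ.G k)
          = P.M * ((((k + 1 : ℕ) : ℝ) + 2) * P.tol Φ.G k) := by ring
      rw [h5]
      have h6 : 4 * (P.η : ℝ) ≤ 3 / P.δ + 1 := by
        have : 3 ≤ 3 / (P.δ : ℝ) := by
          rw [le_div_iff₀ hδ]; linarith
        linarith
      calc P.M * ((((k + 1 : ℕ) : ℝ) + 2) * P.tol Φ.G k) ≤ P.M * (4 * (P.η * Φ.G)) :=
            mul_le_mul_of_nonneg_left h4 hM
        _ = P.M * (4 * P.η) * Φ.G := by ring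
        _ ≤ P.M * (3 / P.δ + 1) * Φ.G := by
            apply mul_le_mul_of_nonneg_right _ hG.le
            exact mul_le_mul_of_nonneg_left h6 hM
        _ ≤ P.ε * P.B * Φ.G := mul_le_mul_of_nonneg_right hp3 hG.le
    linarith
  have t3 : (P.ζ : ℝ) * Φ.G ≤ P.ε * Φ.G := mul_le_mul_of_nonneg_right hζε hG.le
  have t4 : P.pen Φ.G (P.M - 1) ≤ P.ε * Φ.G := by
    unfold pen
    have hp5 : (P.ζ : ℝ) * ((P.q : ℝ) ^ 2) ^ (P.M - 1)
        ≤ P.ε * (((P.q : ℝ) ^ 2 - 1) * ((P.q : ℝ) - 1)) := by exact_mod_cast P.p5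
    rw [div_mul_eq_mul_div, div_le_iff₀ P.q2]
    nlinarith
  have t5 : P.lamBot Φ.G k * Φ.n0 ≤ P.ε * Φ.G := by
    have hp2 : (3 : ℝ) ≤ P.ε * P.δ * (P.q : ℝ) ^ (P.M - 1) := by exact_mod_cast P.p2
    have hQ : (0 : ℝ) < (P.q : ℝ) ^ (P.M - 1) := pow_pos (lt_trans one_pos hq) _
    have h1 : P.lamBot Φ.G k * Φ.n0 ≤ P.lamBot Φ.G k * k :=
      mul_le_mul_of_nonneg_left hn (P.lamBot_pos Φ.hG hk).le
    have h2 : P.lamBot Φ.G k * k = 3 * Φ.G / (P.δ * (P.q : ℝ) ^ (P.M - 1)) := by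
      unfold lamBot lamTop; field_simp
    rw [h2] at h1
    refine le_trans h1 ?_
    rw [div_le_iff₀ (by positivity)]
    nlinarith
  have e : (P.toData Φ k hk R' hR').bound (k + 1) = Φ.G + ((k + 1 : ℕ) : ℝ) * P.errv Φ.G k
      + 2 * ((P.M : ℝ) * (P.lamTop Φ.G k * Φ.n0 + Φ.G)
        + (((k + 1 : ℕ) : ℝ) + 2) * (P.M * P.tol Φ.G k)) / P.B
      + P.ζ * Φ.G / 2 + P.pen Φ.G (P.M - 1) + P.tol Φ.G k := by
    have h1 : (P.toData Φ k hk R' hR').lamM = P.lamTop Φ.G k := P.lamBot_mul _ _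
    unfold Data.bound
    rw [h1]
    rfl
  rw [e]
  have hG2 : 0 < P.ε * Φ.G := mul_pos hε hG
  linarith

/-- **Exact `k` in the slack world.**  Every run of forced/free steps (with respect to a table `R'`
of sufficiently accurate evaluations) passes through a state with at most `k` open stars and cost
at most `(1 + 10 ε) G`. -/
theorem slack_main (Φ : Pot σ) (k : ℕ) (hk : P.k0 ≤ k) (hn : Φ.n0 ≤ (1 - P.δ) * k)
    (R' : ℕ → Finset σ → ℝ) (hR' : P.Acc Φ k R')
    (run : ℕ → Finset σ) (θ : ℕ → ℝ) (h0 : run 0 = ∅) (hθ0 : θ 0 = Φ.G)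
    (hstep : ∀ t < k + 1, (run t = univ) ∨
      (P.toData Φ k (lt_of_lt_of_le P.hk0 hk) R' hR').Forced (run t) (θ t) (run (t + 1))
        (θ (t + 1)) ∨
      (P.toData Φ k (lt_of_lt_of_le P.hk0 hk) R' hR').Free (run t) (θ t) (run (t + 1))
        (θ (t + 1))) :
    ∃ t, t ≤ k ∧ (run t).card = t ∧ Φ.c (run t) ≤ (1 + 10 * P.ε) * Φ.G := by
  have hkpos : 0 < k := lt_of_lt_of_le P.hk0 hk
  have hG := Φ.hG
  have hδ := P.hδr
  have hε := P.hεr
  have hkr : (1 : ℝ) ≤ k := by exact_mod_cast hkpos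
  have hn' : Φ.n0 ≤ k := by nlinarith
  have hbd := P.bound_le Φ k hkpos hn' R' hR'
  have hL : (P.toData Φ k hkpos R' hR').lamM = P.lamTop Φ.G k := P.lamBot_mul _ _
  have hL0 := P.lamTop_pos Φ.hG hkpos
  have hLk : P.lamTop Φ.G k * k = 3 / P.δ * Φ.G := by
    unfold lamTop; field_simp
  obtain ⟨t, ht, hc, hcost⟩ := (P.toData Φ k hkpos R' hR').exists_good_prefix (k + 1) run θ h0 hθ0
    hstep
    (by
      rw [hL]
      change ((k + 1 : ℕ) : ℝ) * ((P.M : ℝ) * (((P.B : ℝ) + 2) * P.lamTop Φ.G k) ^ 2)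
        ≤ ((P.ζ : ℝ) * Φ.G / 2) ^ 2
      have hp6 : 8 * (P.M : ℝ) * (((P.B : ℝ) + 2) * (3 / P.δ)) ^ 2 ≤ (P.ζ : ℝ) ^ 2 * P.k0 := by
        exact_mod_cast P.p6
      have hk0 : (P.k0 : ℝ) ≤ k := by exact_mod_cast hk
      have hk2 : (0 : ℝ) < (k : ℝ) ^ 2 := by positivity
      have h1 : ((k + 1 : ℕ) : ℝ) ≤ 2 * k := by push_cast; linarith
      have h2 : (((P.B : ℝ) + 2) * P.lamTop Φ.G k) ^ 2 * (k : ℝ) ^ 2
          = (((P.B : ℝ) + 2) * (3 / P.δ)) ^ 2 * Φ.G ^ 2 := by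
        rw [← mul_pow, ← mul_pow, mul_assoc, hLk]; ring
      have h3 : 0 ≤ (P.M : ℝ) * (((P.B : ℝ) + 2) * P.lamTop Φ.G k) ^ 2 := by positivity
      have h4 : ((k + 1 : ℕ) : ℝ) * ((P.M : ℝ) * (((P.B : ℝ) + 2) * P.lamTop Φ.G k) ^ 2)
          ≤ 2 * k * ((P.M : ℝ) * (((P.B : ℝ) + 2) * P.lamTop Φ.G k) ^ 2) :=
        mul_le_mul_of_nonneg_right h1 h3
      refine le_trans h4 ?_
      have hkp : (0 : ℝ) < k := by linarith
      have h5 : 2 * k * ((P.M : ℝ) * (((P.B : ℝ) + 2) * P.lamTop Φ.G k) ^ 2) * k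
          ≤ ((P.ζ : ℝ) * Φ.G / 2) ^ 2 * k := by
        calc 2 * k * ((P.M : ℝ) * (((P.B : ℝ) + 2) * P.lamTop Φ.G k) ^ 2) * k
            = 2 * (P.M : ℝ) * ((((P.B : ℝ) + 2) * P.lamTop Φ.G k) ^ 2 * (k : ℝ) ^ 2) := by ring
          _ = 8 * (P.M : ℝ) * (((P.B : ℝ) + 2) * (3 / P.δ)) ^ 2 * (Φ.G ^ 2 / 4) := by rw [h2]; ring
          _ ≤ (P.ζ : ℝ) ^ 2 * P.k0 * (Φ.G ^ 2 / 4) :=
              mul_le_mul_of_nonneg_right hp6 (by positivity)
          _ ≤ (P.ζ : ℝ) ^ 2 * k * (Φ.G ^ 2 / 4) := by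
              apply mul_le_mul_of_nonneg_right _ (by positivity)
              exact mul_le_mul_of_nonneg_left hk0 (sq_nonneg _)
          _ = ((P.ζ : ℝ) * Φ.G / 2) ^ 2 * k := by ring
      exact le_of_mul_le_mul_right h5 hkp)
    (by
      rw [hL]
      change (P.toData Φ k hkpos R' hR').bound (k + 1)
        < P.lamTop Φ.G k * (((k + 1 : ℕ) : ℝ) - Φ.n0)
      have h1 : 3 * Φ.G ≤ P.lamTop Φ.G k * (P.δ * k) := by
        apply le_of_eq
        unfold lamTop; field_simp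
      have h2 : (P.δ : ℝ) * k ≤ ((k + 1 : ℕ) : ℝ) - Φ.n0 := by push_cast; nlinarith
      have h3 : P.lamTop Φ.G k * (P.δ * k) ≤ P.lamTop Φ.G k * (((k + 1 : ℕ) : ℝ) - Φ.n0) :=
        mul_le_mul_of_nonneg_left h2 hL0.le
      have h4 : 10 * (P.ε : ℝ) ≤ 1 := by exact_mod_cast P.hε1
      have h5 : 0 ≤ P.lamBot Φ.G k * Φ.n0 := mul_nonneg (P.lamBot_pos hG hkpos).le Φ.hn0
      nlinarith)
  refine ⟨t, by omega, hc, le_trans hcost ?_⟩
  exact hbd

end Params

end Crest.Agent.R310.SlackK
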