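import Crest.Agent.R310.Frac

/-!
# R310, block FRAC: `fracY` is a nearly optimal fractional solution
-/

set_option linter.dupNamespace false
set_option autoImplicit false

namespace Crest.Agent.R310

open Crest.Agent.Lib.PT Crest.Agent.Lib.PT.Arith Crest.LogicCS.KMedian Finset

/-! ### the run as a sequence -/

/-- facility of round `t` -/
def rA (r : RI) (k : ℕ) (A : ℚ) (t : ℕ) : ℕ := fBest r k A (fHist r k A t)
/-- mask of round `t` -/
def rM (r : RI) (k : ℕ) (A : ℚ) (t : ℕ) : List Bool := fMask r k A (fHist r k A t) (rA r k A t)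
/-- accepted clients of round `t` -/
def rS (r : RI) (k : ℕ) (A : ℚ) (t : ℕ) : Finset ℕ :=
  (range (riN r)).filter (fun j => (rM r k A t).getD j false = true)

theorem fHist_getD (r : RI) (k : ℕ) (A : ℚ) {t s : ℕ} (hs : s < t) :
    (fHist r k A t).getD s (0, []) = (rA r k A s, rM r k A s) := by
  induction t with
  | zero => omega
  | succ t ih =>
    rw [fHist_succ]
    unfold fStep
    have hl := length_fHist r k A t
    rcases Nat.lt_or_ge s t with h | h
    · rw [List.getD_append _ _ _ _ (by omega)]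
      exact ih h
    · have : s = t := by omega
      subst this
      rw [List.getD_append_right _ _ _ _ (by omega), hl]
      simp [rA, rM]

theorem hFac_fHist (r : RI) (k : ℕ) (A : ℚ) {t s : ℕ} (hs : s < t) :
    hFac (fHist r k A t) s = rA r k A s := by
  unfold hFac; rw [fHist_getD r k A hs]

theorem hAcc_fHist (r : RI) (k : ℕ) (A : ℚ) {t s : ℕ} (hs : s < t) (j : ℕ) :
    hAcc (fHist r k A t) s j = (rM r k A s).getD j false := by
  unfold hAcc; rw [fHist_getD r k A hs]

theorem rM_getD (r : RI) (k : ℕ) (A : ℚ) (s : ℕ) {j : ℕ} (hj : j < riN r) :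
    (rM r k A s).getD j false = decide (riC r j = true ∧ riD r (rA r k A s) j ≤ A ∧
      hR0 r k A (fHist r k A s) * riD r (rA r k A s) j / A < hRJ k (fHist r k A s) j) := by
  unfold rM fMask
  rw [List.getD_eq_getElem?_getD, List.getElem?_map, List.getElem?_range hj]
  rfl

theorem mem_rS {r : RI} {k : ℕ} {A : ℚ} {s j : ℕ} :
    j ∈ rS r k A s ↔ j < riN r ∧ (rM r k A s).getD j false = true := by
  unfold rS; rw [Finset.mem_filter, Finset.mem_range]

theorem hCov_eq (r : RI) (k : ℕ) (A : ℚ) (t : ℕ) {j : ℕ} (hj : j < riN r) :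
    hCov (fHist r k A t) j = ((range t).filter (fun s => j ∈ rS r k A s)).card := by
  unfold hCov
  rw [length_fHist, Finset.card_filter]
  refine Finset.sum_congr rfl fun s hs => ?_
  rw [hAcc_fHist r k A (mem_range.1 hs)]
  by_cases h : (rM r k A s).getD j false = true
  · rw [if_pos h, if_pos (mem_rS.2 ⟨hj, h⟩)]
  · rw [if_neg h, if_neg (fun h' => h (mem_rS.1 h').2)]

theorem hRJ_eq (r : RI) (k : ℕ) (A : ℚ) (t : ℕ) {j : ℕ} (hj : j < riN r) :
    hRJ k (fHist r k A t) j = FracM.RJ k (rS r k A) t j := by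
  unfold hRJ FracM.RJ
  rw [length_fHist, hCov_eq r k A t hj]

theorem hCost_eq (r : RI) (k : ℕ) (A : ℚ) (t : ℕ) :
    hCost r (fHist r k A t) = FracM.costH (riD r) (rA r k A) (rS r k A) t := by
  unfold hCost FracM.costH
  rw [length_fHist]
  refine Finset.sum_congr rfl fun s hs => ?_
  rw [hFac_fHist r k A (mem_range.1 hs), rS, Finset.sum_filter]
  refine Finset.sum_congr rfl fun j _ => ?_
  rw [hAcc_fHist r k A (mem_range.1 hs)]

theorem hR0_eq (r : RI) (k : ℕ) (A : ℚ) (t : ℕ) :
    hR0 r k A (fHist r k A t) = FracM.R0 (riD r) k A (rA r k A) (rS r k A) t := by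
  unfold hR0 FracM.R0
  rw [length_fHist, hCost_eq]

/-- set of clients, as natural numbers -/
def cliS (r : RI) : Finset ℕ := (range (riN r)).filter (fun j => riC r j = true)

theorem fGain_eq (r : RI) (k : ℕ) (A : ℚ) (t i : ℕ) :
    fGain r k A (fHist r k A t) i = FracM.gain (cliS r) (riD r) A (FracM.RJ k (rS r k A) t)
      (FracM.R0 (riD r) k A (rA r k A) (rS r k A) t) i := by
  unfold fGain FracM.gain cliS
  rw [Finset.sum_filter]
  refine Finset.sum_congr rfl fun j hj => ?_
  rw [hRJ_eq r k A t (mem_range.1 hj), hR0_eq]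
  by_cases h1 : riC r j = true
  · by_cases h2 : riD r i j ≤ A
    · rw [if_pos ⟨h1, h2⟩, if_pos h1, if_pos h2]
    · rw [if_neg (fun h => h2 h.2), if_pos h1, if_neg h2]
  · rw [if_neg (fun h => h1 h.1), if_neg h1]

theorem rS_eq (r : RI) (k : ℕ) (A : ℚ) (t : ℕ) :
    rS r k A t = FracM.acc (cliS r) (riD r) A (FracM.RJ k (rS r k A) t)
      (FracM.R0 (riD r) k A (rA r k A) (rS r k A) t) (rA r k A t) := by
  ext j
  unfold FracM.acc cliS
  rw [mem_rS, Finset.mem_filter, Finset.mem_filter, mem_range]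
  constructor
  · rintro ⟨h1, h2⟩
    rw [rM_getD r k A t h1, decide_eq_true_eq, hR0_eq, hRJ_eq r k A t h1] at h2
    exact ⟨⟨h1, h2.1⟩, h2.2⟩
  · rintro ⟨⟨h1, h2⟩, h3⟩
    refine ⟨h1, ?_⟩
    rw [rM_getD r k A t h1, decide_eq_true_eq, hR0_eq, hRJ_eq r k A t h1]
    exact ⟨h2, h3⟩

theorem run_raw (r : RI) (k : ℕ) (A : ℚ) (M : ℕ) :
    FracM.Run (cliS r) (riD r) k A (rA r k A) (rS r k A) (facL r).toFinset M where
  S_eq := fun t _ => rS_eq r k A t
  opt := by
    intro t _ i hi
    rw [← fGain_eq, ← fGain_eq]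
    exact fBest_max r k A _ (List.mem_toFinset.1 hi)

/-! ### distances -/

theorem riD_nonneg {I : Instance} (hI : I.Valid) (i j : ℕ) : 0 ≤ riD (raw I) i j := by
  by_cases hi : i < I.N
  · by_cases hj : j < I.N
    · have := riD_raw I ⟨i, hi⟩ ⟨j, hj⟩
      simp only at this
      rw [this]
      by_cases hij : (⟨i, hi⟩ : Fin I.N) = ⟨j, hj⟩
      · rw [hij, hI.1]
      · exact (hI.2.1 _ _ hij).le
    · have : riD (raw I) i j = 0 := by
        unfold riD
        apply List.getD_eq_default
        rw [List.getD_eq_getElem?_getD]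
        unfold raw
        simp only [List.getElem?_map]
        rcases h : (List.finRange I.N)[i]? with _ | x
        · simp
        · simp; omega
      rw [this]
  · have : riD (raw I) i j = 0 := by
      unfold riD raw
      simp only
      have h1 : ((List.finRange I.N).map fun i => (List.finRange I.N).map fun j => I.dist i j).getD i []
          = [] := List.getD_eq_default _ _ (by simp; omega)
      rw [h1]; rfl
    rw [this]

theorem fracM_le_length {r : RI} {k q : ℕ} {A : ℚ} (hk : 1 ≤ k) :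
    fracM r k q ≤ (fracY r k q A).length := by
  rw [length_fracY]
  unfold fracM fracT
  have h1 : q * (q - 1) ≤ q ^ 2 := by
    rw [pow_two]; exact Nat.mul_le_mul_left _ (Nat.sub_le _ _)
  have h2 : k ≤ k ^ 2 := by
    rw [pow_two]; exact Nat.le_mul_of_pos_left _ hk
  calc 2 * k * riN r ^ 2 * q * (q - 1) = 2 * k * riN r ^ 2 * (q * (q - 1)) := by ring
    _ ≤ 2 * k ^ 2 * riN r ^ 2 * q ^ 2 := by
      apply Nat.mul_le_mul _ h1
      apply Nat.mul_le_mul_right
      omega

theorem fracT_mul {r : RI} {k q : ℕ} : fracT r k q * (q - 1) = k * q * fracM r k q := by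
  unfold fracM fracT; ring

/-- **The fractional solution.** -/
theorem fracY_spec {I : Instance} (hI : I.Valid) {k q : ℕ} (hk : 1 ≤ k) {A : ℚ}
    (hA : 0 < A) {O : Finset (Fin I.N)} (hO : O ⊆ I.facilities) (hO0 : O.Nonempty)
    (hOk : O.card ≤ k) (hOc : I.cost O ≤ A) :
    ∑ j ∈ cliS (raw I), ∑ e ∈ (range (fracY (raw I) k q A).length).filter
        (fun e => near (raw I) (fracY (raw I) k q A) (fracM (raw I) k q) j e = true),
        riD (raw I) ((fracY (raw I) k q A).getD e 0) j
      ≤ ((2 * k * riN (raw I) ^ 2 * q * (q + 1) : ℕ) : ℚ) * A := by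
  classical
  set r := raw I with hr
  set Y := fracY r k q A with hY
  have hN1 : 1 ≤ riN r := by
    rw [riN_raw]
    obtain ⟨x, _⟩ := hO0
    exact Nat.one_le_iff_ne_zero.2 (fun h => by have := x.2; omega)
  have hd : ∀ i j, 0 ≤ riD r i j := fun i j => riD_nonneg hI i j
  -- competitor
  have hassign : ∀ j : ℕ, ∃ o : ℕ, j ∈ cliS r → (o ∈ O.image (fun x : Fin I.N => (x : ℕ)) ∧
      ∀ hj : j < I.N, riD r o j = O.inf' hO0 (I.dist ⟨j, hj⟩)) := by
    intro j
    by_cases hj : j < I.N
    · obtain ⟨o, ho, he⟩ := Finset.exists_mem_eq_inf' hO0 (I.dist ⟨j, hj⟩)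
      refine ⟨o, fun _ => ⟨Finset.mem_image_of_mem _ ho, fun hj' => ?_⟩⟩
      rw [he]
      have := riD_raw I o ⟨j, hj⟩
      simp only at this
      rw [hr, this, hI.2.2.1]
    · refine ⟨0, fun h => ?_⟩
      unfold cliS at h
      rw [Finset.mem_filter, mem_range, riN_raw] at h
      exact absurd h.1 hj
  choose o ho using hassign
  have hcl : ∀ j ∈ cliS r, j < I.N := by
    intro j h
    unfold cliS at h
    rw [Finset.mem_filter, mem_range, riN_raw] at h
    exact h.1
  have hOF : O.image (fun x : Fin I.N => (x : ℕ)) ⊆ (facL r).toFinset := by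
    intro x hx
    obtain ⟨y, hy, rfl⟩ := Finset.mem_image.1 hx
    exact List.mem_toFinset.2 (mem_facL.2 ⟨y.2, hO hy⟩)
  have hcost : ∑ j ∈ cliS r, riD r (o j) j ≤ A := by
    refine le_trans (le_of_eq ?_) hOc
    unfold Instance.cost
    rw [dif_pos hO0]
    have h1 : ∑ j ∈ cliS r, riD r (o j) j = ∑ j ∈ cliS r,
        (if hj : j < I.N then O.inf' hO0 (I.dist ⟨j, hj⟩) else 0) := by
      refine Finset.sum_congr rfl fun j hj => ?_
      rw [dif_pos (hcl j hj)]
      exact (ho j hj).2 (hcl j hj)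
    rw [h1]
    unfold cliS
    rw [Finset.sum_filter, riN_raw, Finset.sum_range, ← Finset.sum_filter]
    have hf : Finset.univ.filter (fun j : Fin I.N => riC r j = true) = I.clients := by
      ext j; rw [hr]; simp [riC_raw]
    rw [hf]
    refine Finset.sum_congr rfl fun j _ => ?_
    rw [dif_pos j.2]
  have hn : (cliS r).card ≤ riN r := by
    unfold cliS
    refine (Finset.card_filter_le _ _).trans ?_
    rw [Finset.card_range]
  obtain ⟨h1, h2⟩ := (run_raw r k A (2 * k ^ 2 * riN r ^ 2 * q ^ 2)).spec (n := riN r) (q := q)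
    hk hn hN1 hA hd (O.image (fun x : Fin I.N => (x : ℕ))) hOF
    ((Finset.card_image_le).trans hOk) o (fun j hj => (ho j hj).1) hcost
  have hlen : Y.length = 2 * k ^ 2 * riN r ^ 2 * q ^ 2 := by rw [hY, length_fracY]; rfl
  have hYget : ∀ s < Y.length, Y.getD s 0 = rA r k A s := by
    intro s hs
    rw [hY, fracY]
    rw [hlen] at hs
    have h3 := fHist_getD r k A (t := fracT r k q) (s := s) hs
    rw [List.getD_eq_getElem?_getD, List.getElem?_map]
    rw [List.getD_eq_getElem?_getD] at h3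
    have hl := length_fHist r k A (fracT r k q)
    have hs' : s < (fHist r k A (fracT r k q)).length := by rw [hl]; exact hs
    rw [List.getElem?_eq_getElem hs'] at h3 ⊢
    simp only [Option.getD_some, Option.map_some] at h3 ⊢
    rw [h3]
  have hmain : ∀ j ∈ cliS r, ∑ e ∈ (range Y.length).filter
        (fun e => near r Y (fracM r k q) j e = true), riD r (Y.getD e 0) j
      ≤ ∑ e ∈ (range Y.length).filter (fun e => j ∈ rS r k A e), riD r (Y.getD e 0) j := by
    intro j hj
    refine near_min r Y (fracM_le_length hk) j (Finset.filter_subset _ _) ?_ (fun e _ => hd _ _)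
    have := h1 j hj
    rw [hlen]
    exact this
  refine (Finset.sum_le_sum hmain).trans ?_
  refine le_trans (le_of_eq ?_) h2
  unfold FracM.costH
  rw [← hlen]
  have e1 : ∀ j ∈ cliS r, ∑ e ∈ (range Y.length).filter (fun e => j ∈ rS r k A e),
      riD r (Y.getD e 0) j = ∑ e ∈ range Y.length, if j ∈ rS r k A e then riD r (rA r k A e) j else 0 := by
    intro j _
    rw [Finset.sum_filter]
    refine Finset.sum_congr rfl fun e he => ?_
    rw [hYget e (mem_range.1 he)]
  rw [Finset.sum_congr rfl e1, Finset.sum_comm]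
  refine Finset.sum_congr rfl fun e _ => ?_
  rw [← Finset.sum_filter]
  refine Finset.sum_congr ?_ (fun _ _ => rfl)
  ext j
  rw [Finset.mem_filter]
  constructor
  · exact fun h => h.2
  · intro h
    refine ⟨?_, h⟩
    rw [rS_eq] at h
    exact Finset.mem_of_mem_filter j h

/-- average form: `∑_j C_j ≤ (q+1)/(q-1) A` -/
theorem fracY_avg {I : Instance} (hI : I.Valid) {k q : ℕ} (hk : 1 ≤ k) (hq : 2 ≤ q) {A : ℚ}
    (hA : 0 < A) {O : Finset (Fin I.N)} (hO : O ⊆ I.facilities) (hO0 : O.Nonempty)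
    (hOk : O.card ≤ k) (hOc : I.cost O ≤ A) :
    ∑ j ∈ cliS (raw I), (1 / (fracM (raw I) k q : ℚ)) *
      ∑ e ∈ (range (fracY (raw I) k q A).length).filter
        (fun e => near (raw I) (fracY (raw I) k q A) (fracM (raw I) k q) j e = true),
        riD (raw I) ((fracY (raw I) k q A).getD e 0) j
      ≤ ((q : ℚ) + 1) / (q - 1) * A := by
  have h := fracY_spec hI (k := k) (q := q) hk hA hO hO0 hOk hOc
  rw [← Finset.mul_sum]
  have hN1 : (1 : ℚ) ≤ riN (raw I) := by
    rw [riN_raw]
    obtain ⟨x, _⟩ := hO0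
    exact_mod_cast Nat.one_le_iff_ne_zero.2 (fun h => by have := x.2; omega)
  have hkq : (1 : ℚ) ≤ k := by exact_mod_cast hk
  have hqq : (2 : ℚ) ≤ q := by exact_mod_cast hq
  have hM : (fracM (raw I) k q : ℚ) = 2 * k * riN (raw I) ^ 2 * q * ((q : ℚ) - 1) := by
    unfold fracM
    have : ((q - 1 : ℕ) : ℚ) = (q : ℚ) - 1 := by
      rw [Nat.cast_sub (by omega)]; simp
    push_cast
    rw [this]
  have hq1 : (0 : ℚ) < (q : ℚ) - 1 := by linarith
  have hMpos : (0 : ℚ) < 2 * k * riN (raw I) ^ 2 * q * ((q : ℚ) - 1) := by positivity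
  rw [hM, one_div, inv_mul_le_iff₀ hMpos]
  refine h.trans (le_of_eq ?_)
  push_cast
  field_simp

end Crest.Agent.R310
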