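import Crest.Agent.R310.LocalSearchCode

/-!
# R310, block GRID: guessing the optimal cost and the slack

* `gridL q r` : constant-length list of rational guesses `A` (built on the local search);
* `exists_slack` : the number `s` with `OPT_{k-s} ≤ (1+e) OPT_k < OPT_{k-s-1}`;
* `kmedian_of_guess` : the final assembly, where the candidate generator may use a guess `A` with
  `OPT ≤ A ≤ (1+1/q) OPT` and the slack `s`.
-/

set_option linter.dupNamespace false
set_option autoImplicit false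

namespace Crest.Agent.R310

open Crest.Agent.Lib.PT Crest.Agent.Lib.PT.Arith Crest.LogicCS.KMedian

/-- the constant factors of the grid -/
def gridC (q : ℕ) : List ℚ := (List.range (3 * q + 1)).map (fun i => (1 + 1 / (q : ℚ)) ^ i / 6)

/-- guesses of the optimal cost -/
def gridL (q : ℕ) (r : RI) : List ℚ := (gridC q).map (fun a => costL r (localS r) * a)

theorem ptf_gridL (q : ℕ) {γ : Type} [PTCode γ] {r : γ → RI} (hr : PTF r) :
    PTF (fun c => gridL q (r c)) := by
  refine PTF.map (l := fun _ => gridC q) (f := fun c a => costL (r c) (localS (r c)) * a)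
    (PTF.const _) ?_
  have hr' : PTF (fun p : γ × ℚ => r p.1) := PTF.comp hr PTF.fst
  exact PTF.ratMul (ptf_costL hr' (ptf_localS hr')) PTF.snd

theorem length_gridL (q : ℕ) (r : RI) : (gridL q r).length = 3 * q + 1 := by
  simp [gridL, gridC]

/-- some guess is right up to the factor `1 + 1/q` -/
theorem exists_guess {q : ℕ} (hq : 0 < q) {I : Instance} (hI : I.Valid) {O : Finset (Fin I.N)}
    (hO : O ⊆ I.facilities) (hO0 : O.Nonempty) (hOk : O.card ≤ I.k)
    (hopt : ∀ S : Finset (Fin I.N), S ⊆ I.facilities → S.Nonempty → S.card ≤ I.k →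
      I.cost O ≤ I.cost S) (hpos : 0 < I.cost O) :
    ∃ A ∈ gridL q (raw I), I.cost O ≤ A ∧ A ≤ (1 + 1 / (q : ℚ)) * I.cost O := by
  obtain ⟨l1, l2, l3⟩ := localS_spec hI
  set c := localS (raw I) with hc
  have hk : 1 ≤ I.k := hI.2.2.2.2.1
  have hne : c ≠ [] := by
    intro h
    rw [h] at l1
    simp at l1
    omega
  have hlt : ∀ i ∈ c, i < I.N := fun i hi => (l2 i hi).1
  set L := I.cost (setOf I c) with hL
  have hLO : L ≤ 6 * I.cost O := l3 O hO hO0 hOk
  have hOL : I.cost O ≤ L := by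
    refine hopt _ ?_ (setOf_nonempty hne hlt) ((card_setOf_le _ _).trans l1.le)
    intro i hi
    obtain ⟨h1, h2⟩ := l2 i (mem_setOf.1 hi)
    exact h2
  have hLpos : 0 < L := lt_of_lt_of_le hpos hOL
  have hqr : (0 : ℚ) < q := by exact_mod_cast hq
  set b : ℚ := 1 + 1 / (q : ℚ) with hb
  have hb1 : 1 ≤ b := by rw [hb]; linarith [div_pos one_pos hqr]
  have hb0 : 0 < b := by linarith
  -- the last guess is large enough
  have hlast : I.cost O ≤ L * (b ^ (3 * q) / 6) := by
    have h2 : (2 : ℚ) ≤ b ^ q := by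
      have := one_add_mul_le_pow (a := 1 / (q : ℚ)) (by linarith [div_pos one_pos hqr]) q
      rw [mul_one_div_cancel hqr.ne'] at this
      rw [hb]; linarith
    have h8 : (8 : ℚ) ≤ b ^ (3 * q) := by
      have e : b ^ (3 * q) = (b ^ q) ^ 3 := by rw [mul_comm, pow_mul]
      rw [e]
      have := pow_le_pow_left₀ (by norm_num : (0 : ℚ) ≤ 2) h2 3
      norm_num at this
      exact this
    nlinarith
  have hex : ∃ i, I.cost O ≤ L * (b ^ i / 6) := ⟨3 * q, hlast⟩
  classical
  obtain ⟨i, hi, hmin⟩ : ∃ i, I.cost O ≤ L * (b ^ i / 6) ∧ ∀ j < i, ¬ I.cost O ≤ L * (b ^ j / 6) :=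
    ⟨Nat.find hex, Nat.find_spec hex, fun j hj => Nat.find_min hex hj⟩
  have hile : i ≤ 3 * q := by
    by_contra h
    push Not at h
    exact hmin _ h hlast
  refine ⟨L * (b ^ i / 6), ?_, hi, ?_⟩
  · unfold gridL gridC
    rw [List.mem_map]
    refine ⟨b ^ i / 6, List.mem_map.2 ⟨i, List.mem_range.2 (by omega), rfl⟩, ?_⟩
    rw [← hc, costL_raw hne hlt]
  · rcases Nat.eq_zero_or_pos i with h0 | h0
    · rw [h0, pow_zero]
      have : L * (1 / 6) ≤ I.cost O := by linarith
      nlinarith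
    · obtain ⟨j, rfl⟩ : ∃ j, i = j + 1 := ⟨i - 1, by omega⟩
      have := hmin j (by omega)
      push Not at this
      rw [pow_succ]
      nlinarith

/-- opening more does not cost more -/
theorem cost_anti {I : Instance} {S T : Finset (Fin I.N)} (h : S ⊆ T) (hS : S.Nonempty) :
    I.cost T ≤ I.cost S := by
  unfold Instance.cost
  rw [dif_pos hS, dif_pos (hS.mono h)]
  exact Finset.sum_le_sum fun j _ => Finset.inf'_mono _ h hS

/-- a set of exactly `k` facilities with the smallest cost -/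
theorem exists_opt {I : Instance} (hI : I.Valid) :
    ∃ O : Finset (Fin I.N), O ⊆ I.facilities ∧ O.card = I.k ∧ O.Nonempty ∧
      ∀ S : Finset (Fin I.N), S ⊆ I.facilities → S.Nonempty → S.card ≤ I.k →
        I.cost O ≤ I.cost S := by
  classical
  have hk : 1 ≤ I.k := hI.2.2.2.2.1
  have hkF : I.k ≤ I.facilities.card := hI.2.2.2.2.2
  set P := I.facilities.powerset.filter (fun S => S.card = I.k) with hP
  have hPne : P.Nonempty := by
    obtain ⟨S, hS, hc⟩ := Finset.exists_subset_card_eq hkF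
    exact ⟨S, by rw [hP, Finset.mem_filter, Finset.mem_powerset]; exact ⟨hS, hc⟩⟩
  obtain ⟨O, hO, hmin⟩ := Finset.exists_min_image P (fun S => I.cost S) hPne
  rw [hP, Finset.mem_filter, Finset.mem_powerset] at hO
  refine ⟨O, hO.1, hO.2, Finset.card_pos.1 (by omega), fun S hS hS0 hSk => ?_⟩
  obtain ⟨T, hST, hTF, hTc⟩ := Finset.exists_subsuperset_card_eq hS hSk hkF
  refine (hmin T ?_).trans (cost_anti hST hS0)
  rw [hP, Finset.mem_filter, Finset.mem_powerset]
  exact ⟨hTF, hTc⟩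

/-- the slack `s`: the largest `s` with `OPT_{k-s} ≤ (1+e) OPT_k` -/
theorem exists_slack {I : Instance} (hI : I.Valid) {e : ℚ} (he : 0 ≤ e) {O : Finset (Fin I.N)}
    (hO : O ⊆ I.facilities) (hO0 : O.Nonempty) (hOk : O.card = I.k) (hcost : 0 ≤ I.cost O) :
    ∃ s : ℕ, s < I.k ∧
      (∃ Q : Finset (Fin I.N), Q ⊆ I.facilities ∧ Q.Nonempty ∧ Q.card + s ≤ I.k ∧
        I.cost Q ≤ (1 + e) * I.cost O) ∧
      ∀ S' : Finset (Fin I.N), S' ⊆ I.facilities → S'.Nonempty → S'.card + (s + 1) ≤ I.k →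
        (1 + e) * I.cost O < I.cost S' := by
  classical
  have hk : 1 ≤ I.k := hI.2.2.2.2.1
  let p : ℕ → Prop := fun s => ∃ Q : Finset (Fin I.N), Q ⊆ I.facilities ∧ Q.Nonempty ∧
    Q.card + s ≤ I.k ∧ I.cost Q ≤ (1 + e) * I.cost O
  have hp0 : p 0 := ⟨O, hO, hO0, by omega, by nlinarith⟩
  have hfin : ∀ s, p s → s < I.k := by
    rintro s ⟨Q, _, hQ0, hQk, _⟩
    have := Finset.card_pos.2 hQ0
    omega
  obtain ⟨s, hs, hmax⟩ : ∃ s, p s ∧ ∀ t, p t → t ≤ s := by
    have hex : ∃ n, ∀ t, p t → t ≤ n := ⟨I.k, fun t ht => (hfin t ht).le⟩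
    refine ⟨Nat.find hex, ?_, Nat.find_spec hex⟩
    by_contra hcon
    have h1 := Nat.find_spec hex
    rcases Nat.eq_zero_or_pos (Nat.find hex) with h0 | h0
    · rw [h0] at hcon; exact hcon hp0
    · refine Nat.find_min hex (m := Nat.find hex - 1) (by omega) (fun t ht => ?_)
      have h2 := h1 t ht
      rcases Nat.lt_or_ge t (Nat.find hex) with h3 | h3
      · omega
      · have : t = Nat.find hex := le_antisymm h2 h3
        rw [this] at ht; exact absurd ht hcon
  refine ⟨s, hfin s hs, hs, fun S' hS' hS0 hSk => ?_⟩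
  by_contra hcon
  push Not at hcon
  have := hmax (s + 1) ⟨S', hS', hS0, hSk, hcon⟩
  omega

/-- the generator with guesses -/
def guessGen (q : ℕ) (G : RI × ℚ × ℕ → List (List ℕ)) (r : RI) : List (List ℕ) :=
  localS r :: (gridL q r).flatMap (fun A => (List.range (riN r)).flatMap (fun s => G (r, A, s)))

theorem ptf_guessGen (q : ℕ) {G : RI × ℚ × ℕ → List (List ℕ)} (hG : PTF G) :
    PTF (guessGen q G) := by
  unfold guessGen
  refine PTF.listCons (ptf_localS PTF.id) ?_
  refine PTF.flatMap (l := fun r => gridL q r)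
    (f := fun r A => (List.range (riN r)).flatMap (fun s => G (r, A, s))) (ptf_gridL q PTF.id) ?_
  refine PTF.flatMap (γ := RI × ℚ) (l := fun p => List.range (riN p.1))
    (f := fun p s => G (p.1, p.2, s)) (PTF.range (ptu_riN PTF.fst)) ?_
  exact PTF.comp (g := G) (f := fun x : (RI × ℚ) × ℕ => (x.1.1, x.1.2, x.2)) hG (by fun_prop)

/-- **Final assembly.**  `G (raw I, A, s)` must contain a good candidate whenever `A` is a guess of
the optimal cost (up to the factor `1 + 1/q`) and `s` is the slack. -/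
theorem kmedian_of_guess (γ : ℝ) (hγ : 0 ≤ γ) (q : ℕ) (hq : 0 < q) (e : ℚ) (he : 0 ≤ e)
    (G : RI × ℚ × ℕ → List (List ℕ)) (hG : PTF G)
    (hgood : ∀ I : Instance, I.Valid → ∀ O Q : Finset (Fin I.N), ∀ (A : ℚ) (s : ℕ),
      O ⊆ I.facilities → O.card = I.k → O.Nonempty →
      (∀ S : Finset (Fin I.N), S ⊆ I.facilities → S.Nonempty → S.card ≤ I.k →
        I.cost O ≤ I.cost S) →
      0 < I.cost O → I.cost O ≤ A → A ≤ (1 + 1 / (q : ℚ)) * I.cost O →
      s < I.k → Q ⊆ I.facilities → Q.Nonempty → Q.card + s ≤ I.k →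
      I.cost Q ≤ (1 + e) * I.cost O →
      (∀ S' : Finset (Fin I.N), S' ⊆ I.facilities → S'.Nonempty → S'.card + (s + 1) ≤ I.k →
        (1 + e) * I.cost O < I.cost S') →
      ∃ c ∈ G (raw I, A, s), c ≠ [] ∧ c.length ≤ I.k ∧
        (∀ i ∈ c, ∃ hi : i < I.N, (⟨i, hi⟩ : Fin I.N) ∈ I.facilities) ∧
        (I.cost (setOf I c) : ℝ) ≤ γ * (I.cost O : ℝ)) :
    ∃ f : List Bool → List Bool, Crest.Complexity.PolyTime f ∧
      ∀ I : Instance, I.Valid →
        I.opened f ⊆ I.facilities ∧ (I.opened f).Nonempty ∧ (I.opened f).card ≤ I.k ∧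
        ∀ S : Finset (Fin I.N), S ⊆ I.facilities → S.Nonempty → S.card ≤ I.k →
          (I.cost (I.opened f) : ℝ) ≤ γ * (I.cost S : ℝ) := by
  refine kmedian_of_candidates γ (guessGen q G) (ptf_guessGen q hG) (fun I hI => ?_)
  obtain ⟨O, hO, hOk, hO0, hopt⟩ := exists_opt hI
  have hk : 1 ≤ I.k := hI.2.2.2.2.1
  rcases (cost_nonneg hI O).eq_or_lt with hz | hpos
  · obtain ⟨l1, l2, l3⟩ := localS_spec hI
    refine ⟨localS (raw I), by simp [guessGen], ?_, l1.le, l2, fun S hS hS0 hSk => ?_⟩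
    · intro h; rw [h] at l1; simp at l1; omega
    · have h1 := l3 O hO hO0 hOk.le
      rw [← hz, mul_zero] at h1
      have h2 : (0 : ℝ) ≤ γ * (I.cost S : ℝ) :=
        mul_nonneg hγ (by exact_mod_cast cost_nonneg hI S)
      have h3 : ((I.cost (setOf I (localS (raw I))) : ℚ) : ℝ) ≤ 0 := by exact_mod_cast h1
      linarith
  · obtain ⟨A, hA, hA1, hA2⟩ := exists_guess hq hI hO hO0 hOk.le hopt hpos
    obtain ⟨s, hs, ⟨Q, hQ, hQ0, hQk, hQc⟩, hstab⟩ := exists_slack hI he hO hO0 hOk hpos.le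
    obtain ⟨c, hc, hc0, hck, hcF, hcost⟩ := hgood I hI O Q A s hO hOk hO0 hopt hpos hA1 hA2 hs hQ
      hQ0 hQk hQc hstab
    refine ⟨c, ?_, hc0, hck, hcF, fun S hS hS0 hSk => ?_⟩
    · unfold guessGen
      refine List.mem_cons_of_mem _ (List.mem_flatMap.2 ⟨A, hA, List.mem_flatMap.2 ⟨s, ?_, hc⟩⟩)
      rw [List.mem_range, riN_raw]
      have h1 : I.facilities.card ≤ I.N := by
        have := Finset.card_le_univ I.facilities
        simpa using this
      have h2 : I.k ≤ I.facilities.card := hI.2.2.2.2.2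
      omega
    · refine hcost.trans (mul_le_mul_of_nonneg_left ?_ hγ)
      exact_mod_cast hopt S hS hS0 hSk

end Crest.Agent.R310
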