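import Mathlib

/-!
# R310: exact `k`, tight world, small `s` (helper201)

`O` = reference (optimal) solution, `S` = an `A`-approximation with at most `|O|` centres, and the
instance is stable: closing `s + 1` centres costs a factor `1 + e`.  Then `S` and `O` differ only in
`C (s + 1)` places, and after guessing those places (`X ⊆ S`, `Y ⊆ F`) the explicit solution
`Y ∪ v '' (S \ X)`, `v t` = the best facility for the clients in a quarter ball around `t`, costs at most
`(1 + 32 θ) cost O`.
-/

set_option autoImplicit false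

namespace Crest.Agent.R310.Tight

open Finset

variable {P R : Type*} [DecidableEq P] [Field R] [LinearOrder R] [IsStrictOrderedRing R]

/-- Weighted k-median cost (same convention for the empty set as `Instance.cost`). -/
noncomputable def cst (d : P → P → R) (w : P → R) (D : Finset P) (S : Finset P) : R :=
  if h : S.Nonempty then ∑ j ∈ D, w j * S.inf' h (d j) else 0

/-- The core of `t` with respect to the current centre set `Q`. -/
def core (d : P → P → R) (D Q : Finset P) (t : P) : Finset P :=
  D.filter fun j => ∀ r ∈ Q, r ≠ t → 4 * d j t ≤ d t r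

/-- A self map without fixed points on `L` (values anywhere): a third of `L` avoids its images. -/
theorem exists_indep {α : Type*} [DecidableEq α] (f : α → α) (n : ℕ) :
    ∀ L : Finset α, L.card = n → (∀ x ∈ L, f x ≠ x) →
      ∃ X ⊆ L, (∀ x ∈ X, f x ∉ X) ∧ L.card ≤ 3 * X.card := by
  induction n using Nat.strong_induction_on with
  | _ n ih =>
    intro L hL hf
    rcases L.eq_empty_or_nonempty with rfl | hne
    · exact ⟨∅, by simp, by simp, by simp⟩
    · -- an element with at most one preimage in L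
      obtain ⟨x, hxL, hx⟩ : ∃ x ∈ L, (L.filter fun y => f y = x).card ≤ 1 := by
        by_contra hcon
        push Not at hcon
        have h1 : ∑ x ∈ L, (L.filter fun y => f y = x).card ≤ L.card := by
          rw [← Finset.card_biUnion]
          · apply Finset.card_le_card
            intro y hy
            simp only [Finset.mem_biUnion, Finset.mem_filter] at hy
            obtain ⟨_, _, h, _⟩ := hy
            exact h
          · intro a _ b _ hab
            rw [Function.onFun, Finset.disjoint_left]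
            intro y hy hy'
            simp only [Finset.mem_filter] at hy hy'
            exact hab (hy.2.symm.trans hy'.2)
        have h2 : ∑ x ∈ L, 2 ≤ ∑ x ∈ L, (L.filter fun y => f y = x).card :=
          Finset.sum_le_sum fun x hx => hcon x hx
        simp only [Finset.sum_const, smul_eq_mul] at h2
        have : 0 < L.card := hne.card_pos
        omega
      set B : Finset α := insert x (insert (f x) (L.filter fun y => f y = x)) with hB
      have hBc : B.card ≤ 3 := by
        have := Finset.card_insert_le x (insert (f x) (L.filter fun y => f y = x))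
        have := Finset.card_insert_le (f x) (L.filter fun y => f y = x)
        rw [hB]
        omega
      have hlt : (L \ B).card < n := by
        rw [← hL]
        apply Finset.card_lt_card
        refine ⟨Finset.sdiff_subset, fun h => ?_⟩
        have := h hxL
        simp [hB] at this
      obtain ⟨X, hXL, hX, hc⟩ := ih _ hlt (L \ B) rfl (fun y hy => hf y (Finset.sdiff_subset hy))
      have hxX : x ∉ X := fun h => by
        have := hXL h
        simp [hB] at this
      refine ⟨insert x X, ?_, ?_, ?_⟩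
      · intro y hy
        rcases Finset.mem_insert.1 hy with rfl | hy
        · exact hxL
        · exact Finset.sdiff_subset (hXL hy)
      · intro y hy hy'
        rcases Finset.mem_insert.1 hy with rfl | hy
        · rcases Finset.mem_insert.1 hy' with h | h
          · exact hf _ hxL h
          · have := hXL h
            simp [hB] at this
        · rcases Finset.mem_insert.1 hy' with h | h
          · have hyL := hXL hy
            simp only [Finset.mem_sdiff, hB, Finset.mem_insert, Finset.mem_filter, not_or] at hyL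
            exact hyL.2.2.2 ⟨hyL.1, h⟩
          · exact hX y hy h
      · rw [Finset.card_insert_of_notMem hxX]
        have h3 : L.card ≤ (L \ B).card + B.card := by
          calc L.card ≤ ((L \ B) ∪ B).card := Finset.card_le_card (by
                intro y hy
                by_cases h : y ∈ B
                · exact Finset.mem_union_right _ h
                · exact Finset.mem_union_left _ (Finset.mem_sdiff.2 ⟨hy, h⟩))
            _ ≤ _ := Finset.card_union_le _ _
        omega

omit [DecidableEq P] in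
/-- The cost is at most the cost of any assignment into `S`. -/
theorem cst_le_assign (d : P → P → R) (w : P → R) (hw : ∀ j, 0 ≤ w j) (D S : Finset P)
    (hS : S.Nonempty) (a : P → P) (ha : ∀ j ∈ D, a j ∈ S) :
    cst d w D S ≤ ∑ j ∈ D, w j * d j (a j) := by
  rw [cst, dif_pos hS]
  exact Finset.sum_le_sum fun j hj =>
    mul_le_mul_of_nonneg_left (Finset.inf'_le _ (ha j hj)) (hw j)

omit [DecidableEq P] [IsStrictOrderedRing R] in
/-- Nearest assignment. -/
theorem exists_nearest (d : P → P → R) (S : Finset P) (hS : S.Nonempty) :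
    ∃ a : P → P, (∀ j, a j ∈ S) ∧ (∀ j, ∀ o ∈ S, d j (a j) ≤ d j o) ∧
      (∀ (w : P → R) (D : Finset P), cst d w D S = ∑ j ∈ D, w j * d j (a j)) := by
  have h : ∀ j, ∃ a ∈ S, S.inf' hS (d j) = d j a := fun j => Finset.exists_mem_eq_inf' hS (d j)
  choose a ha ha' using h
  refine ⟨a, ha, fun j o ho => ?_, fun w D => ?_⟩
  · rw [← ha' j]; exact Finset.inf'_le _ ho
  · rw [cst, dif_pos hS]
    exact Finset.sum_congr rfl fun j _ => by rw [ha' j]

/-- One matched tight cluster: the best facility `v` for the core clients of `t` serves the whole cluster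
of `o` at cost `≤ (1 + 32 θ) c`. -/
theorem good_cluster (d : P → P → R) (w : P → R) (D O Q : Finset P)
    (hnn : ∀ x y, 0 ≤ d x y) (hsymm : ∀ x y, d x y = d y x)
    (htri : ∀ x y z, d x z ≤ d x y + d y z) (hw : ∀ j, 0 ≤ w j)
    (π : P → P) (hπO : ∀ j, π j ∈ O) (hπ : ∀ j, ∀ o ∈ O, d j (π j) ≤ d j o)
    (o t v : P) (hoO : o ∈ O) (Δ θ : R) (hΔ : 0 < Δ) (hθ0 : 0 < θ) (hθ : θ ≤ 1 / 24)
    (hsep : ∀ o' ∈ O, o' ≠ o → Δ ≤ d o o') (hot : d o t ≤ Δ / 12)
    (hQ1 : ∀ r ∈ Q, r ≠ t → 5 / 6 * Δ ≤ d t r) (hQ2 : ∃ r ∈ Q, r ≠ t ∧ d t r ≤ 7 / 6 * Δ)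
    (hv : ∑ j ∈ core d D Q t, w j * d j v ≤ ∑ j ∈ core d D Q t, w j * d j o)
    (hm : 0 < ∑ j ∈ D.filter (fun j => π j = o), w j)
    (hc : ∑ j ∈ D.filter (fun j => π j = o), w j * d j o
        ≤ θ * ((∑ j ∈ D.filter (fun j => π j = o), w j) * Δ)) :
    ∑ j ∈ D.filter (fun j => π j = o), w j * d j v ≤
      (1 + 32 * θ) * ∑ j ∈ D.filter (fun j => π j = o), w j * d j o := by
  set cl := D.filter (fun j => π j = o) with hcl
  set C := core d D Q t with hC
  set m := ∑ j ∈ cl, w j with hmdef
  set c := ∑ j ∈ cl, w j * d j o with hcdef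
  -- core ⊆ cluster
  have hsub : C ⊆ cl := by
    intro j hj
    rw [hC, core, Finset.mem_filter] at hj
    obtain ⟨r, hrQ, hrt, hr⟩ := hQ2
    have h1 := hj.2 r hrQ hrt
    rw [hcl, Finset.mem_filter]
    refine ⟨hj.1, ?_⟩
    by_contra hne
    have h2 := hsep (π j) (hπO j) hne
    have h3 := hπ j o hoO
    have h4 := htri o j (π j)
    have h5 := htri j t o
    rw [hsymm o j] at h4
    rw [hsymm t o] at h5
    linarith
  -- non core clients are far from `o`
  have hfar : ∀ j ∈ cl \ C, Δ / 8 ≤ d j o := by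
    intro j hj
    rw [Finset.mem_sdiff] at hj
    have hjD : j ∈ D := (Finset.mem_filter.1 hj.1).1
    have hnot : ¬ ∀ r ∈ Q, r ≠ t → 4 * d j t ≤ d t r := fun h =>
      hj.2 (by rw [hC, core, Finset.mem_filter]; exact ⟨hjD, h⟩)
    push Not at hnot
    obtain ⟨r, hrQ, hrt, hr⟩ := hnot
    have h1 := hQ1 r hrQ hrt
    have h2 := htri j o t
    linarith
  set q := ∑ j ∈ cl \ C, w j with hq
  set p := ∑ j ∈ C, w j with hp
  have hmpq : m = q + p := by
    rw [hmdef, hq, hp, Finset.sum_sdiff hsub]
  have hsplit : ∀ f : P → R, ∑ j ∈ cl, f j = ∑ j ∈ cl \ C, f j + ∑ j ∈ C, f j := fun f =>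
    (Finset.sum_sdiff hsub).symm
  have hq0 : 0 ≤ q := Finset.sum_nonneg fun j _ => hw j
  have hp0 : 0 ≤ p := Finset.sum_nonneg fun j _ => hw j
  have hc0 : 0 ≤ c := Finset.sum_nonneg fun j _ => mul_nonneg (hw j) (hnn _ _)
  set a := ∑ j ∈ C, w j * d j o with ha
  set a' := ∑ j ∈ cl \ C, w j * d j o with ha'
  have hca : c = a' + a := hsplit fun j => w j * d j o
  have ha0 : 0 ≤ a := Finset.sum_nonneg fun j _ => mul_nonneg (hw j) (hnn _ _)
  have hqa : q * (Δ / 8) ≤ a' := by
    rw [hq, ha', Finset.sum_mul]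
    exact Finset.sum_le_sum fun j hj => mul_le_mul_of_nonneg_left (hfar j hj) (hw j)
  have ha'c : a' ≤ c := by linarith
  have hm2p : m ≤ 2 * p := by
    have h1 : q * Δ ≤ 8 * θ * (m * Δ) := by nlinarith
    have h2 : q * Δ ≤ (8 * θ * m) * Δ := by linarith
    have h3 : q ≤ 8 * θ * m := le_of_mul_le_mul_right h2 hΔ
    have h4 : 8 * θ * m ≤ 1 / 3 * m := by nlinarith
    linarith
  have hov : 0 ≤ d o v := hnn _ _
  have hpv : p * d o v ≤ 2 * a := by
    have h1 : p * d o v ≤ ∑ j ∈ C, (w j * d j o + w j * d j v) := by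
      rw [hp, Finset.sum_mul]
      refine Finset.sum_le_sum fun j _ => ?_
      rw [← mul_add]
      refine mul_le_mul_of_nonneg_left ?_ (hw j)
      have := htri o j v
      rw [hsymm o j] at this
      exact this
    rw [Finset.sum_add_distrib] at h1
    linarith
  have hv1 : ∑ j ∈ cl, w j * d j v ≤ c + q * d o v := by
    rw [hsplit fun j => w j * d j v]
    have h1 : ∑ j ∈ cl \ C, w j * d j v ≤ a' + q * d o v := by
      rw [ha', hq, Finset.sum_mul, ← Finset.sum_add_distrib]
      refine Finset.sum_le_sum fun j _ => ?_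
      rw [← mul_add]
      exact mul_le_mul_of_nonneg_left (htri _ _ _) (hw j)
    linarith
  have hfin : q * d o v ≤ 32 * θ * c := by
    have h1 : q * Δ ≤ 8 * c := by linarith
    have h2 : m * d o v ≤ 4 * c := by nlinarith
    have h3 : (q * Δ) * (m * d o v) ≤ (8 * c) * (4 * c) :=
      mul_le_mul h1 h2 (mul_nonneg hm.le hov) (by linarith)
    have h4 : (8 * c) * (4 * c) ≤ 32 * c * (θ * (m * Δ)) := by nlinarith
    have h5 : (q * d o v) * (m * Δ) ≤ (32 * θ * c) * (m * Δ) := by nlinarith
    exact le_of_mul_le_mul_right h5 (mul_pos hm hΔ)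
  linarith

set_option maxHeartbeats 1600000 in
/-- **Small slack**: guess `X ⊆ S` and `Y ⊆ F` of size `≤ (3 + 1/(eθ) + 24 A/e) (s+1)`, then take in every
other place of `S` the best facility for the core clients. -/
theorem tight_small (d : P → P → R) (w : P → R) (D F O S : Finset P)
    (hd0 : ∀ x, d x x = 0) (hpos : ∀ x y, x ≠ y → 0 < d x y) (hsymm : ∀ x y, d x y = d y x)
    (htri : ∀ x y z, d x z ≤ d x y + d y z) (hw : ∀ j, 0 ≤ w j)
    (hOF : O ⊆ F) (hO : O.Nonempty) (hSF : S ⊆ F) (hS : S.Nonempty) (hcard : S.card ≤ O.card)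
    (e θ A : R) (he : 0 < e) (hθ0 : 0 < θ) (hθ : θ ≤ 1 / 24) (hA0 : 0 ≤ A)
    (hcO : 0 < cst d w D O) (hA : cst d w D S ≤ A * cst d w D O) (s : ℕ)
    (stab : ∀ S' ⊆ F, S'.Nonempty → S'.card + (s + 1) ≤ O.card →
      (1 + e) * cst d w D O < cst d w D S') :
    ∃ X ⊆ S, ∃ Y ⊆ F,
      (X.card : R) ≤ (3 + 1 / (e * θ) + 24 * A / e) * (s + 1) ∧
      (Y.card : R) ≤ (3 + 1 / (e * θ) + 24 * A / e) * (s + 1) ∧
      ∀ v : P → P, (∀ t ∈ S \ X, v t ∈ F ∧ ∀ u ∈ F,
          ∑ j ∈ core d D ((S \ X) ∪ Y) t, w j * d j (v t)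
            ≤ ∑ j ∈ core d D ((S \ X) ∪ Y) t, w j * d j u) →
        (Y ∪ (S \ X).image v).Nonempty ∧
        (Y ∪ (S \ X).image v).card ≤ O.card ∧
        cst d w D (Y ∪ (S \ X).image v) ≤ (1 + 32 * θ) * cst d w D O := by
  have hnn : ∀ x y, 0 ≤ d x y := fun x y => by
    by_cases h : x = y
    · rw [h, hd0]
    · exact (hpos x y h).le
  set s1 : R := (s : R) + 1 with hs1
  have hs1p : 0 < s1 := by positivity
  set cO := cst d w D O with hcOdef
  have hN3 : (3 : R) ≤ (3 + 1 / (e * θ) + 24 * A / e) * s1 := by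
    have h1 : 0 ≤ 1 / (e * θ) := by positivity
    have h2 : 0 ≤ 24 * A / e := by positivity
    have h3 : (1 : R) ≤ s1 := by rw [hs1]; linarith [(Nat.cast_nonneg s : (0 : R) ≤ s)]
    nlinarith
  rcases Nat.lt_or_ge O.card 2 with hO1 | hO2
  · -- trivial case
    have hO1' : O.card = 1 := by have := hO.card_pos; omega
    refine ⟨S, Finset.Subset.refl _, O, hOF, ?_, ?_, ?_⟩
    · have : (S.card : R) ≤ 1 := by exact_mod_cast (by omega : S.card ≤ 1)
      linarith
    · have : (O.card : R) ≤ 1 := by exact_mod_cast (by omega : O.card ≤ 1)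
      linarith
    · intro v _
      have hE : (O ∪ (S \ S).image v) = O := by simp
      rw [hE]
      refine ⟨hO, le_refl _, ?_⟩
      nlinarith
  -- nearest neighbours inside O
  have hnnex : ∀ o : P, ∃ n, o ∈ O → (n ∈ O ∧ n ≠ o ∧ ∀ o' ∈ O, o' ≠ o → d o n ≤ d o o') := by
    intro o
    by_cases ho : o ∈ O
    · have hne : (O.erase o).Nonempty := by
        rw [← Finset.card_pos, Finset.card_erase_of_mem ho]; omega
      obtain ⟨n, hn, hmin⟩ := Finset.exists_min_image (O.erase o) (d o) hne
      rw [Finset.mem_erase] at hn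
      exact ⟨n, fun _ => ⟨hn.2, hn.1, fun o' ho' hne' => hmin o' (Finset.mem_erase.2 ⟨hne', ho'⟩)⟩⟩
    · exact ⟨o, fun h => absurd h ho⟩
  choose nn hnn' using hnnex
  have nnO : ∀ o ∈ O, nn o ∈ O := fun o ho => (hnn' o ho).1
  have nnne : ∀ o ∈ O, nn o ≠ o := fun o ho => (hnn' o ho).2.1
  have nnmin : ∀ o ∈ O, ∀ o' ∈ O, o' ≠ o → d o (nn o) ≤ d o o' := fun o ho => (hnn' o ho).2.2
  have Δpos : ∀ o ∈ O, 0 < d o (nn o) := fun o ho => hpos _ _ (Ne.symm (nnne o ho))
  obtain ⟨π, hπO, hπmin, hπc⟩ := exists_nearest d O hO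
  obtain ⟨σ, hσS, hσmin, hσc⟩ := exists_nearest d S hS
  set cl : P → Finset P := fun o => D.filter (fun j => π j = o) with hcl
  set m : P → R := fun o => ∑ j ∈ cl o, w j with hmdef
  set c : P → R := fun o => ∑ j ∈ cl o, w j * d j o with hcdef
  have hm0 : ∀ o, 0 ≤ m o := fun o => Finset.sum_nonneg fun j _ => hw j
  have hc0 : ∀ o, 0 ≤ c o := fun o => Finset.sum_nonneg fun j _ => mul_nonneg (hw j) (hnn _ _)
  have fib : ∀ f : P → R, ∑ j ∈ D, f j = ∑ o ∈ O, ∑ j ∈ cl o, f j := fun f =>
    (Finset.sum_fiberwise_of_maps_to (fun j _ => hπO j) f).symm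
  have hcsum : cO = ∑ o ∈ O, c o := by
    rw [hcOdef, hπc w D, fib]
    refine Finset.sum_congr rfl fun o _ => Finset.sum_congr rfl fun j hj => ?_
    rw [(Finset.mem_filter.1 hj).2]
  set lb : R := e * cO / s1 with hlb
  have hlbp : 0 < lb := by positivity
  have hlbs : s1 * lb = e * cO := by rw [hlb]; field_simp
  -- (a) few cheap removals
  set L := O.filter (fun o => m o * d o (nn o) < lb) with hL
  have hLc : L.card < 3 * (s + 1) := by
    by_contra hcon
    push Not at hcon
    obtain ⟨X0, hX0L, hX0, hX0c⟩ := exists_indep nn L.card L rfl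
      (fun x hx => nnne x (Finset.mem_filter.1 hx).1)
    obtain ⟨X, hXX0, hXc⟩ := Finset.exists_subset_card_eq (s := X0) (n := s + 1) (by omega)
    have hXO : X ⊆ O := fun x hx => (Finset.mem_filter.1 (hX0L (hXX0 hx))).1
    have hXnn : ∀ x ∈ X, nn x ∉ X := fun x hx h => hX0 x (hXX0 hx) (hXX0 h)
    have hXne : X.Nonempty := by rw [← Finset.card_pos]; omega
    obtain ⟨x0, hx0⟩ := hXne
    have hS'ne : (O \ X).Nonempty :=
      ⟨nn x0, Finset.mem_sdiff.2 ⟨nnO x0 (hXO hx0), hXnn x0 hx0⟩⟩
    have hS'c : (O \ X).card + (s + 1) ≤ O.card := by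
      rw [Finset.card_sdiff_of_subset hXO, hXc]
      have := Finset.card_le_card hXO
      omega
    have h1 := stab (O \ X) (fun y hy => hOF (Finset.sdiff_subset hy)) hS'ne hS'c
    set ρ : P → P := fun o => if o ∈ X then nn o else o with hρ
    have h2 : cst d w D (O \ X) ≤ ∑ j ∈ D, w j * d j (ρ (π j)) := by
      refine cst_le_assign d w hw D (O \ X) hS'ne (fun j => ρ (π j)) fun j _ => ?_
      by_cases h : π j ∈ X
      · simp only [hρ, h, if_true]
        exact Finset.mem_sdiff.2 ⟨nnO _ (hπO j), hXnn _ h⟩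
      · simp only [hρ, h, if_false]
        exact Finset.mem_sdiff.2 ⟨hπO j, h⟩
    have h3 : ∑ j ∈ D, w j * d j (ρ (π j)) ≤
        ∑ o ∈ O, (c o + if o ∈ X then m o * d o (nn o) else 0) := by
      rw [fib]
      refine Finset.sum_le_sum fun o _ => ?_
      by_cases h : o ∈ X
      · simp only [h, if_true]
        rw [hcdef, hmdef]
        simp only
        rw [Finset.sum_mul, ← Finset.sum_add_distrib]
        refine Finset.sum_le_sum fun j hj => ?_
        rw [(Finset.mem_filter.1 hj).2, ← mul_add]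
        refine mul_le_mul_of_nonneg_left ?_ (hw j)
        simp only [hρ, h, if_true]
        exact htri _ _ _
      · simp only [h, if_false, add_zero]
        rw [hcdef]
        refine Finset.sum_le_sum fun j hj => ?_
        rw [(Finset.mem_filter.1 hj).2]
        simp only [hρ, h, if_false]
        exact le_refl _
    have h4 : ∑ o ∈ O, (c o + if o ∈ X then m o * d o (nn o) else 0) ≤ cO + s1 * lb := by
      rw [Finset.sum_add_distrib, ← hcsum, ← Finset.sum_filter]
      have h5 : O.filter (fun o => o ∈ X) = X := by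
        ext y; simp only [Finset.mem_filter]
        exact ⟨fun h => h.2, fun h => ⟨hXO h, h⟩⟩
      rw [h5]
      have h6 : ∑ o ∈ X, m o * d o (nn o) ≤ ∑ _o ∈ X, lb :=
        Finset.sum_le_sum fun o ho => (Finset.mem_filter.1 (hX0L (hXX0 ho))).2.le
      rw [Finset.sum_const, hXc, nsmul_eq_mul] at h6
      push_cast at h6
      linarith
    rw [hlbs] at h4
    linarith
  -- (b) few expensive clusters
  set H := O.filter (fun o => θ * lb ≤ c o) with hH
  have hHc : (H.card : R) * (θ * lb) ≤ cO := by
    have h1 : ∑ _o ∈ H, θ * lb ≤ ∑ o ∈ H, c o :=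
      Finset.sum_le_sum fun o ho => (Finset.mem_filter.1 ho).2
    rw [Finset.sum_const, nsmul_eq_mul] at h1
    have h2 : ∑ o ∈ H, c o ≤ ∑ o ∈ O, c o :=
      Finset.sum_le_sum_of_subset_of_nonneg (Finset.filter_subset _ _) fun o _ _ => hc0 o
    linarith
  -- (c) matched and unmatched tight clusters
  set G := O.filter (fun o => (lb ≤ m o * d o (nn o) ∧ c o < θ * lb) ∧
    ∃ t ∈ S, d o t ≤ d o (nn o) / 12) with hG
  set U := O.filter (fun o => (lb ≤ m o * d o (nn o) ∧ c o < θ * lb) ∧
    ¬ ∃ t ∈ S, d o t ≤ d o (nn o) / 12) with hU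
  have hUc : (U.card : R) * (lb / 24) ≤ A * cO := by
    have h1 : ∀ o ∈ U, lb / 24 ≤ ∑ j ∈ cl o, w j * d j (σ j) := by
      intro o ho
      obtain ⟨hoO, ⟨hlo, hco⟩, hno⟩ := Finset.mem_filter.1 ho
      push Not at hno
      have h2 : m o * (d o (nn o) / 12) - c o ≤ ∑ j ∈ cl o, w j * d j (σ j) := by
        rw [hmdef, hcdef]
        simp only
        rw [Finset.sum_mul, ← Finset.sum_sub_distrib]
        refine Finset.sum_le_sum fun j _ => ?_
        rw [← mul_sub]
        refine mul_le_mul_of_nonneg_left ?_ (hw j)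
        have h3 := hno (σ j) (hσS j)
        have h4 := htri o j (σ j)
        rw [hsymm o j] at h4
        linarith
      have h5 : θ * lb ≤ 1 / 24 * lb := mul_le_mul_of_nonneg_right hθ hlbp.le
      linarith
    have h2 : ∑ _o ∈ U, lb / 24 ≤ ∑ o ∈ U, ∑ j ∈ cl o, w j * d j (σ j) := Finset.sum_le_sum h1
    rw [Finset.sum_const, nsmul_eq_mul] at h2
    have h3 : ∑ o ∈ U, ∑ j ∈ cl o, w j * d j (σ j) ≤ ∑ o ∈ O, ∑ j ∈ cl o, w j * d j (σ j) :=
      Finset.sum_le_sum_of_subset_of_nonneg (Finset.filter_subset _ _) fun o _ _ =>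
        Finset.sum_nonneg fun j _ => mul_nonneg (hw j) (hnn _ _)
    rw [← fib, ← hσc w D] at h3
    linarith
  set Y := O \ G with hY
  have hYsub : Y ⊆ L ∪ H ∪ U := by
    intro o ho
    rw [hY, Finset.mem_sdiff] at ho
    have hoO := ho.1
    by_cases h1 : m o * d o (nn o) < lb
    · exact Finset.mem_union_left _ (Finset.mem_union_left _ (Finset.mem_filter.2 ⟨hoO, h1⟩))
    by_cases h2 : θ * lb ≤ c o
    · exact Finset.mem_union_left _ (Finset.mem_union_right _ (Finset.mem_filter.2 ⟨hoO, h2⟩))
    refine Finset.mem_union_right _ (Finset.mem_filter.2 ⟨hoO, ⟨not_lt.1 h1, not_le.1 h2⟩, ?_⟩)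
    intro h3
    exact ho.2 (Finset.mem_filter.2 ⟨hoO, ⟨not_lt.1 h1, not_le.1 h2⟩, h3⟩)
  have hYc : (Y.card : R) ≤ (3 + 1 / (e * θ) + 24 * A / e) * s1 := by
    have h1 : (Y.card : R) ≤ L.card + H.card + U.card := by
      have := Finset.card_le_card hYsub
      have h2 := Finset.card_union_le (L ∪ H) U
      have h3 := Finset.card_union_le L H
      exact_mod_cast (by omega : Y.card ≤ L.card + H.card + U.card)
    have h2 : (L.card : R) ≤ 3 * s1 := by
      have : (L.card : R) ≤ ((3 * (s + 1) : ℕ) : R) := by exact_mod_cast hLc.le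
      rw [hs1]; push_cast at this; linarith
    have h3 : (H.card : R) ≤ 1 / (e * θ) * s1 := by
      have h4 : 1 / (e * θ) * s1 = cO / (θ * lb) := by
        rw [hlb]; field_simp
      rw [h4, le_div_iff₀ (by positivity)]
      exact hHc
    have h5 : (U.card : R) ≤ 24 * A / e * s1 := by
      have h6 : 24 * A / e * s1 = A * cO / (lb / 24) := by
        rw [hlb]; field_simp
      rw [h6, le_div_iff₀ (by positivity)]
      exact hUc
    nlinarith
  have hGO : G ⊆ O := Finset.filter_subset _ _
  -- the matching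
  have hτex : ∀ o : P, ∃ t, o ∈ G → (t ∈ S ∧ d o t ≤ d o (nn o) / 12) := by
    intro o
    by_cases ho : o ∈ G
    · obtain ⟨_, _, t, ht, htd⟩ := Finset.mem_filter.1 ho
      exact ⟨t, fun _ => ⟨ht, htd⟩⟩
    · exact ⟨o, fun h => absurd h ho⟩
  choose τ hτ using hτex
  have τinj : ∀ o ∈ G, ∀ o' ∈ G, τ o = τ o' → o = o' := by
    intro o ho o' ho' h
    by_contra hne
    have h1 := (hτ o ho).2
    have h2 := (hτ o' ho').2
    rw [← h] at h2
    have h3 := nnmin o (hGO ho) o' (hGO ho') (Ne.symm hne)
    have h4 := nnmin o' (hGO ho') o (hGO ho) hne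
    have h5 := htri o (τ o) o'
    rw [hsymm (τ o) o'] at h5
    have h6 := hpos o o' hne
    rw [hsymm o' o] at h4
    linarith
  set M := G.image τ with hM
  have hMS : M ⊆ S := fun t ht => by
    obtain ⟨o, ho, rfl⟩ := Finset.mem_image.1 ht
    exact (hτ o ho).1
  have hMc : M.card = G.card := Finset.card_image_of_injOn fun o ho o' ho' h =>
    τinj o ho o' ho' h
  have hSX : S \ (S \ M) = M := by
    ext y
    simp only [Finset.mem_sdiff, not_and, not_not]
    exact ⟨fun h => h.2 h.1, fun h => ⟨hMS h, fun _ => h⟩⟩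
  have hYcard : Y.card + G.card = O.card := by
    rw [hY]; exact Finset.card_sdiff_add_card_eq_card hGO
  refine ⟨S \ M, Finset.sdiff_subset, Y, fun y hy => hOF (Finset.sdiff_subset hy), ?_, hYc, ?_⟩
  · have h1 : (S \ M).card + M.card = S.card := Finset.card_sdiff_add_card_eq_card hMS
    have h2 : (S \ M).card ≤ Y.card := by omega
    have h3 : ((S \ M).card : R) ≤ Y.card := by exact_mod_cast h2
    linarith
  rw [hSX]
  intro v hv
  set T := Y ∪ M.image v with hT
  -- assignment
  set g : P → P := fun o => if o ∈ G then v (τ o) else o with hg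
  have hgT : ∀ o ∈ O, g o ∈ T := by
    intro o ho
    by_cases h : o ∈ G
    · simp only [hg, h, if_true]
      exact Finset.mem_union_right _ (Finset.mem_image_of_mem _ (Finset.mem_image_of_mem _ h))
    · simp only [hg, h, if_false]
      exact Finset.mem_union_left _ (Finset.mem_sdiff.2 ⟨ho, h⟩)
  obtain ⟨o0, ho0⟩ := hO
  have hTne : T.Nonempty := ⟨g o0, hgT o0 ho0⟩
  refine ⟨hTne, ?_, ?_⟩
  · have h1 := Finset.card_union_le Y (M.image v)
    have h2 := Finset.card_image_le (s := M) (f := v)
    rw [hT]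
    omega
  have h1 : cst d w D T ≤ ∑ j ∈ D, w j * d j (g (π j)) :=
    cst_le_assign d w hw D T hTne (fun j => g (π j)) fun j _ => hgT _ (hπO j)
  have h2 : ∑ j ∈ D, w j * d j (g (π j)) ≤ ∑ o ∈ O, (1 + 32 * θ) * c o := by
    rw [fib]
    refine Finset.sum_le_sum fun o ho => ?_
    have h3 : ∑ j ∈ cl o, w j * d j (g (π j)) = ∑ j ∈ cl o, w j * d j (g o) :=
      Finset.sum_congr rfl fun j hj => by rw [(Finset.mem_filter.1 hj).2]
    rw [h3]
    by_cases h : o ∈ G
    · simp only [hg, h, if_true]
      obtain ⟨_, ⟨hlo, hco⟩, _⟩ := Finset.mem_filter.1 h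
      have hM1 : τ o ∈ M := Finset.mem_image_of_mem _ h
      have hmD : 0 < m o * d o (nn o) := lt_of_lt_of_le hlbp hlo
      have hmpos : 0 < m o := by
        rcases (hm0 o).lt_or_eq with h' | h'
        · exact h'
        · rw [← h', zero_mul] at hmD; exact absurd hmD (lt_irrefl _)
      refine good_cluster d w D O (M ∪ Y) hnn hsymm htri hw π hπO hπmin o (τ o) (v (τ o)) ho
        (d o (nn o)) θ (Δpos o ho) hθ0 hθ (fun o' ho' hne => nnmin o ho o' ho' hne) (hτ o h).2
        ?_ ?_ ?_ hmpos ?_
      · -- separation from the other centres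
        intro r hr hrt
        have hot := (hτ o h).2
        rcases Finset.mem_union.1 hr with hr | hr
        · obtain ⟨o', ho', rfl⟩ := Finset.mem_image.1 hr
          have hne : o' ≠ o := fun h' => hrt (by rw [h'])
          have h4 := (hτ o' ho').2
          have h5 := nnmin o ho o' (hGO ho') hne
          have h6 := nnmin o' (hGO ho') o ho (Ne.symm hne)
          have h7 := htri o (τ o) o'
          have h8 := htri (τ o) (τ o') o'
          rw [hsymm (τ o') o'] at h8
          rw [hsymm o' o] at h6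
          linarith
        · have hrO := (Finset.mem_sdiff.1 hr).1
          have hne : r ≠ o := fun h' => (Finset.mem_sdiff.1 hr).2 (h' ▸ h)
          have h5 := nnmin o ho r hrO hne
          have h7 := htri o (τ o) r
          have h9 := Δpos o ho
          linarith
      · -- a close other centre
        have hot := (hτ o h).2
        have hD := Δpos o ho
        have hnO := nnO o ho
        have hnne := nnne o ho
        by_cases hn : nn o ∈ G
        · refine ⟨τ (nn o), Finset.mem_union_left _ (Finset.mem_image_of_mem _ hn), ?_, ?_⟩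
          · intro h'
            exact hnne (τinj _ hn _ h h')
          · have h4 := (hτ (nn o) hn).2
            have h6 := nnmin (nn o) hnO o ho (Ne.symm hnne)
            rw [hsymm (nn o) o] at h6
            have h7 := htri (τ o) o (τ (nn o))
            have h8 := htri o (nn o) (τ (nn o))
            rw [hsymm (τ o) o] at h7
            linarith
        · refine ⟨nn o, Finset.mem_union_right _ (Finset.mem_sdiff.2 ⟨hnO, hn⟩), ?_, ?_⟩
          · intro h'
            rw [← h'] at hot
            linarith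
          · have h7 := htri (τ o) o (nn o)
            rw [hsymm (τ o) o] at h7
            linarith
      · exact (hv (τ o) hM1).2 o (hOF ho)
      · have h10 : θ * lb ≤ θ * (m o * d o (nn o)) := mul_le_mul_of_nonneg_left hlo hθ0.le
        exact (hco.trans_le h10).le
    · simp only [hg, h, if_false]
      have : 0 ≤ 32 * θ * c o := by have := hc0 o; positivity
      have h4 : ∑ j ∈ cl o, w j * d j o = c o := rfl
      rw [h4]; linarith
  rw [← Finset.mul_sum, ← hcsum] at h2
  linarith

end Crest.Agent.R310.Tight
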