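import Crest.Agent.R310.LocalSearchCode
import Crest.Agent.R310.TightSmall

/-!
# R310: the regime of small `s` as a `PTF` candidate generator
-/

set_option linter.dupNamespace false
set_option autoImplicit false

namespace Crest.Agent.R310

open Crest.Agent.Lib.PT Crest.Agent.Lib.PT.Arith Crest.LogicCS.KMedian

/-- all lists of length at most `b` with entries from `L` -/
def listsLe (L : List ℕ) : ℕ → List (List ℕ)
  | 0 => [[]]
  | b + 1 => [] :: (listsLe L b).flatMap (fun l => L.map (fun a => a :: l))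

theorem mem_listsLe {L : List ℕ} {b : ℕ} {l : List ℕ} (hl : l.length ≤ b)
    (h : ∀ a ∈ l, a ∈ L) : l ∈ listsLe L b := by
  induction b generalizing l with
  | zero =>
    have : l = [] := List.length_eq_zero_iff.1 (by omega)
    simp [listsLe, this]
  | succ b ih =>
    cases l with
    | nil => simp [listsLe]
    | cons a l =>
      unfold listsLe
      apply List.mem_cons_of_mem
      refine List.mem_flatMap.2 ⟨l, ih (by simpa using hl) (fun x hx => h x (by simp [hx])), ?_⟩
      exact List.mem_map.2 ⟨a, h a (by simp), rfl⟩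

/-- argmin of a rational key over a list -/
def argQ (l : List ℕ) (key : ℕ → ℚ) : ℕ :=
  l.foldl (fun o c => if key c < key o then c else o) (l.headD 0)

theorem argQ_spec {l : List ℕ} (hl : l ≠ []) (key : ℕ → ℚ) :
    argQ l key ∈ l ∧ ∀ c ∈ l, key (argQ l key) ≤ key c := by
  have keyl : ∀ (l : List ℕ) (o : ℕ),
      (l.foldl (fun o c => if key c < key o then c else o) o = o ∨
        l.foldl (fun o c => if key c < key o then c else o) o ∈ l) ∧
      key (l.foldl (fun o c => if key c < key o then c else o) o) ≤ key o ∧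
      ∀ c ∈ l, key (l.foldl (fun o c => if key c < key o then c else o) o) ≤ key c := by
    intro l
    induction l with
    | nil => intro o; simp
    | cons a l ih =>
      intro o
      rw [List.foldl_cons]
      obtain ⟨i1, i2, i3⟩ := ih (if key a < key o then a else o)
      have hmin : key (if key a < key o then a else o) ≤ key a ∧
          key (if key a < key o then a else o) ≤ key o := by
        split_ifs with h
        · exact ⟨le_rfl, h.le⟩
        · exact ⟨not_lt.1 h, le_rfl⟩
      refine ⟨?_, i2.trans hmin.2, ?_⟩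
      · rcases i1 with i1 | i1
        · rw [i1]
          split_ifs
          · exact Or.inr (by simp)
          · exact Or.inl rfl
        · exact Or.inr (List.mem_cons_of_mem _ i1)
      · intro c hc
        rcases List.mem_cons.1 hc with rfl | hc
        · exact i2.trans hmin.1
        · exact i3 c hc
  cases l with
  | nil => exact absurd rfl hl
  | cons a l =>
    obtain ⟨i1, _, i3⟩ := keyl (a :: l) a
    refine ⟨?_, i3⟩
    rcases i1 with i1 | i1
    · have : argQ (a :: l) key = a := i1
      rw [this]; simp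
    · exact i1

/-- membership of `j` in the core of `t` -/
def coreB (r : RI) (Q : List ℕ) (t j : ℕ) : Bool :=
  riC r j && Q.all (fun q => decide (q = t) || decide (4 * riD r j t ≤ riD r t q))

/-- cost of serving the core of `t` from `u` -/
def score (r : RI) (Q : List ℕ) (t u : ℕ) : ℚ :=
  ∑ j ∈ Finset.range (riN r), if coreB r Q t j = true then riD r j u else 0

/-- best facility for the core of `t` -/
def vArg (r : RI) (Q : List ℕ) (t : ℕ) : ℕ := argQ (facL r) (fun u => score r Q t u)

/-- candidate solution for the guess `X`, `Y` -/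
def candXY (r : RI) (S X Y : List ℕ) : List ℕ :=
  (facL r).filter (fun i => decide (i ∈ Y ++
    (S.filter (fun t => !decide (t ∈ X))).map
      (fun t => vArg r (S.filter (fun t => !decide (t ∈ X)) ++ Y) t)))

/-- the candidates for small `s` -/
def Gsmall (B : ℕ) (r : RI) : List (List ℕ) :=
  (listsLe (facL r) B).flatMap (fun X => (listsLe (facL r) B).map (fun Y => candXY r (localS r) X Y))

section ptf
variable {γ : Type} [PTCode γ]

theorem ptf_listsLe {L : γ → List ℕ} (hL : PTF L) (b : ℕ) : PTF (fun c => listsLe (L c) b) := by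
  induction b with
  | zero => exact PTF.const _
  | succ b ih =>
    unfold listsLe
    refine PTF.listCons (PTF.const _) (PTF.flatMap (l := fun c => listsLe (L c) b)
      (f := fun c l => (L c).map (fun a => a :: l)) ih ?_)
    refine PTF.map (γ := γ × List ℕ) (l := fun p => L p.1) (f := fun p a => a :: p.2)
      (PTF.comp hL PTF.fst) ?_
    exact PTF.listCons PTF.snd (PTF.comp PTF.snd PTF.fst)

theorem ptf_argQ {l : γ → List ℕ} {key : γ → ℕ → ℚ} (hl : PTF l) (hk : PTF₂ key) :
    PTF (fun c => argQ (l c) (key c)) := by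
  have hhead : PTF (fun c => (l c).headD 0) := by
    refine PTF.of_eq (PTF.optionGetD (s := fun c => (l c).head?) (d := fun _ => (0 : ℕ))
      (PTF.head? hl) (PTF.const _)) (fun c => ?_)
    cases l c <;> rfl
  refine PTF.foldl_bdd (f := fun x o c => if key x c < key x o then c else o) hl ?_ hhead
    (G := fun x => sz (l x)) hl.sz ?_ ?_
  · have h1 : PTF (fun p : γ × ℕ × ℕ => key p.1 p.2.2) :=
      PTF.comp₂ hk PTF.fst (PTF.comp PTF.snd PTF.snd)
    have h2 : PTF (fun p : γ × ℕ × ℕ => key p.1 p.2.1) :=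
      PTF.comp₂ hk PTF.fst (PTF.comp PTF.fst PTF.snd)
    exact PTF.ite (PTPred.ratLt h1 h2) (PTF.comp PTF.snd PTF.snd) (PTF.comp PTF.fst PTF.snd)
  · intro x o c hc ho
    split_ifs
    · exact sz_mem_le hc
    · exact ho
  · intro x
    cases h : l x with
    | nil => simp [sz_nat]
    | cons a l' => simp only [List.headD_cons, sz_cons]; omega

theorem ptf_coreB {r : γ → RI} {Q : γ → List ℕ} {t j : γ → ℕ} (hr : PTF r) (hQ : PTF Q)
    (ht : PTF t) (hj : PTF j) : PTF (fun x => coreB (r x) (Q x) (t x) (j x)) := by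
  refine PTF.and (ptf_riC hr hj) (PTF.all (l := Q)
    (p := fun x q => decide (q = t x) || decide (4 * riD (r x) (j x) (t x) ≤ riD (r x) (t x) q)) hQ ?_)
  have hr' : PTF (fun p : γ × ℕ => r p.1) := PTF.comp hr PTF.fst
  have ht' : PTF (fun p : γ × ℕ => t p.1) := PTF.comp ht PTF.fst
  have hj' : PTF (fun p : γ × ℕ => j p.1) := PTF.comp hj PTF.fst
  exact PTF.or (PTPred.toPTF (PTPred.natEq PTF.snd ht'))
    (PTPred.toPTF (PTPred.ratLe (PTF.ratMul (PTF.const 4) (ptf_riD hr' hj' ht'))
      (ptf_riD hr' ht' PTF.snd)))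

theorem ptf_score {r : γ → RI} {Q : γ → List ℕ} {t u : γ → ℕ} (hr : PTF r) (hQ : PTF Q)
    (ht : PTF t) (hu : PTF u) : PTF (fun x => score (r x) (Q x) (t x) (u x)) := by
  refine PTF.ratSumRange (ptu_riN hr)
    (f := fun x j => if coreB (r x) (Q x) (t x) j = true then riD (r x) j (u x) else 0) ?_
  have hr' : PTF (fun p : γ × ℕ => r p.1) := PTF.comp hr PTF.fst
  have hQ' : PTF (fun p : γ × ℕ => Q p.1) := PTF.comp hQ PTF.fst
  have ht' : PTF (fun p : γ × ℕ => t p.1) := PTF.comp ht PTF.fst
  have hu' : PTF (fun p : γ × ℕ => u p.1) := PTF.comp hu PTF.fst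
  exact PTF.ite (PTF.toPTPred (ptf_coreB hr' hQ' ht' PTF.snd)) (ptf_riD hr' PTF.snd hu')
    (PTF.const _)

theorem ptf_vArg {r : γ → RI} {Q : γ → List ℕ} {t : γ → ℕ} (hr : PTF r) (hQ : PTF Q)
    (ht : PTF t) : PTF (fun x => vArg (r x) (Q x) (t x)) :=
  ptf_argQ (key := fun x u => score (r x) (Q x) (t x) u) (ptf_facL hr)
    (ptf_score (PTF.comp hr PTF.fst) (PTF.comp hQ PTF.fst) (PTF.comp ht PTF.fst) PTF.snd)

theorem ptf_candXY {r : γ → RI} {S X Y : γ → List ℕ} (hr : PTF r) (hS : PTF S) (hX : PTF X)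
    (hY : PTF Y) : PTF (fun x => candXY (r x) (S x) (X x) (Y x)) := by
  have hrest : PTF (fun x => (S x).filter (fun t => !decide (t ∈ X x))) :=
    PTF.filter (l := S) (p := fun x t => !decide (t ∈ X x)) hS
      (PTF.not (PTPred.toPTF (PTPred.mem PTF.snd (PTF.comp hX PTF.fst))))
  have hQ : PTF (fun x => (S x).filter (fun t => !decide (t ∈ X x)) ++ Y x) := PTF.append hrest hY
  have him : PTF (fun x => ((S x).filter (fun t => !decide (t ∈ X x))).map
      (fun t => vArg (r x) ((S x).filter (fun t => !decide (t ∈ X x)) ++ Y x) t)) :=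
    PTF.map (l := fun x => (S x).filter (fun t => !decide (t ∈ X x)))
      (f := fun x t => vArg (r x) ((S x).filter (fun t => !decide (t ∈ X x)) ++ Y x) t) hrest
      (ptf_vArg (γ := γ × ℕ) (PTF.comp hr PTF.fst)
        (Q := fun p => (S p.1).filter (fun t => !decide (t ∈ X p.1)) ++ Y p.1)
        (PTF.comp hQ PTF.fst) PTF.snd)
  exact PTF.filter (l := fun x => facL (r x)) (ptf_facL hr)
    (PTPred.toPTF (PTPred.mem PTF.snd (PTF.comp (PTF.append hY him) PTF.fst)))

theorem ptf_Gsmall (B : ℕ) {r : γ → RI} (hr : PTF r) : PTF (fun x => Gsmall B (r x)) := by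
  refine PTF.flatMap (l := fun x => listsLe (facL (r x)) B)
    (f := fun x X => (listsLe (facL (r x)) B).map (fun Y => candXY (r x) (localS (r x)) X Y))
    (ptf_listsLe (ptf_facL hr) B) ?_
  have hr' : PTF (fun p : γ × List ℕ => r p.1) := PTF.comp hr PTF.fst
  refine PTF.map (γ := γ × List ℕ) (l := fun p => listsLe (facL (r p.1)) B)
    (f := fun p Y => candXY (r p.1) (localS (r p.1)) p.2 Y) (ptf_listsLe (ptf_facL hr') B) ?_
  have hr'' : PTF (fun q : (γ × List ℕ) × List ℕ => r q.1.1) :=
    PTF.comp (g := fun p : γ × List ℕ => r p.1) hr' PTF.fst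
  exact ptf_candXY hr'' (ptf_localS hr'') (PTF.comp PTF.snd PTF.fst) PTF.snd

end ptf

theorem cst_one {I : Instance} (S : Finset (Fin I.N)) :
    Tight.cst (fun x y => I.dist x y) (fun _ => (1 : ℚ)) I.clients S = I.cost S := by
  unfold Tight.cst Instance.cost
  split_ifs with h
  · refine Finset.sum_congr rfl (fun j _ => ?_)
    rw [one_mul]
  · rfl

theorem mem_core {P R : Type*} [DecidableEq P] [Field R] [LinearOrder R] [IsStrictOrderedRing R]
    (d : P → P → R) (D Q : Finset P) (t j : P) :
    j ∈ Tight.core d D Q t ↔ j ∈ D ∧ ∀ r ∈ Q, r ≠ t → 4 * d j t ≤ d t r := by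
  unfold Tight.core
  exact Finset.mem_filter

/-- **Small `s`.** -/
theorem Gsmall_spec (e θ : ℚ) (he : 0 < e) (hθ0 : 0 < θ) (hθ : θ ≤ 1 / 24) (s B : ℕ)
    (hB : (3 + 1 / (e * θ) + 24 * 6 / e) * (s + 1) ≤ B) {I : Instance} (hI : I.Valid)
    {O : Finset (Fin I.N)} (hOF : O ⊆ I.facilities) (hOk : O.card = I.k) (hpos : 0 < I.cost O)
    (stab : ∀ S' ⊆ I.facilities, S'.Nonempty → S'.card + (s + 1) ≤ I.k →
      (1 + e) * I.cost O < I.cost S') :
    ∃ c ∈ Gsmall B (raw I), c ≠ [] ∧ c.length ≤ I.k ∧
      (∀ i ∈ c, ∃ hi : i < I.N, (⟨i, hi⟩ : Fin I.N) ∈ I.facilities) ∧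
      I.cost (setOf I c) ≤ (1 + 32 * θ) * I.cost O := by
  classical
  have hk : 1 ≤ I.k := hI.2.2.2.2.1
  have hO : O.Nonempty := Finset.card_pos.1 (by omega)
  obtain ⟨l1, l2, l3⟩ := localS_spec hI
  set SL := localS (raw I) with hSL
  have hSLne : SL ≠ [] := by
    intro h
    rw [h] at l1
    simp at l1
    omega
  have hSF : setOf I SL ⊆ I.facilities := by
    intro i hi
    obtain ⟨_, h2⟩ := l2 i (mem_setOf.1 hi)
    exact h2
  have hSne : (setOf I SL).Nonempty := setOf_nonempty hSLne (fun i hi => (l2 i hi).1)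
  have hScard : (setOf I SL).card ≤ O.card := by
    rw [hOk, ← l1]; exact card_setOf_le I SL
  have hA : I.cost (setOf I SL) ≤ 6 * I.cost O := l3 O hOF hO hOk.le
  obtain ⟨X, hX, Y, hY, hXc, hYc, hv⟩ := Tight.tight_small (fun x y => I.dist x y)
    (fun _ => (1 : ℚ)) I.clients I.facilities O (setOf I SL) hI.1 hI.2.1 hI.2.2.1 hI.2.2.2.1
    (fun _ => zero_le_one) hOF hO hSF hSne hScard e θ 6 he hθ0 hθ (by norm_num)
    (by rw [cst_one]; exact hpos) (by rw [cst_one, cst_one]; exact hA) s
    (by
      intro S' h1 h2 h3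
      rw [cst_one, cst_one]
      exact stab S' h1 h2 (by rw [hOk] at h3; exact h3))
  -- list versions
  set XL : List ℕ := X.toList.map (fun i : Fin I.N => (i : ℕ)) with hXL
  set YL : List ℕ := Y.toList.map (fun i : Fin I.N => (i : ℕ)) with hYL
  have memXL : ∀ i : Fin I.N, (i : ℕ) ∈ XL ↔ i ∈ X := by
    intro i
    rw [hXL, List.mem_map]
    constructor
    · rintro ⟨a, ha, he⟩
      rw [Fin.val_injective he] at ha
      exact Finset.mem_toList.1 ha
    · intro h; exact ⟨i, Finset.mem_toList.2 h, rfl⟩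
  have memYL : ∀ i : Fin I.N, (i : ℕ) ∈ YL ↔ i ∈ Y := by
    intro i
    rw [hYL, List.mem_map]
    constructor
    · rintro ⟨a, ha, he⟩
      rw [Fin.val_injective he] at ha
      exact Finset.mem_toList.1 ha
    · intro h; exact ⟨i, Finset.mem_toList.2 h, rfl⟩
  have hXLin : XL ∈ listsLe (facL (raw I)) B := by
    refine mem_listsLe ?_ ?_
    · rw [hXL, List.length_map, Finset.length_toList]
      have : (X.card : ℚ) ≤ B := hXc.trans hB
      exact_mod_cast this
    · intro a ha
      obtain ⟨x, hx, rfl⟩ := List.mem_map.1 ha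
      exact mem_facL.2 ⟨x.2, hSF (hX (Finset.mem_toList.1 hx))⟩
  have hYLin : YL ∈ listsLe (facL (raw I)) B := by
    refine mem_listsLe ?_ ?_
    · rw [hYL, List.length_map, Finset.length_toList]
      have : (Y.card : ℚ) ≤ B := hYc.trans hB
      exact_mod_cast this
    · intro a ha
      obtain ⟨x, hx, rfl⟩ := List.mem_map.1 ha
      exact mem_facL.2 ⟨x.2, hY (Finset.mem_toList.1 hx)⟩
  set rest := SL.filter (fun t => !decide (t ∈ XL)) with hrest
  have memrest : ∀ i : Fin I.N, (i : ℕ) ∈ rest ↔ i ∈ setOf I SL \ X := by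
    intro i
    rw [hrest, List.mem_filter, Finset.mem_sdiff, mem_setOf]
    simp [memXL]
  have restlt : ∀ a ∈ rest, a < I.N := fun a ha => (l2 a (List.mem_filter.1 ha).1).1
  have YLlt : ∀ a ∈ YL, a < I.N := by
    intro a ha
    obtain ⟨x, _, rfl⟩ := List.mem_map.1 ha
    exact x.2
  have hfac : facL (raw I) ≠ [] := by
    obtain ⟨x, hx⟩ := hO
    exact List.ne_nil_of_mem (mem_facL.2 ⟨x.2, hOF hx⟩)
  -- the core
  have hcore : ∀ t j : Fin I.N, coreB (raw I) (rest ++ YL) t j = true ↔
      j ∈ Tight.core (fun x y => I.dist x y) I.clients ((setOf I SL \ X) ∪ Y) t := by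
    intro t j
    unfold coreB
    rw [mem_core, Bool.and_eq_true, riC_raw, decide_eq_true_eq, List.all_eq_true]
    refine and_congr_right (fun _ => ?_)
    constructor
    · intro h q hq hqt
      have hq' : (q : ℕ) ∈ rest ++ YL := by
        rw [List.mem_append]
        rcases Finset.mem_union.1 hq with hq | hq
        · exact Or.inl ((memrest q).2 hq)
        · exact Or.inr ((memYL q).2 hq)
      have := h _ hq'
      rw [Bool.or_eq_true, decide_eq_true_eq, decide_eq_true_eq, riD_raw, riD_raw] at this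
      rcases this with this | this
      · exact absurd (Fin.ext this) hqt
      · exact this
    · intro h q hq
      have hqlt : q < I.N := by
        rcases List.mem_append.1 hq with hq | hq
        · exact restlt q hq
        · exact YLlt q hq
      rw [Bool.or_eq_true, decide_eq_true_eq, decide_eq_true_eq]
      by_cases hqt : q = (t : ℕ)
      · exact Or.inl hqt
      · right
        have h2 : riD (raw I) t q = I.dist t ⟨q, hqlt⟩ := riD_raw I t ⟨q, hqlt⟩
        rw [riD_raw, h2]
        refine h ⟨q, hqlt⟩ ?_ (fun h3 => hqt (by rw [← h3]))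
        rcases List.mem_append.1 hq with hq | hq
        · exact Finset.mem_union_left _ ((memrest ⟨q, hqlt⟩).1 hq)
        · exact Finset.mem_union_right _ ((memYL ⟨q, hqlt⟩).1 hq)
  have hscore : ∀ t u : Fin I.N, score (raw I) (rest ++ YL) t u =
      ∑ j ∈ Tight.core (fun x y => I.dist x y) I.clients ((setOf I SL \ X) ∪ Y) t,
        (1 : ℚ) * I.dist j u := by
    intro t u
    unfold score
    rw [riN_raw, Finset.sum_range, ← Finset.sum_filter]
    have : Finset.univ.filter (fun j : Fin I.N => coreB (raw I) (rest ++ YL) t j = true) =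
        Tight.core (fun x y => I.dist x y) I.clients ((setOf I SL \ X) ∪ Y) t := by
      ext j
      rw [Finset.mem_filter, hcore]
      simp
    rw [this]
    refine Finset.sum_congr rfl (fun j _ => ?_)
    rw [riD_raw, one_mul]
  have hvlt : ∀ t : ℕ, vArg (raw I) (rest ++ YL) t ∈ facL (raw I) := fun t =>
    (argQ_spec hfac _).1
  let v : Fin I.N → Fin I.N := fun t =>
    ⟨vArg (raw I) (rest ++ YL) t, (mem_facL.1 (hvlt t)).1⟩
  obtain ⟨v1, v2, v3⟩ := hv v (by
    intro t _
    refine ⟨(mem_facL.1 (hvlt t)).2, fun u hu => ?_⟩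
    have h1 := (argQ_spec hfac (fun u => score (raw I) (rest ++ YL) t u)).2 u
      (mem_facL.2 ⟨u.2, hu⟩)
    have h2 := hscore t (v t)
    have h3 := hscore t u
    rw [← h2, ← h3]
    exact h1)
  -- the candidate
  have hset : setOf I (candXY (raw I) SL XL YL) = Y ∪ (setOf I SL \ X).image v := by
    ext i
    rw [mem_setOf, Finset.mem_union, Finset.mem_image]
    unfold candXY
    rw [← hrest, List.mem_filter, decide_eq_true_eq, List.mem_append]
    constructor
    · rintro ⟨_, h | h⟩
      · exact Or.inl ((memYL i).1 h)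
      · right
        obtain ⟨t, ht, he⟩ := List.mem_map.1 h
        exact ⟨⟨t, restlt t ht⟩, (memrest ⟨t, restlt t ht⟩).1 ht, Fin.ext he⟩
    · rintro (h | ⟨t, ht, he⟩)
      · exact ⟨mem_facL.2 ⟨i.2, hY h⟩, Or.inl ((memYL i).2 h)⟩
      · have he' : vArg (raw I) (rest ++ YL) t = i := congrArg Fin.val he
        refine ⟨by rw [← he']; exact hvlt t, Or.inr (List.mem_map.2 ⟨t, (memrest t).2 ht, he'⟩)⟩
  have hfacnodup : (facL (raw I)).Nodup := List.Nodup.filter _ List.nodup_range
  have hcnodup : (candXY (raw I) SL XL YL).Nodup := List.Nodup.filter _ hfacnodup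
  have hcfac : ∀ i ∈ candXY (raw I) SL XL YL, i ∈ facL (raw I) := fun i hi =>
    (List.mem_filter.1 hi).1
  refine ⟨candXY (raw I) SL XL YL, ?_, ?_, ?_, ?_, ?_⟩
  · unfold Gsmall
    exact List.mem_flatMap.2 ⟨XL, hXLin, List.mem_map.2 ⟨YL, hYLin, rfl⟩⟩
  · intro h
    rw [← hset, h] at v1
    obtain ⟨x, hx⟩ := v1
    have := mem_setOf.1 hx
    simp at this
  · have hlen : (candXY (raw I) SL XL YL).length = (setOf I (candXY (raw I) SL XL YL)).card := by
      rw [← List.toFinset_card_of_nodup hcnodup,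
        ← Finset.card_image_of_injective (setOf I (candXY (raw I) SL XL YL)) Fin.val_injective]
      congr 1
      ext a
      rw [List.mem_toFinset, Finset.mem_image]
      constructor
      · intro ha
        obtain ⟨h1, _⟩ := mem_facL.1 (hcfac a ha)
        exact ⟨⟨a, h1⟩, mem_setOf.2 ha, rfl⟩
      · rintro ⟨x, hx, rfl⟩
        exact mem_setOf.1 hx
    rw [hlen, hset, ← hOk]
    exact v2
  · intro i hi
    exact mem_facL.1 (hcfac i hi)
  · rw [hset]
    rw [cst_one, cst_one] at v3
    exact v3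

end Crest.Agent.R310
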