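import Crest.Agent.R310.EvalPT
import Crest.Agent.R310.Grid
import Crest.Agent.R310.FracSpec
import Crest.Agent.R310.TightSmallCode

/-!
# R310, block B8: final assembly (helper167)

The statement S0482 from the blocks STRUCT (restricted instance and tight list), FRAC, GRAN, RES.
-/

set_option linter.dupNamespace false
set_option autoImplicit false

namespace Crest.Agent.R310

open Crest.Agent.Lib.PT Crest.Agent.Lib.PT.Arith Crest.LogicCS.KMedian Finset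

/-- cost of the fractional solution with copies `Y`, mass `1/m` (times `m`) -/
def fsum (r : RI) (Y : List ℕ) (m : ℕ) : ℚ :=
  ∑ j ∈ cliS r, ∑ e ∈ (range Y.length).filter (fun e => near r Y m j e = true),
    riD r (Y.getD e 0) j

/-- number of committed locations -/
def nFull (r : RI) (Y : List ℕ) (M : ℕ) : ℕ :=
  ((range (riN r)).filter (fun v => M ≤ Y.count v)).card

/-- the hypotheses on a guess: `A` is a guess of the optimum, `s` is the slack -/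
structure Guess (I : Instance) (x : ℚ) (O Q : Finset (Fin I.N)) (A : ℚ) (s : ℕ) : Prop where
  hI : I.Valid
  hO : O ⊆ I.facilities
  hOk : O.card = I.k
  hO0 : O.Nonempty
  opt : ∀ S : Finset (Fin I.N), S ⊆ I.facilities → S.Nonempty → S.card ≤ I.k → I.cost O ≤ I.cost S
  pos : 0 < I.cost O
  le : I.cost O ≤ A
  ge : A ≤ (1 + x) * I.cost O
  hs : s < I.k
  hQ : Q ⊆ I.facilities
  hQ0 : Q.Nonempty
  hQk : Q.card + s ≤ I.k
  hQc : I.cost Q ≤ (1 + x) * I.cost O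
  stab : ∀ S' : Finset (Fin I.N), S' ⊆ I.facilities → S'.Nonempty → S'.card + (s + 1) ≤ I.k →
        (1 + x) * I.cost O < I.cost S'

/-- block STRUCT + NUMBERS: restricted instance `rr r A s`, tight list `tt r A s` -/
def StructOK (x : ℚ) (tt : RI → ℚ → ℕ → List ℕ) (rr : RI → ℚ → ℕ → RI) (C1 C2 : ℕ) : Prop :=
  ∀ (I : Instance) (O Q : Finset (Fin I.N)) (A : ℚ) (s : ℕ), Guess I x O Q A s → 1 ≤ s →
    ∃ (F' : Finset (Fin I.N)) (k' : ℕ), F' ⊆ I.facilities ∧ 1 ≤ k' ∧ k' ≤ F'.card ∧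
      rr (raw I) A s = raw { I with facilities := F', k := k' } ∧
      (∃ Q' : Finset (Fin I.N), Q' ⊆ F' ∧ Q'.Nonempty ∧ Q'.card + s ≤ I.k ∧
        I.cost Q' ≤ (1 + 5 * x) * A) ∧
      (tt (raw I) A s).Nodup ∧ (∀ g ∈ tt (raw I) A s, g < I.N) ∧
      I.k ≤ (tt (raw I) A s).length + C1 * s ∧
      ∀ (m : ℕ) (Y : List ℕ), 0 < m → m ≤ Y.length →
        (∀ y ∈ Y, ∃ hy : y < I.N, (⟨y, hy⟩ : Fin I.N) ∈ F') →
        fsum (raw I) Y m ≤ m * (2 * A) →
        ((tt (raw I) A s).map (fun g => m - min m (Y.count g))).sum ≤ C2 * s * m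

/-- block GRAN -/
def GranOK (x : ℚ) (C1 C2 : ℕ) (gran : RI → List ℕ → ℕ → List ℕ → ℕ → List (List ℕ))
    (M s0 C3 : ℕ) : Prop :=
  ∀ (I : Instance) (Y : List ℕ) (m : ℕ) (Gt : List ℕ) (s : ℕ) (A : ℚ), I.Valid →
    (∀ y ∈ Y, y < I.N) → 0 < m → m ≤ Y.length → Gt.Nodup → (∀ g ∈ Gt, g < I.N) → s0 ≤ s → 0 < A →
    fsum (raw I) Y m ≤ m * A →
    (Gt.map (fun g => m - min m (Y.count g))).sum ≤ C2 * s * m →
    Y.length ≤ m * (Gt.length + C1 * s) →
    ∃ Yc ∈ gran (raw I) Y m Gt s, (∀ y ∈ Yc, y ∈ Y) ∧ M ≤ Yc.length ∧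
      fsum (raw I) Yc M ≤ M * ((1 + x) * A) ∧
      (Yc.length : ℚ) * m ≤ M * (Y.length + x * s * m) ∧
      Gt.length ≤ (Gt.filter (fun g => decide (M ≤ Yc.count g))).length + C3 * s

/-- block RES -/
def ResOK (x : ℚ) (M C3 : ℕ) (res : RI → List ℕ → ℚ → List (List ℕ)) (s0 : ℕ) : Prop :=
  ∀ (I : Instance) (Y : List ℕ) (s : ℕ) (G : ℚ), I.Valid → I.clients.Nonempty → M ≤ Y.length →
    (∀ y ∈ Y, ∃ hy : y < I.N, (⟨y, hy⟩ : Fin I.N) ∈ I.facilities) →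
    0 < G → s0 ≤ s → s < I.k →
    ((Y.length : ℚ) ≤ M * (I.k - s + 2 * x * s)) →
    I.k ≤ nFull (raw I) Y M + C3 * s →
    (1 + 2 / Real.exp 1) * (fsum (raw I) Y M : ℝ) ≤ M * (G : ℝ) →
    ∃ c ∈ res (raw I) Y G, c ≠ [] ∧ c.length ≤ I.k ∧
      (∀ i ∈ c, ∃ hi : i < I.N, (⟨i, hi⟩ : Fin I.N) ∈ I.facilities) ∧
      (I.cost (setOf I c) : ℝ) ≤ (1 + 10 * x) * G

/-! ### the generator -/

section gen

variable (x : ℚ) (q1 B0 S0 : ℕ) (g : ℚ) (tt : RI → ℚ → ℕ → List ℕ) (rr : RI → ℚ → ℕ → RI)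
  (gran : RI → List ℕ → ℕ → List ℕ → ℕ → List (List ℕ)) (res : RI → List ℕ → ℚ → List (List ℕ))

/-- number of centres of the comparator -/
def kk (r : RI) (s : ℕ) : ℕ := min (riK r) (riN r) - s

/-- accuracy of the fractional solution -/
def qq (r : RI) : ℕ := q1 * (riN r + 1)

/-- fine fractional solution -/
def fineY (r : RI) (A : ℚ) (s : ℕ) : List ℕ :=
  fracY (rr r A s) (kk r s) (qq q1 r) ((1 + 5 * x) * A)

/-- granularity of the fine solution -/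
def fineM (r : RI) (s : ℕ) : ℕ := fracM r (kk r s) (qq q1 r)

/-- the generator for large slack -/
def big (r : RI) (A : ℚ) (s : ℕ) : List (List ℕ) :=
  (gran r (fineY x q1 rr r A s) (fineM q1 r s) (tt r A s) s).flatMap
    (fun Yc => res r Yc (g * (1 + 9 * x) * A))

/-- the whole generator -/
def gen (p : RI × ℚ × ℕ) : List (List ℕ) :=
  if p.2.2 < S0 then Gsmall B0 p.1 else big x q1 g tt rr gran res p.1 p.2.1 p.2.2

end gen

/-! ### correctness for large slack -/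

theorem fsum_nonneg {I : Instance} (hI : I.Valid) (Y : List ℕ) (m : ℕ) : 0 ≤ fsum (raw I) Y m :=
  Finset.sum_nonneg fun _ _ => Finset.sum_nonneg fun _ _ => riD_nonneg hI _ _

theorem k_le_N {I : Instance} (hI : I.Valid) : I.k ≤ I.N := by
  have h1 : I.facilities.card ≤ I.N := by
    have := Finset.card_le_univ I.facilities
    simpa using this
  exact hI.2.2.2.2.2.trans h1

theorem kk_raw {I : Instance} (hI : I.Valid) (s : ℕ) : kk (raw I) s = I.k - s := by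
  unfold kk
  rw [riK_raw, riN_raw, min_eq_left (k_le_N hI)]

theorem clients_nonempty {I : Instance} {O : Finset (Fin I.N)} (h : 0 < I.cost O) :
    I.clients.Nonempty := by
  rw [Finset.nonempty_iff_ne_empty]
  intro h0
  unfold Instance.cost at h
  rw [h0] at h
  split_ifs at h <;> simp at h

theorem filter_le_nFull {I : Instance} {Gt : List ℕ} (hnd : Gt.Nodup) (hlt : ∀ g ∈ Gt, g < I.N)
    (Y : List ℕ) (M : ℕ) :
    (Gt.filter (fun g => decide (M ≤ Y.count g))).length ≤ nFull (raw I) Y M := by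
  unfold nFull
  rw [riN_raw, ← List.toFinset_card_of_nodup (hnd.filter _)]
  apply Finset.card_le_card
  intro g hg
  rw [List.mem_toFinset, List.mem_filter] at hg
  rw [Finset.mem_filter, Finset.mem_range]
  exact ⟨hlt g hg.1, by simpa using hg.2⟩

theorem arith_len {Ycl m M Yl k s x : ℚ} (hm : 0 < m) (hM : 0 < M)
    (h1 : Yl ≤ m * (k - s + 1)) (h2 : Ycl * m ≤ M * (Yl + x * s * m)) (hxs : 1 ≤ x * s) :
    Ycl ≤ M * (k - s + 2 * x * s) := by
  have h4 : Yl + x * s * m ≤ (k - s + 2 * x * s) * m := by nlinarith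
  have h3 : Ycl * m ≤ (M * (k - s + 2 * x * s)) * m := by
    refine h2.trans ?_
    calc M * (Yl + x * s * m) ≤ M * ((k - s + 2 * x * s) * m) :=
          mul_le_mul_of_nonneg_left h4 hM.le
      _ = _ := by ring
  exact le_of_mul_le_mul_right h3 hm

theorem arith_frac {kc n q x B : ℚ} (hkc : 0 ≤ kc) (hq : 0 ≤ q) (hB : 0 ≤ B)
    (hq3 : 3 ≤ q * x) (hx : 0 < x) (hx1 : x ≤ 1 / 2) :
    2 * kc * n ^ 2 * q * (q + 1) * B ≤ 2 * kc * n ^ 2 * q * (q - 1) * ((1 + x) * B) := by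
  have h4 : q + 1 ≤ (q - 1) * (1 + x) := by nlinarith
  have h5 : (0 : ℚ) ≤ 2 * kc * n ^ 2 * q := by positivity
  calc 2 * kc * n ^ 2 * q * (q + 1) * B ≤ (2 * kc * n ^ 2 * q) * ((q - 1) * (1 + x)) * B :=
        mul_le_mul_of_nonneg_right (mul_le_mul_of_nonneg_left h4 h5) hB
    _ = _ := by ring

theorem arith_c1 {x A : ℚ} (hx : 0 < x) (hx1 : 1000 * x ≤ 1) (hA : 0 ≤ A) :
    (1 + x) * ((1 + 5 * x) * A) ≤ 2 * A := by
  have : (1 + x) * ((1 + 5 * x) * A) = ((1 + x) * (1 + 5 * x)) * A := by ring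
  rw [this]
  exact mul_le_mul_of_nonneg_right (by nlinarith) hA

theorem arith_c2 {x A : ℚ} (hx : 0 < x) (hx1 : 1000 * x ≤ 1) (hA : 0 ≤ A) :
    (1 + x) * ((1 + x) * ((1 + 5 * x) * A)) ≤ (1 + 9 * x) * A := by
  have h1 : (1 + x) * ((1 + x) * ((1 + 5 * x) * A)) = ((1 + x) * ((1 + x) * (1 + 5 * x))) * A := by
    ring
  rw [h1]
  refine mul_le_mul_of_nonneg_right ?_ hA
  have h2 : x * x ≤ x * (1 / 1000) := mul_le_mul_of_nonneg_left (by linarith) hx.le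
  have h3 : x * x * x ≤ x * x := by nlinarith [mul_pos hx hx]
  nlinarith

theorem arith_len1 {kc n q : ℕ} (h : kc + 1 ≤ q) :
    2 * kc ^ 2 * n ^ 2 * q ^ 2 ≤ 2 * kc * n ^ 2 * q * (q - 1) * (kc + 1) := by
  have h1 : kc * q ≤ (q - 1) * (kc + 1) := by
    obtain ⟨p, hp⟩ : ∃ p, q = p + 1 := ⟨q - 1, by omega⟩
    rw [hp]
    simp only [Nat.add_sub_cancel]
    have : kc ≤ p := by omega
    nlinarith
  calc 2 * kc ^ 2 * n ^ 2 * q ^ 2 = 2 * kc * n ^ 2 * q * (kc * q) := by ring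
    _ ≤ 2 * kc * n ^ 2 * q * ((q - 1) * (kc + 1)) := Nat.mul_le_mul_left _ h1
    _ = _ := by ring

theorem big_good {x : ℚ} {q1 : ℕ} {g : ℚ} {tt : RI → ℚ → ℕ → List ℕ} {rr : RI → ℚ → ℕ → RI}
    {gran : RI → List ℕ → ℕ → List ℕ → ℕ → List (List ℕ)} {res : RI → List ℕ → ℚ → List (List ℕ)}
    {C1 C2 C3 M s0 s1 : ℕ} (hx : 0 < x) (hx1 : 1000 * x ≤ 1) (hq1 : 3 ≤ q1 * x)
    (hg : 1 + 2 / Real.exp 1 ≤ (g : ℝ))
    (hS : StructOK x tt rr C1 C2) (hM : 0 < M) (hG : GranOK x C1 C2 gran M s0 C3)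
    (hR : ResOK x M (C1 + C3) res s1)
    {I : Instance} {O Q : Finset (Fin I.N)} {A : ℚ} {s : ℕ} (h : Guess I x O Q A s)
    (hs0 : s0 ≤ s) (hs1 : s1 ≤ s) (hs : 1 ≤ s) (hxs : 1 ≤ x * s) :
    ∃ c ∈ big x q1 g tt rr gran res (raw I) A s, c ≠ [] ∧ c.length ≤ I.k ∧
      (∀ i ∈ c, ∃ hi : i < I.N, (⟨i, hi⟩ : Fin I.N) ∈ I.facilities) ∧
      (I.cost (setOf I c) : ℝ) ≤ (1 + 10 * x) * ((g * (1 + 9 * x) * A : ℚ) : ℝ) := by
  obtain ⟨F', k', hF', hk1, hkF, hrr, ⟨Q', hQF, hQ0, hQk, hQc⟩, hnd, hlt, hcount, hnum⟩ :=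
    hS I O Q A s h hs
  have hI := h.hI
  have hA : 0 < A := h.pos.trans_le h.le
  set I' : Instance := { I with facilities := F', k := k' } with hI'
  have hI'v : I'.Valid :=
    ⟨hI.1, hI.2.1, hI.2.2.1, hI.2.2.2.1, hk1, hkF⟩
  set kc := I.k - s with hkc
  have hkc1 : 1 ≤ kc := by have := h.hs; omega
  have hNk : I.k ≤ I.N := k_le_N hI
  set q := qq q1 (raw I) with hq
  have hqdef : q = q1 * (I.N + 1) := by rw [hq]; unfold qq; rw [riN_raw]
  have hq1' : 3000 ≤ q1 := by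
    have h1 : (3000 : ℚ) ≤ q1 := by nlinarith
    exact_mod_cast h1
  have hqN : I.N + 1 ≤ q := by rw [hqdef]; nlinarith
  have hq3 : (3 : ℚ) ≤ q * x := by
    rw [hqdef]; push_cast
    have : (1 : ℚ) ≤ I.N + 1 := by linarith [(Nat.cast_nonneg I.N : (0 : ℚ) ≤ (I.N : ℚ))]
    nlinarith
  set Y := fineY x q1 rr (raw I) A s with hY
  have hYdef : Y = fracY (raw I') kc q ((1 + 5 * x) * A) := by
    rw [hY]; unfold fineY; rw [hrr, kk_raw hI]
  set m := fineM q1 (raw I) s with hm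
  have hmdef : m = 2 * kc * I.N ^ 2 * q * (q - 1) := by
    rw [hm]; unfold fineM fracM; rw [kk_raw hI, riN_raw]
  have hN1 : 1 ≤ I.N := by have := h.hs; omega
  have hmpos : 0 < m := by
    rw [hmdef]
    have h1 : 0 < q - 1 := by omega
    have h2 : 0 < q := by omega
    positivity
  have hYlen : Y.length = 2 * kc ^ 2 * I.N ^ 2 * q ^ 2 := by
    rw [hYdef, length_fracY]; unfold fracT
    rw [show riN (raw I') = I.N from riN_raw I']
  have hqc : ((q - 1 : ℕ) : ℚ) = (q : ℚ) - 1 := by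
    rw [Nat.cast_sub (by omega)]; norm_num
  have hmq : (m : ℚ) = 2 * kc * I.N ^ 2 * q * ((q : ℚ) - 1) := by
    rw [hmdef]; push_cast; rw [hqc]
  have hlen1 : Y.length ≤ m * (kc + 1) := by
    rw [hYlen, hmdef]
    exact arith_len1 (by omega)
  have hmlen : m ≤ Y.length := by
    have h1 : fracM (raw I') kc q ≤ Y.length := by rw [hYdef]; exact fracM_le_length hkc1
    have h2 : m = fracM (raw I') kc q := by
      rw [hmdef]; unfold fracM; rw [show riN (raw I') = I.N from riN_raw I']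
    omega
  -- entries
  have hYF : ∀ y ∈ Y, ∃ hy : y < I.N, (⟨y, hy⟩ : Fin I.N) ∈ F' := by
    intro y hy
    have hne : facL (raw I') ≠ [] := by
      obtain ⟨o, ho⟩ := hQ0
      intro h0
      have h1 : (o : ℕ) ∈ facL (raw I') := mem_facL.2 ⟨o.2, hQF ho⟩
      rw [h0] at h1; simp at h1
    rw [hYdef] at hy
    obtain ⟨hy1, hy2⟩ := mem_facL.1 (fracY_mem (raw I') hne kc q _ y hy)
    exact ⟨hy1, hy2⟩
  -- cost
  have hA' : 0 < (1 + 5 * x) * A := by positivity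
  have hfs : fsum (raw I) Y m ≤ m * ((1 + x) * ((1 + 5 * x) * A)) := by
    have h1 := fracY_spec hI'v (k := kc) (q := q) hkc1 hA' (O := Q') hQF hQ0
      (by rw [hkc]; omega) (show I'.cost Q' ≤ _ from hQc)
    have h2 : fsum (raw I) Y m = ∑ j ∈ cliS (raw I'), ∑ e ∈ (range (fracY (raw I') kc q
        ((1 + 5 * x) * A)).length).filter (fun e => near (raw I') (fracY (raw I') kc q
        ((1 + 5 * x) * A)) (fracM (raw I') kc q) j e = true),
        riD (raw I') ((fracY (raw I') kc q ((1 + 5 * x) * A)).getD e 0) j := by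
      have h3 : m = fracM (raw I') kc q := by
        rw [hmdef]; unfold fracM; rw [show riN (raw I') = I.N from riN_raw I']
      rw [← hYdef, ← h3]
      rfl
    rw [h2]
    refine h1.trans ?_
    rw [show riN (raw I') = I.N from riN_raw I', hmq]
    push_cast
    exact arith_frac (Nat.cast_nonneg _) (Nat.cast_nonneg _) hA'.le hq3 hx (by linarith)
  have hmq0 : (0 : ℚ) < m := by exact_mod_cast hmpos
  have hfs2 : fsum (raw I) Y m ≤ m * (2 * A) := by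
    refine hfs.trans (mul_le_mul_of_nonneg_left ?_ hmq0.le)
    exact arith_c1 hx hx1 hA.le
  have hnum' := hnum m Y hmpos hmlen hYF hfs2
  -- GRAN
  obtain ⟨Yc, hYc, hYcY, hYcM, hYcf, hYcl, hYcG⟩ := hG I Y m (tt (raw I) A s) s
    ((1 + x) * ((1 + 5 * x) * A)) hI (fun y hy => (hYF y hy).1) hmpos hmlen hnd hlt hs0
    (by positivity) hfs hnum'
    (hlen1.trans (Nat.mul_le_mul_left _ (by have := h.hs; omega)))
  have hMq : (0 : ℚ) < M := by exact_mod_cast hM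
  -- RES
  have hYcl2 : (Yc.length : ℚ) ≤ M * (I.k - s + 2 * x * s) := by
    have h1 : (Y.length : ℚ) ≤ m * ((kc : ℚ) + 1) := by exact_mod_cast hlen1
    have h2 : (kc : ℚ) = I.k - s := by rw [hkc, Nat.cast_sub h.hs.le]
    rw [h2] at h1
    exact arith_len hmq0 hMq h1 hYcl hxs
  have hGpos : 0 < g * (1 + 9 * x) * A := by
    have hg0 : (0 : ℝ) < g := lt_of_lt_of_le (by positivity) hg
    have hg1 : (0 : ℚ) < g := by exact_mod_cast hg0
    positivity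
  have hYc2 : fsum (raw I) Yc M ≤ M * ((1 + 9 * x) * A) := by
    refine hYcf.trans (mul_le_mul_of_nonneg_left ?_ hMq.le)
    exact arith_c2 hx hx1 hA.le
  obtain ⟨c, hc, hc0, hck, hcF, hcc⟩ := hR I Yc s (g * (1 + 9 * x) * A) hI
    (clients_nonempty h.pos) hYcM
    (fun y hy => by
      obtain ⟨h1, h2⟩ := hYF y (hYcY y hy)
      exact ⟨h1, hF' h2⟩) hGpos hs1 h.hs hYcl2
    (by
      have := filter_le_nFull (I := I) hnd hlt Yc M
      have e : (C1 + C3) * s = C1 * s + C3 * s := by ring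
      omega)
    (by
      have h1 : (fsum (raw I) Yc M : ℝ) ≤ M * ((1 + 9 * x) * A) := by exact_mod_cast hYc2
      have h2 : (0 : ℝ) ≤ (fsum (raw I) Yc M : ℝ) := by exact_mod_cast fsum_nonneg hI Yc M
      have hg0 : (0 : ℝ) < g := lt_of_lt_of_le (by positivity) hg
      calc (1 + 2 / Real.exp 1) * (fsum (raw I) Yc M : ℝ) ≤ g * (fsum (raw I) Yc M : ℝ) :=
            mul_le_mul_of_nonneg_right hg h2
        _ ≤ g * (M * ((1 + 9 * x) * A)) := mul_le_mul_of_nonneg_left h1 hg0.le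
        _ = M * ((g * (1 + 9 * x) * A : ℚ) : ℝ) := by push_cast; ring)
  refine ⟨c, ?_, hc0, hck, hcF, hcc⟩
  unfold big
  exact List.mem_flatMap.2 ⟨Yc, hYc, hc⟩

/-! ### poly-time -/

section ptf

variable {x : ℚ} {q1 B0 S0 : ℕ} {g : ℚ} {tt : RI → ℚ → ℕ → List ℕ} {rr : RI → ℚ → ℕ → RI}
  {gran : RI → List ℕ → ℕ → List ℕ → ℕ → List (List ℕ)} {res : RI → List ℕ → ℚ → List (List ℕ)}

/-- poly-time of the block STRUCT -/
def StructPT (tt : RI → ℚ → ℕ → List ℕ) (rr : RI → ℚ → ℕ → RI) : Prop :=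
  PTF (fun p : RI × ℚ × ℕ => tt p.1 p.2.1 p.2.2) ∧ PTF (fun p : RI × ℚ × ℕ => rr p.1 p.2.1 p.2.2)

/-- poly-time of the block GRAN -/
def GranPT (gran : RI → List ℕ → ℕ → List ℕ → ℕ → List (List ℕ)) : Prop :=
  ∀ (r : RI × ℚ × ℕ → RI) (Y : RI × ℚ × ℕ → List ℕ) (m : RI × ℚ × ℕ → ℕ)
    (Gt : RI × ℚ × ℕ → List ℕ) (s : RI × ℚ × ℕ → ℕ), PTF r → PTF Y → PTU m → PTF Gt → PTF s →
    PTF (fun c => gran (r c) (Y c) (m c) (Gt c) (s c))

/-- poly-time of the block RES -/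
def ResPT (res : RI → List ℕ → ℚ → List (List ℕ)) : Prop :=
  ∀ (r : (RI × ℚ × ℕ) × List ℕ → RI) (Y : (RI × ℚ × ℕ) × List ℕ → List ℕ)
    (G : (RI × ℚ × ℕ) × List ℕ → ℚ), PTF r → PTF Y → PTF G → PTF (fun c => res (r c) (Y c) (G c))

theorem ptu_kk : PTU (fun p : RI × ℚ × ℕ => kk p.1 p.2.2) := by
  have h1 : PTU (fun p : RI × ℚ × ℕ => min (riK p.1) (riN p.1)) :=
    PTF.natMinUn (ptf_riK PTF.fst) (ptu_riN PTF.fst)
  have h2 : PTU (fun p : RI × ℚ × ℕ => min p.2.2 (riN p.1)) :=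
    PTF.natMinUn (PTF.comp PTF.snd PTF.snd) (ptu_riN PTF.fst)
  refine PTU.of_eq (PTU.sub h1 h2) (fun p => ?_)
  unfold kk
  omega

theorem ptu_qq (q1 : ℕ) : PTU (fun p : RI × ℚ × ℕ => qq q1 p.1) :=
  PTU.mul (PTU.const q1) (PTU.succ (ptu_riN PTF.fst))

theorem ptf_fineY (x : ℚ) (q1 : ℕ) (hrr : PTF (fun p : RI × ℚ × ℕ => rr p.1 p.2.1 p.2.2)) :
    PTF (fun p : RI × ℚ × ℕ => fineY x q1 rr p.1 p.2.1 p.2.2) := by
  unfold fineY
  exact ptf_fracY hrr ptu_kk (ptu_qq q1)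
    (PTF.ratMul (PTF.const (1 + 5 * x)) (PTF.comp PTF.fst PTF.snd))

theorem ptu_fineM (q1 : ℕ) : PTU (fun p : RI × ℚ × ℕ => fineM q1 p.1 p.2.2) :=
  ptu_fracM PTF.fst ptu_kk (ptu_qq q1)

theorem ptf_big (hS : StructPT tt rr) (hG : GranPT gran) (hR : ResPT res) :
    PTF (fun p : RI × ℚ × ℕ => big x q1 g tt rr gran res p.1 p.2.1 p.2.2) := by
  unfold big
  refine PTF.flatMap (l := fun p : RI × ℚ × ℕ => gran p.1 (fineY x q1 rr p.1 p.2.1 p.2.2)
    (fineM q1 p.1 p.2.2) (tt p.1 p.2.1 p.2.2) p.2.2)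
    (f := fun p Yc => res p.1 Yc (g * (1 + 9 * x) * p.2.1)) ?_ ?_
  · exact hG (fun p => p.1) (fun p => fineY x q1 rr p.1 p.2.1 p.2.2) (fun p => fineM q1 p.1 p.2.2)
      (fun p => tt p.1 p.2.1 p.2.2) (fun p => p.2.2) PTF.fst (ptf_fineY x q1 hS.2) (ptu_fineM q1)
      hS.1 (PTF.comp PTF.snd PTF.snd)
  · exact hR (fun p => p.1.1) (fun p => p.2) (fun p => g * (1 + 9 * x) * p.1.2.1)
      (PTF.comp PTF.fst PTF.fst) PTF.snd
      (PTF.ratMul (PTF.const (g * (1 + 9 * x))) (PTF.comp PTF.fst (PTF.comp PTF.snd PTF.fst)))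

theorem ptf_gen (hS : StructPT tt rr) (hG : GranPT gran) (hR : ResPT res) :
    PTF (gen x q1 B0 S0 g tt rr gran res) := by
  unfold gen
  exact PTF.ite (PTPred.natLt (PTF.comp PTF.snd PTF.snd) (PTF.const S0)) (ptf_Gsmall B0 PTF.fst)
    (ptf_big hS hG hR)

end ptf

/-! ### the final theorem -/

theorem arith_final {x g ε γ OPT A : ℝ} (hx : 0 < x) (hx1 : 1000 * x ≤ 1) (hε : 50 * x ≤ ε)
    (hγ1 : 1 ≤ γ) (hγ2 : γ ≤ 2) (hg : g ≤ γ + x) (hg0 : 0 ≤ g) (hO : 0 ≤ OPT)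
    (hA : A ≤ (1 + x) * OPT) :
    (1 + 10 * x) * (g * (1 + 9 * x) * A) ≤ (γ + ε) * OPT := by
  have hx2 : x * x ≤ x / 1000 := by nlinarith
  have h1 : (1 + 10 * x) * (g * (1 + 9 * x) * A) ≤
      (1 + 10 * x) * (g * (1 + 9 * x) * ((1 + x) * OPT)) := by
    gcongr
  refine h1.trans ?_
  have h2 : (1 + 10 * x) * (g * (1 + 9 * x) * ((1 + x) * OPT)) =
      (g * ((1 + 10 * x) * (1 + 9 * x) * (1 + x))) * OPT := by ring
  rw [h2]
  refine mul_le_mul_of_nonneg_right ?_ hO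
  have h3 : (1 + 10 * x) * (1 + 9 * x) * (1 + x) ≤ 1 + 21 * x := by
    have h4 : x * x * x ≤ x * x := by nlinarith [mul_pos hx hx]
    nlinarith
  calc g * ((1 + 10 * x) * (1 + 9 * x) * (1 + x)) ≤ (γ + x) * (1 + 21 * x) :=
        mul_le_mul hg h3 (by positivity) (by linarith)
    _ ≤ γ + ε := by nlinarith

/-- **S0482 from the blocks.** -/
theorem s0482_of_blocks
    (hS : ∀ x : ℚ, 0 < x → 1000 * x ≤ 1 → ∃ tt rr C1 C2, StructOK x tt rr C1 C2 ∧ StructPT tt rr)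
    (hG : ∀ (x : ℚ) (C1 C2 : ℕ), 0 < x → 1000 * x ≤ 1 →
      ∃ gran M s0 C3, 0 < M ∧ GranOK x C1 C2 gran M s0 C3 ∧ GranPT gran)
    (hR : ∀ (x : ℚ) (M C : ℕ), 0 < x → 1000 * x ≤ 1 → 0 < M →
      ∃ res s1, ResOK x M C res s1 ∧ ResPT res)
    (ε : ℝ) (hε : 0 < ε) :
    ∃ f : List Bool → List Bool, Crest.Complexity.PolyTime f ∧
      ∀ I : Instance, I.Valid →
        I.opened f ⊆ I.facilities ∧ (I.opened f).Nonempty ∧ (I.opened f).card ≤ I.k ∧
        ∀ S : Finset (Fin I.N), S ⊆ I.facilities → S.Nonempty → S.card ≤ I.k →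
          (I.cost (I.opened f) : ℝ) ≤ (1 + 2 / Real.exp 1 + ε) * (I.cost S : ℝ) := by
  -- constants
  obtain ⟨x, hx, hx1, hxε⟩ : ∃ x : ℚ, 0 < x ∧ 1000 * x ≤ 1 ∧ 50 * (x : ℝ) ≤ ε := by
    obtain ⟨y, hy0, hy1⟩ := exists_rat_btwn (show (0 : ℝ) < min (1 / 1000) (ε / 50) by positivity)
    have h1 := hy1.trans_le (min_le_left _ _)
    have h2 := hy1.trans_le (min_le_right _ _)
    refine ⟨y, by exact_mod_cast hy0, ?_, by linarith⟩
    have h3 : (1000 : ℝ) * (y : ℝ) ≤ 1 := by linarith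
    exact_mod_cast h3
  have hxr : (0 : ℝ) < x := by exact_mod_cast hx
  have hx1r : 1000 * (x : ℝ) ≤ 1 := by exact_mod_cast hx1
  have he : (0 : ℝ) < Real.exp 1 := Real.exp_pos 1
  obtain ⟨g, hg1, hg2⟩ := exists_rat_btwn
    (show 1 + 2 / Real.exp 1 < 1 + 2 / Real.exp 1 + (x : ℝ) by linarith)
  obtain ⟨tt, rr, C1, C2, hS1, hS2⟩ := hS x hx hx1
  obtain ⟨gran, M, s0, C3, hM, hG1, hG2⟩ := hG x C1 C2 hx hx1
  obtain ⟨res, s1, hR1, hR2⟩ := hR x M (C1 + C3) hx hx1 hM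
  obtain ⟨q1, hq1⟩ := exists_nat_ge (3 / x)
  obtain ⟨s2, hs2⟩ := exists_nat_ge (1 / x)
  obtain ⟨q0, hq0⟩ := exists_nat_ge (1 / x)
  set S0 := max (max s0 s1) (max s2 1) with hS0
  obtain ⟨B0, hB0⟩ := exists_nat_ge ((3 + 1 / (x * (x / 32)) + 24 * 6 / x) * (S0 + 1))
  have hq0pos : 0 < q0 := by
    have h1 : (0 : ℚ) < q0 := lt_of_lt_of_le (by positivity) hq0
    exact_mod_cast h1
  have hq0x : 1 / (q0 : ℚ) ≤ x := by
    rw [div_le_iff₀ (by exact_mod_cast hq0pos)]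
    rw [div_le_iff₀ hx] at hq0
    linarith
  have hγ0 : (0 : ℝ) < 2 / Real.exp 1 := by positivity
  have hγ2 : 1 + 2 / Real.exp 1 ≤ 2 := by
    have h1 : (2 : ℝ) ≤ Real.exp 1 := by
      have := Real.add_one_le_exp (1 : ℝ)
      linarith
    have : 2 / Real.exp 1 ≤ 1 := (div_le_one he).2 h1
    linarith
  refine kmedian_of_guess (1 + 2 / Real.exp 1 + ε) (by positivity) q0 hq0pos x hx.le
    (gen x q1 B0 S0 g tt rr gran res) (ptf_gen hS2 hG2 hR2) ?_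
  intro I hI O Q A s hO hOk hO0 hopt hpos hA1 hA2 hs hQ hQ0 hQk hQc hstab
  have hA2' : A ≤ (1 + x) * I.cost O := by
    refine hA2.trans (mul_le_mul_of_nonneg_right (by linarith) hpos.le)
  have hposr : (0 : ℝ) ≤ I.cost O := by exact_mod_cast hpos.le
  by_cases hsS : s < S0
  · -- small slack
    obtain ⟨c, hc, hc0, hck, hcF, hcc⟩ := Gsmall_spec x (x / 32) hx (by positivity) (by linarith) s B0
      (by
        refine le_trans ?_ hB0
        have h1 : (s : ℚ) + 1 ≤ (S0 : ℚ) + 1 := by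
          have : (s : ℚ) ≤ S0 := by exact_mod_cast hsS.le
          linarith
        exact mul_le_mul_of_nonneg_left h1 (by positivity)) hI hO hOk hpos
      (fun S' h1 h2 h3 => hstab S' h1 h2 h3)
    refine ⟨c, ?_, hc0, hck, hcF, ?_⟩
    · unfold gen
      rw [if_pos hsS]; exact hc
    · have h1 : (I.cost (setOf I c) : ℝ) ≤ (1 + 32 * (x / 32)) * (I.cost O : ℝ) := by
        exact_mod_cast hcc
      refine h1.trans (mul_le_mul_of_nonneg_right ?_ hposr)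
      have : (1 : ℝ) + 32 * (x / 32) = 1 + x := by ring
      rw [this]
      linarith
  · -- large slack
    push Not at hsS
    have hh : Guess I x O Q A s :=
      ⟨hI, hO, hOk, hO0, hopt, hpos, hA1, hA2', hs, hQ, hQ0, hQk, hQc, hstab⟩
    have e1 : s0 ≤ s := le_trans (le_trans (le_max_left _ _) (le_max_left _ _)) hsS
    have e2 : s1 ≤ s := le_trans (le_trans (le_max_right _ _) (le_max_left _ _)) hsS
    have e3 : s2 ≤ s := le_trans (le_trans (le_max_left _ _) (le_max_right _ _)) hsS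
    have e4 : 1 ≤ s := le_trans (le_trans (le_max_right _ _) (le_max_right _ _)) hsS
    have hxs : 1 ≤ x * s := by
      have h1 : (s2 : ℚ) ≤ s := by exact_mod_cast e3
      have h2 : 1 / x ≤ (s : ℚ) := hs2.trans h1
      rw [div_le_iff₀ hx] at h2
      linarith
    have hq1x : 3 ≤ (q1 : ℚ) * x := by
      rw [div_le_iff₀ hx] at hq1
      exact hq1
    obtain ⟨c, hc, hc0, hck, hcF, hcc⟩ := big_good (g := g) hx hx1 hq1x hg1.le hS1 hM hG1 hR1 hh
      e1 e2 e4 hxs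
    refine ⟨c, ?_, hc0, hck, hcF, hcc.trans ?_⟩
    · unfold gen
      rw [if_neg (not_lt.2 hsS)]; exact hc
    · push_cast
      exact arith_final hxr hx1r hxε (by linarith) hγ2 hg2.le
        (le_trans (by positivity) hg1.le) hposr (by exact_mod_cast hA2')

end Crest.Agent.R310
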