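import Crest.Agent.R310.Assembly

/-!
# R310, final assembly for route T (state-tau run): helper167

The statement S0482 from STRUCT (with the paying functions `rho`), FRAC and the run of route T.
-/

set_option linter.dupNamespace false
set_option autoImplicit false

namespace Crest.Agent.R310

open Crest.Agent.Lib.PT Crest.Agent.Lib.PT.Arith Crest.LogicCS.KMedian Finset

/-- the tight facilities `Gt` come with disjoint paying functions of total at least `b` -/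
def RhoOK (I : Instance) (F' : Finset (Fin I.N)) (Gt : List ℕ) (b : ℚ) : Prop :=
  ∃ ρ : ℕ → Fin I.N → ℚ, (∀ g j, 0 ≤ ρ g j) ∧
    (∀ g ∈ Gt, ∀ g' ∈ Gt, g ≠ g' → ∀ j, ρ g j = 0 ∨ ρ g' j = 0) ∧
    (∀ g ∈ Gt, b ≤ ∑ j ∈ I.clients, ρ g j) ∧
    (∀ g ∈ Gt, ∀ f ∈ F', (f : ℕ) ≠ g → ∀ j ∈ I.clients, ρ g j ≤ I.dist f j)

theorem RhoOK.mono {I : Instance} {F' : Finset (Fin I.N)} {Gt : List ℕ} {b b' : ℚ}
    (h : RhoOK I F' Gt b) (hb : b' ≤ b) : RhoOK I F' Gt b' := by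
  obtain ⟨ρ, h1, h2, h3, h4⟩ := h
  exact ⟨ρ, h1, h2, fun g hg => hb.trans (h3 g hg), h4⟩

/-- block STRUCT + NUMBERS with the paying functions -/
def StructOKT' (x : ℚ) (tt : RI → ℚ → ℕ → List ℕ) (rr : RI → ℚ → ℕ → RI) (C1 C2 : ℕ)
    (c0 : ℚ) : Prop :=
  ∀ (I : Instance) (O Q : Finset (Fin I.N)) (A : ℚ) (s : ℕ), Guess I x O Q A s → 1 ≤ s →
    ∃ (F' : Finset (Fin I.N)) (k' : ℕ), F' ⊆ I.facilities ∧ 1 ≤ k' ∧ k' ≤ F'.card ∧
      rr (raw I) A s = raw { I with facilities := F', k := k' } ∧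
      (∃ Q' : Finset (Fin I.N), Q' ⊆ F' ∧ Q'.Nonempty ∧ Q'.card + s ≤ I.k ∧
        I.cost Q' ≤ (1 + 5 * x) * A) ∧
      (tt (raw I) A s).Nodup ∧ (∀ g ∈ tt (raw I) A s, g < I.N) ∧
      I.k ≤ (tt (raw I) A s).length + C1 * s ∧
      (∀ (m : ℕ) (Y : List ℕ), 0 < m → m ≤ Y.length →
        (∀ y ∈ Y, ∃ hy : y < I.N, (⟨y, hy⟩ : Fin I.N) ∈ F') →
        fsum (raw I) Y m ≤ m * (2 * A) →
        ((tt (raw I) A s).map (fun g => m - min m (Y.count g))).sum ≤ C2 * s * m) ∧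
      RhoOK I F' (tt (raw I) A s) (c0 * A / s)

/-- block RUN of route T: ONE candidate -/
def TrunOK (x : ℚ) (C1 C2 : ℕ) (c0 : ℚ) (trun : RI → List ℕ → ℕ → List ℕ → ℕ → ℚ → List ℕ)
    (s0 : ℕ) : Prop :=
  ∀ (I : Instance) (F' : Finset (Fin I.N)) (Y : List ℕ) (m : ℕ) (Gt : List ℕ) (s : ℕ) (A : ℚ),
    I.Valid → I.clients.Nonempty → F' ⊆ I.facilities →
    (∀ y ∈ Y, ∃ hy : y < I.N, (⟨y, hy⟩ : Fin I.N) ∈ F') → 0 < m → m ≤ Y.length → Gt.Nodup →
    (∀ g ∈ Gt, g < I.N) → s0 ≤ s → 1 ≤ s → s < I.k → 0 < A →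
    fsum (raw I) Y m ≤ m * A →
    (Gt.map (fun g => m - min m (Y.count g))).sum ≤ C2 * s * m →
    Y.length ≤ m * (I.k - s + 1) →
    I.k ≤ Gt.length + C1 * s →
    RhoOK I F' Gt (c0 * A / s) →
    trun (raw I) Y m Gt s A ≠ [] ∧ (trun (raw I) Y m Gt s A).length ≤ I.k ∧
      (∀ i ∈ trun (raw I) Y m Gt s A, ∃ hi : i < I.N, (⟨i, hi⟩ : Fin I.N) ∈ I.facilities) ∧
      (I.cost (setOf I (trun (raw I) Y m Gt s A)) : ℝ) ≤
        (1 + 2 / Real.exp 1) * (1 + 10 * x) * A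

/-- poly-time of the block RUN -/
def TrunPT (trun : RI → List ℕ → ℕ → List ℕ → ℕ → ℚ → List ℕ) : Prop :=
  ∀ (r : RI × ℚ × ℕ → RI) (Y : RI × ℚ × ℕ → List ℕ) (m : RI × ℚ × ℕ → ℕ)
    (Gt : RI × ℚ × ℕ → List ℕ) (s : RI × ℚ × ℕ → ℕ) (A : RI × ℚ × ℕ → ℚ), PTF r → PTF Y → PTU m →
    PTF Gt → PTF s → PTF A → PTF (fun c => trun (r c) (Y c) (m c) (Gt c) (s c) (A c))

section gen

variable (x : ℚ) (q1 B0 S0 : ℕ) (tt : RI → ℚ → ℕ → List ℕ) (rr : RI → ℚ → ℕ → RI)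
  (trun : RI → List ℕ → ℕ → List ℕ → ℕ → ℚ → List ℕ)

/-- the candidate for large slack -/
def bigT (r : RI) (A : ℚ) (s : ℕ) : List ℕ :=
  trun r (fineY x q1 rr r A s) (fineM q1 r s) (tt r A s) s ((1 + 7 * x) * A)

/-- the whole generator -/
def genT (p : RI × ℚ × ℕ) : List (List ℕ) :=
  if p.2.2 < S0 then Gsmall B0 p.1 else [bigT x q1 tt rr trun p.1 p.2.1 p.2.2]

end gen

theorem arith_c3 {x A : ℚ} (hx : 0 < x) (hx1 : 1000 * x ≤ 1) (hA : 0 ≤ A) :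
    (1 + x) * ((1 + 5 * x) * A) ≤ (1 + 7 * x) * A := by
  have : (1 + x) * ((1 + 5 * x) * A) = ((1 + x) * (1 + 5 * x)) * A := by ring
  rw [this]
  exact mul_le_mul_of_nonneg_right (by nlinarith) hA

theorem bigT_good {x : ℚ} {q1 : ℕ} {tt : RI → ℚ → ℕ → List ℕ} {rr : RI → ℚ → ℕ → RI}
    {trun : RI → List ℕ → ℕ → List ℕ → ℕ → ℚ → List ℕ}
    {C1 C2 s0 : ℕ} {c0 : ℚ} (hc0 : 0 < c0) (hx : 0 < x) (hx1 : 1000 * x ≤ 1) (hq1 : 3 ≤ q1 * x)
    (hS : StructOKT' x tt rr C1 C2 c0) (hT : TrunOK x C1 C2 (c0 / 2) trun s0)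
    {I : Instance} {O Q : Finset (Fin I.N)} {A : ℚ} {s : ℕ} (h : Guess I x O Q A s)
    (hs0 : s0 ≤ s) (hs : 1 ≤ s) :
    bigT x q1 tt rr trun (raw I) A s ≠ [] ∧
      (bigT x q1 tt rr trun (raw I) A s).length ≤ I.k ∧
      (∀ i ∈ bigT x q1 tt rr trun (raw I) A s, ∃ hi : i < I.N,
        (⟨i, hi⟩ : Fin I.N) ∈ I.facilities) ∧
      (I.cost (setOf I (bigT x q1 tt rr trun (raw I) A s)) : ℝ) ≤
        (1 + 2 / Real.exp 1) * (1 + 10 * x) * (((1 + 7 * x) * A : ℚ) : ℝ) := by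
  obtain ⟨F', k', hF', hk1, hkF, hrr, ⟨Q', hQF, hQ0, hQk, hQc⟩, hnd, hlt, hcount, hnum, hrho⟩ :=
    hS I O Q A s h hs
  have hI := h.hI
  have hA : 0 < A := h.pos.trans_le h.le
  set I' : Instance := { I with facilities := F', k := k' } with hI'
  have hI'v : I'.Valid :=
    ⟨hI.1, hI.2.1, hI.2.2.1, hI.2.2.2.1, hk1, hkF⟩
  set kc := I.k - s with hkc
  have hkc1 : 1 ≤ kc := by have := h.hs; omega
  have hNk : I.k ≤ I.N := k_le_N hI
  set q := qq q1 (raw I) with hq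
  have hqdef : q = q1 * (I.N + 1) := by rw [hq]; unfold qq; rw [riN_raw]
  have hq1' : 3000 ≤ q1 := by
    have h1 : (3000 : ℚ) ≤ q1 := by nlinarith
    exact_mod_cast h1
  have hqN : I.N + 1 ≤ q := by rw [hqdef]; nlinarith
  have hq3 : (3 : ℚ) ≤ q * x := by
    rw [hqdef]; push_cast
    have : (1 : ℚ) ≤ I.N + 1 := by linarith [(Nat.cast_nonneg I.N : (0 : ℚ) ≤ (I.N : ℚ))]
    nlinarith
  set Y := fineY x q1 rr (raw I) A s with hY
  have hYdef : Y = fracY (raw I') kc q ((1 + 5 * x) * A) := by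
    rw [hY]; unfold fineY; rw [hrr, kk_raw hI]
  set m := fineM q1 (raw I) s with hm
  have hmdef : m = 2 * kc * I.N ^ 2 * q * (q - 1) := by
    rw [hm]; unfold fineM fracM; rw [kk_raw hI, riN_raw]
  have hN1 : 1 ≤ I.N := by have := h.hs; omega
  have hmpos : 0 < m := by
    rw [hmdef]
    have h1 : 0 < q - 1 := by omega
    have h2 : 0 < q := by omega
    positivity
  have hYlen : Y.length = 2 * kc ^ 2 * I.N ^ 2 * q ^ 2 := by
    rw [hYdef, length_fracY]; unfold fracT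
    rw [show riN (raw I') = I.N from riN_raw I']
  have hqc : ((q - 1 : ℕ) : ℚ) = (q : ℚ) - 1 := by
    rw [Nat.cast_sub (by omega)]; norm_num
  have hmq : (m : ℚ) = 2 * kc * I.N ^ 2 * q * ((q : ℚ) - 1) := by
    rw [hmdef]; push_cast; rw [hqc]
  have hlen1 : Y.length ≤ m * (kc + 1) := by
    rw [hYlen, hmdef]
    exact arith_len1 (by omega)
  have hmlen : m ≤ Y.length := by
    have h1 : fracM (raw I') kc q ≤ Y.length := by rw [hYdef]; exact fracM_le_length hkc1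
    have h2 : m = fracM (raw I') kc q := by
      rw [hmdef]; unfold fracM; rw [show riN (raw I') = I.N from riN_raw I']
    omega
  have hYF : ∀ y ∈ Y, ∃ hy : y < I.N, (⟨y, hy⟩ : Fin I.N) ∈ F' := by
    intro y hy
    have hne : facL (raw I') ≠ [] := by
      obtain ⟨o, ho⟩ := hQ0
      intro h0
      have h1 : (o : ℕ) ∈ facL (raw I') := mem_facL.2 ⟨o.2, hQF ho⟩
      rw [h0] at h1; simp at h1
    rw [hYdef] at hy
    obtain ⟨hy1, hy2⟩ := mem_facL.1 (fracY_mem (raw I') hne kc q _ y hy)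
    exact ⟨hy1, hy2⟩
  have hA' : 0 < (1 + 5 * x) * A := by positivity
  have hfs : fsum (raw I) Y m ≤ m * ((1 + x) * ((1 + 5 * x) * A)) := by
    have h1 := fracY_spec hI'v (k := kc) (q := q) hkc1 hA' (O := Q') hQF hQ0
      (by rw [hkc]; omega) (show I'.cost Q' ≤ _ from hQc)
    have h2 : fsum (raw I) Y m = ∑ j ∈ cliS (raw I'), ∑ e ∈ (range (fracY (raw I') kc q
        ((1 + 5 * x) * A)).length).filter (fun e => near (raw I') (fracY (raw I') kc q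
        ((1 + 5 * x) * A)) (fracM (raw I') kc q) j e = true),
        riD (raw I') ((fracY (raw I') kc q ((1 + 5 * x) * A)).getD e 0) j := by
      have h3 : m = fracM (raw I') kc q := by
        rw [hmdef]; unfold fracM; rw [show riN (raw I') = I.N from riN_raw I']
      rw [← hYdef, ← h3]
      rfl
    rw [h2]
    refine h1.trans ?_
    rw [show riN (raw I') = I.N from riN_raw I', hmq]
    push_cast
    exact arith_frac (Nat.cast_nonneg _) (Nat.cast_nonneg _) hA'.le hq3 hx (by linarith)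
  have hmq0 : (0 : ℚ) < m := by exact_mod_cast hmpos
  have hfs2 : fsum (raw I) Y m ≤ m * (2 * A) := by
    refine hfs.trans (mul_le_mul_of_nonneg_left ?_ hmq0.le)
    exact arith_c1 hx hx1 hA.le
  have hfs3 : fsum (raw I) Y m ≤ m * ((1 + 7 * x) * A) := by
    refine hfs.trans (mul_le_mul_of_nonneg_left ?_ hmq0.le)
    exact arith_c3 hx hx1 hA.le
  have hnum' := hnum m Y hmpos hmlen hYF hfs2
  have hsq : (0 : ℚ) < s := by exact_mod_cast hs
  exact hT I F' Y m (tt (raw I) A s) s ((1 + 7 * x) * A) hI (clients_nonempty h.pos) hF' hYF hmpos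
    hmlen hnd hlt hs0 hs h.hs (by positivity) hfs3 hnum' hlen1 hcount
    (hrho.mono (by
      rw [div_le_div_iff_of_pos_right hsq]
      nlinarith [mul_pos hc0 hA]))

theorem ptf_bigT {x : ℚ} {q1 : ℕ} {tt : RI → ℚ → ℕ → List ℕ} {rr : RI → ℚ → ℕ → RI}
    {trun : RI → List ℕ → ℕ → List ℕ → ℕ → ℚ → List ℕ} (hS : StructPT tt rr) (hT : TrunPT trun) :
    PTF (fun p : RI × ℚ × ℕ => bigT x q1 tt rr trun p.1 p.2.1 p.2.2) := by
  unfold bigT
  exact hT (fun p => p.1) (fun p => fineY x q1 rr p.1 p.2.1 p.2.2) (fun p => fineM q1 p.1 p.2.2)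
    (fun p => tt p.1 p.2.1 p.2.2) (fun p => p.2.2) (fun p => (1 + 7 * x) * p.2.1) PTF.fst
    (ptf_fineY x q1 hS.2) (ptu_fineM q1) hS.1 (PTF.comp PTF.snd PTF.snd)
    (PTF.ratMul (PTF.const (1 + 7 * x)) (PTF.comp PTF.fst PTF.snd))

theorem ptf_genT {x : ℚ} {q1 B0 S0 : ℕ} {tt : RI → ℚ → ℕ → List ℕ} {rr : RI → ℚ → ℕ → RI}
    {trun : RI → List ℕ → ℕ → List ℕ → ℕ → ℚ → List ℕ} (hS : StructPT tt rr) (hT : TrunPT trun) :
    PTF (genT x q1 B0 S0 tt rr trun) := by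
  unfold genT
  exact PTF.ite (PTPred.natLt (PTF.comp PTF.snd PTF.snd) (PTF.const S0)) (ptf_Gsmall B0 PTF.fst)
    (PTF.listCons (ptf_bigT hS hT) (PTF.const []))

/-- **S0482 from the blocks of route T.** -/
theorem s0482_of_blocksT
    (hS : ∀ x : ℚ, 0 < x → 1000 * x ≤ 1 →
      ∃ tt rr C1 C2 c0, 0 < c0 ∧ StructOKT' x tt rr C1 C2 c0 ∧ StructPT tt rr)
    (hT : ∀ (x : ℚ) (C1 C2 : ℕ) (c0 : ℚ), 0 < x → 1000 * x ≤ 1 → 0 < c0 →
      ∃ trun s0, TrunOK x C1 C2 c0 trun s0 ∧ TrunPT trun)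
    (ε : ℝ) (hε : 0 < ε) :
    ∃ f : List Bool → List Bool, Crest.Complexity.PolyTime f ∧
      ∀ I : Instance, I.Valid →
        I.opened f ⊆ I.facilities ∧ (I.opened f).Nonempty ∧ (I.opened f).card ≤ I.k ∧
        ∀ S : Finset (Fin I.N), S ⊆ I.facilities → S.Nonempty → S.card ≤ I.k →
          (I.cost (I.opened f) : ℝ) ≤ (1 + 2 / Real.exp 1 + ε) * (I.cost S : ℝ) := by
  obtain ⟨x, hx, hx1, hxε⟩ : ∃ x : ℚ, 0 < x ∧ 1000 * x ≤ 1 ∧ 50 * (x : ℝ) ≤ ε := by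
    obtain ⟨y, hy0, hy1⟩ := exists_rat_btwn (show (0 : ℝ) < min (1 / 1000) (ε / 50) by positivity)
    have h1 := hy1.trans_le (min_le_left _ _)
    have h2 := hy1.trans_le (min_le_right _ _)
    refine ⟨y, by exact_mod_cast hy0, ?_, by linarith⟩
    have h3 : (1000 : ℝ) * (y : ℝ) ≤ 1 := by linarith
    exact_mod_cast h3
  have hxr : (0 : ℝ) < x := by exact_mod_cast hx
  have hx1r : 1000 * (x : ℝ) ≤ 1 := by exact_mod_cast hx1
  have he : (0 : ℝ) < Real.exp 1 := Real.exp_pos 1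
  obtain ⟨tt, rr, C1, C2, c0, hc0, hS1, hS2⟩ := hS x hx hx1
  obtain ⟨trun, s0, hT1, hT2⟩ := hT x C1 C2 (c0 / 2) hx hx1 (by positivity)
  obtain ⟨q1, hq1⟩ := exists_nat_ge (3 / x)
  obtain ⟨q0, hq0⟩ := exists_nat_ge (1 / x)
  set S0 := max s0 1 with hS0
  obtain ⟨B0, hB0⟩ := exists_nat_ge ((3 + 1 / (x * (x / 32)) + 24 * 6 / x) * (S0 + 1))
  have hq0pos : 0 < q0 := by
    have h1 : (0 : ℚ) < q0 := lt_of_lt_of_le (by positivity) hq0
    exact_mod_cast h1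
  have hq0x : 1 / (q0 : ℚ) ≤ x := by
    rw [div_le_iff₀ (by exact_mod_cast hq0pos)]
    rw [div_le_iff₀ hx] at hq0
    linarith
  have hγ0 : (0 : ℝ) < 2 / Real.exp 1 := by positivity
  have hγ2 : 1 + 2 / Real.exp 1 ≤ 2 := by
    have h1 : (2 : ℝ) ≤ Real.exp 1 := by
      have := Real.add_one_le_exp (1 : ℝ)
      linarith
    have : 2 / Real.exp 1 ≤ 1 := (div_le_one he).2 h1
    linarith
  refine kmedian_of_guess (1 + 2 / Real.exp 1 + ε) (by positivity) q0 hq0pos x hx.le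
    (genT x q1 B0 S0 tt rr trun) (ptf_genT hS2 hT2) ?_
  intro I hI O Q A s hO hOk hO0 hopt hpos hA1 hA2 hs hQ hQ0 hQk hQc hstab
  have hA2' : A ≤ (1 + x) * I.cost O := by
    refine hA2.trans (mul_le_mul_of_nonneg_right (by linarith) hpos.le)
  have hposr : (0 : ℝ) ≤ I.cost O := by exact_mod_cast hpos.le
  by_cases hsS : s < S0
  · obtain ⟨c, hc, hc0, hck, hcF, hcc⟩ := Gsmall_spec x (x / 32) hx (by positivity) (by linarith) s B0
      (by
        refine le_trans ?_ hB0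
        have h1 : (s : ℚ) + 1 ≤ (S0 : ℚ) + 1 := by
          have : (s : ℚ) ≤ S0 := by exact_mod_cast hsS.le
          linarith
        exact mul_le_mul_of_nonneg_left h1 (by positivity)) hI hO hOk hpos
      (fun S' h1 h2 h3 => hstab S' h1 h2 h3)
    refine ⟨c, ?_, hc0, hck, hcF, ?_⟩
    · unfold genT
      rw [if_pos hsS]; exact hc
    · have h1 : (I.cost (setOf I c) : ℝ) ≤ (1 + 32 * (x / 32)) * (I.cost O : ℝ) := by
        exact_mod_cast hcc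
      refine h1.trans (mul_le_mul_of_nonneg_right ?_ hposr)
      have : (1 : ℝ) + 32 * (x / 32) = 1 + x := by ring
      rw [this]
      linarith
  · push Not at hsS
    have hh : Guess I x O Q A s :=
      ⟨hI, hO, hOk, hO0, hopt, hpos, hA1, hA2', hs, hQ, hQ0, hQk, hQc, hstab⟩
    have e1 : s0 ≤ s := le_trans (le_max_left _ _) hsS
    have e4 : 1 ≤ s := le_trans (le_max_right _ _) hsS
    have hq1x : 3 ≤ (q1 : ℚ) * x := by
      rw [div_le_iff₀ hx] at hq1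
      exact hq1
    obtain ⟨hc0', hck, hcF, hcc⟩ := bigT_good (trun := trun) hc0 hx hx1 hq1x hS1 hT1 hh e1 e4
    refine ⟨bigT x q1 tt rr trun (raw I) A s, ?_, hc0', hck, hcF, hcc.trans ?_⟩
    · unfold genT
      rw [if_neg (not_lt.2 hsS)]; simp
    · push_cast
      have hA2r : (A : ℝ) ≤ (1 + x) * (I.cost O : ℝ) := by exact_mod_cast hA2'
      have hA0 : (0 : ℝ) ≤ A := by exact_mod_cast (hpos.le.trans hA1)
      have h1 : (1 + 2 / Real.exp 1) * (1 + 10 * (x : ℝ)) * ((1 + 7 * x) * A) ≤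
          (1 + 10 * x) * ((1 + 2 / Real.exp 1) * (1 + 9 * x) * A) := by
        have h2 : (1 + 7 * (x : ℝ)) * A ≤ (1 + 9 * x) * A :=
          mul_le_mul_of_nonneg_right (by linarith) hA0
        calc (1 + 2 / Real.exp 1) * (1 + 10 * (x : ℝ)) * ((1 + 7 * x) * A) ≤
            (1 + 2 / Real.exp 1) * (1 + 10 * (x : ℝ)) * ((1 + 9 * x) * A) :=
              mul_le_mul_of_nonneg_left h2 (by positivity)
          _ = _ := by ring
      exact h1.trans (arith_final hxr hx1r hxε (by linarith) hγ2 (by linarith) (by positivity)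
        hposr hA2r)

end Crest.Agent.R310
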