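import Mathlib

/-!
# R310: Blackwell approachability (abstract lemma)

If every new vector `v t` has nonnegative scalar product with the negative part
`R t = (-∑_{s<t} v s)^+` of the partial sum and `‖v t‖² ≤ V`, then `‖R M‖² ≤ M V`.
-/

set_option linter.dupNamespace false
set_option autoImplicit false

namespace Crest.Agent.R310

open Finset

/-- negative part of the partial sums -/
def negSum {J : Type*} (v : ℕ → J → ℚ) (t : ℕ) (j : J) : ℚ := max 0 (-∑ s ∈ range t, v s j)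

theorem negSum_nonneg {J : Type*} (v : ℕ → J → ℚ) (t : ℕ) (j : J) : 0 ≤ negSum v t j :=
  le_max_left _ _

theorem neg_sum_le_negSum {J : Type*} (v : ℕ → J → ℚ) (t : ℕ) (j : J) :
    -∑ s ∈ range t, v s j ≤ negSum v t j := le_max_right _ _

theorem negSum_succ_sq {J : Type*} (v : ℕ → J → ℚ) (t : ℕ) (j : J) :
    negSum v (t+1) j ^ 2 ≤ negSum v t j ^ 2 - 2 * (negSum v t j * v t j) + v t j ^ 2 := by
  have h : negSum v t j ^ 2 - 2 * (negSum v t j * v t j) + v t j ^ 2
      = (negSum v t j - v t j) ^ 2 := by ring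
  rw [h]
  unfold negSum
  rw [Finset.sum_range_succ]
  set a := ∑ s ∈ range t, v s j
  rcases le_total 0 (-(a + v t j)) with h1 | h1
  · rw [max_eq_right h1]
    apply pow_le_pow_left₀ h1
    have := le_max_right 0 (-a)
    linarith
  · rw [max_eq_left h1]
    have := sq_nonneg (max 0 (-a) - v t j)
    simpa using this

/-- **Blackwell approachability.** -/
theorem blackwell {J : Type*} (C : Finset J) (v : ℕ → J → ℚ) (V : ℚ) (M : ℕ)
    (h1 : ∀ t < M, 0 ≤ ∑ j ∈ C, negSum v t j * v t j)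
    (h2 : ∀ t < M, ∑ j ∈ C, v t j ^ 2 ≤ V) :
    ∑ j ∈ C, negSum v M j ^ 2 ≤ M * V := by
  induction M with
  | zero =>
    simp [negSum]
  | succ M ih =>
    have ih' := ih (fun t ht => h1 t (by omega)) (fun t ht => h2 t (by omega))
    have h3 : ∑ j ∈ C, negSum v (M+1) j ^ 2
        ≤ ∑ j ∈ C, (negSum v M j ^ 2 - 2 * (negSum v M j * v M j) + v M j ^ 2) :=
      Finset.sum_le_sum fun j _ => negSum_succ_sq v M j
    rw [Finset.sum_add_distrib, Finset.sum_sub_distrib, ← Finset.mul_sum] at h3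
    have h4 := h1 M (by omega)
    have h5 := h2 M (by omega)
    push_cast
    nlinarith

/-- coordinate form, `M = V q²` -/
theorem blackwell_coord {J : Type*} (C : Finset J) (v : ℕ → J → ℚ) (V q : ℕ)
    (h1 : ∀ t < V * q ^ 2, 0 ≤ ∑ j ∈ C, negSum v t j * v t j)
    (h2 : ∀ t < V * q ^ 2, ∑ j ∈ C, v t j ^ 2 ≤ V) {j : J} (hj : j ∈ C) :
    -((V : ℚ) * q) ≤ ∑ s ∈ range (V * q ^ 2), v s j := by
  have h := blackwell C v V (V * q ^ 2) h1 h2
  have h3 : negSum v (V * q ^ 2) j ^ 2 ≤ ∑ j ∈ C, negSum v (V * q ^ 2) j ^ 2 :=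
    Finset.single_le_sum (f := fun j => negSum v (V * q ^ 2) j ^ 2)
      (fun j _ => sq_nonneg _) hj
  have h4 : negSum v (V * q ^ 2) j ^ 2 ≤ ((V : ℚ) * q) ^ 2 := by
    refine (h3.trans h).trans (le_of_eq ?_)
    push_cast; ring
  have h5 : negSum v (V * q ^ 2) j ≤ (V : ℚ) * q :=
    le_of_sq_le_sq h4 (by positivity)
  have h6 := neg_sum_le_negSum v (V * q ^ 2) j
  linarith

end Crest.Agent.R310
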