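import Crest.Agent.R310.Res
import Crest.Agent.R310.Assembly

/-!
# R310: the block RES in the form of the assembly
-/

set_option linter.dupNamespace false
set_option autoImplicit false

namespace Crest.Agent.R310

open Crest.Agent.Lib.PT Crest.Agent.Lib.PT.Arith Crest.Agent.KM Crest.LogicCS.KMedian

theorem nFull_eq_T0L (r : RI) (Y : List ℕ) (M : ℕ) : nFull r Y M = (T0L r Y M).length := by
  unfold nFull
  rw [← List.toFinset_card_of_nodup (nodup_T0L r Y M)]
  congr 1
  ext v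
  rw [Finset.mem_filter, Finset.mem_range, List.mem_toFinset, mem_T0L, countP_eq_count]

/-- **Block RES.** -/
theorem block_res (x : ℚ) (M C : ℕ) (hx : 0 < x) (hx1 : 1000 * x ≤ 1) (hM : 0 < M) :
    ∃ (res : RI → List ℕ → ℚ → List (List ℕ)) (s1 : ℕ), ResOK x M C res s1 ∧ ResPT res := by
  have hC : (0 : ℚ) < C + 1 := by positivity
  have h2x : 0 < 1 - 2 * x := by linarith
  have hδ0 : 0 < (1 - 2 * x) / ((C : ℚ) + 1) := by positivity
  have hC0 : (0 : ℚ) ≤ C := Nat.cast_nonneg C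
  have hδ1 : (1 - 2 * x) / ((C : ℚ) + 1) < 1 := by
    rw [div_lt_one hC]; linarith
  obtain ⟨P, hPδ, hPε⟩ := SlackK.exists_params x ((1 - 2 * x) / ((C : ℚ) + 1)) hx (by linarith)
    hδ0 hδ1
  obtain ⟨J0, hJ0⟩ := exists_nat_ge (12 / P.η)
  have hη := P.hη
  have hJ : 12 ≤ P.η * ((J0 : ℚ)) ^ 2 := by
    rw [div_le_iff₀ hη] at hJ0
    have h1 : (1 : ℚ) ≤ J0 := by
      have h3 : (0 : ℚ) < J0 := by
        by_contra hne
        have : (J0 : ℚ) = 0 := le_antisymm (not_lt.1 hne) (Nat.cast_nonneg _)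
        rw [this] at hJ0; linarith
      have h4 : 0 < J0 := by exact_mod_cast h3
      exact_mod_cast h4
    have h2 : (J0 : ℚ) ≤ (J0 : ℚ) ^ 2 := by nlinarith
    calc (12 : ℚ) ≤ J0 * P.η := hJ0
      _ = P.η * J0 := by ring
      _ ≤ P.η * (J0 : ℚ) ^ 2 := mul_le_mul_of_nonneg_left h2 hη.le
  refine ⟨fun r Y G => resC P J0 M r Y G, 2 * P.k0, ?_, ?_⟩
  · intro I Y s G hI hcl hMY hY hG hs hsk hlen hcom hcost
    have hsq : (2 : ℚ) * P.k0 ≤ s := by exact_mod_cast hs
    have h := res_candidates' P (J0 := J0) (M := M) hI hcl hM hMY hY hG hJ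
      (s := (s : ℚ)) (e1 := 2 * x) (C3 := (C : ℚ)) hlen
      (by
        rw [nFull_eq_T0L] at hcom
        exact_mod_cast hcom)
      (by
        have h0 : (0 : ℚ) ≤ P.k0 := Nat.cast_nonneg _
        have h1 : (1 : ℚ) / 2 ≤ 1 - 2 * x := by linarith
        have h2 : (0 : ℚ) ≤ s := Nat.cast_nonneg _
        nlinarith)
      (by
        rw [hPδ, div_mul_eq_mul_div, div_le_iff₀ hC]
        nlinarith)
      (Nat.cast_nonneg _)
      (by
        have e : (fsum (raw I) Y M : ℝ) = ((∑ j ∈ cliS (raw I),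
          ∑ e ∈ (Finset.range Y.length).filter (fun e => near (raw I) Y M j e = true),
            riD (raw I) (Y.getD e 0) j : ℚ) : ℝ) := rfl
        rw [← e]
        exact hcost)
    rw [hPε] at h
    exact h
  · intro r Y G hr hY hG
    exact ptf_resC P J0 M hr hY hG

end Crest.Agent.R310
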