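import Crest.Agent.R310.Struct
import Crest.Agent.R310.TightSmallCode

/-!
# R310, block B2: the structure step as code (helper201)

For a raw instance `r`, a guess `A` of the optimal cost and the slack `s`:
* `cenL r` : the centres `S` of the local search;
* `rigL`, `bestF` : rigid centres `t` and the facility kept for them;
* `resRI` : the raw instance with the restricted facility mask (and budget `1`).
`resInst` is the corresponding instance; `struct_code` collects everything that is proved about it.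
-/

set_option linter.dupNamespace false
set_option autoImplicit false

namespace Crest.Agent.R310

open Crest.Agent.Lib.PT Crest.Agent.Lib.PT.Arith Crest.LogicCS.KMedian

/-- distinct centres of the local search -/
def cenL (r : RI) : List ℕ := (facL r).filter (fun t => decide (t ∈ localS r))

/-- distance of `t` to the other centres -/
def sepL (r : RI) (S : List ℕ) (t : ℕ) : ℚ :=
  listMin ((S.filter (fun u => !decide (u = t))).map (fun u => riD r t u))

/-- weight of the core -/
def wtL (r : RI) (S : List ℕ) (t : ℕ) : ℚ :=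
  ∑ j ∈ Finset.range (riN r), if coreB r S t j = true then 1 else 0

/-- rigid centres -/
def rigL (r : RI) (S : List ℕ) (θ B : ℚ) : List ℕ :=
  S.filter (fun t => decide (B ≤ wtL r S t * sepL r S t) && decide (score r S t t ≤ θ * B))

/-- the facility kept for `t` -/
def bestF (r : RI) (S : List ℕ) (β : ℚ) (t : ℕ) : ℕ :=
  argQ ((facL r).filter (fun f => decide (riD r f t ≤ β * sepL r S t))) (fun u => score r S t u)

/-- is `f` kept? -/
def keepB (r : RI) (S G : List ℕ) (β : ℚ) (f : ℕ) : Bool :=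
  G.all (fun t => !decide (riD r f t ≤ β * sepL r S t) || decide (f = bestF r S β t))

/-- the restricted raw instance (budget `1`) -/
def resRI (r : RI) (S G : List ℕ) (β : ℚ) : RI :=
  (r.1, 1, r.2.2.1, (List.range (riN r)).map (fun f => riF r f && keepB r S G β f), r.2.2.2.2)

/-- the restricted instance for the threshold `B` -/
def structR (θ β : ℚ) (r : RI) (B : ℚ) : RI := resRI r (cenL r) (rigL r (cenL r) θ B) β

/-- the tight facilities -/
def structG (θ β : ℚ) (r : RI) (B : ℚ) : List ℕ :=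
  (rigL r (cenL r) θ B).map (fun t => bestF r (cenL r) β t)

section ptf
variable {γ : Type} [PTCode γ]

theorem ptf_cenL {r : γ → RI} (hr : PTF r) : PTF (fun c => cenL (r c)) :=
  PTF.filter (l := fun c => facL (r c)) (p := fun c t => decide (t ∈ localS (r c))) (ptf_facL hr)
    (PTPred.toPTF (PTPred.mem PTF.snd (ptf_localS (PTF.comp hr PTF.fst))))

theorem ptf_sepL {r : γ → RI} {S : γ → List ℕ} {t : γ → ℕ} (hr : PTF r) (hS : PTF S) (ht : PTF t) :
    PTF (fun c => sepL (r c) (S c) (t c)) := by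
  refine ptf_listMin (PTF.map (l := fun c => (S c).filter (fun u => !decide (u = t c)))
    (f := fun c u => riD (r c) (t c) u) ?_ ?_)
  · exact PTF.filter (l := S) (p := fun c u => !decide (u = t c)) hS
      (PTF.not (PTPred.toPTF (PTPred.natEq PTF.snd (PTF.comp ht PTF.fst))))
  · exact ptf_riD (PTF.comp hr PTF.fst) (PTF.comp ht PTF.fst) PTF.snd

theorem ptf_wtL {r : γ → RI} {S : γ → List ℕ} {t : γ → ℕ} (hr : PTF r) (hS : PTF S) (ht : PTF t) :
    PTF (fun c => wtL (r c) (S c) (t c)) := by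
  refine PTF.ratSumRange (ptu_riN hr)
    (f := fun c j => if coreB (r c) (S c) (t c) j = true then (1 : ℚ) else 0) ?_
  exact PTF.ite (PTF.toPTPred (ptf_coreB (PTF.comp hr PTF.fst) (PTF.comp hS PTF.fst)
    (PTF.comp ht PTF.fst) PTF.snd)) (PTF.const _) (PTF.const _)

theorem ptf_rigL {r : γ → RI} {S : γ → List ℕ} {θ B : γ → ℚ} (hr : PTF r) (hS : PTF S)
    (hθ : PTF θ) (hB : PTF B) : PTF (fun c => rigL (r c) (S c) (θ c) (B c)) := by
  have hr' : PTF (fun p : γ × ℕ => r p.1) := PTF.comp hr PTF.fst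
  have hS' : PTF (fun p : γ × ℕ => S p.1) := PTF.comp hS PTF.fst
  have hB' : PTF (fun p : γ × ℕ => B p.1) := PTF.comp hB PTF.fst
  have hθ' : PTF (fun p : γ × ℕ => θ p.1) := PTF.comp hθ PTF.fst
  refine PTF.filter (l := S) (p := fun c t => decide (B c ≤ wtL (r c) (S c) t * sepL (r c) (S c) t) &&
    decide (score (r c) (S c) t t ≤ θ c * B c)) hS (PTF.and ?_ ?_)
  · exact PTPred.toPTF (PTPred.ratLe hB' (PTF.ratMul (ptf_wtL hr' hS' PTF.snd)
      (ptf_sepL hr' hS' PTF.snd)))
  · exact PTPred.toPTF (PTPred.ratLe (ptf_score hr' hS' PTF.snd PTF.snd) (PTF.ratMul hθ' hB'))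

theorem ptf_bestF {r : γ → RI} {S : γ → List ℕ} {β : γ → ℚ} {t : γ → ℕ} (hr : PTF r) (hS : PTF S)
    (hβ : PTF β) (ht : PTF t) : PTF (fun c => bestF (r c) (S c) (β c) (t c)) := by
  have hr' : PTF (fun p : γ × ℕ => r p.1) := PTF.comp hr PTF.fst
  have hS' : PTF (fun p : γ × ℕ => S p.1) := PTF.comp hS PTF.fst
  have hβ' : PTF (fun p : γ × ℕ => β p.1) := PTF.comp hβ PTF.fst
  have ht' : PTF (fun p : γ × ℕ => t p.1) := PTF.comp ht PTF.fst
  refine ptf_argQ (l := fun c => (facL (r c)).filter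
    (fun f => decide (riD (r c) f (t c) ≤ β c * sepL (r c) (S c) (t c))))
    (key := fun c u => score (r c) (S c) (t c) u) ?_ (ptf_score hr' hS' ht' PTF.snd)
  refine PTF.filter (l := fun c => facL (r c))
    (p := fun c f => decide (riD (r c) f (t c) ≤ β c * sepL (r c) (S c) (t c))) (ptf_facL hr) ?_
  exact PTPred.toPTF (PTPred.ratLe (ptf_riD hr' PTF.snd ht') (PTF.ratMul hβ' (ptf_sepL hr' hS' ht')))

theorem ptf_keepB {r : γ → RI} {S G : γ → List ℕ} {β : γ → ℚ} {f : γ → ℕ} (hr : PTF r)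
    (hS : PTF S) (hG : PTF G) (hβ : PTF β) (hf : PTF f) :
    PTF (fun c => keepB (r c) (S c) (G c) (β c) (f c)) := by
  have hr' : PTF (fun p : γ × ℕ => r p.1) := PTF.comp hr PTF.fst
  have hS' : PTF (fun p : γ × ℕ => S p.1) := PTF.comp hS PTF.fst
  have hβ' : PTF (fun p : γ × ℕ => β p.1) := PTF.comp hβ PTF.fst
  have hf' : PTF (fun p : γ × ℕ => f p.1) := PTF.comp hf PTF.fst
  refine PTF.all (l := G) (p := fun c t => !decide (riD (r c) (f c) t ≤ β c * sepL (r c) (S c) t) ||
    decide (f c = bestF (r c) (S c) (β c) t)) hG (PTF.or (PTF.not ?_) ?_)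
  · exact PTPred.toPTF (PTPred.ratLe (ptf_riD hr' hf' PTF.snd)
      (PTF.ratMul hβ' (ptf_sepL hr' hS' PTF.snd)))
  · exact PTPred.toPTF (PTPred.natEq hf' (ptf_bestF hr' hS' hβ' PTF.snd))

theorem ptf_resRI {r : γ → RI} {S G : γ → List ℕ} {β : γ → ℚ} (hr : PTF r)
    (hS : PTF S) (hG : PTF G) (hβ : PTF β) : PTF (fun c => resRI (r c) (S c) (G c) (β c)) := by
  have h1 : PTF (fun c => (r c).1) := PTF.comp (g := fun r : RI => r.1) (by fun_prop) hr
  have h2 : PTF (fun c => (r c).2.2.1) := PTF.comp (g := fun r : RI => r.2.2.1) (by fun_prop) hr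
  have h3 : PTF (fun c => (r c).2.2.2.2) := PTF.comp (g := fun r : RI => r.2.2.2.2) (by fun_prop) hr
  refine PTF.prodMk h1 (PTF.prodMk (PTF.const 1) (PTF.prodMk h2 (PTF.prodMk ?_ h3)))
  refine PTF.tabulate (ptu_riN hr) (f := fun c f => riF (r c) f && keepB (r c) (S c) (G c) (β c) f) ?_
  exact PTF.and (ptf_riF (PTF.comp hr PTF.fst) PTF.snd)
    (ptf_keepB (PTF.comp hr PTF.fst) (PTF.comp hS PTF.fst) (PTF.comp hG PTF.fst)
      (PTF.comp hβ PTF.fst) PTF.snd)

theorem ptf_structR {θ β B : γ → ℚ} {r : γ → RI} (hθ : PTF θ) (hβ : PTF β) (hr : PTF r)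
    (hB : PTF B) : PTF (fun c => structR (θ c) (β c) (r c) (B c)) :=
  ptf_resRI hr (ptf_cenL hr) (ptf_rigL hr (ptf_cenL hr) hθ hB) hβ

theorem ptf_structG {θ β B : γ → ℚ} {r : γ → RI} (hθ : PTF θ) (hβ : PTF β) (hr : PTF r)
    (hB : PTF B) : PTF (fun c => structG (θ c) (β c) (r c) (B c)) :=
  PTF.map (l := fun c => rigL (r c) (cenL (r c)) (θ c) (B c))
    (f := fun c t => bestF (r c) (cenL (r c)) (β c) t) (ptf_rigL hr (ptf_cenL hr) hθ hB)
    (ptf_bestF (PTF.comp hr PTF.fst) (ptf_cenL (PTF.comp hr PTF.fst)) (PTF.comp hβ PTF.fst) PTF.snd)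

end ptf

/-! ### bridge -/

section bridge

variable {I : Instance}

theorem coreB_iff {Q : List ℕ} (hQ : ∀ q ∈ Q, q < I.N) (t j : Fin I.N) :
    coreB (raw I) Q t j = true ↔
      j ∈ Tight.core (fun x y => I.dist x y) I.clients (setOf I Q) t := by
  unfold coreB
  rw [mem_core, Bool.and_eq_true, riC_raw, decide_eq_true_eq, List.all_eq_true]
  refine and_congr_right (fun _ => ?_)
  constructor
  · intro h q hq hqt
    have := h _ (mem_setOf.1 hq)
    rw [Bool.or_eq_true, decide_eq_true_eq, decide_eq_true_eq, riD_raw, riD_raw] at this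
    rcases this with this | this
    · exact absurd (Fin.ext this) hqt
    · exact this
  · intro h q hq
    have hqlt : q < I.N := hQ q hq
    rw [Bool.or_eq_true, decide_eq_true_eq, decide_eq_true_eq]
    by_cases hqt : q = (t : ℕ)
    · exact Or.inl hqt
    · right
      have h2 : riD (raw I) t q = I.dist t ⟨q, hqlt⟩ := riD_raw I t ⟨q, hqlt⟩
      rw [riD_raw, h2]
      exact h ⟨q, hqlt⟩ (mem_setOf.2 hq) (fun h3 => hqt (by rw [← h3]))

theorem filter_coreB {Q : List ℕ} (hQ : ∀ q ∈ Q, q < I.N) (t : Fin I.N) :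
    Finset.univ.filter (fun j : Fin I.N => coreB (raw I) Q t j = true) =
      Tight.core (fun x y => I.dist x y) I.clients (setOf I Q) t := by
  ext j
  rw [Finset.mem_filter, coreB_iff hQ]
  simp

theorem score_raw {Q : List ℕ} (hQ : ∀ q ∈ Q, q < I.N) (t u : Fin I.N) :
    score (raw I) Q t u = ∑ j ∈ Tight.core (fun x y => I.dist x y) I.clients (setOf I Q) t,
      (1 : ℚ) * I.dist j u := by
  unfold score
  rw [riN_raw, Finset.sum_range, ← Finset.sum_filter, filter_coreB hQ]
  exact Finset.sum_congr rfl (fun j _ => by rw [riD_raw, one_mul])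

theorem wtL_raw {Q : List ℕ} (hQ : ∀ q ∈ Q, q < I.N) (t : Fin I.N) :
    wtL (raw I) Q t = Struct.wt (fun x y => I.dist x y) (fun _ => (1 : ℚ)) I.clients
      (setOf I Q) t := by
  unfold wtL Struct.wt
  rw [riN_raw, Finset.sum_range, ← Finset.sum_filter, filter_coreB hQ]

theorem sepL_raw {Q : List ℕ} (hQ : ∀ q ∈ Q, q < I.N) (t : Fin I.N) :
    sepL (raw I) Q t = Struct.sep (fun x y => I.dist x y) (setOf I Q) t := by
  unfold sepL Struct.sep
  have hmem : ∀ u : Fin I.N, (u : ℕ) ∈ Q.filter (fun u => !decide (u = (t : ℕ))) ↔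
      u ∈ (setOf I Q).erase t := by
    intro u
    rw [List.mem_filter, Finset.mem_erase, mem_setOf]
    simp only [Bool.not_eq_true', decide_eq_false_iff_not]
    rw [and_comm]
    refine and_congr_left (fun _ => not_congr ?_)
    exact ⟨fun h => Fin.ext h, fun h => by rw [h]⟩
  by_cases h : ((setOf I Q).erase t).Nonempty
  · rw [dif_pos h]
    have hne : (Q.filter (fun u => !decide (u = (t : ℕ)))).map (fun u => riD (raw I) t u) ≠ [] := by
      obtain ⟨u, hu⟩ := h
      have := (hmem u).2 hu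
      intro hn
      rw [List.map_eq_nil_iff] at hn
      rw [hn] at this
      simp at this
    apply le_antisymm
    · refine Finset.le_inf' _ _ (fun u hu => ?_)
      have := listMin_le (l := (Q.filter (fun u => !decide (u = (t : ℕ)))).map
        (fun u => riD (raw I) t u)) (b := riD (raw I) t u)
        (List.mem_map.2 ⟨u, (hmem u).2 hu, rfl⟩)
      rwa [riD_raw] at this
    · obtain ⟨u, hu, he⟩ := List.mem_map.1 (listMin_mem hne)
      rw [← he]
      have hlt : u < I.N := hQ u (List.mem_filter.1 hu).1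
      have h2 : riD (raw I) t u = I.dist t ⟨u, hlt⟩ := riD_raw I t ⟨u, hlt⟩
      rw [h2]
      exact Finset.inf'_le _ ((hmem ⟨u, hlt⟩).1 hu)
  · rw [dif_neg h]
    have hn : Q.filter (fun u => !decide (u = (t : ℕ))) = [] := by
      rw [List.eq_nil_iff_forall_not_mem]
      intro u hu
      have hlt : u < I.N := hQ u (List.mem_filter.1 hu).1
      exact h ⟨⟨u, hlt⟩, (hmem ⟨u, hlt⟩).1 hu⟩
    rw [hn]
    rfl

theorem mem_rigL_raw {Q : List ℕ} (hQ : ∀ q ∈ Q, q < I.N) (θ B : ℚ) (t : Fin I.N) :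
    (t : ℕ) ∈ rigL (raw I) Q θ B ↔
      t ∈ Struct.rig (fun x y => I.dist x y) (fun _ => (1 : ℚ)) I.clients (setOf I Q) θ B := by
  unfold rigL
  rw [List.mem_filter, Struct.mem_rig, mem_setOf, Bool.and_eq_true, decide_eq_true_eq,
    decide_eq_true_eq, wtL_raw hQ, sepL_raw hQ, score_raw hQ]
  rfl

end bridge

/-! ### the restricted instance -/

/-- the centres as a set -/
def cenS (I : Instance) : Finset (Fin I.N) := setOf I (cenL (raw I))

theorem cenL_lt {I : Instance} : ∀ q ∈ cenL (raw I), q < I.N := fun _ hq =>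
  (mem_facL.1 (List.mem_filter.1 hq).1).1

theorem cenS_eq {I : Instance} (hI : I.Valid) : cenS I = setOf I (localS (raw I)) := by
  obtain ⟨_, l2, _⟩ := localS_spec hI
  ext t
  unfold cenS cenL
  rw [mem_setOf, mem_setOf, List.mem_filter, decide_eq_true_eq]
  exact ⟨fun h => h.2, fun h => ⟨mem_facL.2 (l2 _ h), h⟩⟩

theorem cenS_sub {I : Instance} : cenS I ⊆ I.facilities := by
  intro t ht
  have := (List.mem_filter.1 (mem_setOf.1 ht)).1
  obtain ⟨_, h2⟩ := mem_facL.1 this
  exact h2

/-- the facility kept for `t`, as a function on points -/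
def bestP (I : Instance) (β : ℚ) (t : Fin I.N) : Fin I.N :=
  if h : bestF (raw I) (cenL (raw I)) β t < I.N then ⟨bestF (raw I) (cenL (raw I)) β t, h⟩ else t

/-- the rigid centres -/
noncomputable def rigS (I : Instance) (θ B : ℚ) : Finset (Fin I.N) :=
  Struct.rig (fun x y => I.dist x y) (fun _ => (1 : ℚ)) I.clients (cenS I) θ B

/-- the restricted facility set -/
noncomputable def facS (I : Instance) (θ β B : ℚ) : Finset (Fin I.N) :=
  Struct.restr (fun x y => I.dist x y) I.facilities (cenS I) (rigS I θ B) β (bestP I β)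

/-- the restricted instance, with budget `1` -/
noncomputable def resInst (I : Instance) (θ β B : ℚ) : Instance where
  N := I.N
  dist := I.dist
  clients := I.clients
  facilities := facS I θ β B
  k := 1

theorem dist_nonneg {I : Instance} (hI : I.Valid) (x y : Fin I.N) : 0 ≤ I.dist x y := by
  by_cases h : x = y
  · rw [h, hI.1]
  · exact (hI.2.1 x y h).le

theorem mem_ballL {I : Instance} (β : ℚ) (t f : Fin I.N) :
    (f : ℕ) ∈ (facL (raw I)).filter
      (fun f => decide (riD (raw I) f t ≤ β * sepL (raw I) (cenL (raw I)) t)) ↔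
    f ∈ Struct.ball (fun x y => I.dist x y) I.facilities (cenS I) β t := by
  rw [List.mem_filter, Struct.mem_ball, decide_eq_true_eq, sepL_raw cenL_lt, riD_raw, mem_facL]
  constructor
  · rintro ⟨⟨_, h1⟩, h2⟩; exact ⟨h1, h2⟩
  · rintro ⟨h1, h2⟩; exact ⟨⟨f.2, h1⟩, h2⟩

/-- a rigid centre has at least one other centre, and lies in its own ball -/
theorem self_mem_ball {I : Instance} (hI : I.Valid) {β θ B : ℚ} (hβ : 0 ≤ β) {t : Fin I.N}
    (ht : t ∈ rigS I θ B) : t ∈ Struct.ball (fun x y => I.dist x y) I.facilities (cenS I) β t := by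
  obtain ⟨h1, _, _⟩ := Struct.mem_rig.1 ht
  rw [Struct.mem_ball]
  refine ⟨cenS_sub h1, ?_⟩
  change I.dist t t ≤ _
  rw [hI.1]
  refine mul_nonneg hβ ?_
  unfold Struct.sep
  split_ifs with h
  · exact Finset.le_inf' _ _ (fun i _ => dist_nonneg hI t i)
  · exact le_rfl

theorem bestP_spec {I : Instance} (hI : I.Valid) {β θ B : ℚ} (hβ : 0 ≤ β) :
    ∀ t ∈ rigS I θ B, bestP I β t ∈ Struct.ball (fun x y => I.dist x y) I.facilities (cenS I) β t ∧
      ∀ f ∈ Struct.ball (fun x y => I.dist x y) I.facilities (cenS I) β t,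
      ∑ j ∈ Tight.core (fun x y => I.dist x y) I.clients (cenS I) t, (1 : ℚ) * I.dist j (bestP I β t)
      ≤ ∑ j ∈ Tight.core (fun x y => I.dist x y) I.clients (cenS I) t, (1 : ℚ) * I.dist j f := by
  intro t ht
  have hself := self_mem_ball hI hβ ht
  set L := (facL (raw I)).filter
      (fun f => decide (riD (raw I) f t ≤ β * sepL (raw I) (cenL (raw I)) t)) with hL
  have hne : L ≠ [] := List.ne_nil_of_mem ((mem_ballL β t t).2 hself)
  obtain ⟨a1, a2⟩ := argQ_spec hne (fun u => score (raw I) (cenL (raw I)) t u)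
  have hb : argQ L (fun u => score (raw I) (cenL (raw I)) t u) = bestF (raw I) (cenL (raw I)) β t := rfl
  rw [hb] at a1 a2
  have hlt : bestF (raw I) (cenL (raw I)) β t < I.N := (mem_facL.1 (List.mem_filter.1 a1).1).1
  have he : bestP I β t = ⟨bestF (raw I) (cenL (raw I)) β t, hlt⟩ := by
    unfold bestP; rw [dif_pos hlt]
  have hval : ((bestP I β t : Fin I.N) : ℕ) = bestF (raw I) (cenL (raw I)) β t := by rw [he]
  refine ⟨?_, fun f hf => ?_⟩
  · rw [← mem_ballL, hval]; exact a1
  · have h2 := a2 f ((mem_ballL β t f).2 hf)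
    rw [← hval] at h2
    have h3 := score_raw (I := I) cenL_lt t (bestP I β t)
    have h4 := score_raw (I := I) cenL_lt t f
    rw [h3, h4] at h2
    exact h2

theorem raw_resInst {I : Instance} (hI : I.Valid) {θ β B : ℚ} (hβ : 0 ≤ β) :
    raw (resInst I θ β B) = structR θ β (raw I) B := by
  unfold structR resRI
  rw [riN_raw]
  change ((resInst I θ β B).N, _, _, _, _) = _
  have hmask : (List.finRange I.N).map (fun i => decide (i ∈ facS I θ β B)) =
      (List.range I.N).map (fun f => riF (raw I) f &&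
        keepB (raw I) (cenL (raw I)) (rigL (raw I) (cenL (raw I)) θ B) β f) := by
    have hr : List.range I.N = (List.finRange I.N).map (fun i : Fin I.N => (i : ℕ)) := by simp
    rw [hr, List.map_map]
    refine List.map_congr_left (fun f _ => ?_)
    simp only [Function.comp]
    rw [riF_raw]
    rw [Bool.eq_iff_iff, Bool.and_eq_true, decide_eq_true_eq, decide_eq_true_eq]
    unfold facS
    rw [Struct.mem_restr]
    refine and_congr_right (fun hf => ?_)
    unfold keepB
    rw [List.all_eq_true]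
    constructor
    · intro h t ht
      have htlt : t < I.N := cenL_lt t (List.mem_filter.1 ht).1
      have htr : (⟨t, htlt⟩ : Fin I.N) ∈ rigS I θ B := (mem_rigL_raw cenL_lt θ B ⟨t, htlt⟩).1 ht
      rw [Bool.or_eq_true, Bool.not_eq_true', decide_eq_false_iff_not, decide_eq_true_eq]
      by_cases hball : riD (raw I) f t ≤ β * sepL (raw I) (cenL (raw I)) t
      · right
        have h1 := (mem_ballL β ⟨t, htlt⟩ f).1 (List.mem_filter.2 ⟨mem_facL.2 ⟨f.2, hf⟩,
          by rw [decide_eq_true_eq]; exact hball⟩)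
        have h2 := h _ htr h1
        have hb := (bestP_spec hI hβ _ htr).1
        have hval : ((bestP I β ⟨t, htlt⟩ : Fin I.N) : ℕ) = bestF (raw I) (cenL (raw I)) β t := by
          unfold bestP
          split_ifs with hh
          · rfl
          · exfalso
            apply hh
            have hne : (facL (raw I)).filter
              (fun f => decide (riD (raw I) f (⟨t, htlt⟩ : Fin I.N) ≤
                β * sepL (raw I) (cenL (raw I)) (⟨t, htlt⟩ : Fin I.N))) ≠ [] :=
              List.ne_nil_of_mem ((mem_ballL β ⟨t, htlt⟩ ⟨t, htlt⟩).2 (self_mem_ball hI hβ htr))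
            exact (mem_facL.1 (List.mem_filter.1 (argQ_spec hne _).1).1).1
        rw [← hval, h2]
      · exact Or.inl hball
    · intro h t ht hball
      have htl : (t : ℕ) ∈ rigL (raw I) (cenL (raw I)) θ B := (mem_rigL_raw cenL_lt θ B t).2 ht
      have h1 := h _ htl
      rw [Bool.or_eq_true, Bool.not_eq_true', decide_eq_false_iff_not, decide_eq_true_eq] at h1
      have h2 := (List.mem_filter.1 ((mem_ballL β t f).2 hball)).2
      rw [decide_eq_true_eq] at h2
      rcases h1 with h1 | h1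
      · exact absurd h2 h1
      · apply Fin.ext
        rw [h1]
        unfold bestP
        split_ifs with hh
        · rfl
        · exfalso
          apply hh
          rw [← h1]; exact f.2
  rw [← hmask]
  rfl

/-- the tight facilities, as a set -/
theorem mem_structG {I : Instance} (hI : I.Valid) {θ β B : ℚ} (hβ : 0 ≤ β) (f : Fin I.N) :
    (f : ℕ) ∈ structG θ β (raw I) B ↔ ∃ t ∈ rigS I θ B, f = bestP I β t := by
  have hval : ∀ t : Fin I.N, t ∈ rigS I θ B →
      ((bestP I β t : Fin I.N) : ℕ) = bestF (raw I) (cenL (raw I)) β t := by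
    intro t ht
    unfold bestP
    split_ifs with hh
    · rfl
    · exfalso
      apply hh
      have hne : (facL (raw I)).filter
        (fun f => decide (riD (raw I) f t ≤ β * sepL (raw I) (cenL (raw I)) t)) ≠ [] :=
        List.ne_nil_of_mem ((mem_ballL β t t).2 (self_mem_ball hI hβ ht))
      exact (mem_facL.1 (List.mem_filter.1 (argQ_spec hne _).1).1).1
  unfold structG
  rw [List.mem_map]
  constructor
  · rintro ⟨t, ht, he⟩
    have htlt : t < I.N := cenL_lt t (List.mem_filter.1 ht).1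
    have htr : (⟨t, htlt⟩ : Fin I.N) ∈ rigS I θ B := (mem_rigL_raw cenL_lt θ B ⟨t, htlt⟩).1 ht
    exact ⟨⟨t, htlt⟩, htr, Fin.ext (by rw [hval _ htr]; exact he.symm)⟩
  · rintro ⟨t, ht, rfl⟩
    exact ⟨t, (mem_rigL_raw cenL_lt θ B t).2 ht, (hval t ht).symm⟩

/-- **Structure step, everything together.**  `O` = optimal solution with exactly `k` centres, `A` = guess. -/
theorem struct_code {θ β e : ℚ} (hθ0 : 0 < θ) (hβ0 : 0 < β) (hβ : β ≤ 1 / 8) (hθβ : 4 * θ ≤ β)
    (he : 0 < e) (he2 : e ≤ 2) {I : Instance} (hI : I.Valid) {O : Finset (Fin I.N)}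
    (hO : O ⊆ I.facilities) (hOk : O.card = I.k) (hpos : 0 < I.cost O)
    {A : ℚ} (hA1 : I.cost O ≤ A) (hA2 : A ≤ 2 * I.cost O) {s : ℕ}
    (stab : ∀ S' ⊆ I.facilities, S'.Nonempty → S'.card + (s + 1) ≤ I.k →
      (1 + e) * I.cost O < I.cost S')
    {B : ℚ} (hB : B = e * A / (8 * (s + 1))) :
    (resInst I θ β B).Valid ∧
    0 < B ∧
    (I.k : ℚ) - (rigS I θ B).card ≤ (386 / e + 48 / (θ * e)) * (s + 1) ∧
    ∀ Q ⊆ I.facilities, Q.Nonempty → Q.card ≤ I.k →
      ∃ Q' ⊆ facS I θ β B, Q'.Nonempty ∧ Q'.card ≤ Q.card ∧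
        I.cost Q' ≤ (1 + 16 * β + 4 * θ / (3 * β)) * I.cost Q +
          θ * (100 + 120 / β) * I.cost O := by
  classical
  have hk : 1 ≤ I.k := hI.2.2.2.2.1
  have hO0 : O.Nonempty := Finset.card_pos.1 (by omega)
  have hs1 : (0 : ℚ) < (s : ℚ) + 1 := by positivity
  have hApos : 0 < A := lt_of_lt_of_le hpos hA1
  have hBpos : 0 < B := by rw [hB]; positivity
  have hBs : B * (s + 1) = e * A / 8 := by rw [hB]; field_simp
  have hBs' : B * (s + 1) ≤ e / 4 * I.cost O := by
    rw [hBs]
    nlinarith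
  obtain ⟨l1, l2, l3⟩ := localS_spec hI
  have hne : localS (raw I) ≠ [] := by
    intro h
    rw [h] at l1
    simp at l1
    omega
  have hSne : (cenS I).Nonempty := by
    rw [cenS_eq hI]; exact setOf_nonempty hne (fun i hi => (l2 i hi).1)
  have hScard : (cenS I).card ≤ O.card := by
    rw [cenS_eq hI, hOk, ← l1]; exact card_setOf_le I _
  have hScost : I.cost (cenS I) ≤ 6 * I.cost O := by
    rw [cenS_eq hI]; exact l3 O hO hO0 hOk.le
  obtain ⟨h1, h2⟩ := Struct.struct_main (d := fun x y => I.dist x y) (w := fun _ => (1 : ℚ))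
    (D := I.clients) (F := I.facilities) (S := cenS I) hI.1 hI.2.1 hI.2.2.1 hI.2.2.2.1
    (fun _ => zero_le_one) hSne cenS_sub hθ0 hβ0 hβ hθβ hBpos (bestP I β)
    (bestP_spec hI hβ0.le) O hO0 hO hScard e 6 he he2 (by norm_num)
    (by rw [cst_one]; exact hpos) (by rw [cst_one, cst_one]; exact hScost) s
    (by rw [cst_one]; exact hBs')
    (by
      intro S' g1 g2 g3
      rw [cst_one, cst_one]
      exact stab S' g1 g2 (by rw [hOk] at g3; exact g3))
  have htr : ∀ Q ⊆ I.facilities, Q.Nonempty → Q.card ≤ I.k →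
      ∃ Q' ⊆ facS I θ β B, Q'.Nonempty ∧ Q'.card ≤ Q.card ∧
        I.cost Q' ≤ (1 + 16 * β + 4 * θ / (3 * β)) * I.cost Q +
          θ * (100 + 120 / β) * I.cost O := by
    intro Q hQ hQ0 hQk
    obtain ⟨Q', q1, q2, q3, q4⟩ := h2 Q hQ hQ0 (by rw [hOk]; exact hQk)
    rw [cst_one, cst_one, cst_one] at q4
    refine ⟨Q', q1, q2, q3, q4.trans (le_of_eq ?_)⟩
    ring
  refine ⟨?_, hBpos, ?_, htr⟩
  · obtain ⟨Q', q1, q2, _, _⟩ := htr O hO hO0 hOk.le
    refine ⟨hI.1, hI.2.1, hI.2.2.1, hI.2.2.2.1, le_rfl, ?_⟩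
    exact Finset.card_pos.2 (q2.mono q1)
  · rw [hOk, cst_one] at h1
    refine h1.trans ?_
    have e1 : 6 * I.cost O / (θ * B) ≤ 48 / (θ * e) * (s + 1) := by
      have e2 : 48 / (θ * e) * ((s : ℚ) + 1) = 6 * A / (θ * B) := by
        rw [hB]; field_simp; ring
      rw [e2]
      have : 0 < θ * B := by positivity
      exact (div_le_div_iff_of_pos_right this).2 (by linarith)
    have e3 : (14 + 62 * 6 : ℚ) / e * (s + 1) = 386 / e * (s + 1) := by norm_num
    rw [e3, add_mul]
    linarith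

end Crest.Agent.R310
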