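import Crest.Agent.R310.FracSpec
import Crest.Agent.R310.StructCode

/-!
# R310, block NUMBERS (B7), list level: the hypotheses of the granular rounding for `fracY`

`deficit_raw`: total deficit of the rigid facilities in a list of copies of restricted facilities.
-/

set_option linter.dupNamespace false
set_option autoImplicit false

namespace Crest.Agent.R310.Numbers

open Crest.Agent.R310 Crest.Agent.R310.Struct Crest.LogicCS.KMedian Finset

/-- sums over the clients -/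
theorem sum_cliS (I : Instance) (f : ℕ → ℚ) :
    ∑ j ∈ cliS (raw I), f j = ∑ j ∈ I.clients, f (j : ℕ) := by
  unfold cliS
  rw [Finset.sum_filter, riN_raw, Finset.sum_range, ← Finset.sum_filter]
  refine Finset.sum_congr ?_ fun _ _ => rfl
  ext j; simp [riC_raw]

/-- number of copies at `g` -/
theorem card_at (Y : List ℕ) (g : ℕ) :
    ((range Y.length).filter (fun e => Y.getD e 0 = g)).card = Y.count g := by
  rw [Finset.card_filter]
  induction Y with
  | nil => simp
  | cons a Y ih =>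
    rw [List.length_cons, Finset.sum_range_succ']
    simp only [List.getD_cons_succ, List.getD_cons_zero]
    rw [ih, List.count_cons]
    simp only [beq_iff_eq]

/-- **Total deficit** of the rigid facilities in a list of copies. -/
theorem deficit_raw {I : Instance} (hI : I.Valid) {S F : Finset (Fin I.N)} {θ β B : ℚ}
    (hθβ : θ ≤ β) (hβ : 0 ≤ β) (mt : Fin I.N → Fin I.N) {Y : List ℕ} {m : ℕ} (hm : 0 < m)
    (hmL : m ≤ Y.length)
    (hY : ∀ e ∈ Y, ∃ x ∈ restr I.dist F S (rig I.dist (fun _ => 1) I.clients S θ B) β mt,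
      (x : ℕ) = e) :
    (∑ t ∈ rig I.dist (fun _ => 1) I.clients S θ B,
      ((m - min m (Y.count (mt t : ℕ)) : ℕ) : ℚ)) * ((β - θ) * B) ≤
      ∑ j ∈ cliS (raw I), ∑ e ∈ (range Y.length).filter (fun e => near (raw I) Y m j e = true),
        riD (raw I) (Y.getD e 0) j := by
  classical
  set F' := restr I.dist F S (rig I.dist (fun _ => 1) I.clients S θ B) β mt with hF'
  set Nr : ℕ → Finset ℕ := fun j => (range Y.length).filter (fun e => near (raw I) Y m j e = true)
    with hNr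
  have hmQ : (0 : ℚ) < m := by exact_mod_cast hm
  have hnn : ∀ x y, 0 ≤ I.dist x y := fun x y => by
    by_cases h : x = y
    · rw [h, hI.1]
    · exact (hI.2.1 x y h).le
  set xx : Fin I.N → Fin I.N → ℚ := fun j i =>
    (((Nr j).filter (fun e => Y.getD e 0 = (i : ℕ))).card : ℚ) / m with hxx
  set yy : Fin I.N → ℚ := fun i => ((min m (Y.count (i : ℕ)) : ℕ) : ℚ) / m with hyy
  have hx0 : ∀ j i, 0 ≤ xx j i := fun j i => by positivity
  have hxy : ∀ j i, xx j i ≤ yy i := by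
    intro j i
    refine div_le_div_of_nonneg_right ?_ hmQ.le
    have h1 : ((Nr j).filter (fun e => Y.getD e 0 = (i : ℕ))).card ≤ m := by
      refine (Finset.card_filter_le _ _).trans ?_
      rw [hNr]
      exact (near_card (raw I) Y hmL j).le
    have h2 : ((Nr j).filter (fun e => Y.getD e 0 = (i : ℕ))).card ≤ Y.count (i : ℕ) := by
      rw [← card_at]
      apply Finset.card_le_card
      exact Finset.filter_subset_filter _ (Finset.filter_subset _ _)
    exact_mod_cast le_min h1 h2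
  have hy1 : ∀ i, yy i ≤ 1 := by
    intro i
    rw [hyy]
    simp only
    rw [div_le_one hmQ]
    exact_mod_cast min_le_left _ _
  have hfib : ∀ (j : Fin I.N) (g : ℕ → ℚ), ∑ e ∈ Nr j, g (Y.getD e 0) =
      ∑ i ∈ F', ((((Nr j).filter (fun e => Y.getD e 0 = (i : ℕ))).card : ℕ) : ℚ) * g (i : ℕ) := by
    intro j g
    have hex : ∀ e ∈ Nr j, ∃ x ∈ F', (x : ℕ) = Y.getD e 0 := by
      intro e he
      have he' : e < Y.length := mem_range.1 (Finset.mem_filter.1 he).1
      have : Y.getD e 0 ∈ Y := by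
        rw [List.getD_eq_getElem _ _ he']; exact List.getElem_mem he'
      exact hY _ this
    have h1 : ∀ i ∈ F', ((((Nr j).filter (fun e => Y.getD e 0 = (i : ℕ))).card : ℕ) : ℚ) * g (i : ℕ)
        = ∑ e ∈ (Nr j).filter (fun e => Y.getD e 0 = (i : ℕ)), g (Y.getD e 0) := by
      intro i _
      rw [← nsmul_eq_mul, ← Finset.sum_const]
      refine Finset.sum_congr rfl fun e he => ?_
      rw [(Finset.mem_filter.1 he).2]
    rw [Finset.sum_congr rfl h1]
    have h2 : ∑ i ∈ F', ∑ e ∈ (Nr j).filter (fun e => Y.getD e 0 = (i : ℕ)), g (Y.getD e 0) =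
        ∑ v ∈ F'.image (fun i : Fin I.N => (i : ℕ)),
          ∑ e ∈ (Nr j).filter (fun e => Y.getD e 0 = v), g (Y.getD e 0) := by
      rw [Finset.sum_image]
      intro a _ b _ hab
      exact Fin.ext hab
    rw [h2]
    rw [Finset.sum_fiberwise_of_maps_to (g := fun e => Y.getD e 0)]
    intro e he
    obtain ⟨x, hx, hxe⟩ := hex e he
    exact Finset.mem_image.2 ⟨x, hx, hxe⟩
  have hx1 : ∀ j ∈ I.clients, ∑ i ∈ F', xx j i = 1 := by
    intro j _
    have h1 := hfib j (fun _ => 1)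
    simp only [mul_one, Finset.sum_const, nsmul_eq_mul] at h1
    have h2 : ∑ i ∈ F', xx j i = (((Nr j).card : ℕ) : ℚ) / m := by
      rw [h1, Finset.sum_div]
    rw [h2]
    have h3 : (Nr j).card = m := near_card (raw I) Y hmL j
    rw [h3, div_self hmQ.ne']
  have hmain := frac_pay (D := I.clients) (w := fun _ => (1 : ℚ)) (F := F) (S := S) hnn hI.2.1
    hI.2.2.1 hI.2.2.2.1 (fun _ => zero_le_one) (B := B) hθβ hβ mt xx yy hx0 hxy hy1 hx1
  rw [sum_cliS]
  have h4 := mul_le_mul_of_nonneg_left hmain hmQ.le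
  have e1 : (m : ℚ) * ((∑ t ∈ rig I.dist (fun _ => 1) I.clients S θ B, (1 - yy (mt t))) *
      ((β - θ) * B)) = (∑ t ∈ rig I.dist (fun _ => 1) I.clients S θ B,
      ((m - min m (Y.count (mt t : ℕ)) : ℕ) : ℚ)) * ((β - θ) * B) := by
    rw [← mul_assoc, Finset.mul_sum]
    congr 1
    refine Finset.sum_congr rfl fun t _ => ?_
    rw [hyy, mul_sub, mul_one, mul_div_cancel₀ _ hmQ.ne', Nat.cast_sub (min_le_left _ _)]
  have e2 : (m : ℚ) * ∑ j ∈ I.clients, (1 : ℚ) * ∑ i ∈ F', xx j i * I.dist j i =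
      ∑ j ∈ I.clients, ∑ e ∈ Nr j, riD (raw I) (Y.getD e 0) j := by
    rw [Finset.mul_sum]
    refine Finset.sum_congr rfl fun j _ => ?_
    rw [hfib j (fun v => riD (raw I) v j), one_mul, Finset.mul_sum]
    refine Finset.sum_congr rfl fun i _ => ?_
    rw [riD_raw, hI.2.2.1 i j, hxx]
    simp only
    field_simp
  rw [e1, e2] at h4
  exact h4

/-! ### the list of tight facilities -/

theorem bestP_val {I : Instance} (hI : I.Valid) {θ β B : ℚ} (hβ : 0 ≤ β) {t : Fin I.N}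
    (ht : t ∈ rigS I θ B) :
    ((bestP I β t : Fin I.N) : ℕ) = bestF (raw I) (cenL (raw I)) β t := by
  unfold bestP
  split_ifs with hh
  · rfl
  · exfalso
    apply hh
    have hne : (facL (raw I)).filter
      (fun f => decide (riD (raw I) f t ≤ β * sepL (raw I) (cenL (raw I)) t)) ≠ [] :=
      List.ne_nil_of_mem ((mem_ballL β t t).2 (self_mem_ball hI hβ ht))
    exact (mem_facL.1 (List.mem_filter.1 (argQ_spec hne _).1).1).1

theorem bestP_inj {I : Instance} (hI : I.Valid) {θ β B : ℚ} (hβ0 : 0 ≤ β) (hβ : β ≤ 1 / 4)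
    {t t' : Fin I.N} (ht : t ∈ rigS I θ B) (ht' : t' ∈ rigS I θ B)
    (h : bestP I β t = bestP I β t') : t = t' := by
  have h1 := (bestP_spec hI hβ0 t ht).1
  have h2 := (bestP_spec hI hβ0 t' ht').1
  rw [← h] at h2
  exact ball_disjoint (d := fun x y => I.dist x y) hI.2.1 hI.2.2.1 hI.2.2.2.1 hβ0 hβ
    (mem_rig.1 ht).1 (mem_rig.1 ht').1 h1 h2

theorem nodup_rigL (r : RI) (θ B : ℚ) : (rigL r (cenL r) θ B).Nodup := by
  unfold rigL cenL facL
  exact ((List.nodup_range.filter _).filter _).filter _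

theorem rigL_toFinset {I : Instance} (θ B : ℚ) :
    (rigL (raw I) (cenL (raw I)) θ B).toFinset =
      (rigS I θ B).image (fun t : Fin I.N => (t : ℕ)) := by
  ext t
  rw [List.mem_toFinset, Finset.mem_image]
  constructor
  · intro ht
    have htlt : t < I.N := cenL_lt t (List.mem_filter.1 ht).1
    exact ⟨⟨t, htlt⟩, (mem_rigL_raw cenL_lt θ B ⟨t, htlt⟩).1 ht, rfl⟩
  · rintro ⟨t, ht, rfl⟩
    exact (mem_rigL_raw cenL_lt θ B t).2 ht

theorem length_structG {I : Instance} (θ β B : ℚ) :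
    (structG θ β (raw I) B).length = (rigS I θ B).card := by
  unfold structG
  rw [List.length_map, ← List.toFinset_card_of_nodup (nodup_rigL (raw I) θ B), rigL_toFinset,
    Finset.card_image_of_injective _ Fin.val_injective]

theorem nodup_structG {I : Instance} (hI : I.Valid) {θ β B : ℚ} (hβ0 : 0 ≤ β) (hβ : β ≤ 1 / 4) :
    (structG θ β (raw I) B).Nodup := by
  unfold structG
  refine List.Nodup.map_on ?_ (nodup_rigL _ _ _)
  intro x hx y hy hxy
  have hxl : x < I.N := cenL_lt x (List.mem_filter.1 hx).1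
  have hyl : y < I.N := cenL_lt y (List.mem_filter.1 hy).1
  have hxr : (⟨x, hxl⟩ : Fin I.N) ∈ rigS I θ B := (mem_rigL_raw cenL_lt θ B ⟨x, hxl⟩).1 hx
  have hyr : (⟨y, hyl⟩ : Fin I.N) ∈ rigS I θ B := (mem_rigL_raw cenL_lt θ B ⟨y, hyl⟩).1 hy
  have h1 := bestP_inj hI hβ0 hβ hxr hyr (Fin.ext (by
    rw [bestP_val hI hβ0 hxr, bestP_val hI hβ0 hyr]; exact hxy))
  exact congrArg Fin.val h1

theorem sum_structG {I : Instance} (hI : I.Valid) {θ β B : ℚ} (hβ0 : 0 ≤ β) (hβ : β ≤ 1 / 4)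
    {M : Type*} [AddCommMonoid M] (f : ℕ → M) :
    ∑ g ∈ (structG θ β (raw I) B).toFinset, f g = ∑ t ∈ rigS I θ B, f (bestP I β t : ℕ) := by
  have h1 : (structG θ β (raw I) B).toFinset = 
      (rigS I θ B).image (fun t => ((bestP I β t : Fin I.N) : ℕ)) := by
    ext g
    rw [List.mem_toFinset, Finset.mem_image]
    constructor
    · intro hg
      unfold structG at hg
      obtain ⟨t, ht, he⟩ := List.mem_map.1 hg
      have htlt : t < I.N := cenL_lt t (List.mem_filter.1 ht).1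
      have htr : (⟨t, htlt⟩ : Fin I.N) ∈ rigS I θ B := (mem_rigL_raw cenL_lt θ B ⟨t, htlt⟩).1 ht
      exact ⟨⟨t, htlt⟩, htr, by rw [bestP_val hI hβ0 htr]; exact he⟩
    · rintro ⟨t, ht, rfl⟩
      exact (mem_structG hI hβ0 (bestP I β t)).2 ⟨t, ht, rfl⟩
  rw [h1, Finset.sum_image]
  intro a ha b hb hab
  exact bestP_inj hI hβ0 hβ ha hb (Fin.ext hab)

theorem mem_structG_facL {I : Instance} (hI : I.Valid) {θ β B : ℚ} (hβ0 : 0 ≤ β) :
    ∀ g ∈ structG θ β (raw I) B, g ∈ facL (raw I) := by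
  intro g hg
  unfold structG at hg
  obtain ⟨t, ht, rfl⟩ := List.mem_map.1 hg
  have htlt : t < I.N := cenL_lt t (List.mem_filter.1 ht).1
  have htr : (⟨t, htlt⟩ : Fin I.N) ∈ rigS I θ B := (mem_rigL_raw cenL_lt θ B ⟨t, htlt⟩).1 ht
  have h1 := (bestP_spec hI hβ0 _ htr).1
  have h2 := (mem_ball.1 h1).1
  rw [mem_facL]
  have h3 := bestP_val hI hβ0 htr
  simp only at h3
  rw [← h3]
  exact ⟨(bestP I β ⟨t, htlt⟩).2, h2⟩

/-! ### `near` does not see the facility mask -/

theorem near_structR (θ β B : ℚ) (r : RI) (Y : List ℕ) (m j e : ℕ) :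
    near (structR θ β r B) Y m j e = near r Y m j e := rfl

theorem riD_structR (θ β B : ℚ) (r : RI) (i j : ℕ) : riD (structR θ β r B) i j = riD r i j := rfl

theorem cliS_structR (θ β B : ℚ) (r : RI) : cliS (structR θ β r B) = cliS r := rfl

/-- number of copies, `q ≥ k + 1` -/
theorem length_fracY_le {r : RI} {k q : ℕ} {A : ℚ} (hq : 2 ≤ q) (hkq : k + 1 ≤ q) :
    (fracY r k q A).length ≤ fracM r k q * (k + 1) := by
  have h1 := fracT_mul (r := r) (k := k) (q := q)
  rw [length_fracY]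
  obtain ⟨p, rfl⟩ : ∃ p, q = p + 1 := ⟨q - 1, by omega⟩
  have hp : 0 < p := by omega
  have hkp : k ≤ p := by omega
  simp only [Nat.add_sub_cancel] at h1
  refine Nat.le_of_mul_le_mul_right (c := p) ?_ hp
  rw [h1]
  have h2 : k * (p + 1) ≤ (k + 1) * p := by nlinarith
  calc k * (p + 1) * fracM r k (p + 1) ≤ (k + 1) * p * fracM r k (p + 1) :=
        Nat.mul_le_mul_right _ h2
    _ = fracM r k (p + 1) * (k + 1) * p := by ring

theorem fracM_pos {r : RI} {k q : ℕ} (hN : 0 < riN r) (hk : 0 < k) (hq : 2 ≤ q) :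
    0 < fracM r k q := by
  unfold fracM
  have : 0 < q - 1 := by omega
  positivity

/-- **The fine solution** of the restricted instance satisfies the hypotheses of the granular
rounding. -/
theorem fine {θ β e : ℚ} (hθ0 : 0 < θ) (hβ0 : 0 < β) (hβ : β ≤ 1 / 8) (hθβ : 4 * θ ≤ β)
    (he : 0 < e) (he2 : e ≤ 2) {I : Instance} (hI : I.Valid) {O Q : Finset (Fin I.N)}
    (hO : O ⊆ I.facilities) (hOk : O.card = I.k) (hpos : 0 < I.cost O)
    {A : ℚ} (hA1 : I.cost O ≤ A) (hA2 : A ≤ 2 * I.cost O) {s : ℕ} (hs : 1 ≤ s)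
    (hsk : s < I.k) (hQ : Q ⊆ I.facilities) (hQ0 : Q.Nonempty) (hQk : Q.card + s ≤ I.k)
    (hQc : I.cost Q ≤ (1 + e) * I.cost O)
    (stab : ∀ S' ⊆ I.facilities, S'.Nonempty → S'.card + (s + 1) ≤ I.k →
      (1 + e) * I.cost O < I.cost S')
    {B : ℚ} (hB : B = e * A / (8 * (s + 1)))
    {A' Λ Lc : ℚ} (hA' : ((1 + 16 * β + 4 * θ / (3 * β)) * (1 + e) + θ * (100 + 120 / β)) * A ≤ A')
    {q : ℕ} (hq2 : 2 ≤ q) (hkq : I.k ≤ q) (hΛ : ((q : ℚ) + 1) / (q - 1) * A' ≤ Λ)
    (hLc : Λ ≤ Lc * A) {C1 C2 : ℕ} (hC1 : 2 * (386 / e + 48 / (θ * e)) ≤ C1)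
    (hC2 : 64 * Lc / (3 * β * e) ≤ C2) {Y : List ℕ} (hY : Y = fracY (structR θ β (raw I) B) (I.k - s) q A')
    {m : ℕ} (hm : m = fracM (structR θ β (raw I) B) (I.k - s) q)
    {Gt : List ℕ} (hGt : Gt = structG θ β (raw I) B) :
    (∀ x ∈ Y, x ∈ facL (raw I)) ∧ 0 < m ∧ m ≤ Y.length ∧
    Gt.Nodup ∧ (∀ g ∈ Gt, g ∈ facL (raw I)) ∧
    ∑ j ∈ cliS (raw I), ∑ x ∈ (range Y.length).filter (fun x => near (raw I) Y m j x = true),
      riD (raw I) (Y.getD x 0) j ≤ m * Λ ∧
    ∑ g ∈ Gt.toFinset, (m - min m (Y.count g)) ≤ C2 * s * m ∧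
    Y.length ≤ m * (I.k - s + 1) ∧
    I.k ≤ Gt.length + C1 * s ∧
    Y.length ≤ m * (Gt.length + C1 * s) := by
  classical
  have hApos : 0 < A := lt_of_lt_of_le hpos hA1
  obtain ⟨hv, hBpos, hcard, htr⟩ := struct_code hθ0 hβ0 hβ hθβ he he2 hI hO hOk hpos hA1 hA2 stab hB
  have hraw := raw_resInst (I := I) hI (θ := θ) (β := β) (B := B) hβ0.le
  obtain ⟨Q', q1, q2, q3, q4⟩ := htr Q hQ hQ0 (by omega)
  have hk' : 1 ≤ I.k - s := by omega
  have hsQ : (1 : ℚ) ≤ s := by exact_mod_cast hs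
  have hQ'k : Q'.card ≤ I.k - s := by omega
  -- cost of the competitor
  have hc1 : 0 ≤ 1 + 16 * β + 4 * θ / (3 * β) := by positivity
  have hc2 : 0 ≤ θ * (100 + 120 / β) := by positivity
  have hQ'c : I.cost Q' ≤ A' := by
    refine (q4.trans ?_).trans hA'
    have h1 := mul_le_mul_of_nonneg_left hQc hc1
    have h2 := mul_le_mul_of_nonneg_left hA1 (show 0 ≤ (1 + 16 * β + 4 * θ / (3 * β)) * (1 + e) +
      θ * (100 + 120 / β) by positivity)
    linarith
  have hA'pos : 0 < A' := by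
    refine lt_of_lt_of_le ?_ hA'
    positivity
  have hmpos : 0 < m := by
    rw [hm]
    refine fracM_pos ?_ (by omega) hq2
    change 0 < riN (raw I)
    rw [riN_raw]
    obtain ⟨x, _⟩ := hQ0
    exact lt_of_le_of_lt (Nat.zero_le _) x.2
  have hmQ : (0 : ℚ) < m := by exact_mod_cast hmpos
  have hmL : m ≤ Y.length := by
    rw [hm, hY]; exact fracM_le_length hk'
  -- entries
  have hfacne : facL (raw (resInst I θ β B)) ≠ [] := by
    obtain ⟨x, hx⟩ := q2
    have : (x : ℕ) ∈ facL (raw (resInst I θ β B)) := by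
      rw [mem_facL]; exact ⟨x.2, q1 hx⟩
    exact List.ne_nil_of_mem this
  have hent : ∀ x ∈ Y, ∃ y ∈ facS I θ β B, (y : ℕ) = x := by
    intro x hx
    rw [hY, ← hraw] at hx
    have h1 := fracY_mem (raw (resInst I θ β B)) hfacne _ _ _ x hx
    rw [mem_facL] at h1
    obtain ⟨h2, h3⟩ := h1
    exact ⟨⟨x, h2⟩, h3, rfl⟩
  -- cost
  have hcostY : ∑ j ∈ cliS (raw I), ∑ x ∈ (range Y.length).filter
      (fun x => near (raw I) Y m j x = true), riD (raw I) (Y.getD x 0) j ≤ m * Λ := by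
    have h1 := fracY_avg (I := resInst I θ β B) hv (k := I.k - s) (q := q) hk' hq2 (A := A') hA'pos
      (O := Q') q1 q2 hQ'k hQ'c
    rw [hraw, ← hY, ← hm] at h1
    rw [← Finset.mul_sum] at h1
    have h2 := h1.trans hΛ
    rw [one_div, inv_mul_le_iff₀ hmQ] at h2
    exact h2
  -- deficit
  have hdef := deficit_raw (I := I) hI (S := cenS I) (F := I.facilities) (θ := θ) (β := β) (B := B)
    (by linarith) hβ0.le (bestP I β) hmpos hmL (Y := Y) hent
  have hdef2 : ((∑ g ∈ Gt.toFinset, (m - min m (Y.count g)) : ℕ) : ℚ) * ((β - θ) * B) ≤ m * Λ := by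
    have h1 : ((∑ g ∈ Gt.toFinset, (m - min m (Y.count g)) : ℕ) : ℚ) =
        ∑ t ∈ rigS I θ B, ((m - min m (Y.count ((bestP I β t : Fin I.N) : ℕ)) : ℕ) : ℚ) := by
      rw [hGt, sum_structG hI hβ0.le (by linarith)]
      push_cast
      rfl
    rw [h1]
    exact hdef.trans hcostY
  have hdef3 : ∑ g ∈ Gt.toFinset, (m - min m (Y.count g)) ≤ C2 * s * m := by
    set Z := ∑ g ∈ Gt.toFinset, (m - min m (Y.count g)) with hZ
    have h0 : (0 : ℚ) < (s : ℚ) + 1 := by linarith
    have h1 : (Z : ℚ) * ((3 / 4 * β) * (e * A / (8 * (2 * s)))) ≤ m * (Lc * A) := by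
      have h2 : (3 / 4 * β) * (e * A / (8 * (2 * s))) ≤ (β - θ) * B := by
        rw [hB]
        refine mul_le_mul (by linarith) ?_ (by positivity) (by linarith)
        apply div_le_div_of_nonneg_left (by positivity) (by positivity)
        linarith
      refine (mul_le_mul_of_nonneg_left h2 (Nat.cast_nonneg _)).trans (hdef2.trans ?_)
      exact mul_le_mul_of_nonneg_left hLc hmQ.le
    have h3 : (Z : ℚ) ≤ 64 * Lc / (3 * β * e) * s * m := by
      have h4 : (0 : ℚ) < (3 / 4 * β) * (e * A / (8 * (2 * s))) := by positivity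
      rw [← mul_le_mul_iff_left₀ h4]
      refine h1.trans (le_of_eq ?_)
      have : (s : ℚ) ≠ 0 := by linarith
      field_simp
      ring
    have h5 : 64 * Lc / (3 * β * e) * s * m ≤ (C2 : ℚ) * s * m := by
      refine mul_le_mul_of_nonneg_right (mul_le_mul_of_nonneg_right hC2 ?_) hmQ.le
      linarith
    have h6 : (Z : ℚ) ≤ ((C2 * s * m : ℕ) : ℚ) := by push_cast; exact h3.trans h5
    exact_mod_cast h6
  -- number of copies
  have hlen : Y.length ≤ m * (I.k - s + 1) := by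
    rw [hY, hm]; exact length_fracY_le hq2 (by omega)
  have hkG : I.k ≤ Gt.length + C1 * s := by
    have h1 : (I.k : ℚ) ≤ (rigS I θ B).card + C1 * s := by
      have h2 : (386 / e + 48 / (θ * e)) * ((s : ℚ) + 1) ≤ C1 * s := by
        have h3 := mul_le_mul_of_nonneg_right hC1 (show (0 : ℚ) ≤ s by linarith)
        have h4 : 0 ≤ (386 / e + 48 / (θ * e)) := by positivity
        nlinarith
      linarith
    rw [hGt, length_structG]
    exact_mod_cast h1
  refine ⟨?_, hmpos, hmL, ?_, ?_, hcostY, hdef3, hlen, hkG, ?_⟩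
  · intro x hx
    obtain ⟨y, hy, rfl⟩ := hent x hx
    rw [mem_facL]
    exact ⟨y.2, (mem_restr.1 hy).1⟩
  · rw [hGt]; exact nodup_structG hI hβ0.le (by linarith)
  · rw [hGt]; exact mem_structG_facL hI hβ0.le
  · refine hlen.trans (Nat.mul_le_mul_left _ ?_)
    omega

end Crest.Agent.R310.Numbers
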