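import Crest.Agent.R310.Assembly
import Crest.Agent.R310.NumbersL

/-!
# R310, block STRUCT + NUMBERS for the assembly (helper929, helper201)
-/

set_option linter.dupNamespace false
set_option autoImplicit false

namespace Crest.Agent.R310

open Crest.Agent.Lib.PT Crest.Agent.Lib.PT.Arith Crest.LogicCS.KMedian Finset
open Crest.Agent.R310.Numbers

/-- threshold -/
def thrB (x A : ℚ) (s : ℕ) : ℚ := x * A / (8 * (s + 1))

/-- restricted raw instance -/
def rrS (x : ℚ) (r : RI) (A : ℚ) (s : ℕ) : RI := structR (x ^ 2 / 3000) (x / 16) r (thrB x A s)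

/-- tight facilities -/
def ttS (x : ℚ) (r : RI) (A : ℚ) (s : ℕ) : List ℕ := structG (x ^ 2 / 3000) (x / 16) r (thrB x A s)

theorem ptf_thrB (x : ℚ) : PTF (fun p : RI × ℚ × ℕ => thrB x p.2.1 p.2.2) := by
  unfold thrB
  exact PTF.ratDiv (PTF.ratMul (PTF.const x) (PTF.comp PTF.fst PTF.snd))
    (PTF.ratMul (PTF.const 8) (PTF.ratAdd (PTF.ratNatCast (PTF.comp PTF.snd PTF.snd))
      (PTF.const 1)))

theorem structPT (x : ℚ) : StructPT (ttS x) (rrS x) :=
  ⟨ptf_structG (PTF.const _) (PTF.const _) PTF.fst (ptf_thrB x),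
    ptf_structR (PTF.const _) (PTF.const _) PTF.fst (ptf_thrB x)⟩

theorem arith_struct {x OPT A cQ : ℚ} (hx : 0 < x) (hx1 : 1000 * x ≤ 1) (hO : 0 < OPT)
    (hA : OPT ≤ A) (hQ : cQ ≤ (1 + x) * OPT) :
    (1 + 16 * (x / 16) + 4 * (x ^ 2 / 3000) / (3 * (x / 16))) * cQ +
      x ^ 2 / 3000 * (100 + 120 / (x / 16)) * OPT ≤ (1 + 5 * x) * A := by
  have e1 : 4 * (x ^ 2 / 3000) / (3 * (x / 16)) = 64 / 9000 * x := by
    field_simp
    ring
  have e2 : x ^ 2 / 3000 * (100 + 120 / (x / 16)) = x ^ 2 / 30 + 1920 / 3000 * x := by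
    field_simp
    ring
  rw [e1, e2]
  have h0 : 0 ≤ 1 + 16 * (x / 16) + 64 / 9000 * x := by positivity
  have h1 := mul_le_mul_of_nonneg_left hQ h0
  have h2 : (1 + 16 * (x / 16) + 64 / 9000 * x) * ((1 + x) * OPT) +
      (x ^ 2 / 30 + 1920 / 3000 * x) * OPT ≤ (1 + 5 * x) * OPT := by
    have : (1 + 16 * (x / 16) + 64 / 9000 * x) * ((1 + x) * OPT) +
      (x ^ 2 / 30 + 1920 / 3000 * x) * OPT =
      ((1 + 16 * (x / 16) + 64 / 9000 * x) * (1 + x) + (x ^ 2 / 30 + 1920 / 3000 * x)) * OPT := by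
      ring
    rw [this]
    refine mul_le_mul_of_nonneg_right ?_ hO.le
    nlinarith
  have h3 : (1 + 5 * x) * OPT ≤ (1 + 5 * x) * A := mul_le_mul_of_nonneg_left hA (by positivity)
  linarith

/-- total deficit of the tight facilities -/
theorem num_structG {x : ℚ} (hx : 0 < x) (hx1 : 1000 * x ≤ 1) {C2 : ℕ}
    (hC2 : 64 * 2 / (3 * (x / 16) * x) ≤ C2) {I : Instance} (hI : I.Valid) {A : ℚ} (hA0 : 0 < A)
    {s : ℕ} (hs : 1 ≤ s) {m : ℕ} {Y : List ℕ} (hm : 0 < m) (hmL : m ≤ Y.length)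
    (hent : ∀ y ∈ Y, ∃ hy : y < I.N, (⟨y, hy⟩ : Fin I.N) ∈
      facS I (x ^ 2 / 3000) (x / 16) (thrB x A s))
    (hcost : fsum (raw I) Y m ≤ m * (2 * A)) :
    ((ttS x (raw I) A s).map (fun g => m - min m (Y.count g))).sum ≤ C2 * s * m := by
  classical
  set θ : ℚ := x ^ 2 / 3000 with hθ
  set β : ℚ := x / 16 with hβdef
  set B := thrB x A s with hB
  have hθ0 : 0 < θ := by positivity
  have hβ0 : 0 < β := by positivity
  have hβ : β ≤ 1 / 8 := by rw [hβdef]; linarith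
  have hθβ : 4 * θ ≤ β := by rw [hθ, hβdef]; nlinarith
  have hsQ : (1 : ℚ) ≤ s := by exact_mod_cast hs
  have hmQ : (0 : ℚ) < m := by exact_mod_cast hm
  have hdef := deficit_raw (I := I) hI (S := cenS I) (F := I.facilities) (θ := θ) (β := β)
    (B := B) (by linarith) hβ0.le (bestP I β) hm hmL (Y := Y)
    (fun y hy => by obtain ⟨h1, h2⟩ := hent y hy; exact ⟨⟨y, h1⟩, h2, rfl⟩)
  have hnd : (ttS x (raw I) A s).Nodup := nodup_structG hI hβ0.le (by linarith)
  have hsum : ((ttS x (raw I) A s).map (fun g => m - min m (Y.count g))).sum =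
      ∑ t ∈ rigS I θ B, (m - min m (Y.count ((bestP I β t : Fin I.N) : ℕ))) := by
    rw [← List.sum_toFinset _ hnd]
    exact sum_structG hI hβ0.le (by linarith) (fun g => m - min m (Y.count g))
  rw [hsum]
  set Z := ∑ t ∈ rigS I θ B, (m - min m (Y.count ((bestP I β t : Fin I.N) : ℕ))) with hZ
  have hdef2 : (Z : ℚ) * ((β - θ) * B) ≤ m * (2 * A) := by
    refine le_trans (le_of_eq ?_) (hdef.trans hcost)
    rw [hZ]
    push_cast
    rfl
  have h1 : (Z : ℚ) * ((3 / 4 * β) * (x * A / (8 * (2 * s)))) ≤ m * (2 * A) := by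
    have h2 : (3 / 4 * β) * (x * A / (8 * (2 * s))) ≤ (β - θ) * B := by
      rw [hB]
      unfold thrB
      refine mul_le_mul (by linarith) ?_ (by positivity) (by linarith)
      apply div_le_div_of_nonneg_left (by positivity) (by positivity)
      linarith
    exact (mul_le_mul_of_nonneg_left h2 (Nat.cast_nonneg _)).trans hdef2
  have h3 : (Z : ℚ) ≤ 64 * 2 / (3 * β * x) * s * m := by
    have h4 : (0 : ℚ) < (3 / 4 * β) * (x * A / (8 * (2 * s))) := by positivity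
    rw [← mul_le_mul_iff_left₀ h4]
    refine h1.trans (le_of_eq ?_)
    have : (s : ℚ) ≠ 0 := by linarith
    field_simp
    ring
  have h5 : 64 * 2 / (3 * β * x) * s * m ≤ (C2 : ℚ) * s * m := by
    refine mul_le_mul_of_nonneg_right (mul_le_mul_of_nonneg_right hC2 ?_) hmQ.le
    linarith
  have h6 : (Z : ℚ) ≤ ((C2 * s * m : ℕ) : ℚ) := by push_cast; exact h3.trans h5
  exact_mod_cast h6

theorem structOK (x : ℚ) (hx : 0 < x) (hx1 : 1000 * x ≤ 1) {C1 C2 : ℕ}
    (hC1 : 2 * (386 / x + 48 / (x ^ 2 / 3000 * x)) ≤ C1)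
    (hC2 : 64 * 2 / (3 * (x / 16) * x) ≤ C2) : StructOK x (ttS x) (rrS x) C1 C2 := by
  classical
  intro I O Q A s h hs
  set θ : ℚ := x ^ 2 / 3000 with hθ
  set β : ℚ := x / 16 with hβdef
  set B := thrB x A s with hB
  have hI := h.hI
  have hθ0 : 0 < θ := by positivity
  have hβ0 : 0 < β := by positivity
  have hβ : β ≤ 1 / 8 := by rw [hβdef]; linarith
  have hθβ : 4 * θ ≤ β := by rw [hθ, hβdef]; nlinarith
  have hA0 : 0 < A := h.pos.trans_le h.le
  have hA2 : A ≤ 2 * I.cost O := by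
    have h1 := h.ge
    have h2 := h.pos
    nlinarith
  have hsQ : (1 : ℚ) ≤ s := by exact_mod_cast hs
  obtain ⟨hv, hBpos, hcard, htr⟩ := struct_code (θ := θ) (β := β) (e := x) (B := B) hθ0 hβ0 hβ hθβ hx
    (by linarith) hI h.hO h.hOk h.pos h.le hA2 h.stab rfl
  obtain ⟨Q', q1, q2, q3, q4⟩ := htr Q h.hQ h.hQ0 (by have := h.hQk; omega)
  refine ⟨facS I θ β B, 1, ?_, le_rfl, ?_, ?_, ⟨Q', q1, q2, ?_, ?_⟩, ?_, ?_, ?_, ?_⟩
  · exact fun y hy => (Struct.mem_restr.1 hy).1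
  · exact hv.2.2.2.2.2
  · exact (raw_resInst (I := I) hI (θ := θ) (β := β) (B := B) hβ0.le).symm
  · have := h.hQk; omega
  · exact q4.trans (arith_struct hx hx1 h.pos h.le h.hQc)
  · exact nodup_structG hI hβ0.le (by linarith)
  · intro g hg
    exact (mem_facL.1 (mem_structG_facL hI hβ0.le g hg)).1
  · have h1 : (I.k : ℚ) ≤ (rigS I θ B).card + C1 * s := by
      have h2 : (386 / x + 48 / (θ * x)) * ((s : ℚ) + 1) ≤ C1 * s := by
        have h3 := mul_le_mul_of_nonneg_right hC1 (show (0 : ℚ) ≤ s by linarith)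
        have h4 : 0 ≤ (386 / x + 48 / (θ * x)) := by positivity
        nlinarith
      linarith
    have h5 : (ttS x (raw I) A s).length = (rigS I θ B).card := length_structG (I := I) θ β B
    rw [h5]
    exact_mod_cast h1
  · intro m Y hm hmL hent hcost
    exact num_structG hx hx1 hC2 hI hA0 hs hm hmL hent hcost

/-- **Block STRUCT + NUMBERS.** -/
theorem block_struct : ∀ x : ℚ, 0 < x → 1000 * x ≤ 1 →
    ∃ tt rr C1 C2, StructOK x tt rr C1 C2 ∧ StructPT tt rr := by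
  intro x hx hx1
  obtain ⟨C1, hC1⟩ := exists_nat_ge (2 * (386 / x + 48 / (x ^ 2 / 3000 * x)))
  obtain ⟨C2, hC2⟩ := exists_nat_ge (64 * 2 / (3 * (x / 16) * x))
  exact ⟨ttS x, rrS x, C1, C2, structOK x hx hx1 hC1 hC2, structPT x⟩

end Crest.Agent.R310
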