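import Crest.Agent.R310.BlockS

/-!
# R310, block STRUCT for route T (helper929): the cores as payments
-/

set_option linter.dupNamespace false
set_option autoImplicit false

namespace Crest.Agent.R310

open Crest.Agent.Lib.PT Crest.Agent.Lib.PT.Arith Crest.LogicCS.KMedian Finset
open Crest.Agent.R310.Numbers

/-- block STRUCT + NUMBERS with the payments `ρ g j` of the cores -/
def StructOKT (x : ℚ) (tt : RI → ℚ → ℕ → List ℕ) (rr : RI → ℚ → ℕ → RI) (C1 C2 : ℕ)
    (c0 : ℚ) : Prop :=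
  ∀ (I : Instance) (O Q : Finset (Fin I.N)) (A : ℚ) (s : ℕ), Guess I x O Q A s → 1 ≤ s →
    ∃ (F' : Finset (Fin I.N)) (k' : ℕ), F' ⊆ I.facilities ∧ 1 ≤ k' ∧ k' ≤ F'.card ∧
      rr (raw I) A s = raw { I with facilities := F', k := k' } ∧
      (∃ Q' : Finset (Fin I.N), Q' ⊆ F' ∧ Q'.Nonempty ∧ Q'.card + s ≤ I.k ∧
        I.cost Q' ≤ (1 + 5 * x) * A) ∧
      (tt (raw I) A s).Nodup ∧ (∀ g ∈ tt (raw I) A s, g < I.N) ∧
      I.k ≤ (tt (raw I) A s).length + C1 * s ∧
      (∀ (m : ℕ) (Y : List ℕ), 0 < m → m ≤ Y.length →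
        (∀ y ∈ Y, ∃ hy : y < I.N, (⟨y, hy⟩ : Fin I.N) ∈ F') →
        fsum (raw I) Y m ≤ m * (2 * A) →
        ((tt (raw I) A s).map (fun g => m - min m (Y.count g))).sum ≤ C2 * s * m) ∧
      ∃ ρ : ℕ → Fin I.N → ℚ, (∀ g j, 0 ≤ ρ g j) ∧
        (∀ g ∈ tt (raw I) A s, ∀ g' ∈ tt (raw I) A s, g ≠ g' → ∀ j, ρ g j = 0 ∨ ρ g' j = 0) ∧
        (∀ g ∈ tt (raw I) A s, c0 * A / s ≤ ∑ j ∈ I.clients, ρ g j) ∧
        (∀ g ∈ tt (raw I) A s, ∀ f ∈ F', (f : ℕ) ≠ g → ∀ j ∈ I.clients, ρ g j ≤ I.dist f j)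

/-- with a facility set named -/
theorem structOK_fac (x : ℚ) (hx : 0 < x) (hx1 : 1000 * x ≤ 1) {C1 C2 : ℕ}
    (hC1 : 2 * (386 / x + 48 / (x ^ 2 / 3000 * x)) ≤ C1)
    (hC2 : 64 * 2 / (3 * (x / 16) * x) ≤ C2) :
    StructOKT x (ttS x) (rrS x) C1 C2 (3 * x ^ 2 / 1024) := by
  classical
  intro I O Q A s h hs
  set θ : ℚ := x ^ 2 / 3000 with hθ
  set β : ℚ := x / 16 with hβdef
  set B := thrB x A s with hB
  have hI := h.hI
  have hθ0 : 0 < θ := by positivity
  have hβ0 : 0 < β := by positivity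
  have hβ : β ≤ 1 / 8 := by rw [hβdef]; linarith
  have hθβ : 4 * θ ≤ β := by rw [hθ, hβdef]; nlinarith
  have hA0 : 0 < A := h.pos.trans_le h.le
  have hA2 : A ≤ 2 * I.cost O := by
    have h1 := h.ge
    have h2 := h.pos
    nlinarith
  have hsQ : (1 : ℚ) ≤ s := by exact_mod_cast hs
  obtain ⟨hv, hBpos, hcard, htr⟩ := struct_code (θ := θ) (β := β) (e := x) (B := B) hθ0 hβ0 hβ hθβ hx
    (by linarith) hI h.hO h.hOk h.pos h.le hA2 h.stab rfl
  obtain ⟨Q', q1, q2, q3, q4⟩ := htr Q h.hQ h.hQ0 (by have := h.hQk; omega)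
  -- the payments
  let core' : Fin I.N → Finset (Fin I.N) := fun t =>
    Tight.core (fun x y => I.dist x y) I.clients (cenS I) t
  let pay' : Fin I.N → Fin I.N → ℚ := fun t j =>
    if j ∈ core' t then max 0 (β * Struct.sep (fun x y => I.dist x y) (cenS I) t - I.dist j t)
    else 0
  let ρ : ℕ → Fin I.N → ℚ := fun g j =>
    ∑ t ∈ (rigS I θ B).filter (fun t => ((bestP I β t : Fin I.N) : ℕ) = g), pay' t j
  have hpay0 : ∀ t j, 0 ≤ pay' t j := by
    intro t j
    simp only [pay']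
    split_ifs
    · exact le_max_left _ _
    · exact le_rfl
  have hρ : ∀ t ∈ rigS I θ B, ∀ j, ρ ((bestP I β t : Fin I.N) : ℕ) j = pay' t j := by
    intro t ht j
    have h1 : (rigS I θ B).filter (fun t' => ((bestP I β t' : Fin I.N) : ℕ) =
        ((bestP I β t : Fin I.N) : ℕ)) = {t} := by
      ext t'
      rw [Finset.mem_filter, Finset.mem_singleton]
      constructor
      · rintro ⟨h2, h3⟩
        exact bestP_inj hI hβ0.le (by linarith) h2 ht (Fin.ext h3)
      · rintro rfl; exact ⟨ht, rfl⟩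
    simp only [ρ]
    rw [h1, Finset.sum_singleton]
  have hmemtt : ∀ g ∈ ttS x (raw I) A s, ∃ t ∈ rigS I θ B, ((bestP I β t : Fin I.N) : ℕ) = g := by
    intro g hg
    have hgN : g < I.N := (mem_facL.1 (mem_structG_facL hI hβ0.le g hg)).1
    obtain ⟨t, ht, he⟩ := (mem_structG hI hβ0.le (⟨g, hgN⟩ : Fin I.N)).1 hg
    exact ⟨t, ht, by rw [← he]⟩
  obtain ⟨F', k', f1, f2, f3, f4, f5, f6, f7, f8, f9⟩ :
      ∃ (F' : Finset (Fin I.N)) (k' : ℕ), F' = facS I θ β B ∧ 1 ≤ k' ∧ k' ≤ F'.card ∧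
      rrS x (raw I) A s = raw { I with facilities := F', k := k' } ∧
      (∃ Q' : Finset (Fin I.N), Q' ⊆ F' ∧ Q'.Nonempty ∧ Q'.card + s ≤ I.k ∧
        I.cost Q' ≤ (1 + 5 * x) * A) ∧
      (ttS x (raw I) A s).Nodup ∧ (∀ g ∈ ttS x (raw I) A s, g < I.N) ∧
      I.k ≤ (ttS x (raw I) A s).length + C1 * s ∧
      (∀ (m : ℕ) (Y : List ℕ), 0 < m → m ≤ Y.length →
        (∀ y ∈ Y, ∃ hy : y < I.N, (⟨y, hy⟩ : Fin I.N) ∈ F') →
        fsum (raw I) Y m ≤ m * (2 * A) →
        ((ttS x (raw I) A s).map (fun g => m - min m (Y.count g))).sum ≤ C2 * s * m) := by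
    refine ⟨facS I θ β B, 1, rfl, le_rfl, hv.2.2.2.2.2,
      (raw_resInst (I := I) hI (θ := θ) (β := β) (B := B) hβ0.le).symm,
      ⟨Q', q1, q2, by have := h.hQk; omega, q4.trans (arith_struct hx hx1 h.pos h.le h.hQc)⟩,
      nodup_structG hI hβ0.le (by linarith), ?_, ?_, ?_⟩
    · intro g hg
      exact (mem_facL.1 (mem_structG_facL hI hβ0.le g hg)).1
    · have h1 : (I.k : ℚ) ≤ (rigS I θ B).card + C1 * s := by
        have h2 : (386 / x + 48 / (θ * x)) * ((s : ℚ) + 1) ≤ C1 * s := by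
          have h3 := mul_le_mul_of_nonneg_right hC1 (show (0 : ℚ) ≤ s by linarith)
          have h4 : 0 ≤ (386 / x + 48 / (θ * x)) := by positivity
          nlinarith
        linarith
      have h5 : (ttS x (raw I) A s).length = (rigS I θ B).card := length_structG (I := I) θ β B
      rw [h5]
      exact_mod_cast h1
    · intro m Y hm hmL hent hcost
      exact num_structG hx hx1 hC2 hI hA0 hs hm hmL hent hcost
  refine ⟨F', k', ?_, f2, f3, f4, f5, f6, f7, f8, f9, ρ, ?_, ?_, ?_, ?_⟩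
  · rw [f1]; exact fun y hy => (Struct.mem_restr.1 hy).1
  · exact fun g j => Finset.sum_nonneg fun t _ => hpay0 t j
  · intro g hg g' hg' hne j
    obtain ⟨t, ht, rfl⟩ := hmemtt g hg
    obtain ⟨t', ht', rfl⟩ := hmemtt g' hg'
    rw [hρ t ht, hρ t' ht']
    by_contra hcon
    rw [not_or] at hcon
    have h1 : j ∈ core' t := by
      by_contra h2; exact hcon.1 (by simp only [pay']; rw [if_neg h2])
    have h2 : j ∈ core' t' := by
      by_contra h3; exact hcon.2 (by simp only [pay']; rw [if_neg h3])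
    exact Struct.core_disjoint (d := fun x y => I.dist x y) hI.2.1 hI.2.2.1 hI.2.2.2.1
      (Struct.mem_rig.1 ht).1 (Struct.mem_rig.1 ht').1 (fun h3 => hne (by rw [h3])) h1 h2
  · intro g hg
    obtain ⟨t, ht, rfl⟩ := hmemtt g hg
    have h1 := Struct.pay (d := fun x y => I.dist x y) (w := fun _ => (1 : ℚ)) (D := I.clients)
      (S := cenS I) (fun _ => zero_le_one) (θ := θ) (β := β) (B := B) (by linarith) ht hβ0.le
    have h2 : 3 * x ^ 2 / 1024 * A / s ≤ (β - θ) * B := by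
      have h3 : (3 / 4 * β) * (x * A / (8 * (2 * s))) ≤ (β - θ) * B := by
        rw [hB]
        unfold thrB
        refine mul_le_mul (by linarith) ?_ (by positivity) (by linarith)
        apply div_le_div_of_nonneg_left (by positivity) (by positivity)
        linarith
      refine le_trans (le_of_eq ?_) h3
      have : (s : ℚ) ≠ 0 := by linarith
      rw [hβdef]
      field_simp
      norm_num
    refine h2.trans (h1.trans ?_)
    have h4 : ∑ j ∈ I.clients, ρ ((bestP I β t : Fin I.N) : ℕ) j = ∑ j ∈ core' t,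
        max 0 (β * Struct.sep (fun x y => I.dist x y) (cenS I) t - I.dist j t) := by
      rw [Finset.sum_congr rfl (fun j _ => hρ t ht j)]
      simp only [pay']
      rw [← Finset.sum_filter]
      refine Finset.sum_congr ?_ fun _ _ => rfl
      ext j
      rw [Finset.mem_filter]
      exact ⟨fun h5 => h5.2, fun h5 => ⟨(Struct.mem_core'.1 h5).1, h5⟩⟩
    rw [h4]
    refine Finset.sum_le_sum fun j _ => ?_
    rw [one_mul]
    exact le_max_right _ _
  · intro g hg f hf hfg j hj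
    obtain ⟨t, ht, rfl⟩ := hmemtt g hg
    rw [hρ t ht]
    simp only [pay']
    split_ifs with h1
    · refine max_le (dist_nonneg hI _ _) ?_
      rw [f1] at hf
      have h2 := Struct.far_of_mem_restr (d := fun x y => I.dist x y) hI.2.2.1 hI.2.2.2.1
        (G := rigS I θ B) (β := β) (m := bestP I β) (t := t) (f := f) (j := j) ht hf
        (fun h3 => hfg (by rw [h3]))
      rw [hI.2.2.1 f j]
      exact h2
    · exact dist_nonneg hI _ _

/-- **Block STRUCT for route T.** -/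
theorem block_structT : ∀ x : ℚ, 0 < x → 1000 * x ≤ 1 →
    ∃ tt rr C1 C2 c0, 0 < c0 ∧ StructOKT x tt rr C1 C2 c0 ∧ StructPT tt rr := by
  intro x hx hx1
  obtain ⟨C1, hC1⟩ := exists_nat_ge (2 * (386 / x + 48 / (x ^ 2 / 3000 * x)))
  obtain ⟨C2, hC2⟩ := exists_nat_ge (64 * 2 / (3 * (x / 16) * x))
  exact ⟨ttS x, rrS x, C1, C2, 3 * x ^ 2 / 1024, by positivity,
    structOK_fac x hx hx1 hC1 hC2, structPT x⟩

end Crest.Agent.R310
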