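import Crest.Agent.R310.BlockST
import Crest.Agent.R310.AssemblyT

/-!
# R310, block STRUCT for route T in the form of `AssemblyT` (helper929)
-/

set_option linter.dupNamespace false
set_option autoImplicit false

namespace Crest.Agent.R310

theorem block_structT' : ∀ x : ℚ, 0 < x → 1000 * x ≤ 1 →
    ∃ tt rr C1 C2 c0, 0 < c0 ∧ StructOKT' x tt rr C1 C2 c0 ∧ StructPT tt rr := by
  intro x hx hx1
  obtain ⟨tt, rr, C1, C2, c0, h0, h1, h2⟩ := block_structT x hx hx1
  exact ⟨tt, rr, C1, C2, c0, h0, h1, h2⟩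

end Crest.Agent.R310
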