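import Crest.Agent.R310.EvalPT
import Crest.Agent.R310.FracSpec

/-!
# R310, block B6: committed copies and the residual problem

From a list `Y` of copies (facility indices, mass `1/M` each) the locations with at least `M` copies
are committed (`T0L`), and the greedy is run on the residual problem.  `res_candidates` says that
some candidate is good.
-/

set_option linter.dupNamespace false
set_option autoImplicit false

namespace Crest.Agent.R310

open Crest.Agent.Lib.PT Crest.Agent.Lib.PT.Arith Crest.Agent.KM Crest.LogicCS.KMedian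

/-- committed locations -/
def T0L (r : RI) (Y : List ℕ) (M : ℕ) : List ℕ :=
  (List.range (riN r)).filter (fun v => decide (M ≤ Y.countP (fun x => decide (x = v))))

/-- data of the residual problem -/
def resQD (J0 M : ℕ) (r : RI) (Y : List ℕ) (G : ℚ) : QD where
  L := Y.length
  n := riN r
  J := J0 * riN r
  M := M
  d := fun e j => riD r (Y.getD e 0) j
  D := fun κ i => riD r (Y.getD κ 0) (Y.getD i 0)
  w := fun j => if riC r j = true then 1 else 0
  N := fun j e => near r Y M j e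
  K0 := fun j => minL (3 * G) ((T0L r Y M).map (fun t => riD r t j))
  F0 := fun i => minL (3 * G) ((T0L r Y M).map (fun t => riD r t (Y.getD i 0)))

/-- residual budget -/
def kres (M : ℕ) (r : RI) (Y : List ℕ) : ℕ := riK r - (T0L r Y M).length
/-- residual mass -/
def nres (M : ℕ) (r : RI) (Y : List ℕ) : ℚ := (Y.length : ℚ) / M - ((T0L r Y M).length : ℚ)

/-- candidates -/
def resC (P : SlackK.Params) (J0 M : ℕ) (r : RI) (Y : List ℕ) (G : ℚ) : List (List ℕ) :=
  (Greedy.prefixes P (resQD J0 M r Y G).L (resQD J0 M r Y G).eval (kres M r Y) G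
    (nres M r Y)).map (fun T => T0L r Y M ++ T.map (fun e => Y.getD e 0))

/-! ### poly-time -/

section ptf

variable {γ : Type} [PTCode γ] {r : γ → RI} {Y : γ → List ℕ} {G : γ → ℚ}

theorem ptf_T0L (M : ℕ) (hr : PTF r) (hY : PTF Y) : PTF (fun c => T0L (r c) (Y c) M) := by
  refine PTF.filter (PTF.range (ptu_riN hr)) (PTPred.toPTF (p := fun x : γ × ℕ =>
    M ≤ (Y x.1).countP (fun y => decide (y = x.2))) ?_)
  refine PTU.le (PTU.const M) ?_
  refine PTU.countP (γ := γ × ℕ) (l := fun x => Y x.1) (p := fun x y => decide (y = x.2))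
    (PTF.comp hY PTF.fst) ?_
  exact PTPred.toPTF (PTPred.natEq PTF.snd (PTF.comp PTF.snd PTF.fst))

theorem ptFam_resQD (J0 M : ℕ) (hr : PTF r) (hY : PTF Y) (hG : PTF G) :
    QD.PTFam (fun c => resQD J0 M (r c) (Y c) (G c)) where
  L := PTU.length hY
  n := ptu_riN hr
  J := PTU.mul (PTU.const J0) (ptu_riN hr)
  M := PTF.const M
  d := by
    have h1 : PTF (fun x : γ × ℕ × ℕ => r x.1) := PTF.comp hr PTF.fst
    have h2 : PTF (fun x : γ × ℕ × ℕ => Y x.1) := PTF.comp hY PTF.fst
    have h3 : PTF (fun x : γ × ℕ × ℕ => x.2.1) := by fun_prop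
    have h4 : PTF (fun x : γ × ℕ × ℕ => x.2.2) := by fun_prop
    exact ptf_riD h1 (ptf_getDN h3 h2 (PTF.const 0)) h4
  D := by
    have h1 : PTF (fun x : γ × ℕ × ℕ => r x.1) := PTF.comp hr PTF.fst
    have h2 : PTF (fun x : γ × ℕ × ℕ => Y x.1) := PTF.comp hY PTF.fst
    have h3 : PTF (fun x : γ × ℕ × ℕ => x.2.1) := by fun_prop
    have h4 : PTF (fun x : γ × ℕ × ℕ => x.2.2) := by fun_prop
    exact ptf_riD h1 (ptf_getDN h3 h2 (PTF.const 0)) (ptf_getDN h4 h2 (PTF.const 0))
  w := by
    have h1 : PTF (fun x : γ × ℕ => r x.1) := PTF.comp hr PTF.fst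
    exact PTF.ite (PTF.toPTPred (ptf_riC h1 PTF.snd)) (PTF.const 1) (PTF.const 0)
  N := by
    have h1 : PTF (fun x : γ × ℕ × ℕ => r x.1) := PTF.comp hr PTF.fst
    have h2 : PTF (fun x : γ × ℕ × ℕ => Y x.1) := PTF.comp hY PTF.fst
    have h3 : PTF (fun x : γ × ℕ × ℕ => x.2.1) := by fun_prop
    have h4 : PTF (fun x : γ × ℕ × ℕ => x.2.2) := by fun_prop
    exact ptf_near h1 h2 (PTF.const M) h3 h4
  K0 := by
    have h1 : PTF (fun x : γ × ℕ => r x.1) := PTF.comp hr PTF.fst
    have h2 : PTF (fun x : γ × ℕ => Y x.1) := PTF.comp hY PTF.fst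
    have h3 : PTF (fun x : γ × ℕ => 3 * G x.1) := PTF.ratMul (PTF.const 3) (PTF.comp hG PTF.fst)
    refine ptf_minL h3 (PTF.map (ptf_T0L M h1 h2) ?_)
    have e1 : PTF (fun x : (γ × ℕ) × ℕ => r x.1.1) := PTF.comp hr (PTF.comp PTF.fst PTF.fst)
    exact ptf_riD e1 PTF.snd (PTF.comp PTF.snd PTF.fst)
  F0 := by
    have h1 : PTF (fun x : γ × ℕ => r x.1) := PTF.comp hr PTF.fst
    have h2 : PTF (fun x : γ × ℕ => Y x.1) := PTF.comp hY PTF.fst
    have h3 : PTF (fun x : γ × ℕ => 3 * G x.1) := PTF.ratMul (PTF.const 3) (PTF.comp hG PTF.fst)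
    refine ptf_minL h3 (PTF.map (ptf_T0L M h1 h2) ?_)
    have e1 : PTF (fun x : (γ × ℕ) × ℕ => r x.1.1) := PTF.comp hr (PTF.comp PTF.fst PTF.fst)
    have e2 : PTF (fun x : (γ × ℕ) × ℕ => Y x.1.1) := PTF.comp hY (PTF.comp PTF.fst PTF.fst)
    exact ptf_riD e1 PTF.snd (ptf_getDN (PTF.comp PTF.snd PTF.fst) e2 (PTF.const 0))

theorem ptf_kres (M : ℕ) (hr : PTF r) (hY : PTF Y) : PTF (fun c => kres M (r c) (Y c)) :=
  PTF.natSub (ptf_riK hr) (PTU.toPTF (PTU.length (ptf_T0L M hr hY)))

theorem ptf_nres (M : ℕ) (hr : PTF r) (hY : PTF Y) : PTF (fun c => nres M (r c) (Y c)) :=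
  PTF.ratSub (PTF.ratDiv (PTF.ratNatCast (PTU.toPTF (PTU.length hY))) (PTF.const _))
    (PTF.ratNatCast (PTU.toPTF (PTU.length (ptf_T0L M hr hY))))

/-- **The candidates are poly-time.** -/
theorem ptf_resC (P : SlackK.Params) (J0 M : ℕ) (hr : PTF r) (hY : PTF Y) (hG : PTF G) :
    PTF (fun c => resC P J0 M (r c) (Y c) (G c)) := by
  have h1 := ptf_slack_candidates_live P (ptFam_resQD J0 M hr hY hG) (ptf_kres M hr hY) hG
    (ptf_nres M hr hY)
  refine PTF.map h1 ?_
  have hY' : PTF (fun x : γ × List ℕ => Y x.1) := PTF.comp hY PTF.fst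
  have hr' : PTF (fun x : γ × List ℕ => r x.1) := PTF.comp hr PTF.fst
  refine PTF.append (ptf_T0L M hr' hY') (PTF.map PTF.snd ?_)
  have e2 : PTF (fun x : (γ × List ℕ) × ℕ => Y x.1.1) := PTF.comp hY (PTF.comp PTF.fst PTF.fst)
  exact ptf_getDN PTF.snd e2 (PTF.const 0)

end ptf

/-! ### small lemmas -/

theorem riD_symm {I : Instance} (hI : I.Valid) {i j : ℕ} (hi : i < I.N) (hj : j < I.N) :
    riD (raw I) i j = riD (raw I) j i := by
  have h1 := riD_raw I ⟨i, hi⟩ ⟨j, hj⟩
  have h2 := riD_raw I ⟨j, hj⟩ ⟨i, hi⟩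
  simp only at h1 h2
  rw [h1, h2, hI.2.2.1]

theorem riD_tri {I : Instance} (hI : I.Valid) {a b c : ℕ} (ha : a < I.N) (hb : b < I.N)
    (hc : c < I.N) : riD (raw I) a c ≤ riD (raw I) a b + riD (raw I) b c := by
  have h1 := riD_raw I ⟨a, ha⟩ ⟨c, hc⟩
  have h2 := riD_raw I ⟨a, ha⟩ ⟨b, hb⟩
  have h3 := riD_raw I ⟨b, hb⟩ ⟨c, hc⟩
  simp only at h1 h2 h3
  rw [h1, h2, h3]
  exact hI.2.2.2.1 _ _ _

theorem minLQ_le_start (x0 : ℚ) (l : List ℚ) : minL x0 l ≤ x0 := by
  induction l with
  | nil => exact le_rfl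
  | cons a l ih => exact (min_le_right a (minL x0 l)).trans ih

theorem minLQ_le {x0 : ℚ} {l : List ℚ} {a : ℚ} (h : a ∈ l) : minL x0 l ≤ a := by
  induction l with
  | nil => simp at h
  | cons b l ih =>
    rcases List.mem_cons.1 h with rfl | h
    · exact min_le_left _ _
    · exact (min_le_right b (minL x0 l)).trans (ih h)

theorem minLQ_nonneg {x0 : ℚ} {l : List ℚ} (h0 : 0 ≤ x0) (h : ∀ a ∈ l, 0 ≤ a) :
    0 ≤ minL x0 l := by
  rcases minL_mem' x0 l with e | e
  · rw [e]; exact h0
  · exact h _ e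

theorem getD_memN {Y : List ℕ} {e : ℕ} (he : e < Y.length) : Y.getD e 0 ∈ Y := by
  rw [List.getD_eq_getElem _ _ he]; exact List.getElem_mem he

theorem card_filter_getD (p : ℕ → Bool) (Y : List ℕ) :
    ((Finset.range Y.length).filter (fun e => p (Y.getD e 0) = true)).card = Y.countP p := by
  induction Y with
  | nil => simp
  | cons a Y ih =>
    rw [Finset.card_filter] at ih ⊢
    rw [List.length_cons, Finset.sum_range_succ', List.countP_cons]
    simp only [List.getD_cons_succ, List.getD_cons_zero]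
    rw [ih]

theorem countP_mem_eq_sum (S : Finset ℕ) (Y : List ℕ) :
    Y.countP (fun x => decide (x ∈ S)) = ∑ v ∈ S, Y.countP (fun x => decide (x = v)) := by
  induction Y with
  | nil => simp
  | cons a Y ih =>
    simp only [List.countP_cons]
    rw [ih, Finset.sum_add_distrib]
    congr 1
    by_cases h : a ∈ S
    · simp [h]
    · simp only [decide_eq_true_eq, h, if_false]
      symm
      refine Finset.sum_eq_zero fun v hv => ?_
      rw [if_neg]
      rintro rfl
      exact h hv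

theorem mem_T0L {r : RI} {Y : List ℕ} {M v : ℕ} :
    v ∈ T0L r Y M ↔ v < riN r ∧ M ≤ Y.countP (fun x => decide (x = v)) := by
  unfold T0L
  rw [List.mem_filter, List.mem_range, decide_eq_true_iff]

theorem nodup_T0L (r : RI) (Y : List ℕ) (M : ℕ) : (T0L r Y M).Nodup :=
  List.Nodup.filter _ List.nodup_range

theorem mem_of_mem_T0L {r : RI} {Y : List ℕ} {M v : ℕ} (hM : 0 < M) (h : v ∈ T0L r Y M) :
    v ∈ Y := by
  have h1 := (mem_T0L.1 h).2
  have h2 : 0 < Y.countP (fun x => decide (x = v)) := lt_of_lt_of_le hM h1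
  obtain ⟨x, hx, he⟩ := List.countP_pos_iff.1 h2
  have : x = v := of_decide_eq_true he
  rw [← this]; exact hx

/-- committed mass -/
theorem mul_T0L_le (r : RI) (Y : List ℕ) (M : ℕ) :
    M * (T0L r Y M).length ≤ Y.countP (fun x => decide (x ∈ T0L r Y M)) := by
  have h1 : Y.countP (fun x => decide (x ∈ T0L r Y M))
      = Y.countP (fun x => decide (x ∈ (T0L r Y M).toFinset)) := by
    congr 1; funext x; simp
  rw [h1, countP_mem_eq_sum]
  have h2 : ∑ v ∈ (T0L r Y M).toFinset, M ≤ ∑ v ∈ (T0L r Y M).toFinset,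
      Y.countP (fun x => decide (x = v)) :=
    Finset.sum_le_sum fun v hv => (mem_T0L.1 (List.mem_toFinset.1 hv)).2
  rw [Finset.sum_const, List.toFinset_card_of_nodup (nodup_T0L r Y M), smul_eq_mul, mul_comm] at h2
  exact h2

theorem card_live_le (r : RI) (Y : List ℕ) (M : ℕ) :
    ((Finset.range Y.length).filter
      (fun e => decide (Y.getD e 0 ∉ T0L r Y M) = true)).card + M * (T0L r Y M).length
      ≤ Y.length := by
  rw [card_filter_getD (fun x => decide (x ∉ T0L r Y M))]
  have h1 := mul_T0L_le r Y M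
  have h2 := List.length_eq_countP_add_countP (fun x => decide (x ∈ T0L r Y M)) (l := Y)
  have h3 : Y.countP (fun x => decide (x ∉ T0L r Y M))
      = Y.countP (fun x => decide ¬(decide (x ∈ T0L r Y M)) = true) := by
    congr 1; funext x; simp
  rw [h3]
  omega

/-! ### correctness -/

theorem resQD_good {I : Instance} (hI : I.Valid) (J0 : ℕ) {M : ℕ} (hM : 0 < M) {Y : List ℕ}
    (hMY : M ≤ Y.length) (hY : ∀ v ∈ Y, v < I.N) {G : ℚ} (hG : 0 ≤ G) :
    (resQD J0 M (raw I) Y G).Good where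
  M_pos := hM
  card_N := fun j _ => near_card (raw I) Y hMY j
  w_nonneg := fun j _ => by
    change (0 : ℚ) ≤ if riC (raw I) j = true then 1 else 0
    split_ifs <;> norm_num
  d_nonneg := fun i _ j _ => riD_nonneg hI _ _
  D_nonneg := fun i _ j _ => riD_nonneg hI _ _
  tri1 := fun i hi κ hκ j hj => by
    have hi' := hY _ (getD_memN (Y := Y) hi)
    have hκ' := hY _ (getD_memN (Y := Y) hκ)
    have hj' : j < I.N := by rw [← riN_raw]; exact hj
    change riD (raw I) (Y.getD κ 0) (Y.getD i 0) ≤ riD (raw I) (Y.getD i 0) j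
      + riD (raw I) (Y.getD κ 0) j
    have := riD_tri hI hκ' hj' hi'
    rw [riD_symm hI hj' hi'] at this
    linarith
  tri2 := fun i hi κ hκ j hj => by
    have hi' := hY _ (getD_memN (Y := Y) hi)
    have hκ' := hY _ (getD_memN (Y := Y) hκ)
    have hj' : j < I.N := by rw [← riN_raw]; exact hj
    change riD (raw I) (Y.getD κ 0) j ≤ riD (raw I) (Y.getD i 0) j
      + riD (raw I) (Y.getD κ 0) (Y.getD i 0)
    have := riD_tri hI hκ' hi' hj'
    linarith
  K0_nonneg := fun j _ => by
    refine minLQ_nonneg (by linarith) ?_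
    intro a ha
    obtain ⟨t, _, rfl⟩ := List.mem_map.1 ha
    exact riD_nonneg hI _ _
  F0_nonneg := fun i _ => by
    refine minLQ_nonneg (by linarith) ?_
    intro a ha
    obtain ⟨t, _, rfl⟩ := List.mem_map.1 ha
    exact riD_nonneg hI _ _
  K0_le := fun i hi j hj => by
    have hi' := hY _ (getD_memN (Y := Y) hi)
    have hj' : j < I.N := by rw [← riN_raw]; exact hj
    change minL (3 * G) ((T0L (raw I) Y M).map (fun t => riD (raw I) t j))
      ≤ riD (raw I) (Y.getD i 0) j
        + minL (3 * G) ((T0L (raw I) Y M).map (fun t => riD (raw I) t (Y.getD i 0)))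
    rcases minL_mem' (3 * G) ((T0L (raw I) Y M).map (fun t => riD (raw I) t (Y.getD i 0)))
      with e | e
    · rw [e]
      have h1 := minLQ_le_start (3 * G) ((T0L (raw I) Y M).map (fun t => riD (raw I) t j))
      have h2 := riD_nonneg hI (Y.getD i 0) j
      linarith
    · obtain ⟨t, ht, he⟩ := List.mem_map.1 e
      rw [← he]
      have ht' : t < I.N := by rw [← riN_raw]; exact (mem_T0L.1 ht).1
      have h1 : minL (3 * G) ((T0L (raw I) Y M).map (fun t => riD (raw I) t j))
          ≤ riD (raw I) t j :=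
        minLQ_le (x0 := 3 * G) (List.mem_map_of_mem (f := fun t => riD (raw I) t j) ht)
      have h2 := riD_tri hI ht' hi' hj'
      linarith

theorem le_N_of_valid {I : Instance} (hI : I.Valid) : I.k ≤ I.N := by
  refine hI.2.2.2.2.2.trans ?_
  refine (Finset.card_le_univ _).trans ?_
  rw [Fintype.card_fin]

/-- **The residual problem.** -/
theorem res_candidates (P : SlackK.Params) {J0 M : ℕ} {I : Instance} (hI : I.Valid)
    (hcl : I.clients.Nonempty) (hM : 0 < M) {Y : List ℕ} (hMY : M ≤ Y.length)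
    (hY : ∀ v ∈ Y, ∃ h : v < I.N, (⟨v, h⟩ : Fin I.N) ∈ I.facilities) {G : ℚ} (hG : 0 < G)
    (hJ0 : 12 ≤ P.η * (J0 : ℚ) ^ 2)
    (hk0 : P.k0 + (T0L (raw I) Y M).length ≤ I.k)
    (hmass : (Y.length : ℚ) ≤ M * ((T0L (raw I) Y M).length
      + (1 - P.δ) * ((I.k : ℚ) - (T0L (raw I) Y M).length)))
    (hcost : (1 + 2 / Real.exp 1) * ((∑ j ∈ cliS (raw I),
      ∑ e ∈ (Finset.range Y.length).filter (fun e => near (raw I) Y M j e = true),
        riD (raw I) (Y.getD e 0) j : ℚ) : ℝ) ≤ M * G) :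
    ∃ c ∈ resC P J0 M (raw I) Y G, c ≠ [] ∧ c.length ≤ I.k ∧
      (∀ v ∈ c, ∃ h : v < I.N, (⟨v, h⟩ : Fin I.N) ∈ I.facilities) ∧
      (I.cost (setOf I c) : ℝ) ≤ (1 + 10 * P.ε) * G := by
  set r := raw I with hr
  have hYN : ∀ v ∈ Y, v < I.N := fun v hv => (hY v hv).1
  have hgood : (resQD J0 M r Y G).Good := resQD_good hI J0 hM hMY hYN hG.le
  have hMq : (0 : ℚ) < M := by exact_mod_cast hM
  have hk1 : P.k0 ≤ kres M r Y := by
    unfold kres
    have : riK r = I.k := riK_raw I
    omega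
  have hkres : ((kres M r Y : ℕ) : ℚ) = (I.k : ℚ) - (T0L r Y M).length := by
    unfold kres
    have h1 : riK r = I.k := riK_raw I
    rw [h1, Nat.cast_sub (by omega)]
  have hJpos : 0 < J0 := by
    rcases Nat.eq_zero_or_pos J0 with h | h
    · rw [h] at hJ0; norm_num at hJ0
    · exact h
  have hkN := le_N_of_valid hI
  have hNpos : 0 < I.N := lt_of_lt_of_le hI.2.2.2.2.1 hkN
  obtain ⟨T, hT, hok, hlen, hc⟩ := slack_candidates_live P hgood
    (fun e => decide (Y.getD e 0 ∉ T0L r Y M))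
    (by
      intro i hi hl j hj _
      have hl' : Y.getD i 0 ∈ T0L r Y M := by
        by_contra hne
        rw [decide_eq_true hne] at hl
        exact absurd hl (by simp)
      change minL (3 * G) ((T0L r Y M).map (fun t => riD r t j)) ≤ riD r (Y.getD i 0) j
      exact minLQ_le (List.mem_map_of_mem (f := fun t => riD r t j) hl'))
    (kres M r Y) G (nres M r Y)
    (by
      have h1 := card_live_le r Y M
      have h2 : ((((Finset.range Y.length).filter
          (fun e => decide (Y.getD e 0 ∉ T0L r Y M) = true)).card : ℕ) : ℚ)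
          + M * (T0L r Y M).length ≤ Y.length := by exact_mod_cast h1
      have h3 : nres M r Y * (M : ℚ) = Y.length - (T0L r Y M).length * M := by
        unfold nres
        field_simp
      change _ ≤ nres M r Y * (M : ℚ)
      rw [h3]
      change ((((Finset.range Y.length).filter
          (fun e => decide (Y.getD e 0 ∉ T0L r Y M) = true)).card : ℕ) : ℚ) ≤ _
      linarith)
    hk1
    (by
      rw [hkres]
      unfold nres
      rw [sub_le_iff_le_add, div_le_iff₀ hMq]
      linarith)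
    hG
    (by
      have e : ((QD.Good.fracQ (resQD J0 M r Y G) : ℚ) : ℝ) = 1 / (M : ℝ) *
          ((∑ j ∈ cliS r, ∑ e ∈ (Finset.range Y.length).filter
            (fun e => near r Y M j e = true), riD r (Y.getD e 0) j : ℚ) : ℝ) := by
        have e1 : QD.Good.fracQ (resQD J0 M r Y G) = 1 / (M : ℚ) *
          (∑ j ∈ cliS r, ∑ e ∈ (Finset.range Y.length).filter
            (fun e => near r Y M j e = true), riD r (Y.getD e 0) j) := by
          unfold QD.Good.fracQ cliS
          rw [Finset.sum_filter, Finset.mul_sum]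
          refine Finset.sum_congr rfl fun j _ => ?_
          change (if riC r j = true then (1 : ℚ) else 0) * (1 / (M : ℚ) *
            ∑ i ∈ Finset.range Y.length, if near r Y M j i = true then riD r (Y.getD i 0) j else 0)
              = _
          rw [Finset.sum_filter]
          split_ifs
          · rw [one_mul]
          · rw [zero_mul, mul_zero]
        rw [e1]
        push_cast
        rfl
      rw [e]
      have hMr : (0 : ℝ) < M := by exact_mod_cast hM
      have h1 : (1 + 2 / Real.exp 1) * (1 / (M : ℝ) *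
          ((∑ j ∈ cliS r, ∑ e ∈ (Finset.range Y.length).filter
            (fun e => near r Y M j e = true), riD r (Y.getD e 0) j : ℚ) : ℝ))
          = ((1 + 2 / Real.exp 1) * 
          ((∑ j ∈ cliS r, ∑ e ∈ (Finset.range Y.length).filter
            (fun e => near r Y M j e = true), riD r (Y.getD e 0) j : ℚ) : ℝ)) / M := by ring
      rw [h1, div_le_iff₀ hMr]
      linarith)
    (by
      change 0 < J0 * riN r
      rw [hr, riN_raw]
      exact Nat.mul_pos hJpos hNpos)
    (by
      have h1 : ((resQD J0 M r Y G).J : ℚ) = (J0 : ℚ) * I.N := by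
        change ((J0 * riN r : ℕ) : ℚ) = _
        rw [hr, riN_raw]; push_cast; rfl
      rw [h1]
      have h2 : ((kres M r Y : ℕ) : ℚ) ≤ I.N := by
        have : kres M r Y ≤ I.N := by
          unfold kres
          have h1 : riK r = I.k := riK_raw I
          omega
        exact_mod_cast this
      have h3 : (1 : ℚ) ≤ I.N := by exact_mod_cast hNpos
      have h4 : (I.N : ℚ) ≤ (I.N : ℚ) ^ 2 := by nlinarith
      calc 12 * ((kres M r Y : ℕ) : ℚ) ≤ 12 * (I.N : ℚ) ^ 2 := by linarith
        _ ≤ (P.η * (J0 : ℚ) ^ 2) * (I.N : ℚ) ^ 2 :=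
          mul_le_mul_of_nonneg_right hJ0 (by positivity)
        _ = P.η * ((J0 : ℚ) * I.N) ^ 2 := by ring)
  have hTlt : ∀ i ∈ T, i < Y.length := hok.2
  have hcfac : ∀ v ∈ T0L r Y M ++ T.map (fun e => Y.getD e 0),
      ∃ h : v < I.N, (⟨v, h⟩ : Fin I.N) ∈ I.facilities := by
    intro v hv
    rcases List.mem_append.1 hv with h | h
    · exact hY v (mem_of_mem_T0L hM h)
    · obtain ⟨e, he, rfl⟩ := List.mem_map.1 h
      exact hY _ (getD_memN (hTlt e he))
  -- all current costs are true distances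
  have hKnn : ∀ j < riN r, 0 ≤ (resQD J0 M r Y G).K T j := by
    intro j hj
    unfold QD.K
    refine minLQ_nonneg (hgood.K0_nonneg j hj) ?_
    intro a ha
    obtain ⟨t, _, rfl⟩ := List.mem_map.1 ha
    exact riD_nonneg hI _ _
  have hsmall : QD.Good.costQ (resQD J0 M r Y G) T ≤ 2 * G := by
    have h1 : (1 + 10 * (P.ε : ℝ)) * G ≤ 2 * G := by
      have h2 : (10 * (P.ε : ℝ)) ≤ 1 := by exact_mod_cast P.hε1
      have h3 : (0 : ℝ) < G := by exact_mod_cast hG
      nlinarith
    have h4 := hc.trans h1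
    exact_mod_cast h4
  have hcli : ∀ j ∈ cliS r, j < riN r ∧ riC r j = true := by
    intro j hj
    unfold cliS at hj
    rw [Finset.mem_filter, Finset.mem_range] at hj
    exact hj
  have hcostQ : QD.Good.costQ (resQD J0 M r Y G) T = ∑ j ∈ cliS r, (resQD J0 M r Y G).K T j := by
    unfold QD.Good.costQ cliS
    rw [Finset.sum_filter]
    refine Finset.sum_congr rfl fun j _ => ?_
    change (if riC r j = true then (1 : ℚ) else 0) * _ = _
    split_ifs
    · rw [one_mul]
    · rw [zero_mul]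
  have hKle : ∀ j ∈ cliS r, (resQD J0 M r Y G).K T j < 3 * G := by
    intro j hj
    have h1 : (resQD J0 M r Y G).K T j ≤ ∑ j ∈ cliS r, (resQD J0 M r Y G).K T j :=
      Finset.single_le_sum (f := fun j => (resQD J0 M r Y G).K T j)
        (fun i hi => hKnn i (hcli i hi).1) hj
    rw [← hcostQ] at h1
    linarith
  have hKmem : ∀ j ∈ cliS r, ∃ v ∈ T0L r Y M ++ T.map (fun e => Y.getD e 0),
      (resQD J0 M r Y G).K T j = riD r v j := by
    intro j hj
    have h0 := hKle j hj
    have h1 : (resQD J0 M r Y G).K T j = minL (minL (3 * G) ((T0L r Y M).map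
      (fun t => riD r t j))) (T.map (fun κ => riD r (Y.getD κ 0) j)) := rfl
    rcases minL_mem' (minL (3 * G) ((T0L r Y M).map
      (fun t => riD r t j))) (T.map (fun κ => riD r (Y.getD κ 0) j)) with e | e
    · rcases minL_mem' (3 * G) ((T0L r Y M).map (fun t => riD r t j)) with e' | e'
      · rw [h1, e, e'] at h0
        exact absurd h0 (lt_irrefl _)
      · obtain ⟨t, ht, he⟩ := List.mem_map.1 e'
        refine ⟨t, List.mem_append_left _ ht, ?_⟩
        rw [h1, e, ← he]
    · obtain ⟨κ, hκ, he⟩ := List.mem_map.1 e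
      refine ⟨Y.getD κ 0, List.mem_append_right _ (List.mem_map.2 ⟨κ, hκ, rfl⟩), ?_⟩
      rw [h1, ← he]
  have hne : T0L r Y M ++ T.map (fun e => Y.getD e 0) ≠ [] := by
    obtain ⟨j, hj⟩ := hcl
    have hj' : (j : ℕ) ∈ cliS r := by
      unfold cliS
      rw [Finset.mem_filter, Finset.mem_range, hr, riN_raw, riC_raw]
      exact ⟨j.2, decide_eq_true hj⟩
    obtain ⟨v, hv, _⟩ := hKmem j hj'
    exact List.ne_nil_of_mem hv
  refine ⟨T0L r Y M ++ T.map (fun e => Y.getD e 0), List.mem_map.2 ⟨T, hT, rfl⟩, hne, ?_, hcfac, ?_⟩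
  · rw [List.length_append, List.length_map]
    have h1 : kres M r Y = I.k - (T0L r Y M).length := rfl
    omega
  · refine le_trans ?_ hc
    have h1 := costL_raw (I := I) hne (fun v hv => (hcfac v hv).1)
    rw [← h1]
    have h2 : costL (raw I) (T0L r Y M ++ T.map (fun e => Y.getD e 0))
        ≤ QD.Good.costQ (resQD J0 M r Y G) T := by
      rw [hcostQ]
      unfold costL cliS
      rw [Finset.sum_filter]
      refine Finset.sum_le_sum fun j hj => ?_
      change (if riC r j = true then _ else (0 : ℚ)) ≤ if riC r j = true then _ else 0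
      split_ifs with hC
      · have hj' : j ∈ cliS r := by
          unfold cliS
          exact Finset.mem_filter.2 ⟨hj, hC⟩
        obtain ⟨v, hv, he⟩ := hKmem j hj'
        rw [he]
        have hjN : j < I.N := by
          have := Finset.mem_range.1 hj
          rw [riN_raw] at this; exact this
        rw [riD_symm hI (hcfac v hv).1 hjN]
        exact listMin_le (List.mem_map_of_mem (f := fun i => riD r j i) hv)
      · exact le_rfl
    exact_mod_cast h2


theorem countP_eq_count (Y : List ℕ) (v : ℕ) :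
    Y.countP (fun x => decide (x = v)) = Y.count v := by
  unfold List.count
  congr 1

/-- committed points among a given list of distinct points -/
theorem filter_count_le_T0L {r : RI} {Y Gt : List ℕ} {M : ℕ} (hM : 0 < M) (hGt : Gt.Nodup)
    (hY : ∀ v ∈ Y, v < riN r) :
    (Gt.filter (fun g => decide (M ≤ Y.count g))).length ≤ (T0L r Y M).length := by
  rw [← List.toFinset_card_of_nodup (List.Nodup.filter _ hGt),
    ← List.toFinset_card_of_nodup (nodup_T0L r Y M)]
  refine Finset.card_le_card ?_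
  intro g hg
  rw [List.mem_toFinset, List.mem_filter, decide_eq_true_iff] at hg
  rw [List.mem_toFinset, mem_T0L, countP_eq_count]
  refine ⟨hY g ?_, hg.2⟩
  exact List.count_pos_iff.1 (lt_of_lt_of_le hM hg.2)

/-- **The residual problem**, with the numbers of the main line. -/
theorem res_candidates' (P : SlackK.Params) {J0 M : ℕ} {I : Instance} (hI : I.Valid)
    (hcl : I.clients.Nonempty) (hM : 0 < M) {Y : List ℕ} (hMY : M ≤ Y.length)
    (hY : ∀ v ∈ Y, ∃ h : v < I.N, (⟨v, h⟩ : Fin I.N) ∈ I.facilities) {G : ℚ} (hG : 0 < G)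
    (hJ0 : 12 ≤ P.η * (J0 : ℚ) ^ 2) {s e1 C3 : ℚ}
    (hlen : (Y.length : ℚ) ≤ M * (I.k - s + e1 * s))
    (hcom : (I.k : ℚ) ≤ (T0L (raw I) Y M).length + C3 * s)
    (hs : (P.k0 : ℚ) ≤ (1 - e1) * s) (hδ : P.δ * C3 ≤ 1 - e1) (hs0 : 0 ≤ s)
    (hcost : (1 + 2 / Real.exp 1) * ((∑ j ∈ cliS (raw I),
      ∑ e ∈ (Finset.range Y.length).filter (fun e => near (raw I) Y M j e = true),
        riD (raw I) (Y.getD e 0) j : ℚ) : ℝ) ≤ M * G) :
    ∃ c ∈ resC P J0 M (raw I) Y G, c ≠ [] ∧ c.length ≤ I.k ∧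
      (∀ v ∈ c, ∃ h : v < I.N, (⟨v, h⟩ : Fin I.N) ∈ I.facilities) ∧
      (I.cost (setOf I c) : ℝ) ≤ (1 + 10 * P.ε) * G := by
  have hMq : (0 : ℚ) < M := by exact_mod_cast hM
  have h1 : ((T0L (raw I) Y M).length : ℚ) ≤ I.k - s + e1 * s := by
    have h2 : (M : ℚ) * (T0L (raw I) Y M).length ≤ Y.length := by
      have := (mul_T0L_le (raw I) Y M).trans List.countP_le_length
      exact_mod_cast this
    have h3 := h2.trans hlen
    exact le_of_mul_le_mul_left h3 hMq
  refine res_candidates P hI hcl hM hMY hY hG hJ0 ?_ ?_ hcost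
  · have h4 : (P.k0 : ℚ) + (T0L (raw I) Y M).length ≤ I.k := by linarith
    exact_mod_cast h4
  · refine hlen.trans (mul_le_mul_of_nonneg_left ?_ hMq.le)
    have h5 : P.δ * ((I.k : ℚ) - (T0L (raw I) Y M).length) ≤ P.δ * (C3 * s) :=
      mul_le_mul_of_nonneg_left (by linarith) P.hδ.le
    have h6 : P.δ * C3 * s ≤ (1 - e1) * s := mul_le_mul_of_nonneg_right hδ hs0
    linarith

end Crest.Agent.R310
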