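import Crest.Agent.R310.RunInst
import Crest.Agent.R310.AssemblyT
import Crest.Agent.R310.NumbersL
import Crest.Agent.R310.Res

/-!
# R310, route T, block RUN (0): definition of the run data of a fine fractional solution
-/

set_option linter.dupNamespace false
set_option autoImplicit false

namespace Crest.Agent.R310

open Crest.Agent.Lib.PT Crest.Agent.Lib.PT.Arith Crest.LogicCS.KMedian Finset Crest.Agent.KM

/-- `y i` times the key of the star `i` -/
def RD.dlq (Q : RD) (i : ℕ) : ℚ := ∑ j ∈ Finset.range Q.n, Q.w j * Q.x i j * Q.key i j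

/-- number of near copies of client `j` at location `i` -/
def xnT (r : RI) (Y : List ℕ) (m i j : ℕ) : ℕ :=
  ((List.range Y.length).filter (fun e => near r Y m j e && decide (Y.getD e 0 = i))).length

/-- base data -/
def tBase (J : ℕ) (r : RI) (Y : List ℕ) (m : ℕ) (G : ℚ) : RD where
  m := riN r
  n := riN r
  J := J
  M := m
  d := riD r
  D := riD r
  w := fun j => if riC r j = true then 1 else 0
  xn := xnT r Y m
  yn := fun i => min m (Y.count i)
  K0 := fun _ => 3 * G
  F0 := fun _ => 3 * G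
  rig := fun _ => false
  n0 := 0
  P := 0
  om := 0
  BL := 0
  chi := 0

/-- constants of the run -/
structure TPar where
  g : ℚ
  c2 : ℚ
  et : ℚ
  J1 : ℕ

/-- clock resolution -/
def TPar.JJ (p : TPar) (r : RI) (m : ℕ) : ℕ := p.J1 * (riN r + 1) * (m + riN r + 1)

/-- penalty curvature -/
def TPar.PP (p : TPar) (s : ℕ) (A : ℚ) : ℚ := 16 * (p.g * A) / (s : ℚ) ^ 2

/-- allowance per lowered mass -/
def TPar.BB (p : TPar) (s : ℕ) (A : ℚ) : ℚ :=
  p.PP s A * ((s : ℚ) - 1) / (p.et * s) + p.PP s A / 2 * (p.et * s + 1)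

/-- the data of the run -/
def tRD (p : TPar) (r : RI) (Y : List ℕ) (m : ℕ) (Gt : List ℕ) (s : ℕ) (A : ℚ) : RD :=
  { tBase (p.JJ r m) r Y m (p.g * A) with
    rig := fun i => decide (i ∈ Gt) &&
      decide ((tBase (p.JJ r m) r Y m (p.g * A)).dlq i ≤ p.c2 * A / s)
    n0 := (riK r : ℚ) - s + 1
    P := p.PP s A
    om := p.et * s
    BL := p.BB s A
    chi := 3 * (p.c2 * A / s) }

/-- the candidate -/
def trunT (p : TPar) (r : RI) (Y : List ℕ) (m : ℕ) (Gt : List ℕ) (s : ℕ) (A : ℚ) : List ℕ :=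
  (tRD p r Y m Gt s A).runT


end Crest.Agent.R310
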