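import Crest.Agent.R310.BlockT0

/-!
# R310, route T, block RUN (1): the run data of a fine fractional solution
-/

set_option linter.dupNamespace false
set_option autoImplicit false

namespace Crest.Agent.R310

open Crest.Agent.Lib.PT Crest.Agent.Lib.PT.Arith Crest.LogicCS.KMedian Finset Crest.Agent.KM Numbers

/-! ### counting lemmas -/

theorem xnT_card (r : RI) (Y : List ℕ) (m i j : ℕ) :
    xnT r Y m i j = (((range Y.length).filter (fun e => near r Y m j e = true)).filter
      (fun e => Y.getD e 0 = i)).card := by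
  unfold xnT
  rw [← List.toFinset_card_of_nodup (List.Nodup.filter _ List.nodup_range)]
  congr 1
  ext e
  simp [and_assoc]

theorem xnT_le_m (r : RI) {Y : List ℕ} {m : ℕ} (hm : m ≤ Y.length) (i j : ℕ) :
    xnT r Y m i j ≤ m := by
  rw [xnT_card]
  refine (Finset.card_filter_le _ _).trans ?_
  rw [near_card r Y hm j]

theorem xnT_le_count (r : RI) (Y : List ℕ) (m i j : ℕ) : xnT r Y m i j ≤ Y.count i := by
  rw [xnT_card, ← card_at]
  apply Finset.card_le_card
  intro e he
  rw [Finset.mem_filter, Finset.mem_filter] at he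
  rw [Finset.mem_filter]
  exact ⟨he.1.1, he.2⟩

theorem sum_xnT (r : RI) {Y : List ℕ} {m : ℕ} (hm : m ≤ Y.length) {N : ℕ}
    (hY : ∀ y ∈ Y, y < N) (j : ℕ) : ∑ i ∈ range N, xnT r Y m i j = m := by
  have h := Finset.card_eq_sum_card_fiberwise (f := fun e => Y.getD e 0)
    (s := (range Y.length).filter (fun e => near r Y m j e = true)) (t := range N) (by
      intro e he
      rw [Finset.mem_coe, Finset.mem_filter, Finset.mem_range] at he
      rw [Finset.mem_coe, Finset.mem_range]
      exact hY _ (getD_memN he.1))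
  rw [near_card r Y hm j] at h
  refine Eq.trans ?_ h.symm
  apply Finset.sum_congr rfl
  intro i _
  rw [xnT_card]

theorem sum_xnT_mul (r : RI) {Y : List ℕ} {m : ℕ} {N : ℕ}
    (hY : ∀ y ∈ Y, y < N) (j : ℕ) (f : ℕ → ℚ) :
    ∑ i ∈ range N, (xnT r Y m i j : ℚ) * f i =
      ∑ e ∈ (range Y.length).filter (fun e => near r Y m j e = true), f (Y.getD e 0) := by
  have h := Finset.sum_fiberwise_of_maps_to
    (s := (range Y.length).filter (fun e => near r Y m j e = true)) (t := range N)
    (g := fun e => Y.getD e 0) (by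
      intro e he
      rw [Finset.mem_filter, Finset.mem_range] at he
      rw [Finset.mem_range]
      exact hY _ (getD_memN he.1)) (fun e => f (Y.getD e 0))
  refine Eq.trans ?_ h
  apply Finset.sum_congr rfl
  intro i _
  rw [xnT_card, Finset.sum_congr rfl (g := fun _ => f i) (fun e he => by
    rw [(Finset.mem_filter.1 he).2]), Finset.sum_const, nsmul_eq_mul]

/-! ### validity -/

theorem tRD_valid {p : TPar} (hJ1 : 0 < p.J1) (hg : 0 ≤ p.g) {I : Instance} (hI : I.Valid)
    {Y : List ℕ} (hY : ∀ y ∈ Y, y < I.N) {m : ℕ} (hm : 0 < m) (hmY : m ≤ Y.length)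
    (Gt : List ℕ) (s : ℕ) {A : ℚ} (hA : 0 ≤ A) : (tRD p (raw I) Y m Gt s A).Valid where
  M_pos := hm
  J_pos := by
    show 0 < p.J1 * (riN (raw I) + 1) * (m + riN (raw I) + 1)
    positivity
  x_le := fun i _ j _ => by
    show xnT (raw I) Y m i j ≤ min m (Y.count i)
    exact le_min (xnT_le_m _ hmY i j) (xnT_le_count _ Y m i j)
  y_le := fun i _ => min_le_left _ _
  x_sum := fun j _ => by
    show ∑ i ∈ range (riN (raw I)), xnT (raw I) Y m i j = m
    rw [riN_raw]
    exact sum_xnT (raw I) hmY hY j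
  w_nonneg := fun j _ => by
    show (0:ℚ) ≤ if riC (raw I) j = true then 1 else 0
    split_ifs <;> norm_num
  d_nonneg := fun i _ j _ => riD_nonneg hI _ _
  D_nonneg := fun κ _ i _ => riD_nonneg hI _ _
  K0_nonneg := fun _ _ => by
    show (0:ℚ) ≤ 3 * (p.g * A)
    positivity
  F0_nonneg := fun _ _ => by
    show (0:ℚ) ≤ 3 * (p.g * A)
    positivity
  tri1 := fun i hi κ hκ j hj => by
    change i < riN (raw I) at hi
    change κ < riN (raw I) at hκ
    change j < riN (raw I) at hj
    rw [riN_raw] at hi hκ hj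
    show riD (raw I) κ i ≤ riD (raw I) i j + riD (raw I) κ j
    have := riD_tri hI hκ hj hi
    rw [riD_symm hI hj hi] at this
    linarith
  tri2 := fun i hi κ hκ j hj => by
    change i < riN (raw I) at hi
    change κ < riN (raw I) at hκ
    change j < riN (raw I) at hj
    rw [riN_raw] at hi hκ hj
    show riD (raw I) κ j ≤ riD (raw I) i j + riD (raw I) κ i
    have := riD_tri hI hκ hi hj
    linarith
  K0_le := fun i _ j _ => by
    show 3 * (p.g * A) ≤ riD (raw I) i j + 3 * (p.g * A)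
    have := riD_nonneg hI i j
    linarith

/-! ### the fractional cost -/

theorem tRD_C {p : TPar} {I : Instance} {Y : List ℕ} (hY : ∀ y ∈ Y, y < I.N) {m : ℕ}
    (Gt : List ℕ) (s : ℕ) (A : ℚ) (j : ℕ) :
    (tRD p (raw I) Y m Gt s A).C j = (1 / (m:ℚ)) *
      ∑ e ∈ (range Y.length).filter (fun e => near (raw I) Y m j e = true),
        riD (raw I) (Y.getD e 0) j := by
  show ∑ i ∈ range (riN (raw I)), ((xnT (raw I) Y m i j : ℚ) / m) * riD (raw I) i j = _
  rw [riN_raw, ← sum_xnT_mul (raw I) hY j (fun i => riD (raw I) i j), Finset.mul_sum]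
  apply Finset.sum_congr rfl
  intro i _
  ring

theorem tRD_sumC {p : TPar} {I : Instance} {Y : List ℕ} (hY : ∀ y ∈ Y, y < I.N) {m : ℕ}
    (Gt : List ℕ) (s : ℕ) (A : ℚ) :
    ∑ j ∈ range (tRD p (raw I) Y m Gt s A).n, (tRD p (raw I) Y m Gt s A).w j *
      (tRD p (raw I) Y m Gt s A).C j = (1 / (m:ℚ)) * fsum (raw I) Y m := by
  unfold fsum cliS
  rw [Finset.sum_filter, Finset.mul_sum]
  show ∑ j ∈ range (riN (raw I)), (if riC (raw I) j = true then (1:ℚ) else 0) * _ = _
  apply Finset.sum_congr rfl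
  intro j _
  rw [tRD_C hY]
  split_ifs
  · rw [one_mul]
  · rw [zero_mul, mul_zero]

/-- cast of the keys -/
theorem dl_cast {Q : RD} (hv : Q.Valid) (i : Fin Q.m) :
    ((Q.dlq i : ℚ) : ℝ) = (RD.inst hv).dl i := by
  unfold RD.dlq LocInst.dl
  rw [Finset.sum_range]
  push_cast
  apply Finset.sum_congr rfl
  intro j _
  rw [RD.key_cast hv]
  rfl

theorem sumC_cast {Q : RD} (hv : Q.Valid) :
    ((∑ j ∈ range Q.n, Q.w j * Q.C j : ℚ) : ℝ) = ∑ j, (RD.inst hv).w j * (RD.inst hv).C j := by
  rw [Finset.sum_range]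
  push_cast
  apply Finset.sum_congr rfl
  intro j _
  rw [RD.C_cast hv]
  rfl

end Crest.Agent.R310
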