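import Crest.Agent.R310.RunCode
import Crest.Agent.KM.Run
import Crest.Agent.KM.Eval

/-!
# R310, route T: the real instance of the rational data `RD`
-/

set_option linter.dupNamespace false
set_option autoImplicit false

open Finset

namespace Crest.Agent.KM

namespace LocInst

variable {ι σ : Type} [Fintype ι] [Fintype σ] [DecidableEq σ] {I : LocInst ι σ}

/-- evaluated star part -/
noncomputable def State.GT (S : I.State) (J : ℕ) (i : σ) (l : ℕ) : ℝ :=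
  ∑ j, I.w j * I.x i j * hullc J (expT J) (S.u i j) (S.F i) (I.key i j) l

theorem State.GT_err (S : I.State) {J : ℕ} (hJ : 0 < J) (i : σ) {l : ℕ} (hl : l ≤ J) :
    |S.GT J i l - S.G i ((l:ℝ)/J)| ≤ (1/(J:ℝ)^2) * I.dl i := by
  have hJ' : (0:ℝ) < J := by exact_mod_cast hJ
  have hE : ∀ s ≤ J, |expT J s - Real.exp (-((s:ℝ)/J))| ≤ (2/9) / (J:ℝ)^2 :=
    fun s hs => expT_err hJ hs
  unfold State.GT State.G LocInst.dl
  rw [← Finset.sum_sub_distrib, Finset.mul_sum]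
  refine (Finset.abs_sum_le_sum_abs _ _).trans (Finset.sum_le_sum fun j _ => ?_)
  rw [← mul_sub, abs_mul, abs_of_nonneg (I.wx_nonneg i j)]
  have h1 := hullc_ge hJ hE (I.key_nonneg i j) (S.F_nonneg i) (S.u_le i j) hl
  have h2 := hullc_le hJ hE (I.key_nonneg i j) (S.F_nonneg i) (S.u_le i j) hl
  have hk := I.key_nonneg i j
  have h3 : (2/9) / (J:ℝ)^2 ≤ 1/(J:ℝ)^2 := by
    apply div_le_div_of_nonneg_right (by norm_num) (by positivity)
  have h4 : (2/9) / (J:ℝ)^2 + 1/(2*(J:ℝ)^2) ≤ 1/(J:ℝ)^2 := by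
    have : (2/9) / (J:ℝ)^2 + 1/(2*(J:ℝ)^2) = (13/18) / (J:ℝ)^2 := by
      field_simp; norm_num
    rw [this]
    apply div_le_div_of_nonneg_right (by norm_num) (by positivity)
  have h5 := mul_le_mul_of_nonneg_right h3 hk
  have h6 := mul_le_mul_of_nonneg_right h4 hk
  have h7 : |hullc J (expT J) (S.u i j) (S.F i) (I.key i j) l -
      cc (S.u i j) (S.F i) (I.key i j) ((l:ℝ)/J)| ≤ (1/(J:ℝ)^2) * I.key i j := by
    rw [abs_le]; constructor <;> linarith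
  calc _ ≤ I.w j * I.x i j * ((1/(J:ℝ)^2) * I.key i j) :=
        mul_le_mul_of_nonneg_left h7 (I.wx_nonneg i j)
    _ = _ := by ring

end LocInst

end Crest.Agent.KM

namespace Crest.Agent.R310

open Crest.Agent.KM

namespace RD

/-- valid data -/
structure Valid (Q : RD) : Prop where
  M_pos : 0 < Q.M
  J_pos : 0 < Q.J
  x_le : ∀ i < Q.m, ∀ j < Q.n, Q.xn i j ≤ Q.yn i
  y_le : ∀ i < Q.m, Q.yn i ≤ Q.M
  x_sum : ∀ j < Q.n, ∑ i ∈ range Q.m, Q.xn i j = Q.M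
  w_nonneg : ∀ j < Q.n, 0 ≤ Q.w j
  d_nonneg : ∀ i < Q.m, ∀ j < Q.n, 0 ≤ Q.d i j
  D_nonneg : ∀ κ < Q.m, ∀ i < Q.m, 0 ≤ Q.D κ i
  K0_nonneg : ∀ j < Q.n, 0 ≤ Q.K0 j
  F0_nonneg : ∀ i < Q.m, 0 ≤ Q.F0 i
  tri1 : ∀ i < Q.m, ∀ κ < Q.m, ∀ j < Q.n, Q.D κ i ≤ Q.d i j + Q.d κ j
  tri2 : ∀ i < Q.m, ∀ κ < Q.m, ∀ j < Q.n, Q.d κ j ≤ Q.d i j + Q.D κ i
  K0_le : ∀ i < Q.m, ∀ j < Q.n, Q.K0 j ≤ Q.d i j + Q.F0 i

variable {Q : RD}

/-- the real instance -/
noncomputable def inst (hv : Q.Valid) : LocInst (Fin Q.n) (Fin Q.m) where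
  d := fun i j => ((Q.d i j : ℚ) : ℝ)
  D := fun κ i => ((Q.D κ i : ℚ) : ℝ)
  w := fun j => ((Q.w j : ℚ) : ℝ)
  x := fun i j => ((Q.x i j : ℚ) : ℝ)
  y := fun i => ((Q.y i : ℚ) : ℝ)
  w_nonneg := fun j => by exact_mod_cast hv.w_nonneg j j.2
  d_nonneg := fun i j => by exact_mod_cast hv.d_nonneg i i.2 j j.2
  D_nonneg := fun i κ => by exact_mod_cast hv.D_nonneg κ κ.2 i i.2
  y_nonneg := fun i => by
    have : (0:ℚ) ≤ Q.y i := by unfold RD.y; positivity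
    exact_mod_cast this
  x_nonneg := fun i j => by
    have : (0:ℚ) ≤ Q.x i j := by unfold RD.x; positivity
    exact_mod_cast this
  x_le := fun i j => by
    have h : (Q.xn i j : ℚ) ≤ Q.yn i := by exact_mod_cast hv.x_le i i.2 j j.2
    have : Q.x i j ≤ Q.y i := by
      unfold RD.x RD.y
      exact div_le_div_of_nonneg_right h (by positivity)
    exact_mod_cast this
  x_sum := fun j => by
    have hM : (0:ℚ) < Q.M := by exact_mod_cast hv.M_pos
    have h : ∑ i : Fin Q.m, Q.x i j = 1 := by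
      rw [← Finset.sum_range (fun i => Q.x i j)]
      unfold RD.x
      rw [← Finset.sum_div, ← Nat.cast_sum, hv.x_sum j j.2]
      exact div_self hM.ne'
    have h2 : ((∑ i : Fin Q.m, Q.x i j : ℚ) : ℝ) = 1 := by rw [h]; norm_num
    push_cast at h2
    exact h2
  tri1 := fun i κ j => by exact_mod_cast hv.tri1 i i.2 κ κ.2 j j.2
  tri2 := fun i κ j => by exact_mod_cast hv.tri2 i i.2 κ κ.2 j j.2

/-- the initial state -/
noncomputable def S0 (hv : Q.Valid) : (inst hv).State where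
  K := fun j => ((Q.K0 j : ℚ) : ℝ)
  F := fun i => ((Q.F0 i : ℚ) : ℝ)
  K_nonneg := fun j => by exact_mod_cast hv.K0_nonneg j j.2
  F_nonneg := fun i => by exact_mod_cast hv.F0_nonneg i i.2
  K_le := fun i j => by
    show ((Q.K0 j : ℚ) : ℝ) ≤ ((Q.d i j : ℚ) : ℝ) + ((Q.F0 i : ℚ) : ℝ)
    exact_mod_cast hv.K0_le i i.2 j j.2

/-- the run data -/
noncomputable def rd (hv : Q.Valid) : LocInst.RunData (inst hv) where
  S0 := S0 hv
  R := Finset.univ.filter fun i : Fin Q.m => Q.rig i = true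
  J := Q.J
  J_pos := hv.J_pos
  P := ((Q.P : ℚ) : ℝ)
  n0 := ((Q.n0 : ℚ) : ℝ)
  BL := ((Q.BL : ℚ) : ℝ)
  chi := ((Q.chi : ℚ) : ℝ)
  om := ((Q.om : ℚ) : ℝ)
  Gt := fun T i l => ((S0 hv).opened T).GT Q.J i l
  err := fun i => (1/(Q.J:ℝ)^2) * (inst hv).dl i
  Gt_err := fun T i _ hl => ((S0 hv).opened T).GT_err hv.J_pos i hl

/-- a list of opened locations and the corresponding finite set -/
structure Rep (T : List ℕ) (Tf : Finset (Fin Q.m)) : Prop where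
  lt : ∀ κ ∈ T, κ < Q.m
  mem : ∀ i : Fin Q.m, i ∈ Tf ↔ (i:ℕ) ∈ T

lemma le_minL_iff {a x0 : ℚ} {L : List ℚ} : a ≤ minL x0 L ↔ a ≤ x0 ∧ ∀ b ∈ L, a ≤ b := by
  induction L with
  | nil => simp [minL]
  | cons b L ih =>
    show a ≤ min b (minL x0 L) ↔ _
    rw [le_min_iff, ih]
    constructor
    · rintro ⟨h1, h2, h3⟩
      refine ⟨h2, ?_⟩
      intro c hc
      rcases List.mem_cons.mp hc with h | h
      · rw [h]; exact h1
      · exact h3 c h
    · rintro ⟨h1, h2⟩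
      exact ⟨h2 b List.mem_cons_self, h1, fun c hc => h2 c (List.mem_cons_of_mem _ hc)⟩

lemma minL_mem_or {x0 : ℚ} (L : List ℚ) : minL x0 L = x0 ∨ minL x0 L ∈ L := by
  induction L with
  | nil => exact Or.inl rfl
  | cons b L ih =>
    have e : minL x0 (b :: L) = min b (minL x0 L) := rfl
    rw [e]
    rcases le_total b (minL x0 L) with h | h
    · rw [min_eq_left h]; exact Or.inr List.mem_cons_self
    · rw [min_eq_right h]
      rcases ih with h1 | h1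
      · exact Or.inl h1
      · exact Or.inr (List.mem_cons_of_mem _ h1)

lemma fold_cast {T : List ℕ} {Tf : Finset (Fin Q.m)} (h : Rep T Tf) (x0 : ℚ) (f : ℕ → ℚ) :
    ((minL x0 (T.map f) : ℚ) : ℝ) =
      Tf.fold min ((x0 : ℚ) : ℝ) (fun κ : Fin Q.m => ((f κ : ℚ) : ℝ)) := by
  apply le_antisymm
  · rw [Finset.le_fold_min]
    have h1 := (le_minL_iff (a := minL x0 (T.map f)) (x0 := x0) (L := T.map f)).mp le_rfl
    refine ⟨by exact_mod_cast h1.1, fun κ hκ => ?_⟩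
    have := h1.2 (f κ) (List.mem_map_of_mem ((h.mem κ).mp hκ))
    exact_mod_cast this
  · rw [Finset.fold_min_le]
    rcases minL_mem_or (x0 := x0) (T.map f) with h1 | h1
    · left; rw [h1]
    · right
      obtain ⟨κ, hκ, he⟩ := List.mem_map.mp h1
      exact ⟨⟨κ, h.lt κ hκ⟩, (h.mem _).mpr hκ, by rw [← he]⟩

lemma K_cast (hv : Q.Valid) {T : List ℕ} {Tf : Finset (Fin Q.m)} (h : Rep T Tf) (j : Fin Q.n) :
    ((Q.K T j : ℚ) : ℝ) = ((S0 hv).opened Tf).K j := by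
  unfold RD.K
  exact fold_cast h (Q.K0 j) (fun κ => Q.d κ j)

lemma F_cast (hv : Q.Valid) {T : List ℕ} {Tf : Finset (Fin Q.m)} (h : Rep T Tf) (i : Fin Q.m) :
    ((Q.F T i : ℚ) : ℝ) = ((S0 hv).opened Tf).F i := by
  unfold RD.F
  exact fold_cast h (Q.F0 i) (fun κ => Q.D κ i)

lemma C_cast (hv : Q.Valid) (j : Fin Q.n) : ((Q.C j : ℚ) : ℝ) = (inst hv).C j := by
  unfold RD.C LocInst.C
  rw [Finset.sum_range]
  push_cast
  rfl

lemma key_cast (hv : Q.Valid) (i : Fin Q.m) (j : Fin Q.n) :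
    ((Q.key i j : ℚ) : ℝ) = (inst hv).key i j := by
  unfold RD.key LocInst.key
  rw [← C_cast]
  push_cast
  rfl

lemma u_cast (hv : Q.Valid) {T : List ℕ} {Tf : Finset (Fin Q.m)} (h : Rep T Tf) (i : Fin Q.m)
    (j : Fin Q.n) : ((Q.u T i j : ℚ) : ℝ) = ((S0 hv).opened Tf).u i j := by
  unfold RD.u LocInst.State.u
  rw [← K_cast hv h]
  push_cast
  rfl

/-- **the evaluated star part of the code is the one of the run** -/
lemma Gt_cast (hv : Q.Valid) {T : List ℕ} {Tf : Finset (Fin Q.m)} (h : Rep T Tf) (i : Fin Q.m)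
    (l : ℕ) : ((Q.Gt T i l : ℚ) : ℝ) = (rd hv).Gt Tf i l := by
  show _ = ((S0 hv).opened Tf).GT Q.J i l
  unfold RD.Gt LocInst.State.GT
  rw [Finset.sum_range]
  push_cast
  apply Finset.sum_congr rfl
  intro j _
  rw [hullc_cast, u_cast hv h, F_cast hv h, key_cast hv]
  congr 1
  congr 1
  funext s
  exact expT_cast _ _

lemma base_cast (hv : Q.Valid) {T : List ℕ} {Tf : Finset (Fin Q.m)} (h : Rep T Tf) :
    ((Q.base T : ℚ) : ℝ) = ((S0 hv).opened Tf).base := by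
  unfold RD.base LocInst.State.base
  rw [Finset.sum_range]
  push_cast
  apply Finset.sum_congr rfl
  intro j _
  rw [Finset.sum_range]
  push_cast
  rw [K_cast hv h]
  rfl

lemma cost_cast (hv : Q.Valid) {T : List ℕ} {Tf : Finset (Fin Q.m)} (h : Rep T Tf) :
    ((∑ j ∈ range Q.n, Q.w j * Q.K T j : ℚ) : ℝ) = ((S0 hv).opened Tf).cost := by
  unfold LocInst.State.cost
  rw [Finset.sum_range]
  push_cast
  apply Finset.sum_congr rfl
  intro j _
  rw [K_cast hv h]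
  rfl

end RD

end Crest.Agent.R310
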