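import Crest.Agent.R310.RunLink
import Crest.Agent.R310.RunInst

/-!
# R310, route T: the code run is a run of `KM/Run.lean`

`RD.runT_spec` : specification of the output of the run.
-/

set_option linter.dupNamespace false
set_option autoImplicit false

namespace Crest.Agent.R310

open Crest.Agent.KM Finset

namespace RD

/-- the set of a list of locations -/
def toS (Q : RD) (T : List ℕ) : Finset (Fin Q.m) := univ.filter (fun i => (i : ℕ) ∈ T)

/-- clocks as a function -/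
def clk (Q : RD) (t : List ℕ) : Fin Q.m → ℕ := fun i => ck t i

variable {Q : RD}

theorem mem_toS {T : List ℕ} {i : Fin Q.m} : i ∈ Q.toS T ↔ (i : ℕ) ∈ T := by
  unfold RD.toS; simp

theorem toS_cons {κ : ℕ} (hκ : κ < Q.m) (T : List ℕ) :
    Q.toS (κ :: T) = insert ⟨κ, hκ⟩ (Q.toS T) := by
  ext i
  rw [mem_toS, Finset.mem_insert, mem_toS, List.mem_cons, Fin.ext_iff]

theorem card_toS {T : List ℕ} (hT : ∀ κ ∈ T, κ < Q.m) (hnd : T.Nodup) :
    (Q.toS T).card = T.length := by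
  induction T with
  | nil => simp [RD.toS]
  | cons κ T ih =>
    rw [List.nodup_cons] at hnd
    rw [toS_cons (hT κ (by simp)), Finset.card_insert_of_notMem
      (by rw [mem_toS]; exact hnd.1), ih (fun κ' h' => hT κ' (by simp [h'])) hnd.2,
      List.length_cons]

theorem rep_toS {T : List ℕ} (hT : ∀ κ ∈ T, κ < Q.m) : Rep T (Q.toS T) :=
  ⟨hT, fun _ => mem_toS⟩

variable (hv : Q.Valid)

theorem mem_R {i : Fin Q.m} : i ∈ (rd hv).R ↔ Q.rig i = true := by
  show i ∈ univ.filter (fun i : Fin Q.m => Q.rig i = true) ↔ _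
  simp

theorem mass_cast {T : List ℕ} (hT : ∀ κ ∈ T, κ < Q.m) (hnd : T.Nodup) (t : List ℕ) :
    (rd hv).mass (Q.toS T) (Q.clk t) = (Q.cnt T t : ℝ) := by
  unfold LocInst.RunData.mass RD.cnt
  rw [card_toS hT hnd, Finset.sum_range]
  push_cast
  congr 1
  apply Finset.sum_congr rfl
  intro i _
  show (Q.y i : ℝ) * ((ck t i : ℝ) / Q.J) = _
  ring

theorem lam_cast {T : List ℕ} (hT : ∀ κ ∈ T, κ < Q.m) (hnd : T.Nodup) (t : List ℕ) :
    (rd hv).lamOf ((rd hv).mass (Q.toS T) (Q.clk t)) = (Q.lam T t : ℝ) := by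
  rw [mass_cast hv hT hnd]
  unfold LocInst.RunData.lamOf RD.lam
  push_cast
  rfl

theorem Pi_cast {T : List ℕ} (hT : ∀ κ ∈ T, κ < Q.m) (hnd : T.Nodup) (t : List ℕ) :
    (rd hv).Pi ((rd hv).mass (Q.toS T) (Q.clk t)) = (Q.Pi T t : ℝ) := by
  rw [mass_cast hv hT hnd]
  unfold LocInst.RunData.Pi RD.Pi
  push_cast
  rfl

theorem W_cast {T : List ℕ} (hT : ∀ κ ∈ T, κ < Q.m) (p : ℚ) (i : Fin Q.m) (l : ℕ) :
    (rd hv).W (Q.toS T) (p : ℝ) i l = (Q.obj T p i l : ℝ) := by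
  unfold LocInst.RunData.W RD.obj
  rw [← Gt_cast hv (rep_toS hT)]
  push_cast
  show (p : ℝ) * (Q.y i : ℝ) * ((l : ℝ) / Q.J) + _ = _
  ring

theorem Ct_cast {T : List ℕ} (hT : ∀ κ ∈ T, κ < Q.m) (t : List ℕ) :
    (rd hv).Ct (Q.toS T) (Q.clk t) =
      ((Q.base T + ∑ i ∈ range Q.m, Q.Gt T i (ck t i) : ℚ) : ℝ) := by
  unfold LocInst.RunData.Ct
  push_cast
  rw [base_cast hv (rep_toS hT), Finset.sum_range]
  show ((S0 hv).opened (Q.toS T)).base + _ = _
  congr 1
  apply Finset.sum_congr rfl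
  intro i _
  rw [← Gt_cast hv (rep_toS hT)]
  rfl

theorem bestOK {T : List ℕ} (hT : ∀ κ ∈ T, κ < Q.m) (p : ℚ) (i : Fin Q.m) {l : ℕ}
    (hl : l ≤ Q.J) : (rd hv).BestOK (Q.toS T) (p : ℝ) i l (Q.bst T p i l) := by
  have hmin : ∀ l' ≤ l, (rd hv).W (Q.toS T) (p : ℝ) i (Q.arg T p i l) ≤
      (rd hv).W (Q.toS T) (p : ℝ) i l' := by
    intro l' hl'
    rw [W_cast hv hT, W_cast hv hT]
    exact_mod_cast arg_min T p i hl hl'
  refine ⟨bst_le T p i l, ?_, ?_, ?_⟩
  · intro hb l' hl'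
    rcases Nat.eq_zero_or_pos l with h0 | h0
    · subst h0
      have : l' = 0 := by omega
      rw [this]
    · have ha : Q.arg T p i l = l := by
        unfold RD.bst at hb
        split_ifs at hb with hc
        · omega
        · exact hb
      have := hmin l' hl'
      rwa [ha] at this
  · intro hb hi l' hl'
    have hc : ¬ (Q.rig i = true ∧ Q.arg T p i l < l) := fun hc => hi ((mem_R hv).2 hc.1)
    have e : Q.bst T p i l = Q.arg T p i l := by unfold RD.bst; rw [if_neg hc]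
    rw [e]
    exact hmin l' hl'
  · intro hb hi
    have hr := (mem_R hv).1 hi
    by_cases hc : Q.arg T p i l < l
    · refine ⟨by unfold RD.bst; rw [if_pos ⟨hr, hc⟩], Q.arg T p i l, hc, hmin l le_rfl⟩
    · exfalso
      have e : Q.bst T p i l = Q.arg T p i l := by
        unfold RD.bst; rw [if_neg (fun h' => hc h'.2)]
      rw [e] at hb
      exact hc hb

theorem drop_cast (κ : Fin Q.m) (t t' : List ℕ) :
    (rd hv).drop κ (Q.clk t) (Q.clk t') = (Q.low κ t t' : ℝ) := by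
  have e : Q.low κ t t' = ∑ i ∈ univ.erase κ, Q.y i * (((ck t i : ℚ) - (ck t' i : ℚ)) / Q.J) := by
    unfold RD.low
    rw [Finset.sum_range, ← Finset.add_sum_erase univ _ (Finset.mem_univ κ), if_pos rfl, zero_add]
    apply Finset.sum_congr rfl
    intro i hi
    have hne : ¬ (i : ℕ) = (κ : ℕ) := fun e => (Finset.ne_of_mem_erase hi) (Fin.ext e)
    rw [if_neg hne]
    ring
  rw [e]
  push_cast
  rfl

theorem kills_cast (κ : Fin Q.m) (t t' : List ℕ) :
    (((rd hv).kills κ (Q.clk t) (Q.clk t')).card : ℝ) = (Q.kills κ t t' : ℝ) := by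
  have e : Q.kills κ t t' = ∑ i ∈ univ.erase κ,
      if i ∈ (rd hv).R ∧ Q.clk t' i < Q.clk t i then (1 : ℚ) else 0 := by
    unfold RD.kills
    rw [Finset.sum_range, ← Finset.add_sum_erase univ _ (Finset.mem_univ κ)]
    rw [if_neg (fun h' => h'.1 rfl), zero_add]
    apply Finset.sum_congr rfl
    intro i hi
    have hne : (i : ℕ) ≠ (κ : ℕ) := fun e => (Finset.ne_of_mem_erase hi) (Fin.ext e)
    by_cases hc : i ∈ (rd hv).R ∧ Q.clk t' i < Q.clk t i
    · rw [if_pos hc, if_pos ⟨hne, (mem_R hv).1 hc.1, hc.2⟩]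
    · rw [if_neg hc, if_neg (fun h' => hc ⟨(mem_R hv).2 h'.2.1, h'.2.2⟩)]
  rw [e]
  unfold LocInst.RunData.kills
  rw [Finset.card_filter]
  push_cast
  apply Finset.sum_congr rfl
  intro i _
  split_ifs <;> simp

theorem crit_cast {T : List ℕ} (hT : ∀ κ ∈ T, κ < Q.m) (hnd : T.Nodup) (κ : Fin Q.m)
    (hκ : (κ : ℕ) ∉ T) (t : List ℕ) :
    (rd hv).crit (Q.toS T) κ (Q.clk t) (Q.clk (Q.newt (κ :: T) (Q.lam T t) κ t)) =
      (Q.crit T t κ : ℝ) := by
  have hT' : ∀ κ' ∈ (κ : ℕ) :: T, κ' < Q.m := by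
    intro κ' h'
    rcases List.mem_cons.1 h' with h2 | h2
    · rw [h2]; exact κ.2
    · exact hT κ' h2
  have hnd' : ((κ : ℕ) :: T).Nodup := List.nodup_cons.2 ⟨hκ, hnd⟩
  have e : insert κ (Q.toS T) = Q.toS ((κ : ℕ) :: T) := (toS_cons κ.2 T).symm
  unfold LocInst.RunData.crit LocInst.RunData.charge RD.crit
  rw [e, Pi_cast hv hT' hnd', Ct_cast hv hT', drop_cast, kills_cast]
  unfold RD.Psi
  push_cast
  show _ - ((Q.P : ℝ) / 2 * (1 - (Q.y κ : ℝ) * ((ck t κ : ℝ) / Q.J)) + (Q.BL : ℝ) * _ +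
    (Q.chi : ℝ) * _) = _
  ring

theorem sweepOK {T : List ℕ} (hT : ∀ κ ∈ T, κ < Q.m) (p : ℚ) (κ : Fin Q.m) {t : List ℕ}
    (ht : ∀ l ∈ t, l ≤ Q.J) (hom : 0 ≤ Q.om) :
    (rd hv).Sweep (insert κ (Q.toS T)) (p : ℝ) κ (Q.clk t)
      (Q.clk (Q.newt ((κ : ℕ) :: T) p κ t)) := by
  have hT' : ∀ κ' ∈ (κ : ℕ) :: T, κ' < Q.m := by
    intro κ' h'
    rcases List.mem_cons.1 h' with h2 | h2
    · rw [h2]; exact κ.2
    · exact hT κ' h2
  obtain ⟨h1, h2, h3⟩ := newt_cases (Q := Q) ((κ : ℕ) :: T) p κ hv.J_pos hv.M_pos hv.y_le ht hom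
  rw [← toS_cons κ.2 T]
  have hnew : ∀ i : Fin Q.m, Q.clk (Q.newt ((κ : ℕ) :: T) p κ t) i = if (i : ℕ) = κ then 0 else
      if Q.acc ((κ : ℕ) :: T) p κ t i < Q.om then Q.bst ((κ : ℕ) :: T) p i (ck t i)
        else ck t i := fun i => ck_newt _ p κ t i.2
  refine ⟨?_, ?_, ?_, ?_⟩
  · rw [hnew, if_pos rfl]
  · intro i hi
    have hne : ¬ (i : ℕ) = (κ : ℕ) := fun e => hi (Fin.ext e)
    rw [hnew, if_neg hne]
    split_ifs
    · left
      exact bestOK hv hT' p i (ck_le_J ht i)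
    · right; rfl
  · rcases h1 with h1 | h1
    · left
      intro i hi
      have hne : (i : ℕ) ≠ (κ : ℕ) := fun e => hi (Fin.ext e)
      have e : Q.clk (Q.newt ((κ : ℕ) :: T) p κ t) i = Q.bst ((κ : ℕ) :: T) p i (ck t i) :=
        h1 i i.2 hne
      rw [e]
      exact bestOK hv hT' p i (ck_le_J ht i)
    · right
      rw [drop_cast]
      show ((Q.om : ℚ) : ℝ) ≤ _
      exact_mod_cast h1
  · rw [drop_cast]
    show _ ≤ ((Q.om : ℚ) : ℝ) + 1
    exact_mod_cast h3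

/-- good list states -/
structure LS (Q : RD) (st : List ℕ × List ℕ) : Prop where
  ok : Q.Ok st
  nd : st.1.Nodup
  zero : ∀ κ ∈ st.1, ck st.2 κ = 0
  pos : ∀ κ ∈ st.1, 0 < Q.yn κ

theorem clk_set {t : List ℕ} (ht : t.length = Q.m) (i : Fin Q.m) (b : ℕ) :
    Q.clk (t.set i b) = Function.update (Q.clk t) i b := by
  funext s
  unfold RD.clk ck
  by_cases hs : s = i
  · subst hs
    rw [Function.update_self, List.getD_eq_getElem?_getD, List.getElem?_set_self (by omega)]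
    rfl
  · have hne : (i : ℕ) ≠ (s : ℕ) := fun e => hs (Fin.ext e.symm)
    rw [Function.update_of_ne hs, List.getD_eq_getElem?_getD, List.getElem?_set_ne hne,
      List.getD_eq_getElem?_getD]

theorem y_pos_iff (i : Fin Q.m) : 0 < (inst hv).y i ↔ 0 < Q.yn i := by
  show 0 < (Q.y i : ℝ) ↔ _
  unfold RD.y
  have hM : (0 : ℚ) < Q.M := by exact_mod_cast hv.M_pos
  constructor
  · intro h1
    have h2 : (0 : ℚ) < (Q.yn i : ℚ) / Q.M := by exact_mod_cast h1
    by_contra h3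
    have h4 : Q.yn i = 0 := by omega
    rw [h4] at h2
    simp at h2
  · intro h1
    have h2 : (0 : ℚ) < (Q.yn i : ℚ) / Q.M := div_pos (by exact_mod_cast h1) hM
    exact_mod_cast h2

/-- final states -/
def Dead (st : List ℕ × List ℕ) : Prop := ∀ i : Fin Q.m, ck st.2 i = 0 ∨ (inst hv).y i = 0

/-- a step of the code is a step of the abstract run (or the end is reached) -/
theorem step_run {st : List ℕ × List ℕ} (hst : LS Q st) (hom : 0 ≤ Q.om) :
    (Q.step st = st ∧ Dead hv st) ∨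
    (LS Q (Q.step st) ∧ (rd hv).Step (Q.toS st.1, Q.clk st.2)
      (Q.toS (Q.step st).1, Q.clk (Q.step st).2)) := by
  obtain ⟨hT, hlen, htJ⟩ := hst.ok
  have hlam := lam_cast hv hT hst.nd st.2
  rcases step_cases (Q := Q) st with ⟨i, hi, hb, hs⟩ | ⟨-, ha, hs⟩ | ⟨hrest, k, hk, hmin, hs⟩
  · right
    have hstep : (rd hv).Step (Q.toS st.1, Q.clk st.2)
        (Q.toS (Q.step st).1, Q.clk (Q.step st).2) := by
      rw [hs]
      show (rd hv).Step _ (Q.toS st.1, Q.clk (st.2.set (⟨i, hi⟩ : Fin Q.m) _))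
      rw [clk_set hlen]
      refine LocInst.RunData.Step.lower _ _ _ _ ?_ hb
      rw [hlam]
      exact bestOK hv hT (Q.lam st.1 st.2) ⟨i, hi⟩ (ck_le_J htJ i)
    refine ⟨⟨hst.ok.step, ?_, ?_, ?_⟩, hstep⟩
    · rw [hs]; exact hst.nd
    · rw [hs]
      intro κ hκ
      have h0 := hst.zero κ hκ
      have hne : i ≠ κ := by
        intro e; subst e; rw [h0] at hb; exact absurd hb (Nat.not_lt_zero _)
      show (st.2.set i _).getD κ 0 = 0
      rw [List.getD_eq_getElem?_getD, List.getElem?_set_ne hne, ← List.getD_eq_getElem?_getD]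
      exact h0
    · rw [hs]; exact hst.pos
  · left
    refine ⟨hs, ?_⟩
    intro i
    by_contra hc
    push Not at hc
    have h1 : (i : ℕ) ∈ alive Q st.2 := by
      rw [mem_alive]
      refine ⟨i.2, Nat.pos_of_ne_zero hc.1, ?_⟩
      rw [← y_pos_iff hv]
      exact lt_of_le_of_ne ((inst hv).y_nonneg i) (Ne.symm hc.2)
    rw [ha] at h1
    simp at h1
  · right
    obtain ⟨hkm, hkt, hky⟩ := mem_alive.1 hk
    have hkT : k ∉ st.1 := fun hc => by have := hst.zero k hc; omega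
    have hnew : ∀ κ' : Fin Q.m, 0 < Q.clk st.2 κ' → (κ' : ℕ) ∉ st.1 := by
      intro κ' h1 hc
      have : Q.clk st.2 κ' = 0 := hst.zero κ' hc
      omega
    refine ⟨⟨hst.ok.step, ?_, ?_, ?_⟩, ?_⟩
    · rw [hs]; exact List.nodup_cons.2 ⟨hkT, hst.nd⟩
    · rw [hs]
      intro κ hκ
      rcases List.mem_cons.1 hκ with h1 | h1
      · rw [h1, ck_newt _ _ _ _ hkm, if_pos rfl]
      · have h2 := newt_le (Q := Q) (k :: st.1) (Q.lam st.1 st.2) k st.2 (hT κ h1)
        have h3 := hst.zero κ h1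
        show ck (Q.newt (k :: st.1) (Q.lam st.1 st.2) k st.2) κ = 0
        omega
    · rw [hs]
      intro κ hκ
      rcases List.mem_cons.1 hκ with h1 | h1
      · rw [h1]; exact hky
      · exact hst.pos κ h1
    · rw [hs]
      have e : Q.toS (k :: st.1) = insert ⟨k, hkm⟩ (Q.toS st.1) := toS_cons hkm st.1
      show (rd hv).Step _ (Q.toS (k :: st.1), _)
      rw [e]
      refine LocInst.RunData.Step.opn (Q.toS st.1) (Q.clk st.2) ⟨k, hkm⟩
        (fun κ' => Q.clk (Q.newt ((κ' : ℕ) :: st.1) (Q.lam st.1 st.2) κ' st.2))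
        ⟨hkt, (y_pos_iff hv _).2 hky⟩ ?_ ?_ ?_
      · intro i _ _
        rw [hlam]
        have h1 := bestOK hv hT (Q.lam st.1 st.2) i (ck_le_J htJ i)
        rw [hrest i i.2] at h1
        exact h1
      · intro κ' _ _
        rw [hlam]
        exact sweepOK hv hT (Q.lam st.1 st.2) κ' htJ hom
      · intro κ' h1 h2
        rw [crit_cast hv hT hst.nd ⟨k, hkm⟩ hkT, crit_cast hv hT hst.nd κ' (hnew κ' h1)]
        have h3 := hmin κ' (mem_alive.2 ⟨κ'.2, h1, (y_pos_iff hv κ').1 h2⟩)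
        exact_mod_cast h3


/-- **specification of the run** -/
theorem runT_spec (hom : 0 ≤ Q.om) {k G eps cb Z Y q0 y0 tol : ℝ}
    (hg : (rd hv).Good k G eps cb Z Y q0 y0 tol) :
    Q.runT.Nodup ∧ (∀ i ∈ Q.runT, i < Q.m ∧ 0 < Q.yn i) ∧ (Q.runT.length : ℝ) ≤ k ∧
      ((∑ j ∈ range Q.n, Q.w j * Q.K Q.runT j : ℚ) : ℝ) ≤ (1 + 3 * eps) * G := by
  have hinv : ∀ s : ℕ, LS Q (Q.run s) ∧
      (rd hv).Inv k G tol (Q.toS (Q.run s).1) (Q.clk (Q.run s).2) ∧
      (∑ i, Q.clk (Q.run s).2 i + s ≤ Q.m * Q.J ∨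
        (Q.step (Q.run s) = Q.run s ∧ Dead hv (Q.run s))) := by
    intro s
    induction s with
    | zero =>
      have e1 : Q.run 0 = Q.start := rfl
      have e2 : Q.clk (Q.start).2 = fun _ => Q.J := by
        funext i
        show ck (List.replicate Q.m Q.J) i = Q.J
        unfold ck
        rw [List.getD_eq_getElem?_getD, List.getElem?_replicate, if_pos i.2]
        rfl
      have e3 : Q.toS (Q.start).1 = ∅ := by simp [RD.toS, RD.start]
      rw [e1]
      refine ⟨⟨Ok.start, by simp [RD.start], by simp [RD.start], by simp [RD.start]⟩, ?_, ?_⟩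
      · rw [e2, e3]; exact LocInst.RunData.Inv.start hg
      · left
        rw [e2]
        simp
    | succ s ih =>
      obtain ⟨i1, i2, i3⟩ := ih
      rw [run_succ]
      rcases step_run hv i1 hom with ⟨h1, h2⟩ | ⟨h1, h2⟩
      · rw [h1]; exact ⟨i1, i2, Or.inr ⟨h1, h2⟩⟩
      · obtain ⟨h3, h4⟩ := LocInst.RunData.Inv.step hg i2 h2
        refine ⟨h1, h3, ?_⟩
        rcases i3 with i3 | ⟨i3, i4⟩
        · left
          omega
        · right
          rw [i3]
          exact ⟨i3, i4⟩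
  obtain ⟨h1, h2, h3⟩ := hinv (Q.m * (Q.J + 2))
  have hdead : Dead hv (Q.run (Q.m * (Q.J + 2))) := by
    rcases h3 with h3 | h3
    · have hm : Q.m = 0 := by
        by_contra hm
        have h4 : Q.m * Q.J < Q.m * (Q.J + 2) :=
          Nat.mul_lt_mul_of_pos_left (by omega) (Nat.pos_of_ne_zero hm)
        omega
      intro i
      exact absurd i.2 (by omega)
    · exact h3.2
  obtain ⟨h4, h5⟩ := h2.final hg hdead
  obtain ⟨hT, -, -⟩ := h1.ok
  refine ⟨h1.nd, fun i hi => ⟨hT i hi, h1.pos i hi⟩, ?_, ?_⟩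
  · rw [card_toS hT h1.nd] at h4
    exact h4
  · have e := cost_cast hv (rep_toS hT)
    have e2 : Q.runT = (Q.run (Q.m * (Q.J + 2))).1 := rfl
    rw [e2, e]
    exact h5

end RD

end Crest.Agent.R310
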