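import Crest.Agent.R310.BlockT1
import Crest.Agent.R310.RunSpec

/-!
# R310, route T, block RUN (2): clients of killed rigid locations pay
-/

set_option linter.dupNamespace false
set_option autoImplicit false

namespace Crest.Agent.R310

open Crest.Agent.Lib.PT Crest.Agent.Lib.PT.Arith Crest.LogicCS.KMedian Finset Crest.Agent.KM Numbers

/-- killed rigid locations pay -/
theorem RD.pay_of {Q : RD} (hv : Q.Valid) {cb : ℚ} (ρ : ℕ → ℕ → ℚ)
    (hdis : ∀ g < Q.m, Q.rig g = true → ∀ g' < Q.m, Q.rig g' = true → g ≠ g' →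
      ∀ j < Q.n, ρ g j = 0 ∨ ρ g' j = 0)
    (hge : ∀ g < Q.m, Q.rig g = true → cb ≤ ∑ j ∈ range Q.n, Q.w j * ρ g j)
    (hle : ∀ g < Q.m, Q.rig g = true → ∀ f < Q.m, 0 < Q.yn f → f ≠ g → ∀ j < Q.n,
      ρ g j ≤ Q.d f j)
    (hcap : ∀ g < Q.m, Q.rig g = true → ∀ j < Q.n, ρ g j ≤ Q.K0 j)
    (T : Finset (Fin Q.m)) (t : Fin Q.m → ℕ) (ht : ∀ i, t i ≤ Q.J)
    (hT : ∀ i ∈ T, 0 < (RD.inst hv).y i) :
    (cb:ℝ) * (((RD.rd hv).R \ T).filter fun i => t i = 0).card ≤ (RD.rd hv).Cv T t := by
  classical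
  set Kl := ((RD.rd hv).R \ T).filter fun i => t i = 0 with hKl
  have hmem : ∀ g ∈ Kl, Q.rig g = true ∧ g ∉ T ∧ t g = 0 := by
    intro g hg
    rw [hKl, Finset.mem_filter, Finset.mem_sdiff] at hg
    obtain ⟨⟨h1, h2⟩, h3⟩ := hg
    have h4 : Q.rig g = true := by
      have : g ∈ Finset.univ.filter fun i : Fin Q.m => Q.rig i = true := h1
      exact (Finset.mem_filter.1 this).2
    exact ⟨h4, h2, h3⟩
  have hJ : (0:ℝ) < Q.J := by exact_mod_cast hv.J_pos
  have hpay := LocInst.State.pay ((RD.S0 hv).opened T) (fun i => (t i : ℝ) / Q.J)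
    (fun i => by positivity)
    (fun i => by
      rw [div_le_one hJ]
      exact_mod_cast ht i)
    (fun j : Fin Q.n => ∑ g ∈ Kl, ((ρ g j : ℚ) : ℝ)) (by
      intro j
      by_cases h : ∃ g0 ∈ Kl, ρ g0 j ≠ 0
      · right
        obtain ⟨g0, hg0, hne⟩ := h
        obtain ⟨hr0, hT0, ht0⟩ := hmem g0 hg0
        have hsum : ∑ g ∈ Kl, ((ρ g j : ℚ) : ℝ) = ((ρ g0 j : ℚ) : ℝ) := by
          rw [Finset.sum_eq_single g0]
          · intro g hg hgne
            obtain ⟨hr, -, -⟩ := hmem g hg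
            rcases hdis g g.2 hr g0 g0.2 hr0 (fun h => hgne (Fin.ext h)) j j.2 with h1 | h1
            · rw [h1]; norm_num
            · exact absurd h1 hne
          · intro h1; exact absurd hg0 h1
        simp only [hsum]
        refine ⟨?_, ?_⟩
        · show ((ρ g0 j : ℚ) : ℝ) ≤
            T.fold min ((Q.K0 j : ℚ) : ℝ) (fun κ : Fin Q.m => ((Q.d κ j : ℚ) : ℝ))
          rw [Finset.le_fold_min]
          refine ⟨by exact_mod_cast hcap g0 g0.2 hr0 j j.2, fun κ hκ => ?_⟩
          have h1 : (κ : ℕ) ≠ g0 := by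
            intro h2
            apply hT0
            rw [← Fin.ext h2]
            exact hκ
          have h2 := hle g0 g0.2 hr0 κ κ.2 ((RD.y_pos_iff hv κ).1 (hT κ hκ)) h1 j j.2
          exact_mod_cast h2
        · intro i
          by_cases hi : i = g0
          · right; left
            rw [hi, ht0]; simp
          · by_cases hy : Q.yn i = 0
            · right; right
              show ((Q.x i j : ℚ) : ℝ) = 0
              have h1 : Q.xn i j = 0 := by
                have := hv.x_le i i.2 j j.2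
                omega
              unfold RD.x
              rw [h1]; norm_num
            · left
              have h1 := hle g0 g0.2 hr0 i i.2 (Nat.pos_of_ne_zero hy)
                (fun h => hi (Fin.ext h)) j j.2
              show ((ρ g0 j : ℚ) : ℝ) ≤ ((Q.d i j : ℚ) : ℝ)
              exact_mod_cast h1
      · left
        apply le_of_eq
        apply Finset.sum_eq_zero
        intro g hg
        by_contra hne
        apply h
        refine ⟨g, hg, fun h1 => hne ?_⟩
        rw [h1]; norm_num)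
  refine le_trans ?_ hpay
  have h1 : ∑ j : Fin Q.n, (RD.inst hv).w j * ∑ g ∈ Kl, ((ρ g j : ℚ) : ℝ) =
      ∑ g ∈ Kl, ((∑ j ∈ range Q.n, Q.w j * ρ g j : ℚ) : ℝ) := by
    have : ∀ g : Fin Q.m, ((∑ j ∈ range Q.n, Q.w j * ρ g j : ℚ) : ℝ) =
        ∑ j : Fin Q.n, (RD.inst hv).w j * ((ρ g j : ℚ) : ℝ) := by
      intro g
      rw [Finset.sum_range]
      push_cast
      rfl
    rw [Finset.sum_congr rfl fun g _ => this g, Finset.sum_comm]
    apply Finset.sum_congr rfl
    intro j _
    rw [Finset.mul_sum]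
  rw [h1, mul_comm, ← nsmul_eq_mul]
  apply Finset.card_nsmul_le_sum
  intro g hg
  have := hge g g.2 (hmem g hg).1
  exact_mod_cast this

end Crest.Agent.R310
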