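import Crest.Agent.R310.BlockT2

/-!
# R310, route T, block RUN (3): the constants are good
-/

set_option linter.dupNamespace false
set_option autoImplicit false

namespace Crest.Agent.R310

open Crest.Agent.Lib.PT Crest.Agent.Lib.PT.Arith Crest.LogicCS.KMedian Finset Crest.Agent.KM Numbers

/-- slope constant -/
def DDc (C1 C2 : ℕ) (c2 : ℚ) : ℚ := 2 * C2 + C1 + 2 / c2 + 2

/-- admissible constants -/
structure PGood (x : ℚ) (C1 C2 : ℕ) (c0 : ℚ) (p : TPar) (s0 : ℕ) : Prop where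
  x_pos : 0 < x
  x_le : 1000 * x ≤ 1
  c0_pos : 0 < c0
  g_lo : 1 + 2 * ee ≤ (p.g : ℝ)
  g_hi : (p.g : ℝ) ≤ (1 + 2 / Real.exp 1) * (1 + x)
  g1 : 1 ≤ p.g
  g2 : p.g ≤ 2
  c2 : p.c2 = x * c0 / 12
  et_pos : 0 < p.et
  et1 : p.et * (32 * DDc C1 C2 p.c2) ≤ x
  et2 : p.et * 64 ≤ x * c0
  J1 : 176 ≤ p.J1 * x
  s2 : 2 ≤ s0
  sa : 64 * DDc C1 C2 p.c2 ≤ x * p.et * s0
  sb : 64 * DDc C1 C2 p.c2 ≤ x * s0
  sc : 128 ≤ x * c0 * s0
  sd : 128 ≤ x * c0 * p.et * s0
  se : c0 ≤ s0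

theorem BB_num {a et s : ℚ} (ha : 0 ≤ a) (het : 0 < et) (hs : 0 < s) :
    16 * a / s ^ 2 * (s - 1) / (et * s) + 16 * a / s ^ 2 / 2 * (et * s + 1) ≤
      8 * a / s * (2 / (et * s) + et + 1 / s) := by
  have h : 8 * a / s * (2 / (et * s) + et + 1 / s) -
      (16 * a / s ^ 2 * (s - 1) / (et * s) + 16 * a / s ^ 2 / 2 * (et * s + 1)) =
      16 * a / (s^3 * et) := by
    field_simp
    ring
  have : 0 ≤ 16 * a / (s^3 * et) := by positivity
  linarith

theorem hA_num {x a D et s J1 : ℚ} (ha : 0 ≤ a) (hD : 0 ≤ D) (het : 0 < et) (hs : 0 < s)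
    (hJ1 : 0 < J1) (h1 : 64 * D ≤ x * s) (h2 : 64 * D ≤ x * et * s) (h3 : et * (32 * D) ≤ x)
    (h4 : 176 ≤ J1 * x) :
    16 * a / s ^ 2 / 2 * (D * s) +
      (16 * a / s ^ 2 * (s - 1) / (et * s) + 16 * a / s ^ 2 / 2 * (et * s + 1)) * (D * s) +
      44 * a / J1 ≤ x * a := by
  have hB := mul_le_mul_of_nonneg_right (BB_num ha het hs) (mul_nonneg hD hs.le)
  have e1 : 16 * a / s ^ 2 / 2 * (D * s) = 8 * a * (D / s) := by field_simp; ring
  have e2 : 8 * a / s * (2 / (et * s) + et + 1 / s) * (D * s) =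
      8 * a * (2 * (D / (et * s)) + D * et + D / s) := by field_simp
  have k1 : D / s ≤ x / 64 := by rw [div_le_div_iff₀ hs (by norm_num)]; linarith
  have k2 : D / (et * s) ≤ x / 64 := by
    rw [div_le_div_iff₀ (by positivity) (by norm_num)]; nlinarith
  have k3 : D * et ≤ x / 32 := by linarith
  have k4 : 44 / J1 ≤ x / 4 := by rw [div_le_div_iff₀ hJ1 (by norm_num)]; linarith
  have e3 : 44 * a / J1 = a * (44 / J1) := by ring
  rw [e1, e3]
  have k5 : 8 * (D / s) + 8 * (2 * (D / (et * s)) + D * et + D / s) + 44 / J1 ≤ x := by linarith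
  have k6 := mul_le_mul_of_nonneg_left k5 ha
  rw [e2] at hB
  linarith

theorem hB_num {x a A c0 c2 et s : ℚ} (hA : 0 ≤ A) (ha : 0 ≤ a) (haA : a ≤ 2 * A) (het : 0 < et)
    (hs : 0 < s) (h1 : 128 ≤ x * c0 * s) (h2 : 128 ≤ x * c0 * et * s) (h3 : et * 64 ≤ x * c0)
    (h4 : c2 = x * c0 / 12) :
    16 * a / s ^ 2 / 2 +
      (16 * a / s ^ 2 * (s - 1) / (et * s) + 16 * a / s ^ 2 / 2 * (et * s + 1)) +
      3 * (c2 * A / s) ≤ x * (c0 * A / s) := by
  have hB := BB_num ha het hs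
  have e1 : 16 * a / s ^ 2 / 2 = 8 * a / s * (1 / s) := by field_simp; ring
  have k0 : 8 * a / s * (1 / s) + 8 * a / s * (2 / (et * s) + et + 1 / s) ≤
      16 * A / s * (2 / (et * s) + et + 2 / s) := by
    have : 8 * a / s * (1 / s) + 8 * a / s * (2 / (et * s) + et + 1 / s) =
      8 * a / s * (2 / (et * s) + et + 2 / s) := by ring
    rw [this]
    apply mul_le_mul_of_nonneg_right _ (by positivity)
    apply div_le_div_of_nonneg_right _ hs.le
    linarith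
  have k1 : 2 / s ≤ x * c0 / 64 := by rw [div_le_div_iff₀ hs (by norm_num)]; linarith
  have k2 : 2 / (et * s) ≤ x * c0 / 64 := by
    rw [div_le_div_iff₀ (by positivity) (by norm_num)]; nlinarith
  have k3 : et ≤ x * c0 / 64 := by linarith
  have k4 : 16 * A / s * (2 / (et * s) + et + 2 / s) ≤ 16 * A / s * (3 * (x * c0) / 64) := by
    apply mul_le_mul_of_nonneg_left _ (by positivity)
    linarith
  have e2 : 16 * A / s * (3 * (x * c0) / 64) + 3 * (c2 * A / s) = x * (c0 * A / s) := by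
    rw [h4]; field_simp; ring
  linarith

theorem hP_num {a s : ℚ} (ha : 0 ≤ a) (hs : 2 ≤ s) :
    2 * a ≤ 16 * a / s ^ 2 / 2 * (s - 1) ^ 2 := by
  have hs0 : 0 < s := by linarith
  have e : 16 * a / s ^ 2 / 2 * (s - 1) ^ 2 = 8 * a * ((s - 1) / s) ^ 2 := by
    field_simp; ring
  rw [e]
  have k : 1 / 2 ≤ (s - 1) / s := by rw [div_le_div_iff₀ (by norm_num) hs0]; linarith
  have k2 : (1/2 : ℚ) ^ 2 ≤ ((s - 1) / s) ^ 2 := by
    apply pow_le_pow_left₀ (by norm_num) k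
  have := mul_le_mul_of_nonneg_left k2 (show 0 ≤ 8 * a by linarith)
  linarith

/-- tolerance -/
theorem tol_num {a A s N m J1 J S D : ℚ} (hA : 0 ≤ A) (ha : 0 ≤ a) (haA : a ≤ 2 * A)
    (hs : 1 ≤ s) (hm : 0 < m) (hN : 0 ≤ N) (hJ1 : 1 ≤ J1)
    (hJ : J = J1 * (N + 1) * (m + N + 1)) (hS0 : 0 ≤ S) (hS : S ≤ N)
    (hD : D ≤ 2 * A) :
    4 * (1 / J ^ 2 * D) + 16 * a / s ^ 2 * (s - 1) * S / J +
      (2 * (1 / J ^ 2 * D) * J + D / J) / (1 / m) ≤ 40 * A / (J1 * (N + 1)) := by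
  have hJ1' : 0 < J1 := by linarith
  have hJpos : 0 < J := by rw [hJ]; positivity
  have hJ1le : 1 ≤ J := by
    rw [hJ]
    have h1 : 1 ≤ J1 * (N + 1) := by nlinarith
    nlinarith
  have e3 : (2 * (1 / J ^ 2 * D) * J + D / J) / (1 / m) = 3 * m * D / J := by
    field_simp; ring
  rw [e3]
  have k1 : 4 * (1 / J ^ 2 * D) ≤ 8 * A / J := by
    have : 4 * (1 / J ^ 2 * D) = (4 * D / J) / J := by field_simp
    rw [this]
    apply div_le_div_of_nonneg_right _ hJpos.le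
    rw [div_le_iff₀ hJpos]
    nlinarith
  have k2 : 16 * a / s ^ 2 * (s - 1) * S / J ≤ 32 * A * N / J := by
    apply div_le_div_of_nonneg_right _ hJpos.le
    have h1 : (s - 1) / s ^ 2 ≤ 1 := by
      rw [div_le_one (by positivity)]; nlinarith
    have e : 16 * a / s ^ 2 * (s - 1) * S = 16 * a * S * ((s - 1) / s ^ 2) := by ring
    rw [e]
    calc 16 * a * S * ((s - 1) / s ^ 2) ≤ 16 * a * S * 1 := by
          apply mul_le_mul_of_nonneg_left h1 (by positivity)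
      _ ≤ 32 * A * N := by nlinarith [mul_le_mul haA hS hS0 (by linarith : (0:ℚ) ≤ 2 * A)]
  have k3 : 3 * m * D / J ≤ 6 * A * m / J := by
    apply div_le_div_of_nonneg_right _ hJpos.le
    nlinarith
  have e4 : 40 * A / (J1 * (N + 1)) = 40 * A * (m + N + 1) / J := by
    rw [hJ]; field_simp
  rw [e4]
  have k4 : 8 * A / J + 32 * A * N / J + 6 * A * m / J ≤ 40 * A * (m + N + 1) / J := by
    rw [← add_div, ← add_div]
    apply div_le_div_of_nonneg_right _ hJpos.le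
    nlinarith [mul_nonneg hA hm.le, mul_nonneg hA hN]
  linarith

end Crest.Agent.R310
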