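import Crest.Agent.R310.BlockT3

/-!
# R310, route T, block RUN (4): the run is good
-/

set_option linter.dupNamespace false
set_option autoImplicit false

namespace Crest.Agent.R310

open Crest.Agent.Lib.PT Crest.Agent.Lib.PT.Arith Crest.LogicCS.KMedian Finset Crest.Agent.KM Numbers

/-- the rigid locations -/
def RD.RR (Q : RD) : Finset ℕ := (range Q.m).filter (fun i => Q.rig i = true)

theorem RD.sum_R_cast {Q : RD} (hv : Q.Valid) (f : ℕ → ℚ) :
    ∑ i ∈ (RD.rd hv).R, ((f i : ℚ) : ℝ) = ((∑ i ∈ Q.RR, f i : ℚ) : ℝ) := by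
  show ∑ i ∈ Finset.univ.filter (fun i : Fin Q.m => Q.rig i = true), ((f i : ℚ) : ℝ) = _
  unfold RD.RR
  rw [Finset.sum_filter, Finset.sum_filter, Finset.sum_range]
  push_cast
  apply Finset.sum_congr rfl
  intro i _
  split_ifs <;> norm_num

theorem RD.sum_cast {Q : RD} (f : ℕ → ℚ) :
    ∑ i : Fin Q.m, ((f i : ℚ) : ℝ) = ((∑ i ∈ range Q.m, f i : ℚ) : ℝ) := by
  rw [Finset.sum_range]
  push_cast
  rfl

theorem RD.card_R_cast {Q : RD} (hv : Q.Valid) :
    (((RD.rd hv).R.card : ℕ) : ℝ) = ((Q.RR.card : ℚ) : ℝ) := by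
  have h := RD.sum_R_cast hv (fun _ => 1)
  simp only [Rat.cast_one, Finset.sum_const, nsmul_eq_mul, mul_one] at h
  rw [h]

theorem RD.sum_dlq {Q : RD} (hv : Q.Valid) :
    ∑ i ∈ range Q.m, Q.dlq i = 2 * ∑ j ∈ range Q.n, Q.w j * Q.C j := by
  have h1 := (RD.inst hv).sum_dl
  rw [← sumC_cast hv, Finset.sum_congr rfl fun i _ => (dl_cast hv i).symm, RD.sum_cast] at h1
  exact_mod_cast h1

theorem RD.dlq_nonneg {Q : RD} (hv : Q.Valid) {i : ℕ} (hi : i < Q.m) : 0 ≤ Q.dlq i := by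
  have h1 := (RD.inst hv).dl_nonneg ⟨i, hi⟩
  rw [← dl_cast hv ⟨i, hi⟩] at h1
  exact_mod_cast h1

theorem sum_count {Y : List ℕ} {N : ℕ} (hY : ∀ y ∈ Y, y < N) :
    ∑ i ∈ range N, Y.count i = Y.length := by
  have h := Finset.card_eq_sum_card_fiberwise (f := fun e => Y.getD e 0)
    (s := range Y.length) (t := range N) (by
      intro e he
      rw [Finset.mem_coe, Finset.mem_range] at he
      rw [Finset.mem_coe, Finset.mem_range]
      exact hY _ (getD_memN he))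
  rw [Finset.card_range] at h
  rw [h]
  apply Finset.sum_congr rfl
  intro i _
  rw [card_at]

theorem hA_fin {P B D s q Z E T J1 a x : ℚ} (hP0 : 0 ≤ P) (hB0 : 0 ≤ B)
    (b1 : 2 * Z + q + 1 ≤ D * s) (b2 : q + Z ≤ D * s) (b3 : E ≤ 4 * a / J1)
    (b4 : T ≤ 40 * a / J1) (b5 : P / 2 * (D * s) + B * (D * s) + 44 * a / J1 ≤ x * a) :
    P / 2 * (2 * Z + q + 1) + B * (q + Z) + E + T ≤ x * a := by
  have b6 := mul_le_mul_of_nonneg_left b1 (by linarith : 0 ≤ P / 2)
  have b7 := mul_le_mul_of_nonneg_left b2 hB0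
  have b8 : 4 * a / J1 + 40 * a / J1 = 44 * a / J1 := by ring
  linarith

theorem D_bounds {C1 C2 c s D : ℚ} (hC2 : 0 ≤ C2) (hs : 1 ≤ s)
    (hD : D = 2 * C2 + C1 + c + 2) :
    2 * (C2 * s) + (C1 + c) * s + 1 ≤ D * s ∧ (C1 + c) * s + C2 * s ≤ D * s := by
  subst hD
  constructor
  · nlinarith
  · nlinarith [mul_nonneg hC2 (by linarith : (0:ℚ) ≤ s)]

theorem b3_num {J J1 N m S A a : ℚ} (hJ1 : 0 < J1) (hJ : J = J1 * (N + 1) * (m + N + 1))
    (hN : 0 ≤ N) (hm : 0 < m) (hS : S ≤ 2 * A) (hA : 0 ≤ A) (hAa : A ≤ a) :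
    2 * J * (1 / J ^ 2 * S) ≤ 4 * a / J1 := by
  have hJpos : 0 < J := by rw [hJ]; positivity
  have e : 2 * J * (1 / J ^ 2 * S) = 2 * S / J := by field_simp
  rw [e]
  apply div_le_div₀ (by linarith) (by linarith) hJ1
  rw [hJ]
  calc J1 = J1 * 1 * 1 := by ring
    _ ≤ J1 * (N + 1) * (m + N + 1) := by
      apply mul_le_mul _ (by linarith) (by norm_num) (by positivity)
      exact mul_le_mul_of_nonneg_left (by linarith) hJ1.le

theorem b4_num {J1 N k A a : ℚ} (hJ1 : 0 < J1) (hN : 0 ≤ N) (hk0 : 0 ≤ k) (hk : k ≤ N)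
    (hA : 0 ≤ A) (hAa : A ≤ a) :
    40 * A / (J1 * (N + 1)) * (k + 1) ≤ 40 * a / J1 := by
  rw [div_mul_eq_mul_div, div_le_div_iff₀ (by positivity) hJ1]
  have h5 : A * (k + 1) ≤ a * (N + 1) := by
    apply mul_le_mul hAa (by linarith) (by positivity) (by linarith)
  have := mul_le_mul_of_nonneg_left h5 hJ1.le
  linarith

section good

variable {x : ℚ} {C1 C2 : ℕ} {c0 : ℚ} {p : TPar} {s0 : ℕ} (hp : PGood x C1 C2 c0 p s0)
  {I : Instance} (hI : I.Valid) {F' : Finset (Fin I.N)} {Y : List ℕ} {m : ℕ} {Gt : List ℕ}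
  {s : ℕ} {A : ℚ}
  (hYF : ∀ y ∈ Y, ∃ hy : y < I.N, (⟨y, hy⟩ : Fin I.N) ∈ F') (hm : 0 < m) (hmY : m ≤ Y.length)
  (hnd : Gt.Nodup) (hGN : ∀ g ∈ Gt, g < I.N) (hs0 : s0 ≤ s) (hsk : s < I.k) (hA : 0 < A)
  (hfs : fsum (raw I) Y m ≤ m * A)
  (hdef : (Gt.map (fun g => m - min m (Y.count g))).sum ≤ C2 * s * m)
  (hlen : Y.length ≤ m * (I.k - s + 1))
  (hcnt : I.k ≤ Gt.length + C1 * s)
  (hrho : RhoOK I F' Gt (c0 * A / s))

include hfs hm in
theorem tRD_sumC_le (hY : ∀ y ∈ Y, y < I.N) :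
    ∑ j ∈ range (tRD p (raw I) Y m Gt s A).n, (tRD p (raw I) Y m Gt s A).w j *
      (tRD p (raw I) Y m Gt s A).C j ≤ A := by
  rw [tRD_sumC hY]
  have hm' : (0:ℚ) < m := by exact_mod_cast hm
  rw [one_div, inv_mul_le_iff₀ hm']
  exact hfs

include hfs hm in
theorem tRD_sumdl (hY : ∀ y ∈ Y, y < I.N) (hv : (tRD p (raw I) Y m Gt s A).Valid) :
    ∑ i ∈ range I.N, (tRD p (raw I) Y m Gt s A).dlq i ≤ 2 * A := by
  have h := RD.sum_dlq hv
  have h2 := tRD_sumC_le (p := p) (Gt := Gt) (s := s) hm hfs hY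
  have e : (tRD p (raw I) Y m Gt s A).m = I.N := riN_raw I
  rw [e] at h
  rw [h]
  linarith

theorem tRD_RR : (tRD p (raw I) Y m Gt s A).RR = (range I.N).filter (fun i => i ∈ Gt ∧
    (tRD p (raw I) Y m Gt s A).dlq i ≤ p.c2 * A / s) := by
  unfold RD.RR
  show (range (riN (raw I))).filter (fun i => (decide (i ∈ Gt) &&
      decide ((tBase (p.JJ (raw I) m) (raw I) Y m (p.g * A)).dlq i ≤ p.c2 * A / s)) = true) = _
  rw [riN_raw]
  apply Finset.filter_congr
  intro i _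
  rw [Bool.and_eq_true, decide_eq_true_iff, decide_eq_true_iff]
  rfl

include hnd hGN hfs hm in
/-- **number of rigid locations** -/
theorem tRD_card_RR (hY : ∀ y ∈ Y, y < I.N) (hv : (tRD p (raw I) Y m Gt s A).Valid)
    (hc2 : 0 < p.c2) (hs : 0 < s) (hA : 0 < A) :
    (Gt.length : ℚ) ≤ (tRD p (raw I) Y m Gt s A).RR.card + 2 / p.c2 * s := by
  rw [tRD_RR]
  set Q := tRD p (raw I) Y m Gt s A with hQ
  set b := p.c2 * A / s with hb
  have hs' : (0:ℚ) < s := by exact_mod_cast hs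
  have hbpos : 0 < b := by positivity
  set Bd := (range I.N).filter (fun i => i ∈ Gt ∧ ¬ Q.dlq i ≤ b) with hBd
  have h1 : Gt.toFinset ⊆ (range I.N).filter (fun i => i ∈ Gt ∧ Q.dlq i ≤ b) ∪ Bd := by
    intro g hg
    rw [List.mem_toFinset] at hg
    rw [Finset.mem_union, Finset.mem_filter, hBd, Finset.mem_filter, Finset.mem_range]
    by_cases h : Q.dlq g ≤ b
    · exact Or.inl ⟨hGN g hg, hg, h⟩
    · exact Or.inr ⟨hGN g hg, hg, h⟩
  have h2 := (Finset.card_le_card h1).trans (Finset.card_union_le _ _)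
  rw [List.toFinset_card_of_nodup hnd] at h2
  have h3 : (Bd.card : ℚ) * b ≤ 2 * A := by
    refine le_trans ?_ (tRD_sumdl (p := p) (Gt := Gt) (s := s) hm hfs hY hv)
    rw [← nsmul_eq_mul]
    refine (Finset.card_nsmul_le_sum Bd Q.dlq b ?_).trans ?_
    · intro g hg
      rw [hBd, Finset.mem_filter] at hg
      exact (not_le.1 hg.2.2).le
    · apply Finset.sum_le_sum_of_subset_of_nonneg
      · exact Finset.filter_subset _ _
      · intro i hi _
        apply RD.dlq_nonneg hv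
        show i < riN (raw I)
        rw [riN_raw]; exact Finset.mem_range.1 hi
  have h4 : (Bd.card : ℚ) ≤ 2 / p.c2 * s := by
    have e : 2 / p.c2 * s = 2 * A / b := by
      rw [hb]; field_simp
    rw [e, le_div_iff₀ hbpos]
    exact h3
  have h5 : (Gt.length : ℚ) ≤ ((range I.N).filter (fun i => i ∈ Gt ∧ Q.dlq i ≤ b)).card
      + Bd.card := by exact_mod_cast h2
  linarith

include hm hdef hnd in
/-- deficit of the rigid locations -/
theorem tRD_deficit :
    ∑ i ∈ (tRD p (raw I) Y m Gt s A).RR, (1 - (tRD p (raw I) Y m Gt s A).y i) ≤ C2 * s := by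
  rw [tRD_RR]
  set Q := tRD p (raw I) Y m Gt s A with hQ
  have hm' : (0:ℚ) < m := by exact_mod_cast hm
  have hy : ∀ i, 1 - Q.y i = ((m - min m (Y.count i) : ℕ) : ℚ) / m := by
    intro i
    show 1 - ((min m (Y.count i) : ℕ) : ℚ) / m = _
    rw [Nat.cast_sub (min_le_left _ _), sub_div, div_self hm'.ne']
  have h1 : ∑ i ∈ (range I.N).filter (fun i => i ∈ Gt ∧ Q.dlq i ≤ p.c2 * A / s), (1 - Q.y i) ≤
      ∑ i ∈ Gt.toFinset, (1 - Q.y i) := by
    apply Finset.sum_le_sum_of_subset_of_nonneg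
    · intro i hi
      rw [Finset.mem_filter] at hi
      exact List.mem_toFinset.2 hi.2.1
    · intro i _ _
      rw [hy]; positivity
  refine h1.trans ?_
  rw [Finset.sum_congr rfl fun i _ => hy i, ← Finset.sum_div, div_le_iff₀ hm',
    ← Nat.cast_sum, List.sum_toFinset _ hnd]
  exact_mod_cast hdef

include hm hlen hsk in
theorem tRD_sumy (hY : ∀ y ∈ Y, y < I.N) :
    ∑ i ∈ range I.N, (tRD p (raw I) Y m Gt s A).y i ≤ (I.k : ℚ) - s + 1 := by
  have hm' : (0:ℚ) < m := by exact_mod_cast hm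
  show ∑ i ∈ range I.N, ((min m (Y.count i) : ℕ) : ℚ) / m ≤ _
  rw [← Finset.sum_div, div_le_iff₀ hm', ← Nat.cast_sum]
  have h1 : ∑ i ∈ range I.N, min m (Y.count i) ≤ Y.length := by
    rw [← sum_count hY]
    exact Finset.sum_le_sum fun i _ => min_le_right _ _
  have h2 : ((∑ i ∈ range I.N, min m (Y.count i) : ℕ) : ℚ) ≤ ((m * (I.k - s + 1) : ℕ) : ℚ) := by
    exact_mod_cast h1.trans hlen
  have e : ((m * (I.k - s + 1) : ℕ) : ℚ) = ((I.k : ℚ) - s + 1) * m := by
    push_cast [Nat.cast_sub hsk.le]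
    ring
  rw [e] at h2
  exact h2


set_option maxHeartbeats 1600000 in
include hp hI hYF hm hmY hnd hGN hs0 hsk hA hfs hdef hlen hcnt hrho in
/-- **the run is good** -/
theorem tRD_good (hv : (tRD p (raw I) Y m Gt s A).Valid) :
    (RD.rd hv).Good ((I.k : ℚ) : ℝ) ((p.g * A : ℚ) : ℝ) ((x : ℚ) : ℝ) ((c0 * A / s : ℚ) : ℝ)
      ((C2 * s : ℚ) : ℝ) (((C1 + 2 / p.c2) * s + C2 * s : ℚ) : ℝ) (((C1 + 2 / p.c2) * s : ℚ) : ℝ)
      ((1 / (m : ℚ) : ℚ) : ℝ) ((40 * A / (p.J1 * (I.N + 1)) : ℚ) : ℝ) := by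
  have hY : ∀ y ∈ Y, y < I.N := fun y hy => (hYF y hy).1
  have hm' : (0:ℚ) < m := by exact_mod_cast hm
  have hx := hp.x_pos
  have hc0 := hp.c0_pos
  have hc2 : 0 < p.c2 := by rw [hp.c2]; positivity
  have hg1 := hp.g1
  have hg0 : 0 < p.g := by linarith
  have het := hp.et_pos
  have hs2 : 2 ≤ s := hp.s2.trans hs0
  have hs0' : 0 < s := by omega
  have hsq : (2:ℚ) ≤ s := by exact_mod_cast hs2
  have hspos : (0:ℚ) < s := by linarith
  have hs0q : (s0:ℚ) ≤ s := by exact_mod_cast hs0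
  have hJ1 : (0:ℚ) < p.J1 := by
    have := hp.J1
    by_contra h
    push Not at h
    nlinarith
  have hJ1n : 0 < p.J1 := by exact_mod_cast hJ1
  have hJ11 : (1:ℚ) ≤ p.J1 := by exact_mod_cast hJ1n
  have hkN : I.k ≤ I.N := le_N_of_valid hI
  have hkNq : (I.k : ℚ) ≤ I.N := by exact_mod_cast hkN
  have hskq : (s:ℚ) < I.k := by exact_mod_cast hsk
  have ha : 0 < p.g * A := by positivity
  have haA : p.g * A ≤ 2 * A := mul_le_mul_of_nonneg_right hp.g2 hA.le
  have hAa : A ≤ p.g * A := by nlinarith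
  set Q := tRD p (raw I) Y m Gt s A with hQ
  have eQm : Q.m = I.N := riN_raw I
  have eQn : Q.n = I.N := riN_raw I
  have eJ : (Q.J : ℚ) = p.J1 * ((I.N : ℚ) + 1) * ((m : ℚ) + I.N + 1) := by
    show ((p.J1 * (riN (raw I) + 1) * (m + riN (raw I) + 1) : ℕ) : ℚ) = _
    rw [riN_raw]; push_cast; ring
  have eP : Q.P = 16 * (p.g * A) / (s:ℚ)^2 := rfl
  have en0 : Q.n0 = (I.k : ℚ) - s + 1 := rfl
  have eom : Q.om = p.et * s := rfl
  have eBL : Q.BL = 16 * (p.g * A) / (s:ℚ)^2 * ((s:ℚ) - 1) / (p.et * s) +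
    16 * (p.g * A) / (s:ℚ)^2 / 2 * (p.et * s + 1) := rfl
  have echi : Q.chi = 3 * (p.c2 * A / s) := rfl
  have hD : ∑ i ∈ range Q.m, Q.dlq i ≤ 2 * A := by
    rw [eQm]; exact tRD_sumdl hm hfs hY hv
  have hD0 : 0 ≤ ∑ i ∈ range Q.m, Q.dlq i :=
    Finset.sum_nonneg fun i hi => RD.dlq_nonneg hv (Finset.mem_range.1 hi)
  have hJpos : (0:ℚ) < Q.J := by exact_mod_cast hv.J_pos
  have hJge : (1:ℚ) ≤ Q.J := by exact_mod_cast hv.J_pos
  have hsumy : ∑ i ∈ range Q.m, Q.y i ≤ (I.k : ℚ) - s + 1 := by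
    rw [eQm]; exact tRD_sumy hm hsk hlen hY
  have hy0 : ∀ i, 0 ≤ Q.y i := fun i => by unfold RD.y; positivity
  have hsumy0 : 0 ≤ ∑ i ∈ range Q.m, Q.y i := Finset.sum_nonneg fun i _ => hy0 i
  have hcard : (Gt.length : ℚ) ≤ Q.RR.card + 2 / p.c2 * s :=
    tRD_card_RR hm hnd hGN hfs hY hv hc2 hs0' hA
  have hcntq : (I.k : ℚ) ≤ Gt.length + C1 * s := by exact_mod_cast hcnt
  have hq0 : (I.k : ℚ) - Q.RR.card ≤ (C1 + 2 / p.c2) * s := by linarith
  have hZ : ∑ i ∈ Q.RR, (1 - Q.y i) ≤ C2 * s := tRD_deficit hm hnd hdef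
  -- the sums of the errors
  have herr : ∑ i, (RD.rd hv).err i = ((1 / (Q.J:ℚ)^2 * ∑ i ∈ range Q.m, Q.dlq i : ℚ) : ℝ) := by
    show ∑ i : Fin Q.m, (1/(Q.J:ℝ)^2) * (RD.inst hv).dl i = _
    rw [← Finset.mul_sum, Finset.sum_congr rfl fun i _ => (dl_cast hv i).symm, RD.sum_cast]
    push_cast
    ring
  have hy' : ∀ i : Fin Q.m, (RD.inst hv).y i = ((Q.y i : ℚ) : ℝ) := fun i => rfl
  have hsy : ∑ i, (RD.inst hv).y i = ((∑ i ∈ range Q.m, Q.y i : ℚ) : ℝ) := by
    rw [← RD.sum_cast]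
    exact Finset.sum_congr rfl fun i _ => hy' i
  exact {
    y_le := fun i => by
      rw [hy']
      have : Q.y i ≤ 1 := by
        unfold RD.y
        have h1 : (Q.yn i : ℚ) ≤ Q.M := by exact_mod_cast hv.y_le i i.2
        have h2 : (0:ℚ) < Q.M := hm'
        rw [div_le_one h2]; exact h1
      exact_mod_cast this
    y0_pos := by
      have : (0:ℚ) < 1 / m := by positivity
      exact_mod_cast this
    y0_le := fun i hi => by
      rw [hy'] at hi ⊢
      have h1 := (RD.y_pos_iff hv i).1 hi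
      have h2 : (1:ℚ) ≤ Q.yn i := by exact_mod_cast h1
      have h3 : (1:ℚ) / m ≤ Q.y i := by
        show (1:ℚ) / m ≤ (Q.yn i : ℚ) / m
        exact div_le_div_of_nonneg_right h2 hm'.le
      exact_mod_cast h3
    P_pos := by
      show (0:ℝ) < ((Q.P : ℚ) : ℝ)
      have : 0 < Q.P := by rw [eP]; positivity
      exact_mod_cast this
    n0_lt := by
      show ((Q.n0 : ℚ) : ℝ) < _
      have : Q.n0 < I.k := by rw [en0]; linarith
      exact_mod_cast this
    n0_ge := by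
      show _ ≤ ((Q.n0 : ℚ) : ℝ)
      rw [hsy]
      have : ∑ i ∈ range Q.m, Q.y i ≤ Q.n0 := by rw [en0]; exact hsumy
      exact_mod_cast this
    om_pos := by
      show (0:ℝ) < ((Q.om : ℚ) : ℝ)
      have : 0 < Q.om := by rw [eom]; positivity
      exact_mod_cast this
    BL_ge := by
      show ((Q.P : ℚ) : ℝ) * (_ - ((Q.n0 : ℚ) : ℝ)) / ((Q.om : ℚ) : ℝ) +
        ((Q.P : ℚ) : ℝ) / 2 * (((Q.om : ℚ) : ℝ) + 1) ≤ ((Q.BL : ℚ) : ℝ)
      have : Q.P * ((I.k : ℚ) - Q.n0) / Q.om + Q.P / 2 * (Q.om + 1) ≤ Q.BL := by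
        rw [eP, en0, eom, eBL]
        apply le_of_eq
        have : (I.k : ℚ) - ((I.k : ℚ) - s + 1) = s - 1 := by ring
        rw [this]
      exact_mod_cast this
    chi_nonneg := by
      show (0:ℝ) ≤ ((Q.chi : ℚ) : ℝ)
      have : 0 ≤ Q.chi := by rw [echi]; positivity
      exact_mod_cast this
    chi_ge := fun i hi => by
      have h1 : Q.dlq i ≤ p.c2 * A / s := by
        have h2 : i ∈ Finset.univ.filter (fun i : Fin Q.m => Q.rig i = true) := hi
        have h3 : (i : ℕ) ∈ Q.RR := by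
          unfold RD.RR
          rw [Finset.mem_filter, Finset.mem_range]
          exact ⟨i.2, (Finset.mem_filter.1 h2).2⟩
        rw [hQ, tRD_RR, Finset.mem_filter] at h3
        exact h3.2.2
      have h0 := RD.dlq_nonneg hv i.2
      show 2 * ((1/(Q.J:ℝ)^2) * (RD.inst hv).dl i) * Q.J + (RD.inst hv).dl i ≤ ((Q.chi : ℚ) : ℝ)
      rw [← dl_cast hv i]
      have h4 : 2 * ((1/(Q.J:ℚ)^2) * Q.dlq i) * Q.J + Q.dlq i ≤ Q.chi := by
        rw [echi]
        have e : 2 * ((1/(Q.J:ℚ)^2) * Q.dlq i) * Q.J = 2 * (Q.dlq i / Q.J) := by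
          field_simp
        rw [e]
        have h5 : Q.dlq i / Q.J ≤ Q.dlq i := div_le_self h0 hJge
        linarith
      have h5 := (Rat.cast_le (K := ℝ)).2 h4
      push_cast at h5
      exact h5
    tol_ge := by
      have h1 : ∑ i, (2 * (RD.rd hv).err i * (RD.rd hv).J + (RD.inst hv).dl i / (RD.rd hv).J) =
          ((2 * (1 / (Q.J:ℚ)^2 * ∑ i ∈ range Q.m, Q.dlq i) * Q.J +
            (∑ i ∈ range Q.m, Q.dlq i) / Q.J : ℚ) : ℝ) := by
        rw [Finset.sum_add_distrib, ← Finset.sum_div, ← Finset.sum_mul, ← Finset.mul_sum, herr,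
          Finset.sum_congr rfl fun i _ => (dl_cast hv i).symm, RD.sum_cast]
        push_cast
        rfl
      rw [h1, herr, hsy]
      show 4 * _ + ((Q.P : ℚ) : ℝ) * (_ - ((Q.n0 : ℚ) : ℝ)) * _ / (Q.J : ℝ) + _ ≤ _
      have h2 := tol_num (a := p.g * A) (A := A) (s := s) (N := I.N) (m := m) (J1 := p.J1)
        (J := Q.J) (S := ∑ i ∈ range Q.m, Q.y i) (D := ∑ i ∈ range Q.m, Q.dlq i)
        hA.le ha.le haA (by linarith) hm' (by positivity) hJ11 eJ hsumy0 (by linarith) hD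
      have e3 : Q.P * ((I.k : ℚ) - Q.n0) = 16 * (p.g * A) / (s:ℚ)^2 * ((s:ℚ) - 1) := by
        rw [eP, en0]; ring
      rw [← e3] at h2
      exact_mod_cast h2
    pay := fun T t ht hT => by
      obtain ⟨ρ, h1, h2, h3, h4⟩ := hrho
      have hcb : c0 * A / s ≤ 3 * (p.g * A) := by
        have e1 : c0 * A / s = (c0 / s) * A := by ring
        have e2 : c0 / s ≤ 1 := by
          rw [div_le_one hspos]
          exact hp.se.trans hs0q
        rw [e1]
        have := mul_le_mul_of_nonneg_right e2 hA.le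
        linarith
      have ha3 : 0 ≤ 3 * (p.g * A) := by linarith
      have hrig : ∀ g < Q.m, Q.rig g = true → g ∈ Gt := by
        intro g hg hr
        have h5 : g ∈ Q.RR := by
          unfold RD.RR
          rw [Finset.mem_filter, Finset.mem_range]; exact ⟨hg, hr⟩
        rw [hQ, tRD_RR, Finset.mem_filter] at h5
        exact h5.2.1
      set ρ' : ℕ → ℕ → ℚ := fun g j =>
        if hj : j < I.N then (if (⟨j, hj⟩ : Fin I.N) ∈ I.clients then
          min (3 * (p.g * A)) (ρ g ⟨j, hj⟩) else 0) else 0 with hρ'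
      have hzero : ∀ g j, (∀ hj : j < I.N, ρ g ⟨j, hj⟩ = 0) → ρ' g j = 0 := by
        intro g j h
        simp only [hρ']
        split_ifs with h5 h6
        · rw [h h5]; exact min_eq_right ha3
        · rfl
        · rfl
      refine RD.pay_of hv ρ' ?_ ?_ ?_ ?_ T t ht hT
      · intro g hg hr g' hg' hr' hne j hj
        rw [eQn] at hj
        rcases h2 g (hrig g hg hr) g' (hrig g' hg' hr') hne ⟨j, hj⟩ with h5 | h5
        · left; exact hzero g j fun _ => h5
        · right; exact hzero g' j fun _ => h5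
      · intro g hg hr
        have h5 := h3 g (hrig g hg hr)
        rw [eQn, Finset.sum_range]
        have h6 : ∀ j : Fin I.N, Q.w j * ρ' g j =
            if j ∈ I.clients then min (3 * (p.g * A)) (ρ g j) else 0 := by
          intro j
          show (if riC (raw I) j = true then (1:ℚ) else 0) * ρ' g j = _
          rw [riC_raw]
          simp only [hρ', decide_eq_true_iff, j.2, dif_pos, Fin.eta]
          split_ifs
          · rw [one_mul]
          · rw [zero_mul]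
        rw [Finset.sum_congr rfl fun j _ => h6 j, ← Finset.sum_filter,
          Finset.filter_mem_eq_inter, Finset.univ_inter]
        by_cases h7 : ∃ j ∈ I.clients, 3 * (p.g * A) ≤ ρ g j
        · obtain ⟨j, hj, h8⟩ := h7
          refine hcb.trans ?_
          have h9 := Finset.single_le_sum (f := fun j => min (3 * (p.g * A)) (ρ g j))
            (fun i _ => le_min ha3 (h1 g i)) hj
          refine le_trans ?_ h9
          simp only [min_eq_left h8, le_refl]
        · push Not at h7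
          refine h5.trans (Finset.sum_le_sum fun j hj => ?_)
          exact le_min (h7 j hj).le le_rfl
      · intro g hg hr f hf hyf hne j hj
        rw [eQm] at hf
        rw [eQn] at hj
        show ρ' g j ≤ riD (raw I) f j
        have hfF : (⟨f, hf⟩ : Fin I.N) ∈ F' := by
          have h5 : 0 < min m (Y.count f) := hyf
          have h6 : 0 < Y.count f := lt_of_lt_of_le h5 (min_le_right _ _)
          obtain ⟨hy, h7⟩ := hYF f (List.count_pos_iff.1 h6)
          exact h7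
        simp only [hρ']
        rw [dif_pos hj]
        split_ifs with h6
        · refine (min_le_right _ _).trans ((h4 g (hrig g hg hr) ⟨f, hf⟩ hfF hne ⟨j, hj⟩ h6).trans ?_)
          rw [← riD_raw]
        · exact riD_nonneg hI _ _
      · intro g hg hr j hj
        show ρ' g j ≤ 3 * (p.g * A)
        simp only [hρ']
        split_ifs
        · exact min_le_left _ _
        · exact ha3
        · exact ha3
    cb_pos := by
      have : (0:ℚ) < c0 * A / s := by positivity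
      exact_mod_cast this
    Z_ge := by
      have h1 : ∑ i ∈ (RD.rd hv).R, (1 - (RD.inst hv).y i) =
          ((∑ i ∈ Q.RR, (1 - Q.y i) : ℚ) : ℝ) := by
        rw [← RD.sum_R_cast hv]
        apply Finset.sum_congr rfl
        intro i _
        rw [hy']; push_cast; ring
      rw [h1]
      exact_mod_cast hZ
    Y_ge := by
      have h1 : ∑ i ∈ (RD.rd hv).Rᶜ, (RD.inst hv).y i =
          ∑ i, (RD.inst hv).y i - ((RD.rd hv).R.card : ℝ) +
            ∑ i ∈ (RD.rd hv).R, (1 - (RD.inst hv).y i) := by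
        rw [Finset.sum_sub_distrib, ← Finset.sum_compl_add_sum (RD.rd hv).R]
        simp
      have h2 : ∑ i ∈ (RD.rd hv).R, (1 - (RD.inst hv).y i) =
          ((∑ i ∈ Q.RR, (1 - Q.y i) : ℚ) : ℝ) := by
        rw [← RD.sum_R_cast hv]
        apply Finset.sum_congr rfl
        intro i _
        rw [hy']; push_cast; ring
      rw [h1, h2, hsy, RD.card_R_cast hv]
      have h3 : ∑ i ∈ range Q.m, Q.y i - (Q.RR.card : ℚ) + ∑ i ∈ Q.RR, (1 - Q.y i) ≤
          (C1 + 2 / p.c2) * s + C2 * s := by linarith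
      exact_mod_cast h3
    q_ge := by
      rw [RD.card_R_cast hv]
      exact_mod_cast hq0
    G_pos := by exact_mod_cast ha
    G_ge := by
      have h1 := tRD_sumC_le (p := p) (Gt := Gt) (s := s) hm hfs hY
      rw [← sumC_cast hv]
      have h2 : ((∑ j ∈ range Q.n, Q.w j * Q.C j : ℚ) : ℝ) ≤ ((A : ℚ) : ℝ) := by
        exact_mod_cast h1
      have h3 := hp.g_lo
      have h4 : (0:ℝ) ≤ 1 + 2 * ee := by
        have : 0 < ee := Real.exp_pos _
        linarith
      have h5 : (0:ℝ) ≤ ((A : ℚ) : ℝ) := by exact_mod_cast hA.le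
      calc (1 + 2 * ee) * ((∑ j ∈ range Q.n, Q.w j * Q.C j : ℚ) : ℝ) ≤
            (1 + 2 * ee) * ((A : ℚ) : ℝ) := mul_le_mul_of_nonneg_left h2 h4
        _ ≤ ((p.g : ℚ) : ℝ) * ((A : ℚ) : ℝ) := mul_le_mul_of_nonneg_right h3 h5
        _ = ((p.g * A : ℚ) : ℝ) := by push_cast; ring
    eps_pos := by exact_mod_cast hx
    eps_le := by
      have h1 : x ≤ 1/4 := by have := hp.x_le; linarith
      have h2 : ((x : ℚ) : ℝ) ≤ ((1/4 : ℚ) : ℝ) := by exact_mod_cast h1
      push_cast at h2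
      exact h2
    hA := by
      rw [herr]
      show ((Q.P : ℚ) : ℝ) / 2 * _ + ((Q.BL : ℚ) : ℝ) * _ + 2 * (Q.J : ℝ) * _ + _ ≤ _
      have h1 : Q.P / 2 * (2 * (C2 * s) + (C1 + 2 / p.c2) * s + 1) +
          Q.BL * ((C1 + 2 / p.c2) * s + C2 * s) +
          2 * (Q.J : ℚ) * (1 / (Q.J:ℚ)^2 * ∑ i ∈ range Q.m, Q.dlq i) +
          40 * A / (p.J1 * (I.N + 1)) * ((I.k : ℚ) + 1) ≤ x * (p.g * A) := by
        have hDc : (0:ℚ) ≤ 2 / p.c2 := by positivity
        have hC1 : (0:ℚ) ≤ C1 := Nat.cast_nonneg _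
        have hC2 : (0:ℚ) ≤ C2 := Nat.cast_nonneg _
        have hDp : 0 ≤ DDc C1 C2 p.c2 := by unfold DDc; positivity
        have hP0 : 0 ≤ Q.P := by rw [eP]; positivity
        have hs1 : (0:ℚ) ≤ (s:ℚ) - 1 := by linarith
        have hB0 : 0 ≤ Q.BL := by rw [eBL]; positivity
        obtain ⟨b1, b2⟩ := D_bounds (s := s) hC2 (by linarith) (rfl : DDc C1 C2 p.c2 = _)
        have b5 := hA_num (x := x) (a := p.g * A) (D := DDc C1 C2 p.c2) (et := p.et) (s := s)
          (J1 := p.J1) ha.le hDp het hspos hJ1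
          (hp.sb.trans (mul_le_mul_of_nonneg_left hs0q hx.le))
          (hp.sa.trans (mul_le_mul_of_nonneg_left hs0q (by positivity))) hp.et1 hp.J1
        rw [← eBL, ← eP] at b5
        exact hA_fin hP0 hB0 b1 b2
          (b3_num hJ1 eJ (Nat.cast_nonneg _) hm' hD hA.le hAa)
          (b4_num hJ1 (Nat.cast_nonneg _) (Nat.cast_nonneg _) hkNq hA.le hAa) b5
      exact_mod_cast h1
    hB := by
      show ((Q.P : ℚ) : ℝ) / 2 + ((Q.BL : ℚ) : ℝ) + ((Q.chi : ℚ) : ℝ) ≤ _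
      have h1 : Q.P / 2 + Q.BL + Q.chi ≤ x * (c0 * A / s) := by
        rw [eP, eBL, echi]
        exact hB_num hA.le ha.le haA het hspos
          (hp.sc.trans (mul_le_mul_of_nonneg_left hs0q (by positivity)))
          (hp.sd.trans (mul_le_mul_of_nonneg_left hs0q (by positivity))) hp.et2 hp.c2
      exact_mod_cast h1
    hP := by
      show _ ≤ ((Q.P : ℚ) : ℝ) / 2 * (_ - ((Q.n0 : ℚ) : ℝ)) ^ 2
      have h1 : 2 * (p.g * A) ≤ Q.P / 2 * ((I.k : ℚ) - Q.n0) ^ 2 := by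
        rw [eP, en0]
        have e : (I.k : ℚ) - ((I.k : ℚ) - s + 1) = s - 1 := by ring
        rw [e]
        exact hP_num ha.le hsq
      exact_mod_cast h1 }

end good

end Crest.Agent.R310
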