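import Crest.Agent.R310.BlockT0

/-!
# R310, route T, block RUN: the run of the fine solution is poly-time

`trunT_pt (p : TPar) : TrunPT (trunT p)`.
-/

set_option linter.dupNamespace false
set_option autoImplicit false

namespace Crest.Agent.R310

open Crest.Agent.Lib.PT Crest.Agent.Lib.PT.Arith Crest.LogicCS.KMedian Finset Crest.Agent.KM

section dlq

variable {α γ : Type} [PTCode α] [PTCode γ] {Q : γ → RD} (h : RD.PTFam Q)
include h

theorem RD.PTFam.dlq' {c : α → γ} {i : α → ℕ} (hc : PTF c) (hi : PTF i) :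
    PTF (fun a => (Q (c a)).dlq (i a)) := by
  unfold RD.dlq
  refine PTF.ratSumRange (f := fun a j => (Q (c a)).w j * (Q (c a)).x (i a) j *
    (Q (c a)).key (i a) j) (h.n' hc) ?_
  have hc1 : PTF (fun x : α × ℕ => c x.1) := PTF.comp hc PTF.fst
  have hi1 : PTF (fun x : α × ℕ => i x.1) := PTF.comp hi PTF.fst
  exact PTF.ratMul (PTF.ratMul (h.w' hc1 PTF.snd) (h.x' hc1 hi1 PTF.snd)) (h.key' hc1 hi1 PTF.snd)

end dlq

section ptf

variable {γ : Type} [PTCode γ] {r : γ → RI} {Y : γ → List ℕ} {m : γ → ℕ} {Gt : γ → List ℕ}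
  {s : γ → ℕ} {A : γ → ℚ}

theorem ptf_xnT {i j : γ → ℕ} (hr : PTF r) (hY : PTF Y) (hm : PTF m) (hi : PTF i) (hj : PTF j) :
    PTF (fun c => xnT (r c) (Y c) (m c) (i c) (j c)) := by
  unfold xnT
  refine PTU.toPTF (PTU.length (PTF.filter (PTF.range (PTU.length hY)) ?_))
  have h1 : PTF (fun x : γ × ℕ => r x.1) := PTF.comp hr PTF.fst
  have h2 : PTF (fun x : γ × ℕ => Y x.1) := PTF.comp hY PTF.fst
  have h3 : PTF (fun x : γ × ℕ => m x.1) := PTF.comp hm PTF.fst
  have h4 : PTF (fun x : γ × ℕ => i x.1) := PTF.comp hi PTF.fst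
  have h5 : PTF (fun x : γ × ℕ => j x.1) := PTF.comp hj PTF.fst
  exact PTF.and (ptf_near h1 h2 h3 h5 PTF.snd)
    (PTPred.toPTF (PTPred.natEq (ptf_getDN PTF.snd h2 (PTF.const 0)) h4))

theorem ptf_cntN {i : γ → ℕ} (hY : PTF Y) (hi : PTF i) :
    PTF (fun c => (Y c).count (i c)) := by
  have h1 : PTF (fun c => (Y c).countP (fun y => decide (y = i c))) := by
    refine PTU.toPTF (PTU.countP (l := Y) (p := fun c y => decide (y = i c)) hY ?_)
    exact PTPred.toPTF (PTPred.natEq PTF.snd (PTF.comp hi PTF.fst))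
  exact PTF.of_eq h1 (fun c => countP_eq_count (Y c) (i c))

theorem ptFam_tBase {J : γ → ℕ} {G : γ → ℚ} (hJ : PTU J) (hr : PTF r) (hY : PTF Y) (hm : PTU m)
    (hG : PTF G) : RD.PTFam (fun c => tBase (J c) (r c) (Y c) (m c) (G c)) where
  m := ptu_riN hr
  n := ptu_riN hr
  J := hJ
  M := PTU.toPTF hm
  d := by
    have h1 : PTF (fun x : γ × ℕ × ℕ => r x.1) := PTF.comp hr PTF.fst
    have h3 : PTF (fun x : γ × ℕ × ℕ => x.2.1) := by fun_prop
    have h4 : PTF (fun x : γ × ℕ × ℕ => x.2.2) := by fun_prop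
    exact ptf_riD h1 h3 h4
  D := by
    have h1 : PTF (fun x : γ × ℕ × ℕ => r x.1) := PTF.comp hr PTF.fst
    have h3 : PTF (fun x : γ × ℕ × ℕ => x.2.1) := by fun_prop
    have h4 : PTF (fun x : γ × ℕ × ℕ => x.2.2) := by fun_prop
    exact ptf_riD h1 h3 h4
  w := by
    have h1 : PTF (fun x : γ × ℕ => r x.1) := PTF.comp hr PTF.fst
    exact PTF.ite (PTF.toPTPred (ptf_riC h1 PTF.snd)) (PTF.const 1) (PTF.const 0)
  xn := by
    have h1 : PTF (fun x : γ × ℕ × ℕ => r x.1) := PTF.comp hr PTF.fst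
    have h2 : PTF (fun x : γ × ℕ × ℕ => Y x.1) := PTF.comp hY PTF.fst
    have h5 : PTF (fun x : γ × ℕ × ℕ => m x.1) := PTF.comp (PTU.toPTF hm) PTF.fst
    have h3 : PTF (fun x : γ × ℕ × ℕ => x.2.1) := by fun_prop
    have h4 : PTF (fun x : γ × ℕ × ℕ => x.2.2) := by fun_prop
    exact ptf_xnT h1 h2 h5 h3 h4
  yn := by
    have h2 : PTF (fun x : γ × ℕ => Y x.1) := PTF.comp hY PTF.fst
    have h5 : PTF (fun x : γ × ℕ => m x.1) := PTF.comp (PTU.toPTF hm) PTF.fst
    exact PTF.natMin h5 (ptf_cntN h2 PTF.snd)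
  K0 := PTF.ratMul (PTF.const 3) (PTF.comp hG PTF.fst)
  F0 := PTF.ratMul (PTF.const 3) (PTF.comp hG PTF.fst)
  rig := PTF.const _
  n0 := PTF.const _
  P := PTF.const _
  om := PTF.const _
  BL := PTF.const _
  chi := PTF.const _

theorem ptu_JJ (p : TPar) (hr : PTF r) (hm : PTU m) : PTU (fun c => p.JJ (r c) (m c)) := by
  unfold TPar.JJ
  have hN := ptu_riN hr
  exact PTU.mul (PTU.mul (PTU.const _) (PTU.add hN (PTU.const 1)))
    (PTU.add (PTU.add hm hN) (PTU.const 1))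

theorem ptf_PP (p : TPar) (hs : PTF s) (hA : PTF A) : PTF (fun c => p.PP (s c) (A c)) := by
  unfold TPar.PP
  exact PTF.ratDiv (PTF.ratMul (PTF.const 16) (PTF.ratMul (PTF.const p.g) hA))
    (PTF.ratPow (PTF.ratNatCast hs) (PTU.const 2))

theorem ptf_BB (p : TPar) (hs : PTF s) (hA : PTF A) : PTF (fun c => p.BB (s c) (A c)) := by
  unfold TPar.BB
  have hsq := PTF.ratNatCast hs
  have hP := ptf_PP p hs hA
  have het : PTF (fun c => p.et * (s c : ℚ)) := PTF.ratMul (PTF.const p.et) hsq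
  exact PTF.ratAdd (PTF.ratDiv (PTF.ratMul hP (PTF.ratSub hsq (PTF.const 1))) het)
    (PTF.ratMul (PTF.ratDiv hP (PTF.const 2)) (PTF.ratAdd het (PTF.const 1)))

theorem ptFam_tRD (p : TPar) (hr : PTF r) (hY : PTF Y) (hm : PTU m) (hG : PTF Gt) (hs : PTF s)
    (hA : PTF A) : RD.PTFam (fun c => tRD p (r c) (Y c) (m c) (Gt c) (s c) (A c)) := by
  have hb := ptFam_tBase (J := fun c => p.JJ (r c) (m c)) (G := fun c => p.g * A c)
    (ptu_JJ p hr hm) hr hY hm (PTF.ratMul (PTF.const p.g) hA)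
  have hsq := PTF.ratNatCast hs
  have hcs : PTF (fun c => p.c2 * A c / (s c : ℚ)) :=
    PTF.ratDiv (PTF.ratMul (PTF.const p.c2) hA) hsq
  exact
    { m := hb.m, n := hb.n, J := hb.J, M := hb.M, d := hb.d, D := hb.D, w := hb.w, xn := hb.xn,
      yn := hb.yn, K0 := hb.K0, F0 := hb.F0
      rig := by
        have h1 : PTF (fun x : γ × ℕ => Gt x.1) := PTF.comp hG PTF.fst
        have h2 : PTF (fun x : γ × ℕ =>
            (tBase (p.JJ (r x.1) (m x.1)) (r x.1) (Y x.1) (m x.1) (p.g * A x.1)).dlq x.2) :=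
          hb.dlq' (c := fun x : γ × ℕ => x.1) PTF.fst PTF.snd
        have h3 : PTF (fun x : γ × ℕ => p.c2 * A x.1 / (s x.1 : ℚ)) :=
          PTF.comp (g := fun c => p.c2 * A c / (s c : ℚ)) hcs PTF.fst
        exact PTF.and (PTPred.toPTF (PTPred.mem PTF.snd h1)) (PTPred.toPTF (PTPred.ratLe h2 h3))
      n0 := PTF.ratAdd (PTF.ratSub (PTF.ratNatCast (ptf_riK hr)) hsq) (PTF.const 1)
      P := ptf_PP p hs hA
      om := PTF.ratMul (PTF.const p.et) hsq
      BL := ptf_BB p hs hA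
      chi := PTF.ratMul (PTF.const 3) hcs }

end ptf

/-- **the candidate is poly-time** -/
theorem trunT_pt (p : TPar) : TrunPT (trunT p) := by
  intro r Y m Gt s A hr hY hm hG hs hA
  unfold trunT
  exact (ptFam_tRD p hr hY hm hG hs hA).runT' (c := fun c => c) PTF.id

end Crest.Agent.R310
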