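import Crest.Agent.R310.Parse

/-!
# R310, block FINAL, part 2: from a candidate generator to the theorem

`kmedian_of_candidates`: a `PTF` function `G : RI → List (List ℕ)` that lists, for every valid
instance, at least one good solution gives the statement S0482 for that `ε`.
-/

set_option linter.dupNamespace false
set_option autoImplicit false

namespace Crest.Agent.R310

open Crest.Agent.Lib.PT Crest.Agent.Lib.PT.Arith Crest.LogicCS.KMedian

section generic

variable {α β γ : Type} [PTCode α] [PTCode β] [PTCode γ]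

/-- list access with a binary index -/
theorem ptf_getDN {n : γ → ℕ} {l : γ → List α} {d : γ → α} (hn : PTF n) (hl : PTF l)
    (hd : PTF d) : PTF (fun c => (l c).getD (n c) (d c)) := by
  have hmin : PTU (fun c => min (n c) (l c).length) := PTF.natMinUn hn (PTU.length hl)
  refine PTF.of_eq (PTF.getD hmin hl hd) (fun c => ?_)
  rcases Nat.lt_or_ge (n c) (l c).length with h1 | h1
  · rw [min_eq_left h1.le]
  · rw [min_eq_right h1, List.getD_eq_default _ _ le_rfl, List.getD_eq_default _ _ h1]

/-- minimum of a list of rationals (`0` for the empty list) -/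
def listMin (l : List ℚ) : ℚ := l.foldl min (l.headD 0)

theorem foldl_min_le (l : List ℚ) (a : ℚ) : l.foldl min a ≤ a ∧ ∀ b ∈ l, l.foldl min a ≤ b := by
  induction l generalizing a with
  | nil => simp
  | cons c l ih =>
    simp only [List.foldl_cons]
    obtain ⟨h1, h2⟩ := ih (min a c)
    refine ⟨h1.trans (min_le_left _ _), ?_⟩
    intro b hb
    rcases List.mem_cons.1 hb with rfl | hb
    · exact h1.trans (min_le_right _ _)
    · exact h2 b hb

theorem foldl_min_mem (l : List ℚ) (a : ℚ) : l.foldl min a = a ∨ l.foldl min a ∈ l := by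
  induction l generalizing a with
  | nil => simp
  | cons c l ih =>
    simp only [List.foldl_cons]
    rcases ih (min a c) with h | h
    · rw [h]
      rcases min_choice a c with h' | h' <;> rw [h']
      · exact Or.inl rfl
      · exact Or.inr (by simp)
    · exact Or.inr (List.mem_cons_of_mem _ h)

theorem listMin_le {l : List ℚ} {b : ℚ} (hb : b ∈ l) : listMin l ≤ b := (foldl_min_le l _).2 b hb

theorem listMin_mem {l : List ℚ} (hl : l ≠ []) : listMin l ∈ l := by
  cases l with
  | nil => exact absurd rfl hl
  | cons a l =>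
    rcases foldl_min_mem (a :: l) a with h | h
    · have : listMin (a :: l) = a := h
      rw [this]; simp
    · exact h

theorem ptf_listMin {l : γ → List ℚ} (hl : PTF l) : PTF (fun c => listMin (l c)) := by
  have hhead : PTF (fun c => (l c).headD 0) := by
    refine PTF.of_eq (PTF.optionGetD (s := fun c => (l c).head?) (d := fun _ => (0 : ℚ))
      (PTF.head? hl) (PTF.const _)) (fun c => ?_)
    cases l c <;> rfl
  refine PTF.foldl (f := fun _ a b => min a b) hl ?_ hhead
    (B := fun c => sz (l c) + sz ((l c).headD 0)) ?_ ?_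
  · exact PTF.ratMin (PTF.comp PTF.fst PTF.snd) (PTF.comp PTF.snd PTF.snd)
  · exact PB.add hl.sz hhead.sz
  · intro c i _
    change sz (((l c).take i).foldl min ((l c).headD 0)) ≤ _
    rcases foldl_min_mem ((l c).take i) ((l c).headD 0) with h | h
    · rw [h]; omega
    · have := sz_mem_le (List.mem_of_mem_take h)
      omega

end generic

/-! ### accessors -/

/-- number of points -/
def riN (r : RI) : ℕ := r.2.2.1.length
/-- budget -/
def riK (r : RI) : ℕ := r.2.1
/-- client test -/
def riC (r : RI) (j : ℕ) : Bool := r.2.2.1.getD j false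
/-- facility test -/
def riF (r : RI) (i : ℕ) : Bool := r.2.2.2.1.getD i false
/-- distance -/
def riD (r : RI) (i j : ℕ) : ℚ := (r.2.2.2.2.getD i []).getD j 0

section ptfacc
variable {γ : Type} [PTCode γ]

theorem ptu_riN {r : γ → RI} (hr : PTF r) : PTU (fun c => riN (r c)) :=
  PTU.length (PTF.comp (g := fun r : RI => r.2.2.1) (by fun_prop) hr)

theorem ptf_riN {r : γ → RI} (hr : PTF r) : PTF (fun c => riN (r c)) := PTU.toPTF (ptu_riN hr)

theorem ptf_riK {r : γ → RI} (hr : PTF r) : PTF (fun c => riK (r c)) :=
  PTF.comp (g := fun r : RI => r.2.1) (by fun_prop) hr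

theorem ptf_riC {r : γ → RI} {j : γ → ℕ} (hr : PTF r) (hj : PTF j) :
    PTF (fun c => riC (r c) (j c)) :=
  ptf_getDN hj (PTF.comp (g := fun r : RI => r.2.2.1) (by fun_prop) hr) (PTF.const _)

theorem ptf_riF {r : γ → RI} {j : γ → ℕ} (hr : PTF r) (hj : PTF j) :
    PTF (fun c => riF (r c) (j c)) :=
  ptf_getDN hj (PTF.comp (g := fun r : RI => r.2.2.2.1) (by fun_prop) hr) (PTF.const _)

theorem ptf_riD {r : γ → RI} {i j : γ → ℕ} (hr : PTF r) (hi : PTF i) (hj : PTF j) :
    PTF (fun c => riD (r c) (i c) (j c)) :=
  ptf_getDN hj (ptf_getDN hi (PTF.comp (g := fun r : RI => r.2.2.2.2) (by fun_prop) hr)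
    (PTF.const _)) (PTF.const _)

end ptfacc

theorem riN_raw (I : Instance) : riN (raw I) = I.N := by simp [riN, raw]
theorem riK_raw (I : Instance) : riK (raw I) = I.k := rfl
theorem riC_raw (I : Instance) (j : Fin I.N) : riC (raw I) j = decide (j ∈ I.clients) := by
  unfold riC raw; exact getD_finRange_map (fun i => decide (i ∈ I.clients)) false j
theorem riF_raw (I : Instance) (j : Fin I.N) : riF (raw I) j = decide (j ∈ I.facilities) := by
  unfold riF raw; exact getD_finRange_map (fun i => decide (i ∈ I.facilities)) false j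
theorem riF_raw_true {I : Instance} {i : ℕ} (h : riF (raw I) i = true) :
    ∃ hi : i < I.N, (⟨i, hi⟩ : Fin I.N) ∈ I.facilities := by
  by_cases hi : i < I.N
  · refine ⟨hi, ?_⟩
    have := riF_raw I ⟨i, hi⟩
    simp only at this
    rw [h] at this
    exact of_decide_eq_true this.symm
  · exfalso
    have : riF (raw I) i = false := by
      unfold riF raw
      exact List.getD_eq_default _ _ (by simpa using hi)
    rw [this] at h; exact absurd h (by simp)
theorem riD_raw (I : Instance) (i j : Fin I.N) : riD (raw I) i j = I.dist i j := by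
  unfold riD raw
  have h1 := getD_finRange_map (fun i => (List.finRange I.N).map (fun j => I.dist i j)) [] i
  simp only at h1 ⊢
  rw [h1]
  exact getD_finRange_map (fun j => I.dist i j) 0 j

/-! ### cost of a list of open facilities -/

/-- cost of opening the points of the list `c` -/
def costL (r : RI) (c : List ℕ) : ℚ :=
  ∑ j ∈ Finset.range (riN r), if riC r j = true then listMin (c.map (fun i => riD r j i)) else 0

theorem ptf_costL {γ : Type} [PTCode γ] {r : γ → RI} {c : γ → List ℕ} (hr : PTF r) (hc : PTF c) :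
    PTF (fun x => costL (r x) (c x)) := by
  refine PTF.ratSumRange (ptu_riN hr)
    (f := fun x j => if riC (r x) j = true then listMin ((c x).map (fun i => riD (r x) j i)) else 0) ?_
  have hr' : PTF (fun p : γ × ℕ => r p.1) := PTF.comp hr PTF.fst
  have hc' : PTF (fun p : γ × ℕ => c p.1) := PTF.comp hc PTF.fst
  refine PTF.ite (PTF.toPTPred (ptf_riC hr' PTF.snd)) (ptf_listMin (PTF.map hc' ?_)) (PTF.const _)
  exact ptf_riD (r := fun q : (γ × ℕ) × ℕ => r q.1.1)
    (PTF.comp hr (PTF.comp PTF.fst PTF.fst)) (PTF.comp PTF.snd PTF.fst) PTF.snd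

/-- the set of points in a list -/
def setOf (I : Instance) (c : List ℕ) : Finset (Fin I.N) := Finset.univ.filter fun i => (i : ℕ) ∈ c

theorem mem_setOf {I : Instance} {c : List ℕ} {i : Fin I.N} : i ∈ setOf I c ↔ (i : ℕ) ∈ c := by
  simp [setOf]

theorem setOf_nonempty {I : Instance} {c : List ℕ} (h0 : c ≠ []) (h : ∀ i ∈ c, i < I.N) :
    (setOf I c).Nonempty := by
  obtain ⟨i, hi⟩ := List.exists_mem_of_ne_nil c h0
  exact ⟨⟨i, h i hi⟩, mem_setOf.2 hi⟩

theorem card_setOf_le (I : Instance) (c : List ℕ) : (setOf I c).card ≤ c.length := by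
  have h1 : (setOf I c).image (fun i : Fin I.N => (i : ℕ)) ⊆ c.toFinset := by
    intro i hi
    obtain ⟨j, hj, rfl⟩ := Finset.mem_image.1 hi
    exact List.mem_toFinset.2 (mem_setOf.1 hj)
  have h2 := Finset.card_le_card h1
  rw [Finset.card_image_of_injective _ Fin.val_injective] at h2
  exact h2.trans (List.toFinset_card_le c)

theorem costL_raw {I : Instance} {c : List ℕ} (h0 : c ≠ []) (h : ∀ i ∈ c, i < I.N) :
    costL (raw I) c = I.cost (setOf I c) := by
  have hne := setOf_nonempty h0 h
  unfold costL Instance.cost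
  rw [dif_pos hne, riN_raw, Finset.sum_range, ← Finset.sum_filter]
  have hf : Finset.univ.filter (fun j : Fin I.N => riC (raw I) j = true) = I.clients := by
    ext j; simp [riC_raw]
  rw [hf]
  refine Finset.sum_congr rfl (fun j _ => ?_)
  apply le_antisymm
  · refine Finset.le_inf' _ _ (fun i hi => ?_)
    have := listMin_le (l := c.map (fun i => riD (raw I) j i)) (b := riD (raw I) j i)
      (List.mem_map.2 ⟨i, mem_setOf.1 hi, rfl⟩)
    rwa [riD_raw] at this
  · have h1 : c.map (fun i => riD (raw I) j i) ≠ [] := by simpa using h0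
    obtain ⟨i, hi, he⟩ := List.mem_map.1 (listMin_mem h1)
    rw [← he]
    have : riD (raw I) j i = I.dist j ⟨i, h i hi⟩ := riD_raw I j ⟨i, h i hi⟩
    rw [this]
    exact Finset.inf'_le _ (mem_setOf.2 hi)

/-! ### choosing the best candidate -/

/-- admissible candidates -/
def okL (r : RI) (c : List ℕ) : Bool :=
  !c.isEmpty && (decide (c.length ≤ riK r) && c.all (fun i => riF r i))

theorem ptf_okL {γ : Type} [PTCode γ] {r : γ → RI} {c : γ → List ℕ} (hr : PTF r) (hc : PTF c) :
    PTF (fun x => okL (r x) (c x)) := by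
  have h1 : PTF (fun x => (c x).isEmpty) := PTF.isEmpty hc
  have h2 : PTF (fun x => decide ((c x).length ≤ riK (r x))) :=
    PTPred.toPTF (PTPred.natLe (PTU.toPTF (PTU.length hc)) (ptf_riK hr))
  have h3 : PTF (fun x => (c x).all (fun i => riF (r x) i)) :=
    PTF.all hc (ptf_riF (PTF.comp hr PTF.fst) PTF.snd)
  exact PTF.and (PTF.not h1) (PTF.and h2 h3)

/-- keep the better of two candidates -/
def better (r : RI) (o : List ℕ) (c : List ℕ) : List ℕ :=
  if okL r c = true ∧ (okL r o = false ∨ costL r c < costL r o) then c else o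

/-- the best admissible candidate of a list -/
def best (r : RI) (l : List (List ℕ)) : List ℕ := l.foldl (better r) []

theorem ptf_best {γ : Type} [PTCode γ] {r : γ → RI} {l : γ → List (List ℕ)} (hr : PTF r)
    (hl : PTF l) : PTF (fun x => best (r x) (l x)) := by
  refine PTF.foldl_bdd (f := fun x o c => better (r x) o c) hl ?_ (PTF.const [])
    (G := fun x => sz (l x)) hl.sz ?_ (by intro x; simp)
  · have hr' : PTF (fun p : γ × List ℕ × List ℕ => r p.1) := PTF.comp hr PTF.fst
    have ho : PTF (fun p : γ × List ℕ × List ℕ => p.2.1) := by fun_prop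
    have hc : PTF (fun p : γ × List ℕ × List ℕ => p.2.2) := by fun_prop
    refine PTF.ite (p := fun p : γ × List ℕ × List ℕ => okL (r p.1) p.2.2 = true ∧
      (okL (r p.1) p.2.1 = false ∨ costL (r p.1) p.2.2 < costL (r p.1) p.2.1)) ?_ hc ho
    refine PTPred.and (PTF.toPTPred (ptf_okL hr' hc)) (PTPred.or ?_
      (PTPred.ratLt (ptf_costL hr' hc) (ptf_costL hr' ho)))
    exact (PTF.toPTPred (PTF.not (ptf_okL hr' ho))).of_iff (fun p => by simp)
  · intro x o c hc ho
    unfold better
    split_ifs
    · exact sz_mem_le hc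
    · exact ho

theorem best_spec (r : RI) (l : List (List ℕ)) :
    (∃ c ∈ l, okL r c = true) → okL r (best r l) = true ∧ best r l ∈ l ∧
      ∀ c ∈ l, okL r c = true → costL r (best r l) ≤ costL r c := by
  have hnil : okL r [] = false := by simp [okL]
  have key : ∀ (l : List (List ℕ)) (o : List ℕ),
      ((∃ c ∈ l, okL r c = true) ∨ okL r o = true) →
      okL r (l.foldl (better r) o) = true ∧
      (l.foldl (better r) o ∈ l ∨ l.foldl (better r) o = o) ∧
      (okL r o = true → costL r (l.foldl (better r) o) ≤ costL r o) ∧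
      ∀ c ∈ l, okL r c = true → costL r (l.foldl (better r) o) ≤ costL r c := by
    intro l
    induction l with
    | nil =>
      intro o h
      rcases h with ⟨c, hc, _⟩ | h
      · simp at hc
      · simp [h]
    | cons c l ih =>
      intro o h
      rw [List.foldl_cons]
      have hb : (okL r (better r o c) = true ∨ ¬ (okL r c = true ∨ okL r o = true)) ∧
          (better r o c = c ∨ better r o c = o) ∧
          (okL r c = true → costL r (better r o c) ≤ costL r c) ∧
          (okL r o = true → costL r (better r o c) ≤ costL r o) := by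
        unfold better
        split_ifs with h1
        · obtain ⟨h1, h2⟩ := h1
          refine ⟨Or.inl h1, Or.inl rfl, fun _ => le_rfl, fun ho => ?_⟩
          rcases h2 with h2 | h2
          · rw [ho] at h2; exact absurd h2 (by simp)
          · exact h2.le
        · refine ⟨?_, Or.inr rfl, fun hc => ?_, fun _ => le_rfl⟩
          · by_cases ho : okL r o = true
            · exact Or.inl ho
            · refine Or.inr ?_
              rintro (h2 | h2)
              · exact h1 ⟨h2, Or.inl (by simpa using ho)⟩
              · exact ho h2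
          · by_contra hlt
            exact h1 ⟨hc, Or.inr (not_le.1 hlt)⟩
      obtain ⟨hb1, hb2, hb3, hb4⟩ := hb
      have hor : (∃ c ∈ l, okL r c = true) ∨ okL r (better r o c) = true := by
        rcases h with ⟨c', hc', hok⟩ | h
        · rcases List.mem_cons.1 hc' with rfl | hc'
          · rcases hb1 with hb1 | hb1
            · exact Or.inr hb1
            · exact absurd (Or.inl hok) hb1
          · exact Or.inl ⟨c', hc', hok⟩
        · rcases hb1 with hb1 | hb1
          · exact Or.inr hb1
          · exact absurd (Or.inr h) hb1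
      obtain ⟨i1, i2, i3, i4⟩ := ih (better r o c) hor
      have hok2 : ∀ x, (x = c ∨ x = o) → okL r x = true → x = better r o c ∨ okL r (better r o c) = true := by
        intro x hx hxo
        rcases hb1 with hb1 | hb1
        · exact Or.inr hb1
        · exfalso; apply hb1
          rcases hx with rfl | rfl
          · exact Or.inl hxo
          · exact Or.inr hxo
      refine ⟨i1, ?_, ?_, ?_⟩
      · rcases i2 with i2 | i2
        · exact Or.inl (List.mem_cons_of_mem _ i2)
        · rw [i2]
          rcases hb2 with hb2 | hb2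
          · rw [hb2]; exact Or.inl (by simp)
          · rw [hb2]; exact Or.inr rfl
      · intro ho
        rcases hok2 o (Or.inr rfl) ho with h2 | h2
        · rw [← h2] at i3 ⊢; exact i3 ho
        · exact (i3 h2).trans (hb4 ho)
      · intro c' hc' hok
        rcases List.mem_cons.1 hc' with rfl | hc'
        · rcases hok2 c' (Or.inl rfl) hok with h2 | h2
          · rw [← h2] at i3 ⊢; exact i3 hok
          · exact (i3 h2).trans (hb3 hok)
        · exact i4 c' hc' hok
  intro h
  obtain ⟨h1, h2, _, h4⟩ := key l [] (Or.inl h)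
  refine ⟨h1, ?_, h4⟩
  rcases h2 with h2 | h2
  · exact h2
  · exfalso
    rw [show l.foldl (better r) [] = [] from h2, hnil] at h1
    exact absurd h1 (by simp)

/-! ### output -/

/-- membership mask of a list of points -/
def maskOf (n : ℕ) (c : List ℕ) : List Bool := (List.range n).map (fun i => decide (i ∈ c))

theorem ptf_maskOf {γ : Type} [PTCode γ] {n : γ → ℕ} {c : γ → List ℕ} (hn : PTU n) (hc : PTF c) :
    PTF (fun x => maskOf (n x) (c x)) :=
  PTF.tabulate hn (PTPred.toPTF (PTPred.mem PTF.snd (PTF.comp hc PTF.fst)))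

theorem decodeSet_maskOf (I : Instance) (c : List ℕ) : decodeSet I.N (maskOf I.N c) = setOf I c := by
  have h : ∀ i : Fin I.N, (maskOf I.N c).getD i false = decide ((i : ℕ) ∈ c) := by
    intro i
    unfold maskOf
    rw [List.getD_eq_getElem?_getD, List.getElem?_map, List.getElem?_range i.2]
    simp
  ext i
  rw [mem_setOf, decodeSet, Finset.mem_filter, h]
  simp

/-- the final function -/
def finalF (G : RI → List (List ℕ)) (w : List Bool) : List Bool :=
  maskOf (riN (parse w)) (best (parse w) (G (parse w)))

theorem ptf_finalF {G : RI → List (List ℕ)} (hG : PTF G) : PTF (finalF G) :=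
  ptf_maskOf (ptu_riN ptf_parse) (ptf_best ptf_parse (PTF.comp hG ptf_parse))

/-- **Reduction to a candidate generator.** -/
theorem kmedian_of_candidates (γ : ℝ) (G : RI → List (List ℕ)) (hG : PTF G)
    (hgood : ∀ I : Instance, I.Valid → ∃ c ∈ G (raw I), c ≠ [] ∧ c.length ≤ I.k ∧
      (∀ i ∈ c, ∃ hi : i < I.N, (⟨i, hi⟩ : Fin I.N) ∈ I.facilities) ∧
      ∀ S : Finset (Fin I.N), S ⊆ I.facilities → S.Nonempty → S.card ≤ I.k →
        (I.cost (setOf I c) : ℝ) ≤ γ * (I.cost S : ℝ)) :
    ∃ f : List Bool → List Bool, Crest.Complexity.PolyTime f ∧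
      ∀ I : Instance, I.Valid →
        I.opened f ⊆ I.facilities ∧ (I.opened f).Nonempty ∧ (I.opened f).card ≤ I.k ∧
        ∀ S : Finset (Fin I.N), S ⊆ I.facilities → S.Nonempty → S.card ≤ I.k →
          (I.cost (I.opened f) : ℝ) ≤ γ * (I.cost S : ℝ) := by
  refine ⟨finalF G, (ptf_finalF hG).polyTime, fun I hI => ?_⟩
  obtain ⟨c, hcG, hc0, hck, hcF, hcost⟩ := hgood I hI
  have hopen : I.opened (finalF G) = setOf I (best (raw I) (G (raw I))) := by
    unfold Instance.opened finalF
    rw [parse_encode, riN_raw, decodeSet_maskOf]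
  have hok : ∀ c, okL (raw I) c = true ↔ (c ≠ [] ∧ c.length ≤ I.k ∧
      (∀ i ∈ c, ∃ hi : i < I.N, (⟨i, hi⟩ : Fin I.N) ∈ I.facilities)) := by
    intro c
    have hk : riK (raw I) = I.k := rfl
    simp only [okL, Bool.and_eq_true, Bool.not_eq_true', List.isEmpty_eq_false_iff,
      List.all_eq_true, decide_eq_true_eq]
    rw [hk]
    refine and_congr_right (fun _ => and_congr_right (fun _ => forall₂_congr (fun i _ => ?_)))
    constructor
    · exact riF_raw_true
    · rintro ⟨hi, hm⟩
      have := riF_raw I ⟨i, hi⟩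
      simp only at this
      rw [this]; exact decide_eq_true hm
  have hc := (hok c).2 ⟨hc0, hck, hcF⟩
  obtain ⟨b1, _, b3⟩ := best_spec (raw I) (G (raw I)) ⟨c, hcG, hc⟩
  obtain ⟨e1, e2, e3⟩ := (hok _).1 b1
  have hlt : ∀ i ∈ best (raw I) (G (raw I)), i < I.N := fun i hi => (e3 i hi).1
  rw [hopen]
  refine ⟨?_, setOf_nonempty e1 hlt, (card_setOf_le _ _).trans e2, ?_⟩
  · intro i hi
    obtain ⟨h1, h2⟩ := e3 i (mem_setOf.1 hi)
    exact h2
  · intro S hS hS0 hSk
    refine le_trans ?_ (hcost S hS hS0 hSk)
    have h1 := b3 c hcG hc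
    rw [costL_raw e1 hlt, costL_raw hc0 (fun i hi => (hcF i hi).1)] at h1
    exact_mod_cast h1

end Crest.Agent.R310
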