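import Crest.Agent.R310.SlackK
import Crest.Agent.R310.Final

/-!
# R310, block GREEDY

The greedy of Theorem E' (`SlackK`) as a computable function on lists, its `PTF` proof and the
bridge to `SlackK.Params.slack_main`.  Everything is generic in an evaluation function
`V : ℚ → List ℕ → ℚ` (price, opened copies) of the potential minus the opening cost.
-/

set_option linter.dupNamespace false
set_option autoImplicit false

namespace Crest.Agent.R310.Greedy

open Crest.Agent.Lib.PT Crest.Agent.Lib.PT.Arith Crest.Agent.R310.SlackK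

variable (P : Params)

/-! ### the code -/

/-- canonical form of a set of copies -/
def canon (L : ℕ) (T : List ℕ) : List ℕ := (List.range L).filter (fun i => decide (i ∈ T))

/-- top price -/
def topQ (G : ℚ) (k : ℕ) : ℚ := 3 * G / (P.δ * k)
/-- grid prices (`m` is cut off at `M` so that this is poly-time) -/
def priceQ (G : ℚ) (k m : ℕ) : ℚ := topQ P G k / P.q ^ (P.M - 1) * P.q ^ (min m P.M)
/-- penalty -/
def penQ (G : ℚ) (m : ℕ) : ℚ :=
  P.ζ * G / ((P.q ^ 2 - 1) * (P.q - 1)) * (P.q ^ 2) ^ (min m P.M)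
/-- tolerance -/
def tolQ (G : ℚ) (k : ℕ) : ℚ := P.η * G / k
/-- error allowance -/
def errQ (G : ℚ) (k : ℕ) : ℚ := 2 * (P.q - 1) * topQ P G k + tolQ P G k

section code

variable (L : ℕ) (V : ℚ → List ℕ → ℚ) (k : ℕ) (G n0 : ℚ)

/-- evaluated table -/
def tab (m : ℕ) (T : List ℕ) : ℚ := V (priceQ P G k m) (canon L T)
/-- increment -/
def dq (m : ℕ) (T : List ℕ) (i : ℕ) : ℚ :=
  priceQ P G k m + tab P L V k G m (i :: T) - tab P L V k G m T
/-- normalised penalised potential -/
def gq (m : ℕ) (T : List ℕ) : ℚ :=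
  tab P L V k G m T + priceQ P G k m * ((T.length : ℚ) - n0) - penQ P G m
/-- weight -/
def pq (m : ℕ) (T : List ℕ) (θ : ℚ) : ℚ := max (gq P L V k G n0 m T - θ) 0
/-- test of the forced rule -/
def forcedB (T : List ℕ) (i : ℕ) : Bool :=
  (List.range P.M).any (fun m => decide (dq P L V k G m T i ≤ -(P.B * topQ P G k)))
/-- score of the free rule -/
def scoreQ (T : List ℕ) (θ : ℚ) (i : ℕ) : ℚ :=
  ∑ m ∈ Finset.range P.M, pq P L V k G n0 m T θ * dq P L V k G m T i
/-- running threshold of a state -/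
def thetaQ (st : List ℕ × ℕ) : ℚ :=
  G + (st.2 : ℚ) * (topQ P G k + tolQ P G k) + ((st.1.length : ℚ) - (st.2 : ℚ)) * errQ P G k
/-- unopened copies -/
def cands (T : List ℕ) : List ℕ := (List.range L).filter (fun i => decide (i ∉ T))
/-- forced choice -/
def pickForced (T : List ℕ) : Option ℕ := (cands L T).find? (forcedB P L V k G T)
/-- free choice -/
def pickFree (T : List ℕ) (θ : ℚ) : Option ℕ :=
  (cands L T).find? (fun i => (cands L T).all
    (fun j => decide (scoreQ P L V k G n0 T θ i ≤ scoreQ P L V k G n0 T θ j)))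
/-- one step -/
def step (st : List ℕ × ℕ) : List ℕ × ℕ :=
  ((pickForced P L V k G st.1).map (fun i => (i :: st.1, st.2 + 1))).getD
    (((pickFree P L V k G n0 st.1 (thetaQ P k G st)).map (fun i => (i :: st.1, st.2))).getD st)
/-- state at time `t` -/
def stateAt (t : ℕ) : List ℕ × ℕ := (step P L V k G n0)^[t] ([], 0)
/-- all prefixes of the run -/
def prefixes : List (List ℕ) := (List.range (L + 1)).map (fun t => (stateAt P L V k G n0 (min t L)).1)

end code

/-! ### poly-time -/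

section ptf

variable {γ α : Type} [PTCode γ] [PTCode α]
variable {L : γ → ℕ} {V : γ → ℚ → List ℕ → ℚ} {k : γ → ℕ} {G n0 : γ → ℚ}

theorem ptf_topQ {G : α → ℚ} {k : α → ℕ} (hG : PTF G) (hk : PTF k) :
    PTF (fun a => topQ P (G a) (k a)) := by
  unfold topQ; fun_prop

theorem ptf_priceQ {G : α → ℚ} {k m : α → ℕ} (hG : PTF G) (hk : PTF k) (hm : PTF m) :
    PTF (fun a => priceQ P (G a) (k a) (m a)) := by
  unfold priceQ
  have h1 := ptf_topQ P hG hk
  have h2 : PTF (fun a => P.q ^ (min (m a) P.M)) :=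
    PTF.ratPow (PTF.const _) (PTF.natMinUn hm (PTU.const _))
  fun_prop

theorem ptf_penQ {G : α → ℚ} {m : α → ℕ} (hG : PTF G) (hm : PTF m) :
    PTF (fun a => penQ P (G a) (m a)) := by
  unfold penQ
  have h2 : PTF (fun a => (P.q ^ 2) ^ (min (m a) P.M)) :=
    PTF.ratPow (PTF.const _) (PTF.natMinUn hm (PTU.const _))
  fun_prop

theorem ptf_tolQ {G : α → ℚ} {k : α → ℕ} (hG : PTF G) (hk : PTF k) :
    PTF (fun a => tolQ P (G a) (k a)) := by
  unfold tolQ; fun_prop

theorem ptf_errQ {G : α → ℚ} {k : α → ℕ} (hG : PTF G) (hk : PTF k) :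
    PTF (fun a => errQ P (G a) (k a)) := by
  unfold errQ
  have h1 := ptf_topQ P hG hk
  have h2 := ptf_tolQ P hG hk
  fun_prop

theorem ptf_canon {L : α → ℕ} {T : α → List ℕ} (hL : PTU L) (hT : PTF T) :
    PTF (fun a => canon (L a) (T a)) :=
  PTF.filter (PTF.range hL) (PTPred.toPTF (PTPred.mem PTF.snd (PTF.comp hT PTF.fst)))

theorem ptf_cands {L : α → ℕ} {T : α → List ℕ} (hL : PTU L) (hT : PTF T) :
    PTF (fun a => cands (L a) (T a)) :=
  PTF.filter (PTF.range hL) (PTPred.toPTF (PTPred.not (PTPred.mem PTF.snd (PTF.comp hT PTF.fst))))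

theorem ptf_tab (hL : PTU L) (hV : PTF (fun x : γ × ℚ × List ℕ => V x.1 x.2.1 x.2.2))
    (hk : PTF k) (hG : PTF G) {c : α → γ} (hc : PTF c) {m : α → ℕ} (hm : PTF m)
    {T : α → List ℕ} (hT : PTF T) :
    PTF (fun a => tab P (L (c a)) (V (c a)) (k (c a)) (G (c a)) (m a) (T a)) := by
  unfold tab
  have h1 := ptf_priceQ P (PTF.comp hG hc) (PTF.comp hk hc) hm
  have h2 := ptf_canon (PTU.comp hL hc) hT
  exact PTF.comp (g := fun x : γ × ℚ × List ℕ => V x.1 x.2.1 x.2.2)
    (f := fun a => (c a, priceQ P (G (c a)) (k (c a)) (m a), canon (L (c a)) (T a)))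
    hV (PTF.prodMk hc (PTF.prodMk h1 h2))

theorem ptf_dq (hL : PTU L) (hV : PTF (fun x : γ × ℚ × List ℕ => V x.1 x.2.1 x.2.2))
    (hk : PTF k) (hG : PTF G) {c : α → γ} (hc : PTF c) {m : α → ℕ} (hm : PTF m)
    {T : α → List ℕ} (hT : PTF T) {i : α → ℕ} (hi : PTF i) :
    PTF (fun a => dq P (L (c a)) (V (c a)) (k (c a)) (G (c a)) (m a) (T a) (i a)) := by
  unfold dq
  have h1 := ptf_priceQ P (PTF.comp hG hc) (PTF.comp hk hc) hm
  have h2 := ptf_tab P hL hV hk hG hc hm hT
  have h3 := ptf_tab P hL hV hk hG hc hm (PTF.listCons hi hT)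
  fun_prop

theorem ptf_gq (hL : PTU L) (hV : PTF (fun x : γ × ℚ × List ℕ => V x.1 x.2.1 x.2.2))
    (hk : PTF k) (hG : PTF G) (hn : PTF n0) {c : α → γ} (hc : PTF c) {m : α → ℕ} (hm : PTF m)
    {T : α → List ℕ} (hT : PTF T) :
    PTF (fun a => gq P (L (c a)) (V (c a)) (k (c a)) (G (c a)) (n0 (c a)) (m a) (T a)) := by
  unfold gq
  have h1 := ptf_priceQ P (PTF.comp hG hc) (PTF.comp hk hc) hm
  have h2 := ptf_tab P hL hV hk hG hc hm hT
  have h3 := ptf_penQ P (PTF.comp hG hc) hm
  have h4 : PTF (fun a => ((T a).length : ℚ)) := PTF.ratNatCast (PTU.toPTF (PTU.length hT))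
  have h5 : PTF (fun a => n0 (c a)) := PTF.comp hn hc
  fun_prop

theorem ptf_pq (hL : PTU L) (hV : PTF (fun x : γ × ℚ × List ℕ => V x.1 x.2.1 x.2.2))
    (hk : PTF k) (hG : PTF G) (hn : PTF n0) {c : α → γ} (hc : PTF c) {m : α → ℕ} (hm : PTF m)
    {T : α → List ℕ} (hT : PTF T) {θ : α → ℚ} (hθ : PTF θ) :
    PTF (fun a => pq P (L (c a)) (V (c a)) (k (c a)) (G (c a)) (n0 (c a)) (m a) (T a) (θ a)) := by
  unfold pq
  have h1 := ptf_gq P hL hV hk hG hn hc hm hT
  exact PTF.ratMax (PTF.ratSub h1 hθ) (PTF.const _)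

theorem ptf_forcedB (hL : PTU L) (hV : PTF (fun x : γ × ℚ × List ℕ => V x.1 x.2.1 x.2.2))
    (hk : PTF k) (hG : PTF G) {c : α → γ} (hc : PTF c)
    {T : α → List ℕ} (hT : PTF T) {i : α → ℕ} (hi : PTF i) :
    PTF (fun a => forcedB P (L (c a)) (V (c a)) (k (c a)) (G (c a)) (T a) (i a)) := by
  unfold forcedB
  refine PTF.any (PTF.range (PTU.const _)) ?_
  have h1 := ptf_dq (α := α × ℕ) P hL hV hk hG (PTF.comp hc PTF.fst) (m := fun x => x.2) PTF.snd
    (PTF.comp hT PTF.fst) (PTF.comp hi PTF.fst)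
  have h2 : PTF (fun x : α × ℕ => topQ P (G (c x.1)) (k (c x.1))) :=
    ptf_topQ P (PTF.comp hG (PTF.comp hc PTF.fst)) (PTF.comp hk (PTF.comp hc PTF.fst))
  exact PTPred.toPTF (PTPred.ratLe h1 (by fun_prop))

theorem ptf_scoreQ (hL : PTU L) (hV : PTF (fun x : γ × ℚ × List ℕ => V x.1 x.2.1 x.2.2))
    (hk : PTF k) (hG : PTF G) (hn : PTF n0) {c : α → γ} (hc : PTF c)
    {T : α → List ℕ} (hT : PTF T) {θ : α → ℚ} (hθ : PTF θ) {i : α → ℕ} (hi : PTF i) :
    PTF (fun a => scoreQ P (L (c a)) (V (c a)) (k (c a)) (G (c a)) (n0 (c a)) (T a) (θ a)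
      (i a)) := by
  unfold scoreQ
  refine PTF.ratSumRange (PTU.const _) ?_
  have h1 := ptf_dq (α := α × ℕ) P hL hV hk hG (PTF.comp hc PTF.fst) (m := fun x => x.2) PTF.snd
    (PTF.comp hT PTF.fst) (PTF.comp hi PTF.fst)
  have h2 := ptf_pq (α := α × ℕ) P hL hV hk hG hn (PTF.comp hc PTF.fst) (m := fun x => x.2)
    PTF.snd (PTF.comp hT PTF.fst) (PTF.comp hθ PTF.fst)
  exact PTF.ratMul h2 h1

theorem ptf_thetaQ (hk : PTF k) (hG : PTF G) {c : α → γ} (hc : PTF c)
    {st : α → List ℕ × ℕ} (hst : PTF st) :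
    PTF (fun a => thetaQ P (k (c a)) (G (c a)) (st a)) := by
  unfold thetaQ
  have h1 := ptf_topQ P (PTF.comp hG hc) (PTF.comp hk hc)
  have h2 := ptf_tolQ P (PTF.comp hG hc) (PTF.comp hk hc)
  have h3 := ptf_errQ P (PTF.comp hG hc) (PTF.comp hk hc)
  have h4 : PTF (fun a => ((st a).1.length : ℚ)) :=
    PTF.ratNatCast (PTU.toPTF (PTU.length (PTF.comp PTF.fst hst)))
  have h5 : PTF (fun a => ((st a).2 : ℚ)) := PTF.ratNatCast (PTF.comp PTF.snd hst)
  have h6 : PTF (fun a => G (c a)) := PTF.comp hG hc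
  exact PTF.ratAdd (PTF.ratAdd h6 (PTF.ratMul h5 (PTF.ratAdd h1 h2)))
    (PTF.ratMul (PTF.ratSub h4 h5) h3)

theorem ptf_pickForced (hL : PTU L) (hV : PTF (fun x : γ × ℚ × List ℕ => V x.1 x.2.1 x.2.2))
    (hk : PTF k) (hG : PTF G) {c : α → γ} (hc : PTF c)
    {T : α → List ℕ} (hT : PTF T) :
    PTF (fun a => pickForced P (L (c a)) (V (c a)) (k (c a)) (G (c a)) (T a)) :=
  PTF.find? (ptf_cands (PTU.comp hL hc) hT)
    (ptf_forcedB (α := α × ℕ) P hL hV hk hG (PTF.comp hc PTF.fst) (PTF.comp hT PTF.fst) PTF.snd)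

theorem ptf_pickFree (hL : PTU L) (hV : PTF (fun x : γ × ℚ × List ℕ => V x.1 x.2.1 x.2.2))
    (hk : PTF k) (hG : PTF G) (hn : PTF n0) {c : α → γ} (hc : PTF c)
    {T : α → List ℕ} (hT : PTF T) {θ : α → ℚ} (hθ : PTF θ) :
    PTF (fun a => pickFree P (L (c a)) (V (c a)) (k (c a)) (G (c a)) (n0 (c a)) (T a) (θ a)) := by
  unfold pickFree
  have hC := ptf_cands (PTU.comp hL hc) hT
  refine PTF.find? hC ?_
  refine PTF.all (l := fun x : α × ℕ => cands (L (c x.1)) (T x.1)) (PTF.comp hC PTF.fst) ?_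
  have e1 : PTF (fun x : (α × ℕ) × ℕ => c x.1.1) := PTF.comp hc (PTF.comp PTF.fst PTF.fst)
  have e2 : PTF (fun x : (α × ℕ) × ℕ => T x.1.1) := PTF.comp hT (PTF.comp PTF.fst PTF.fst)
  have e3 : PTF (fun x : (α × ℕ) × ℕ => θ x.1.1) := PTF.comp hθ (PTF.comp PTF.fst PTF.fst)
  exact PTPred.toPTF (PTPred.ratLe
    (ptf_scoreQ (α := (α × ℕ) × ℕ) P hL hV hk hG hn e1 e2 e3 (i := fun x => x.1.2) (by fun_prop))
    (ptf_scoreQ (α := (α × ℕ) × ℕ) P hL hV hk hG hn e1 e2 e3 (i := fun x => x.2) (by fun_prop)))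

theorem ptf_step (hL : PTU L) (hV : PTF (fun x : γ × ℚ × List ℕ => V x.1 x.2.1 x.2.2))
    (hk : PTF k) (hG : PTF G) (hn : PTF n0) {c : α → γ} (hc : PTF c)
    {st : α → List ℕ × ℕ} (hst : PTF st) :
    PTF (fun a => step P (L (c a)) (V (c a)) (k (c a)) (G (c a)) (n0 (c a)) (st a)) := by
  unfold step
  have hT : PTF (fun a => (st a).1) := PTF.comp PTF.fst hst
  have h1 := ptf_pickForced P hL hV hk hG hc hT
  have h2 := ptf_pickFree P hL hV hk hG hn hc hT (ptf_thetaQ P hk hG hc hst)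
  have hst' : PTF (fun x : α × ℕ => st x.1) := PTF.comp hst PTF.fst
  refine PTF.optionGetD (PTF.optionMap h1 ?_) (PTF.optionGetD (PTF.optionMap h2 ?_) hst)
  · have e1 : PTF (fun x : α × ℕ => (st x.1).1) := PTF.comp PTF.fst hst'
    have e2 : PTF (fun x : α × ℕ => (st x.1).2 + 1) :=
      PTF.natAdd (PTF.comp PTF.snd hst') (PTF.const _)
    exact PTF.prodMk (PTF.listCons PTF.snd e1) e2
  · have e1 : PTF (fun x : α × ℕ => (st x.1).1) := PTF.comp PTF.fst hst'
    have e2 : PTF (fun x : α × ℕ => (st x.1).2) := PTF.comp PTF.snd hst'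
    exact PTF.prodMk (PTF.listCons PTF.snd e1) e2

omit [PTCode α] in
theorem mem_cands {L : ℕ} {T : List ℕ} {i : ℕ} : i ∈ cands L T ↔ i < L ∧ i ∉ T := by
  simp [cands]

theorem sz_step (L : ℕ) (V : ℚ → List ℕ → ℚ) (k : ℕ) (G n0 : ℚ) (st : List ℕ × ℕ) :
    sz (step P L V k G n0 st) ≤ sz st + (4 * L + 3) := by
  have hnat : sz (st.2 + 1) ≤ sz st.2 + 1 := by
    rw [sz_nat, sz_nat]
    refine Nat.size_le.2 ?_
    have := Nat.lt_size_self st.2
    rw [pow_succ]; omega
  unfold step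
  cases h1 : pickForced P L V k G st.1 with
  | some i =>
    have h2 := (mem_cands.1 (List.mem_of_find?_eq_some h1)).1
    have h3 := sz_nat_le i
    simp only [Option.map_some, Option.getD_some, sz_prod, sz_cons]
    omega
  | none =>
    simp only [Option.map_none, Option.getD_none]
    cases h4 : pickFree P L V k G n0 st.1 (thetaQ P k G st) with
    | some i =>
      have h2 := (mem_cands.1 (List.mem_of_find?_eq_some h4)).1
      have h3 := sz_nat_le i
      simp only [Option.map_some, Option.getD_some, sz_prod, sz_cons]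
      omega
    | none =>
      simp only [Option.map_none, Option.getD_none]
      omega

theorem ptf_stateAt (hL : PTU L) (hV : PTF (fun x : γ × ℚ × List ℕ => V x.1 x.2.1 x.2.2))
    (hk : PTF k) (hG : PTF G) (hn : PTF n0) {c : α → γ} (hc : PTF c)
    {t : α → ℕ} (ht : PTU t) :
    PTF (fun a => stateAt P (L (c a)) (V (c a)) (k (c a)) (G (c a)) (n0 (c a)) (t a)) := by
  unfold stateAt
  refine PTF.iterate_add (f := fun a st => step P (L (c a)) (V (c a)) (k (c a)) (G (c a))
    (n0 (c a)) st) ht ?_ (PTF.const _) (G := fun a => 4 * L (c a) + 3) ?_ ?_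
  · exact ptf_step (α := α × (List ℕ × ℕ)) P hL hV hk hG hn (PTF.comp hc PTF.fst) PTF.snd
  · have : PB (fun a => L (c a)) := PTU.pb (PTU.comp hL hc)
    exact PB.add (PB.mul (PB.const 4) this) (PB.const 3)
  · intro a x
    exact sz_step P _ _ _ _ _ _

/-- **The greedy is poly-time.** -/
theorem ptf_prefixes (hL : PTU L) (hV : PTF (fun x : γ × ℚ × List ℕ => V x.1 x.2.1 x.2.2))
    (hk : PTF k) (hG : PTF G) (hn : PTF n0) :
    PTF (fun c => prefixes P (L c) (V c) (k c) (G c) (n0 c)) := by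
  unfold prefixes
  refine PTF.tabulate (PTU.succ hL) ?_
  refine PTF.comp PTF.fst ?_
  exact ptf_stateAt (α := γ × ℕ) P hL hV hk hG hn PTF.fst
    (t := fun x => min x.2 (L x.1)) (PTF.natMinUn PTF.snd (PTU.comp hL PTF.fst))

end ptf

/-! ### the bridge -/

section bridge

/-- the set of copies in a list -/
def toSet (L : ℕ) (T : List ℕ) : Finset (Fin L) := Finset.univ.filter (fun i => (i : ℕ) ∈ T)

/-- the canonical list of a set of copies -/
def listOf {L : ℕ} (S : Finset (Fin L)) : List ℕ :=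
  (List.range L).filter (fun i => decide (∃ h : i < L, (⟨i, h⟩ : Fin L) ∈ S))

theorem mem_toSet {L : ℕ} {T : List ℕ} {i : Fin L} : i ∈ toSet L T ↔ (i : ℕ) ∈ T := by
  simp [toSet]

theorem mem_listOf {L : ℕ} {S : Finset (Fin L)} {i : ℕ} :
    i ∈ listOf S ↔ ∃ h : i < L, (⟨i, h⟩ : Fin L) ∈ S := by
  unfold listOf
  rw [List.mem_filter, List.mem_range, decide_eq_true_iff]
  constructor
  · exact fun h => h.2
  · rintro ⟨h, h'⟩; exact ⟨h, h, h'⟩

theorem toSet_listOf {L : ℕ} (S : Finset (Fin L)) : toSet L (listOf S) = S := by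
  ext i
  rw [mem_toSet, mem_listOf]
  constructor
  · rintro ⟨_, h⟩; exact h
  · intro h; exact ⟨i.2, h⟩

theorem canon_eq_listOf (L : ℕ) (T : List ℕ) : canon L T = listOf (toSet L T) := by
  unfold canon listOf
  refine List.filter_congr fun i hi => ?_
  have hi' := List.mem_range.1 hi
  rw [decide_eq_decide]
  constructor
  · intro h; exact ⟨hi', mem_toSet.2 h⟩
  · rintro ⟨_, h⟩; exact mem_toSet.1 h

theorem toSet_cons {L : ℕ} (T : List ℕ) (i : ℕ) (hi : i < L) :
    toSet L (i :: T) = insert (⟨i, hi⟩ : Fin L) (toSet L T) := by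
  ext j
  rw [Finset.mem_insert, mem_toSet, mem_toSet, List.mem_cons]
  constructor
  · rintro (h | h)
    · exact Or.inl (Fin.ext h)
    · exact Or.inr h
  · rintro (h | h)
    · exact Or.inl (by rw [h])
    · exact Or.inr h

/-- valid lists -/
def Ok (L : ℕ) (T : List ℕ) : Prop := T.Nodup ∧ ∀ i ∈ T, i < L

theorem card_toSet {L : ℕ} {T : List ℕ} (h : Ok L T) : (toSet L T).card = T.length := by
  obtain ⟨h1, h2⟩ := h
  induction T with
  | nil => simp [toSet]
  | cons i T ih =>
    have hi : i < L := h2 i (by simp)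
    rw [toSet_cons T i hi, Finset.card_insert_of_notMem, ih (List.nodup_cons.1 h1).2
      (fun j hj => h2 j (by simp [hj]))]
    · simp
    · rw [mem_toSet]; exact (List.nodup_cons.1 h1).1

variable {L : ℕ} (Φ : Pot (Fin L)) (k : ℕ) (V : ℚ → List ℕ → ℚ) (G n0 : ℚ)

/-- the real table used in `SlackK` -/
noncomputable def tabR (m : ℕ) (S : Finset (Fin L)) : ℝ := (V (priceQ P G k m) (listOf S) : ℝ)

/-- accuracy of the evaluation at the grid prices -/
def AccQ : Prop := ∀ m, m < P.M → ∀ S : Finset (Fin L),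
  |(V (priceQ P G k m) (listOf S) : ℝ) - Φ.R (priceQ P G k m : ℚ) S| ≤ P.η * G / k / 6

theorem topQ_cast : ((topQ P G k : ℚ) : ℝ) = P.lamTop G k := by
  unfold topQ Params.lamTop; push_cast; ring

theorem priceQ_cast {m : ℕ} (hm : m < P.M) :
    ((priceQ P G k m : ℚ) : ℝ) = P.lamBot G k * (P.q : ℝ) ^ m := by
  unfold priceQ Params.lamBot
  rw [min_eq_left hm.le]
  push_cast
  rw [topQ_cast]

theorem penQ_cast {m : ℕ} (hm : m < P.M) : ((penQ P G m : ℚ) : ℝ) = P.pen G m := by
  unfold penQ Params.pen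
  rw [min_eq_left hm.le]
  push_cast
  rfl

theorem tolQ_cast : ((tolQ P G k : ℚ) : ℝ) = P.tol G k := by
  unfold tolQ Params.tol; push_cast; rfl

theorem errQ_cast : ((errQ P G k : ℚ) : ℝ) = P.errv G k := by
  unfold errQ Params.errv; push_cast; rw [topQ_cast, tolQ_cast]

variable {Φ k V G n0}

theorem acc_of_accQ (hG : Φ.G = G) (h : AccQ P Φ k V G) : P.Acc Φ k (tabR P k V G) := by
  intro m T hm
  have h1 := h m hm T
  rw [priceQ_cast P k G hm] at h1
  unfold tabR Params.tol
  rw [hG]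
  exact h1

variable (hk : 0 < k) (hG : Φ.G = G) (hn0 : Φ.n0 = n0) (hA : AccQ P Φ k V G)

/-- the data of `SlackK` attached to the evaluation function -/
noncomputable def dat : Data (Fin L) := P.toData Φ k hk (tabR P k V G) (acc_of_accQ P hG hA)

theorem tab_cast (m : ℕ) (T : List ℕ) :
    ((tab P L V k G m T : ℚ) : ℝ) = tabR P k V G m (toSet L T) := by
  unfold tab tabR
  rw [canon_eq_listOf]

theorem dat_lam {m : ℕ} (hm : m < P.M) : (dat P hk hG hA).lam m = (priceQ P G k m : ℚ) := by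
  rw [priceQ_cast P k G hm, ← hG]
  rfl

theorem dat_lamM : (dat P hk hG hA).lamM = (topQ P G k : ℚ) := by
  rw [topQ_cast, ← hG]
  exact P.lamBot_mul _ _

theorem dat_D {m : ℕ} (hm : m < P.M) (T : List ℕ) (i : ℕ) (hi : i < L) :
    (dat P hk hG hA).D m (toSet L T) ⟨i, hi⟩ = (dq P L V k G m T i : ℚ) := by
  unfold Data.D dq
  rw [dat_lam P hk hG hA hm]
  push_cast
  rw [tab_cast, tab_cast, toSet_cons T i hi]
  rfl

include hn0 in
theorem dat_g {m : ℕ} (hm : m < P.M) {T : List ℕ} (hT : Ok L T) :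
    (dat P hk hG hA).g m (toSet L T) = (gq P L V k G n0 m T : ℚ) := by
  unfold Data.g gq
  rw [dat_lam P hk hG hA hm, card_toSet hT]
  push_cast
  rw [tab_cast, penQ_cast P G hm, ← hn0, ← hG]
  rfl

include hn0 in
theorem dat_p {m : ℕ} (hm : m < P.M) {T : List ℕ} (hT : Ok L T) (θ : ℚ) :
    (dat P hk hG hA).p m (toSet L T) θ = (pq P L V k G n0 m T θ : ℚ) := by
  unfold Data.p pq
  rw [dat_g P hk hG hn0 hA hm hT]
  push_cast
  rfl

include hn0 in
theorem dat_score {T : List ℕ} (hT : Ok L T) (θ : ℚ) (i : ℕ) (hi : i < L) :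
    ∑ m ∈ Finset.range (dat P hk hG hA).M,
      (dat P hk hG hA).p m (toSet L T) θ * (dat P hk hG hA).D m (toSet L T) ⟨i, hi⟩
    = (scoreQ P L V k G n0 T θ i : ℚ) := by
  unfold scoreQ
  push_cast
  refine Finset.sum_congr rfl fun m hm => ?_
  have hm' : m < P.M := Finset.mem_range.1 hm
  rw [dat_p P hk hG hn0 hA hm' hT, dat_D P hk hG hA hm']

theorem thetaQ_cast (st : List ℕ × ℕ) : ((thetaQ P k G st : ℚ) : ℝ)
    = G + (st.2 : ℝ) * (P.lamTop G k + P.tol G k)
      + ((st.1.length : ℝ) - (st.2 : ℝ)) * P.errv G k := by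
  unfold thetaQ
  push_cast
  rw [topQ_cast, tolQ_cast, errQ_cast]

/-- existence of a minimiser in a nonempty list -/
theorem exists_min_mem (l : List ℕ) (hl : l ≠ []) (f : ℕ → ℚ) :
    ∃ i ∈ l, ∀ j ∈ l, f i ≤ f j := by
  obtain ⟨i, hi, h⟩ := Finset.exists_min_image l.toFinset f
    (by obtain ⟨a, ha⟩ := List.exists_mem_of_ne_nil l hl; exact ⟨a, List.mem_toFinset.2 ha⟩)
  exact ⟨i, List.mem_toFinset.1 hi, fun j hj => h j (List.mem_toFinset.2 hj)⟩

include hn0 in
theorem step_spec (st : List ℕ × ℕ) (hT : Ok L st.1) :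
    Ok L (step P L V k G n0 st).1 ∧
    (toSet L st.1 = Finset.univ ∨
      (dat P hk hG hA).Forced (toSet L st.1) (thetaQ P k G st)
        (toSet L (step P L V k G n0 st).1) (thetaQ P k G (step P L V k G n0 st)) ∨
      (dat P hk hG hA).Free (toSet L st.1) (thetaQ P k G st)
        (toSet L (step P L V k G n0 st).1) (thetaQ P k G (step P L V k G n0 st))) := by
  have hB : (dat P hk hG hA).B = P.B := rfl
  have hM : (dat P hk hG hA).M = P.M := rfl
  have he1 : (dat P hk hG hA).e1 = P.tol G k := by rw [← hG]; rfl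
  have herr : (dat P hk hG hA).err = P.errv G k := by rw [← hG]; rfl
  have hlamM := dat_lamM P hk hG hA
  cases h1 : pickForced P L V k G st.1 with
  | some i =>
    have hstep : step P L V k G n0 st = (i :: st.1, st.2 + 1) := by
      unfold step; rw [h1]; rfl
    obtain ⟨hi, hiT⟩ := mem_cands.1 (List.mem_of_find?_eq_some h1)
    have hf : forcedB P L V k G st.1 i = true := List.find?_some h1
    unfold forcedB at hf
    rw [List.any_eq_true] at hf
    obtain ⟨m, hm, hd⟩ := hf
    have hm' := List.mem_range.1 hm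
    have hd' := of_decide_eq_true hd
    rw [hstep]
    refine ⟨⟨List.nodup_cons.2 ⟨hiT, hT.1⟩, ?_⟩, Or.inr (Or.inl ?_)⟩
    · intro j hj
      rcases List.mem_cons.1 hj with rfl | hj
      · exact hi
      · exact hT.2 j hj
    · refine ⟨⟨i, hi⟩, ?_, toSet_cons _ _ _, ?_, m, hm', ?_⟩
      · rw [mem_toSet]; exact hiT
      · rw [he1, hlamM, thetaQ_cast, thetaQ_cast, topQ_cast]
        simp only [List.length_cons]
        push_cast
        ring
      · rw [dat_D P hk hG hA hm', hB, hlamM]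
        exact_mod_cast hd'
  | none =>
    have hnf : ∀ j, j < L → j ∉ st.1 → ∀ m, m < P.M →
        - (P.B * topQ P G k) < dq P L V k G m st.1 j := by
      intro j hj hjT m hm
      have h2 := List.find?_eq_none.1 h1 j (mem_cands.2 ⟨hj, hjT⟩)
      unfold forcedB at h2
      rw [List.any_eq_true] at h2
      by_contra hcon
      exact h2 ⟨m, List.mem_range.2 hm, decide_eq_true (not_lt.1 hcon)⟩
    by_cases hc : cands L st.1 = []
    · have hpick : pickFree P L V k G n0 st.1 (thetaQ P k G st) = none := by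
        unfold pickFree; rw [hc]; rfl
      have hstep : step P L V k G n0 st = st := by
        unfold step; rw [h1, hpick]; rfl
      rw [hstep]
      refine ⟨hT, Or.inl ?_⟩
      ext i
      simp only [Finset.mem_univ, iff_true]
      rw [mem_toSet]
      by_contra hi
      have : (i : ℕ) ∈ cands L st.1 := mem_cands.2 ⟨i.2, hi⟩
      rw [hc] at this
      simp at this
    · cases h2 : pickFree P L V k G n0 st.1 (thetaQ P k G st) with
      | none =>
        exfalso
        obtain ⟨i, hi, hmin⟩ := exists_min_mem _ hc (scoreQ P L V k G n0 st.1 (thetaQ P k G st))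
        have h3 := List.find?_eq_none.1 h2 i hi
        apply h3
        rw [List.all_eq_true]
        intro j hj
        exact decide_eq_true (hmin j hj)
      | some i =>
        have hstep : step P L V k G n0 st = (i :: st.1, st.2) := by
          unfold step; rw [h1, h2]; rfl
        obtain ⟨hi, hiT⟩ := mem_cands.1 (List.mem_of_find?_eq_some h2)
        have hf := List.find?_some h2
        rw [List.all_eq_true] at hf
        rw [hstep]
        refine ⟨⟨List.nodup_cons.2 ⟨hiT, hT.1⟩, ?_⟩, Or.inr (Or.inr ?_)⟩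
        · intro j hj
          rcases List.mem_cons.1 hj with rfl | hj
          · exact hi
          · exact hT.2 j hj
        · refine ⟨⟨i, hi⟩, ?_, toSet_cons _ _ _, ?_, ?_, ?_⟩
          · rw [mem_toSet]; exact hiT
          · rw [herr, thetaQ_cast, thetaQ_cast]
            simp only [List.length_cons]
            push_cast
            ring
          · intro j hj m hm
            rw [mem_toSet] at hj
            have h3 := hnf j j.2 hj m hm
            have h4 := dat_D P hk hG hA (m := m) hm st.1 j j.2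
            rw [hB, hlamM]
            have h5 : (dat P hk hG hA).D m (toSet L st.1) j
                = (dat P hk hG hA).D m (toSet L st.1) ⟨(j : ℕ), j.2⟩ := rfl
            rw [h5, h4]
            exact_mod_cast h3
          · intro j hj
            rw [mem_toSet] at hj
            have h3 := of_decide_eq_true (hf j (mem_cands.2 ⟨j.2, hj⟩))
            have h4 := dat_score P hk hG hn0 hA hT (thetaQ P k G st) i hi
            have h5 := dat_score P hk hG hn0 hA hT (thetaQ P k G st) j j.2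
            rw [h4]
            refine le_trans ?_ (le_of_eq h5.symm)
            exact_mod_cast h3

omit hn0 hk hG hA in
/-- **The greedy works** (grid-price form of the accuracy hypothesis). -/
theorem greedy_good' (hk0 : P.k0 ≤ k) (hn : Φ.n0 ≤ (1 - P.δ) * k) (hG : Φ.G = G)
    (hn0 : Φ.n0 = n0) (hA : AccQ P Φ k V G) :
    ∃ T ∈ prefixes P L V k G n0, Ok L T ∧ T.length ≤ k ∧
      Φ.c (toSet L T) ≤ (1 + 10 * P.ε) * G := by
  have hk : 0 < k := lt_of_lt_of_le P.hk0 hk0
  have hok : ∀ t, Ok L (stateAt P L V k G n0 t).1 := by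
    intro t
    induction t with
    | zero => exact ⟨List.nodup_nil, by intro i hi; simp [stateAt] at hi⟩
    | succ t ih =>
      unfold stateAt at ih ⊢
      rw [Function.iterate_succ_apply']
      exact (step_spec P hk hG hn0 hA _ ih).1
  obtain ⟨t, ht, hcard, hcost⟩ := P.slack_main Φ k hk0 hn (tabR P k V G) (acc_of_accQ P hG hA)
    (fun t => toSet L (stateAt P L V k G n0 t).1)
    (fun t => ((thetaQ P k G (stateAt P L V k G n0 t) : ℚ) : ℝ))
    (by ext i; rw [mem_toSet]; simp [stateAt])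
    (by rw [thetaQ_cast, hG]; simp [stateAt])
    (by
      intro t _
      have h := (step_spec P hk hG hn0 hA (stateAt P L V k G n0 t) (hok t)).2
      have e : stateAt P L V k G n0 (t + 1) = step P L V k G n0 (stateAt P L V k G n0 t) := by
        unfold stateAt; rw [Function.iterate_succ_apply']
      simp only [e]
      exact h)
  rw [card_toSet (hok t)] at hcard
  refine ⟨(stateAt P L V k G n0 t).1, ?_, hok t, by omega, ?_⟩
  · have h1 : t ≤ L := by
      have h2 := Finset.card_le_univ (toSet L (stateAt P L V k G n0 t).1)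
      rw [card_toSet (hok t), hcard, Fintype.card_fin] at h2
      exact h2
    unfold prefixes
    rw [List.mem_map]
    exact ⟨t, List.mem_range.2 (by omega), by rw [min_eq_left h1]⟩
  · rw [← hG]; exact hcost

omit hn0 hk hG hA in
/-- **The greedy works.**  If `V a T` approximates `Φ.R a T` up to `η G / (6 k)` for all rational
prices `a > 0` and all lists `T` of copies, one of the prefixes is good. -/
theorem greedy_good (hk0 : P.k0 ≤ k) (hn : Φ.n0 ≤ (1 - P.δ) * k) (hG : Φ.G = G)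
    (hn0 : Φ.n0 = n0)
    (hV : ∀ a : ℚ, 0 < a → ∀ T : List ℕ, (∀ i ∈ T, i < L) →
      |(V a T : ℝ) - Φ.R a (toSet L T)| ≤ P.η * G / k / 6) :
    ∃ T ∈ prefixes P L V k G n0, Ok L T ∧ T.length ≤ k ∧
      Φ.c (toSet L T) ≤ (1 + 10 * P.ε) * G := by
  refine greedy_good' P hk0 hn hG hn0 ?_
  intro m hm S
  have hk : 0 < k := lt_of_lt_of_le P.hk0 hk0
  have hG0 : (0 : ℝ) < G := by rw [← hG]; exact Φ.hG
  have h0 : 0 < priceQ P G k m := by
    have h1 := priceQ_cast P k G hm
    have h2 : (0 : ℝ) < P.lamBot G k * (P.q : ℝ) ^ m :=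
      mul_pos (P.lamBot_pos hG0 hk) (pow_pos (lt_trans one_pos P.hqr) _)
    rw [← h1] at h2
    exact_mod_cast h2
  have h := hV _ h0 (listOf S) (fun i hi => (mem_listOf.1 hi).1)
  rw [toSet_listOf] at h
  exact h

end bridge

end Crest.Agent.R310.Greedy
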