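import Crest.Agent.KM.Eval
import Crest.Agent.R310.Greedy

/-!
# R310, block EVAL: poly-time evaluation of the potential

`QD` = rational data of a fractional solution made of equal copies (functions on indices).
`QD.eval Q a T` = rational evaluation of the potential at price `a` when the copies `T` are open.
* `ptf_eval` : it is poly-time as soon as the data are;
* `QD.Good.eval_cast` : its value is `State.RT` of 929's `FracInst`;
* `slack_candidates` : combination with the greedy.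
-/

set_option linter.dupNamespace false
set_option autoImplicit false

namespace Crest.Agent.KM.FracInst

variable {ι σ : Type} [Fintype ι] [Fintype σ] [DecidableEq σ] {I : FracInst ι σ}

/-- upper bound of the potential when the copies outside `live` are useless -/
theorem State.R_le_live (S : I.State) {p : ℝ} (live : Finset σ)
    (hdead : ∀ i, i ∉ live → S.U i = 0) :
    S.R p ≤ p * (live.card / I.M) + (1 + 2 * ee) * ∑ j, I.w j * I.C j := by
  classical
  have he := ee_pos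
  have hM := I.M_pos'
  have h1 : ∀ i, ((∑ j ∈ I.J i, I.w j * min (I.d i j) (S.K j)) + S.V p i) ≤
      (∑ j ∈ I.J i, I.w j * (I.d i j + ee * I.key i j)) + (if i ∈ live then p else 0) := by
    intro i
    have h3 : ∑ j ∈ I.J i, I.w j * min (I.d i j) (S.K j) ≤ ∑ j ∈ I.J i, I.w j * I.d i j :=
      Finset.sum_le_sum fun j _ => mul_le_mul_of_nonneg_left (min_le_left _ _) (I.w_nonneg j)
    have h4 : ∑ j ∈ I.J i, I.w j * (I.d i j + ee * I.key i j) =
        ∑ j ∈ I.J i, I.w j * I.d i j + ∑ j ∈ I.J i, I.w j * (ee * I.key i j) := by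
      rw [← Finset.sum_add_distrib]
      apply Finset.sum_congr rfl
      intro j _; ring
    have h5 : 0 ≤ ∑ j ∈ I.J i, I.w j * (ee * I.key i j) :=
      Finset.sum_nonneg fun j _ => mul_nonneg (I.w_nonneg j) (mul_nonneg he.le (I.key_nonneg i j))
    split_ifs with hi
    · have h2 : S.V p i ≤ p + ∑ j ∈ I.J i, I.w j * (ee * I.key i j) := by
        refine (VV_le _ _ _ _ _ _ zero_le_one le_rfl).trans ?_
        unfold Vf
        rw [mul_one]
        apply add_le_add le_rfl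
        apply Finset.sum_le_sum
        intro j _
        apply mul_le_mul_of_nonneg_left _ (I.w_nonneg j)
        rw [cc_one (I.key_nonneg i j) (S.F_nonneg i) (S.u_le i j)]
        exact (min_le_right _ _).trans (mul_le_mul_of_nonneg_left (min_le_right _ _) he.le)
      rw [h4]; linarith
    · have h2 : S.V p i ≤ 0 := by
        have := S.V_le_U p i
        rw [hdead i hi] at this
        exact this
      rw [h4]; linarith
  unfold State.R
  refine (mul_le_mul_of_nonneg_left (Finset.sum_le_sum fun i _ => h1 i)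
    (show 0 ≤ 1 / (I.M:ℝ) by positivity)).trans ?_
  rw [Finset.sum_add_distrib, sum_star_comm (fun i j => I.w j * (I.d i j + ee * I.key i j)),
    Finset.sum_ite_mem, Finset.univ_inter, Finset.sum_const, nsmul_eq_mul, mul_add, add_comm]
  apply add_le_add
  · apply le_of_eq; ring
  · rw [Finset.mul_sum, Finset.mul_sum]
    apply Finset.sum_le_sum
    intro j _
    rw [← Finset.mul_sum, Finset.sum_add_distrib, ← Finset.mul_sum]
    have hk : ∑ i ∈ I.N j, I.key i j = 2 * (I.M * I.C j) := by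
      unfold key
      rw [← Finset.sum_div, Finset.sum_add_distrib, ← Finset.mul_sum, I.sum_d j,
        Finset.sum_const, nsmul_eq_mul, I.card_N j]
      ring
    rw [hk, I.sum_d j, I.card_N j]
    apply le_of_eq
    field_simp

/-- the potential with committed copies: only the copies in `live` count for the mass -/
noncomputable def potLive (I : FracInst ι σ) (S : I.State) (live : Finset σ)
    (hdead : ∀ i, i ∉ live → S.U i = 0) (n0 : ℝ) (hn0 : (live.card : ℝ) / I.M ≤ n0)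
    (G : ℝ) (hG : 0 < G) (hle : (1 + 2 / Real.exp 1) * ∑ j, I.w j * I.C j ≤ G) :
    Crest.Agent.R310.SlackK.Pot σ :=
  { I.pot S G hG hle with
    n0 := n0
    hn0 := le_trans (by positivity) hn0
    start := by
      intro a ha
      change (S.opened ∅).R a ≤ a * n0 + G
      rw [S.opened_empty]
      have h := S.R_le_live (p := a) live hdead
      rw [two_ee] at h
      have h2 := mul_le_mul_of_nonneg_left hn0 ha.le
      linarith }

end Crest.Agent.KM.FracInst

namespace Crest.Agent.R310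

open Crest.Agent.Lib.PT Crest.Agent.Lib.PT.Arith Crest.Agent.KM

/-- rational data of a fractional solution made of equal copies -/
structure QD where
  /-- number of copies -/
  L : ℕ
  /-- number of clients -/
  n : ℕ
  /-- number of time nodes -/
  J : ℕ
  /-- a copy has mass `1/M` -/
  M : ℕ
  /-- distance copy - client -/
  d : ℕ → ℕ → ℚ
  /-- distance opened copy - star -/
  D : ℕ → ℕ → ℚ
  /-- weights -/
  w : ℕ → ℚ
  /-- `N j i`: copy `i` serves client `j` -/
  N : ℕ → ℕ → Bool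
  /-- initial client costs -/
  K0 : ℕ → ℚ
  /-- initial star distances -/
  F0 : ℕ → ℚ

namespace QD

variable (Q : QD)

/-- average cost -/
def C (j : ℕ) : ℚ := 1 / (Q.M : ℚ) * ∑ i ∈ Finset.range Q.L, if Q.N j i = true then Q.d i j else 0
/-- key -/
def key (i j : ℕ) : ℚ := (11 * Q.d i j + 5 * Q.C j) / 8
/-- current client cost -/
def K (T : List ℕ) (j : ℕ) : ℚ := minL (Q.K0 j) (T.map (fun κ => Q.d κ j))
/-- current star distance -/
def F (T : List ℕ) (i : ℕ) : ℚ := minL (Q.F0 i) (T.map (fun κ => Q.D κ i))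
/-- residual -/
def u (T : List ℕ) (i j : ℕ) : ℚ := max (Q.K T j - Q.d i j) 0
/-- clients of a star -/
def Js (i : ℕ) : Finset ℕ := (Finset.range Q.n).filter (fun j => Q.N j i = true)
/-- evaluated potential -/
def eval (a : ℚ) (T : List ℕ) : ℚ :=
  1 / (Q.M : ℚ) * ∑ i ∈ Finset.range Q.L, ((∑ j ∈ Q.Js i, Q.w j * min (Q.d i j) (Q.K T j)) +
    VT Q.J (expT Q.J) (Q.Js i) Q.w (Q.u T i) (Q.key i) (Q.F T i) a)

end QD

/-! ### poly-time -/

section ptf

variable {α γ : Type} [PTCode α] [PTCode γ]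

theorem minL_mem' (x0 : ℚ) (l : List ℚ) : minL x0 l = x0 ∨ minL x0 l ∈ l := by
  induction l with
  | nil => exact Or.inl rfl
  | cons a l ih =>
    have e : minL x0 (a :: l) = min a (minL x0 l) := rfl
    rw [e]
    rcases min_choice a (minL x0 l) with h | h <;> rw [h]
    · exact Or.inr (by simp)
    · rcases ih with h | h
      · exact Or.inl h
      · exact Or.inr (List.mem_cons_of_mem _ h)

theorem ptf_minL {x0 : α → ℚ} {l : α → List ℚ} (hx : PTF x0) (hl : PTF l) :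
    PTF (fun a => minL (x0 a) (l a)) := by
  unfold minL
  refine PTF.foldr (f := fun _ a b => min a b) hl ?_ hx
    (B := fun c => sz (l c) + sz (x0 c)) (PB.add hl.sz hx.sz) ?_
  · exact PTF.ratMin (PTF.comp PTF.fst PTF.snd) (PTF.comp PTF.snd PTF.snd)
  · intro c i _
    change sz (minL (x0 c) ((l c).drop i)) ≤ _
    rcases minL_mem' (x0 c) ((l c).drop i) with h | h
    · rw [h]; omega
    · have := sz_mem_le (List.mem_of_mem_drop h)
      omega

theorem ptf_expT {J s : α → ℕ} (hJ : PTF J) (hs : PTU s) :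
    PTF (fun a => (expT (J a) (s a) : ℚ)) := by
  unfold expT
  have h1 : PTF (fun a => ((J a : ℕ) : ℚ)) := PTF.ratNatCast hJ
  exact PTF.ratPow (by fun_prop) hs

theorem ptf_seg {J l s : α → ℕ} {u F f : α → ℚ} (hJ : PTU J) (hu : PTF u) (hF : PTF F)
    (hf : PTF f) (hl : PTF l) (hs : PTF s) :
    PTF (fun a => seg (J a) (fun _ => expT (J a) (min (s a) (J a))) (u a) (F a) (f a) (l a)
      (s a)) := by
  unfold seg
  have hJ' : PTF (fun a => ((J a : ℕ) : ℚ)) := PTF.ratNatCast (PTU.toPTF hJ)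
  have hl' : PTF (fun a => ((l a : ℕ) : ℚ)) := PTF.ratNatCast hl
  have hs' : PTF (fun a => ((s a : ℕ) : ℚ)) := PTF.ratNatCast hs
  have hE : PTF (fun a => (expT (J a) (min (s a) (J a)) : ℚ)) :=
    ptf_expT (PTU.toPTF hJ) (PTF.natMinUn hs hJ)
  have hm : PTF (fun a => min (F a) (f a)) := PTF.ratMin hF hf
  have h1 : PTF (fun a => (l a : ℚ) / (s a : ℚ)) := PTF.ratDiv hl' hs'
  have h2 : PTF (fun a => (s a : ℚ) / (J a : ℚ)) := PTF.ratDiv hs' hJ'
  exact PTF.ratAdd (PTF.ratMul (PTF.ratSub (PTF.const 1) h1) hu)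
    (PTF.ratMul h1 (PTF.ratAdd (PTF.ratMul (PTF.ratSub (PTF.const 1) h2) (PTF.ratSub hF hm))
      (PTF.ratMul hE hm)))

theorem ptf_hullc {J l : α → ℕ} {u F f : α → ℚ} (hJ : PTU J) (hu : PTF u) (hF : PTF F)
    (hf : PTF f) (hl : PTF l) :
    PTF (fun a => hullc (J a) (expT (J a)) (u a) (F a) (f a) (l a)) := by
  have hJ' : PTF (fun a => ((J a : ℕ) : ℚ)) := PTF.ratNatCast (PTU.toPTF hJ)
  have hl' : PTF (fun a => ((l a : ℕ) : ℚ)) := PTF.ratNatCast hl
  have hL : PTF (fun a => (List.range (J a + 1)).filter (fun s => decide (l a ≤ s))) :=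
    PTF.filter (PTF.range (PTU.succ hJ))
      (PTPred.toPTF (PTPred.natLe (PTF.comp hl PTF.fst) PTF.snd))
  have hmap : PTF (fun a => ((List.range (J a + 1)).filter (fun s => decide (l a ≤ s))).map
      (fun s => seg (J a) (fun _ => expT (J a) (min s (J a))) (u a) (F a) (f a) (l a) s)) :=
    PTF.map hL (ptf_seg (α := α × ℕ) (PTU.comp hJ PTF.fst) (PTF.comp hu PTF.fst)
      (PTF.comp hF PTF.fst) (PTF.comp hf PTF.fst) (PTF.comp hl PTF.fst) PTF.snd)
  have hx : PTF (fun a => u a - (l a : ℚ) / (J a : ℚ) * (u a / 2)) :=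
    PTF.ratSub hu (PTF.ratMul (PTF.ratDiv hl' hJ') (PTF.ratDiv hu (PTF.const 2)))
  have h := PTF.ite (p := fun a => l a = 0) (PTPred.natEq hl (PTF.const 0)) hu (ptf_minL hx hmap)
  refine PTF.of_eq h (fun a => ?_)
  unfold hullc
  split_ifs with h0
  · rfl
  · congr 1
    apply List.map_congr_left
    intro s hs
    obtain ⟨h1, _⟩ := List.mem_filter.1 hs
    have h2 := List.mem_range.1 h1
    have h3 : min s (J a) = s := min_eq_left (by omega)
    simp only [seg, h3]

/-- the data of a family are poly-time -/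
structure QD.PTFam (Q : γ → QD) : Prop where
  L : PTU (fun c => (Q c).L)
  n : PTU (fun c => (Q c).n)
  J : PTU (fun c => (Q c).J)
  M : PTF (fun c => (Q c).M)
  d : PTF (fun x : γ × ℕ × ℕ => (Q x.1).d x.2.1 x.2.2)
  D : PTF (fun x : γ × ℕ × ℕ => (Q x.1).D x.2.1 x.2.2)
  w : PTF (fun x : γ × ℕ => (Q x.1).w x.2)
  N : PTF (fun x : γ × ℕ × ℕ => (Q x.1).N x.2.1 x.2.2)
  K0 : PTF (fun x : γ × ℕ => (Q x.1).K0 x.2)
  F0 : PTF (fun x : γ × ℕ => (Q x.1).F0 x.2)

namespace QD.PTFam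

variable {Q : γ → QD} (h : QD.PTFam Q)
include h

theorem d' {c : α → γ} {i j : α → ℕ} (hc : PTF c) (hi : PTF i) (hj : PTF j) :
    PTF (fun a => (Q (c a)).d (i a) (j a)) :=
  PTF.comp (g := fun x : γ × ℕ × ℕ => (Q x.1).d x.2.1 x.2.2) (f := fun a => (c a, i a, j a))
    h.d (PTF.prodMk hc (PTF.prodMk hi hj))

theorem D' {c : α → γ} {i j : α → ℕ} (hc : PTF c) (hi : PTF i) (hj : PTF j) :
    PTF (fun a => (Q (c a)).D (i a) (j a)) :=
  PTF.comp (g := fun x : γ × ℕ × ℕ => (Q x.1).D x.2.1 x.2.2) (f := fun a => (c a, i a, j a))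
    h.D (PTF.prodMk hc (PTF.prodMk hi hj))

theorem N' {c : α → γ} {i j : α → ℕ} (hc : PTF c) (hi : PTF i) (hj : PTF j) :
    PTF (fun a => (Q (c a)).N (i a) (j a)) :=
  PTF.comp (g := fun x : γ × ℕ × ℕ => (Q x.1).N x.2.1 x.2.2) (f := fun a => (c a, i a, j a))
    h.N (PTF.prodMk hc (PTF.prodMk hi hj))

theorem w' {c : α → γ} {j : α → ℕ} (hc : PTF c) (hj : PTF j) :
    PTF (fun a => (Q (c a)).w (j a)) :=
  PTF.comp (g := fun x : γ × ℕ => (Q x.1).w x.2) (f := fun a => (c a, j a))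
    h.w (PTF.prodMk hc hj)

theorem K0' {c : α → γ} {j : α → ℕ} (hc : PTF c) (hj : PTF j) :
    PTF (fun a => (Q (c a)).K0 (j a)) :=
  PTF.comp (g := fun x : γ × ℕ => (Q x.1).K0 x.2) (f := fun a => (c a, j a))
    h.K0 (PTF.prodMk hc hj)

theorem F0' {c : α → γ} {j : α → ℕ} (hc : PTF c) (hj : PTF j) :
    PTF (fun a => (Q (c a)).F0 (j a)) :=
  PTF.comp (g := fun x : γ × ℕ => (Q x.1).F0 x.2) (f := fun a => (c a, j a))
    h.F0 (PTF.prodMk hc hj)

theorem M' {c : α → γ} (hc : PTF c) : PTF (fun a => ((Q (c a)).M : ℚ)) :=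
  PTF.ratNatCast (PTF.comp (g := fun c => (Q c).M) h.M hc)

theorem L' {c : α → γ} (hc : PTF c) : PTU (fun a => (Q (c a)).L) :=
  PTU.comp (n := fun c => (Q c).L) h.L hc

theorem n' {c : α → γ} (hc : PTF c) : PTU (fun a => (Q (c a)).n) :=
  PTU.comp (n := fun c => (Q c).n) h.n hc

theorem J' {c : α → γ} (hc : PTF c) : PTU (fun a => (Q (c a)).J) :=
  PTU.comp (n := fun c => (Q c).J) h.J hc

theorem C' {c : α → γ} {j : α → ℕ} (hc : PTF c) (hj : PTF j) :
    PTF (fun a => (Q (c a)).C (j a)) := by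
  unfold QD.C
  refine PTF.ratMul (PTF.ratDiv (PTF.const 1) (h.M' hc)) (PTF.ratSumRange
    (f := fun a i => if (Q (c a)).N (j a) i = true then (Q (c a)).d i (j a) else 0)
    (h.L' hc) ?_)
  have hc1 : PTF (fun x : α × ℕ => c x.1) := PTF.comp hc PTF.fst
  have hj1 : PTF (fun x : α × ℕ => j x.1) := PTF.comp hj PTF.fst
  exact PTF.ite (PTF.toPTPred (h.N' hc1 hj1 PTF.snd)) (h.d' hc1 PTF.snd hj1) (PTF.const 0)

theorem key' {c : α → γ} {i j : α → ℕ} (hc : PTF c) (hi : PTF i) (hj : PTF j) :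
    PTF (fun a => (Q (c a)).key (i a) (j a)) := by
  unfold QD.key
  have h1 := h.d' hc hi hj
  have h2 := h.C' hc hj
  exact PTF.ratDiv (PTF.ratAdd (PTF.ratMul (PTF.const 11) h1) (PTF.ratMul (PTF.const 5) h2))
    (PTF.const 8)

theorem K' {c : α → γ} {T : α → List ℕ} {j : α → ℕ} (hc : PTF c) (hT : PTF T) (hj : PTF j) :
    PTF (fun a => (Q (c a)).K (T a) (j a)) := by
  unfold QD.K
  exact ptf_minL (h.K0' hc hj) (PTF.map hT (h.d' (α := α × ℕ) (PTF.comp hc PTF.fst) PTF.snd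
    (PTF.comp hj PTF.fst)))

theorem F' {c : α → γ} {T : α → List ℕ} {i : α → ℕ} (hc : PTF c) (hT : PTF T) (hi : PTF i) :
    PTF (fun a => (Q (c a)).F (T a) (i a)) := by
  unfold QD.F
  exact ptf_minL (h.F0' hc hi) (PTF.map hT (h.D' (α := α × ℕ) (PTF.comp hc PTF.fst) PTF.snd
    (PTF.comp hi PTF.fst)))

theorem u' {c : α → γ} {T : α → List ℕ} {i j : α → ℕ} (hc : PTF c) (hT : PTF T) (hi : PTF i)
    (hj : PTF j) : PTF (fun a => (Q (c a)).u (T a) (i a) (j a)) := by
  unfold QD.u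
  exact PTF.ratMax (PTF.ratSub (h.K' hc hT hj) (h.d' hc hi hj)) (PTF.const 0)

/-- sums over the clients of a star -/
theorem sumJs {c : α → γ} {i : α → ℕ} (hc : PTF c) (hi : PTF i) {g : α → ℕ → ℚ}
    (hg : PTF₂ g) : PTF (fun a => ∑ j ∈ (Q (c a)).Js (i a), g a j) := by
  have h1 : PTF (fun a => ∑ j ∈ Finset.range (Q (c a)).n,
      if (Q (c a)).N j (i a) = true then g a j else 0) := by
    refine PTF.ratSumRange (f := fun a j => if (Q (c a)).N j (i a) = true then g a j else 0)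
      (h.n' hc) ?_
    exact PTF.ite (PTF.toPTPred (h.N' (α := α × ℕ) (PTF.comp hc PTF.fst) PTF.snd
      (PTF.comp hi PTF.fst))) hg (PTF.const 0)
  refine PTF.of_eq h1 (fun a => ?_)
  unfold QD.Js
  rw [Finset.sum_filter]

theorem nodeT' {c : α → γ} {T : α → List ℕ} {i l : α → ℕ} {p : α → ℚ} (hc : PTF c) (hT : PTF T)
    (hi : PTF i) (hl : PTF l) (hp : PTF p) :
    PTF (fun a => nodeT (Q (c a)).J (expT (Q (c a)).J) ((Q (c a)).Js (i a)) (Q (c a)).w
      ((Q (c a)).u (T a) (i a)) ((Q (c a)).key (i a)) ((Q (c a)).F (T a) (i a)) (p a) (l a)) := by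
  unfold nodeT
  have hJ : PTF (fun a => (((Q (c a)).J : ℕ) : ℚ)) :=
    PTF.ratNatCast (PTU.toPTF (h.J' hc))
  have hl' : PTF (fun a => ((l a : ℕ) : ℚ)) := PTF.ratNatCast hl
  refine PTF.ratAdd (PTF.ratMul hp (PTF.ratDiv hl' hJ)) (h.sumJs hc hi ?_)
  have hc1 : PTF (fun x : α × ℕ => c x.1) := PTF.comp hc PTF.fst
  have hT1 : PTF (fun x : α × ℕ => T x.1) := PTF.comp hT PTF.fst
  have hi1 : PTF (fun x : α × ℕ => i x.1) := PTF.comp hi PTF.fst
  have hl1 : PTF (fun x : α × ℕ => l x.1) := PTF.comp hl PTF.fst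
  exact PTF.ratMul (h.w' hc1 PTF.snd) (ptf_hullc (h.J' hc1) (h.u' hc1 hT1 hi1 PTF.snd)
    (h.F' hc1 hT1 hi1) (h.key' hc1 hi1 PTF.snd) hl1)

theorem VT' {c : α → γ} {T : α → List ℕ} {i : α → ℕ} {p : α → ℚ} (hc : PTF c) (hT : PTF T)
    (hi : PTF i) (hp : PTF p) :
    PTF (fun a => VT (Q (c a)).J (expT (Q (c a)).J) ((Q (c a)).Js (i a)) (Q (c a)).w
      ((Q (c a)).u (T a) (i a)) ((Q (c a)).key (i a)) ((Q (c a)).F (T a) (i a)) (p a)) := by
  unfold VT
  refine ptf_minL (h.nodeT' hc hT hi (PTF.const 0) hp)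
    (PTF.map (PTF.range (PTU.succ (h.J' hc))) ?_)
  exact h.nodeT' (α := α × ℕ) (PTF.comp hc PTF.fst) (PTF.comp hT PTF.fst) (PTF.comp hi PTF.fst)
    PTF.snd (PTF.comp hp PTF.fst)

theorem lin' {c : α → γ} {T : α → List ℕ} {i : α → ℕ} (hc : PTF c) (hT : PTF T)
    (hi : PTF i) :
    PTF (fun a => ∑ j ∈ (Q (c a)).Js (i a),
      (Q (c a)).w j * min ((Q (c a)).d (i a) j) ((Q (c a)).K (T a) j)) := by
  refine h.sumJs (g := fun a j => (Q (c a)).w j * min ((Q (c a)).d (i a) j)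
    ((Q (c a)).K (T a) j)) hc hi ?_
  have hc1 : PTF (fun x : α × ℕ => c x.1) := PTF.comp hc PTF.fst
  have hT1 : PTF (fun x : α × ℕ => T x.1) := PTF.comp hT PTF.fst
  have hi1 : PTF (fun x : α × ℕ => i x.1) := PTF.comp hi PTF.fst
  exact PTF.ratMul (h.w' hc1 PTF.snd) (PTF.ratMin (h.d' hc1 hi1 PTF.snd) (h.K' hc1 hT1 PTF.snd))

/-- **The evaluation is poly-time.** -/
theorem eval' {c : α → γ} {T : α → List ℕ} {p : α → ℚ} (hc : PTF c) (hT : PTF T) (hp : PTF p) :
    PTF (fun a => (Q (c a)).eval (p a) (T a)) := by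
  unfold QD.eval
  have hc1 : PTF (fun x : α × ℕ => c x.1) := PTF.comp hc PTF.fst
  have hT1 : PTF (fun x : α × ℕ => T x.1) := PTF.comp hT PTF.fst
  have hp1 : PTF (fun x : α × ℕ => p x.1) := PTF.comp hp PTF.fst
  have h1 := h.lin' (α := α × ℕ) (i := fun x => x.2) hc1 hT1 PTF.snd
  have h2 := h.VT' (α := α × ℕ) (i := fun x => x.2) hc1 hT1 PTF.snd hp1
  exact PTF.ratMul (PTF.ratDiv (PTF.const 1) (h.M' hc)) (PTF.ratSumRange
    (f := fun a i => (∑ j ∈ (Q (c a)).Js i,
        (Q (c a)).w j * min ((Q (c a)).d i j) ((Q (c a)).K (T a) j)) +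
      VT (Q (c a)).J (expT (Q (c a)).J) ((Q (c a)).Js i) (Q (c a)).w ((Q (c a)).u (T a) i)
        ((Q (c a)).key i) ((Q (c a)).F (T a) i) (p a))
    (h.L' hc) (PTF.ratAdd h1 h2))

/-- **The evaluation is poly-time.** -/
theorem ptf_eval : PTF (fun x : γ × ℚ × List ℕ => (Q x.1).eval x.2.1 x.2.2) := by
  have h1 : PTF (fun x : γ × ℚ × List ℕ => x.1) := PTF.fst
  have h2 : PTF (fun x : γ × ℚ × List ℕ => x.2.2) := PTF.comp PTF.snd PTF.snd
  have h3 : PTF (fun x : γ × ℚ × List ℕ => x.2.1) := PTF.comp PTF.fst PTF.snd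
  exact h.eval' h1 h2 h3

end QD.PTFam

end ptf

/-! ### correctness -/

namespace QD

/-- validity of the data -/
structure Good (Q : QD) : Prop where
  M_pos : 0 < Q.M
  card_N : ∀ j < Q.n, ((Finset.range Q.L).filter (fun i => Q.N j i = true)).card = Q.M
  w_nonneg : ∀ j < Q.n, 0 ≤ Q.w j
  d_nonneg : ∀ i < Q.L, ∀ j < Q.n, 0 ≤ Q.d i j
  D_nonneg : ∀ κ < Q.L, ∀ i < Q.L, 0 ≤ Q.D κ i
  tri1 : ∀ i < Q.L, ∀ κ < Q.L, ∀ j < Q.n, Q.D κ i ≤ Q.d i j + Q.d κ j
  tri2 : ∀ i < Q.L, ∀ κ < Q.L, ∀ j < Q.n, Q.d κ j ≤ Q.d i j + Q.D κ i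
  K0_nonneg : ∀ j < Q.n, 0 ≤ Q.K0 j
  F0_nonneg : ∀ i < Q.L, 0 ≤ Q.F0 i
  K0_le : ∀ i < Q.L, ∀ j < Q.n, Q.K0 j ≤ Q.d i j + Q.F0 i

theorem sum_fin_filter {n : ℕ} (p : ℕ → Prop) [DecidablePred p] (g : ℕ → ℝ) :
    ∑ j ∈ (Finset.range n).filter p, g j
      = ∑ j ∈ (Finset.univ : Finset (Fin n)).filter (fun j : Fin n => p (j : ℕ)), g (j : ℕ) := by
  rw [Finset.sum_filter, Finset.sum_filter, Finset.sum_range]

namespace Good

variable {Q : QD} (h : Q.Good)

/-- the real instance -/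
noncomputable def inst : FracInst (Fin Q.n) (Fin Q.L) where
  d := fun i j => (Q.d i j : ℝ)
  D := fun κ i => (Q.D κ i : ℝ)
  w := fun j => (Q.w j : ℝ)
  N := fun j => Finset.univ.filter (fun i : Fin Q.L => Q.N j i = true)
  M := Q.M
  M_pos := h.M_pos
  card_N := by
    intro j
    rw [← h.card_N j j.2, Finset.card_filter, Finset.card_filter, Finset.sum_range]
  w_nonneg := fun j => by exact_mod_cast h.w_nonneg j j.2
  d_nonneg := fun i j => by exact_mod_cast h.d_nonneg i i.2 j j.2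
  D_nonneg := fun i κ => by exact_mod_cast h.D_nonneg κ κ.2 i i.2
  tri1 := fun i κ j => by exact_mod_cast h.tri1 i i.2 κ κ.2 j j.2
  tri2 := fun i κ j => by exact_mod_cast h.tri2 i i.2 κ κ.2 j j.2

/-- the initial state -/
noncomputable def state : h.inst.State where
  K := fun j => (Q.K0 j : ℝ)
  F := fun i => (Q.F0 i : ℝ)
  K_nonneg := fun j => by exact_mod_cast h.K0_nonneg j j.2
  F_nonneg := fun i => by exact_mod_cast h.F0_nonneg i i.2
  K_le := fun i j => by
    have := h.K0_le i i.2 j j.2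
    change (Q.K0 j : ℝ) ≤ (Q.d i j : ℝ) + (Q.F0 i : ℝ)
    exact_mod_cast this

theorem K_cast {T : List ℕ} (hT : ∀ i ∈ T, i < Q.L) (j : Fin Q.n) :
    (h.state.opened (Greedy.toSet Q.L T)).K j = (Q.K T j : ℚ) := by
  induction T with
  | nil =>
    have e : Greedy.toSet Q.L [] = ∅ := by ext i; simp [Greedy.mem_toSet]
    rw [e, FracInst.State.opened_empty]
    rfl
  | cons κ T ih =>
    have hκ : κ < Q.L := hT κ (by simp)
    rw [Greedy.toSet_cons T κ hκ, FracInst.State.opened_insert]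
    have ih' := ih (fun i hi => hT i (by simp [hi]))
    have e1 : Q.K (κ :: T) j = min (Q.d κ j) (Q.K T j) := rfl
    have e2 : ((h.state.opened (Greedy.toSet Q.L T)).step ⟨κ, hκ⟩).K j
        = min ((h.state.opened (Greedy.toSet Q.L T)).K j) (Q.d κ j : ℝ) := rfl
    rw [e1, e2, ih', Rat.cast_min, min_comm]

theorem F_cast {T : List ℕ} (hT : ∀ i ∈ T, i < Q.L) (i : Fin Q.L) :
    (h.state.opened (Greedy.toSet Q.L T)).F i = (Q.F T i : ℚ) := by
  induction T with
  | nil =>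
    have e : Greedy.toSet Q.L [] = ∅ := by ext i; simp [Greedy.mem_toSet]
    rw [e, FracInst.State.opened_empty]
    rfl
  | cons κ T ih =>
    have hκ : κ < Q.L := hT κ (by simp)
    rw [Greedy.toSet_cons T κ hκ, FracInst.State.opened_insert]
    have ih' := ih (fun i hi => hT i (by simp [hi]))
    have e1 : Q.F (κ :: T) i = min (Q.D κ i) (Q.F T i) := rfl
    have e2 : ((h.state.opened (Greedy.toSet Q.L T)).step ⟨κ, hκ⟩).F i
        = min ((h.state.opened (Greedy.toSet Q.L T)).F i) (Q.D κ i : ℝ) := rfl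
    rw [e1, e2, ih', Rat.cast_min, min_comm]

theorem u_cast {T : List ℕ} (hT : ∀ i ∈ T, i < Q.L) (i : Fin Q.L) (j : Fin Q.n) :
    (h.state.opened (Greedy.toSet Q.L T)).u i j = (Q.u T i j : ℚ) := by
  unfold FracInst.State.u QD.u
  rw [h.K_cast hT j, Rat.cast_max]
  push_cast
  rfl

theorem C_cast (j : Fin Q.n) : h.inst.C j = (Q.C j : ℚ) := by
  unfold FracInst.C QD.C
  push_cast
  have e : ∑ x ∈ Finset.range Q.L, ((if Q.N j x = true then Q.d x j else 0 : ℚ) : ℝ)
      = ∑ i ∈ h.inst.N j, h.inst.d i j := by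
    have e1 : ∀ x : ℕ, ((if Q.N j x = true then Q.d x j else 0 : ℚ) : ℝ)
        = if Q.N j x = true then (Q.d x j : ℝ) else 0 := by
      intro x; split_ifs <;> simp
    rw [Finset.sum_congr rfl fun x _ => e1 x, ← Finset.sum_filter,
      sum_fin_filter (fun x => Q.N j x = true) (fun x => (Q.d x j : ℝ))]
    rfl
  rw [e]
  rfl

theorem key_cast (i : Fin Q.L) (j : Fin Q.n) : h.inst.key i j = (Q.key i j : ℚ) := by
  unfold FracInst.key QD.key
  rw [h.C_cast j]
  push_cast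
  rfl

theorem sum_J_cast (i : Fin Q.L) (g : ℕ → ℝ) :
    ∑ j ∈ Q.Js i, g j = ∑ j ∈ h.inst.J i, g (j : ℕ) := by
  unfold QD.Js FracInst.J
  rw [sum_fin_filter (fun j => Q.N j i = true) g]
  refine Finset.sum_congr ?_ (fun _ _ => rfl)
  ext j
  simp [inst]

theorem eval_cast (a : ℚ) {T : List ℕ} (hT : ∀ i ∈ T, i < Q.L) :
    ((Q.eval a T : ℚ) : ℝ) = (h.state.opened (Greedy.toSet Q.L T)).RT Q.J a := by
  unfold QD.eval FracInst.State.RT
  push_cast
  rw [Finset.sum_range]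
  have hM : ((h.inst.M : ℕ) : ℝ) = (Q.M : ℝ) := rfl
  rw [hM]
  congr 1
  refine Finset.sum_congr rfl fun i _ => ?_
  congr 1
  · rw [h.sum_J_cast i (fun j => (Q.w j : ℝ) * min (Q.d i j : ℝ) (Q.K T j : ℝ))]
    refine Finset.sum_congr rfl fun j _ => ?_
    rw [h.K_cast hT j]
    rfl
  · rw [VT_cast]
    have hnode : ∀ l : ℕ, nodeT Q.J (fun s => ((expT Q.J s : ℚ) : ℝ)) (Q.Js i)
        (fun j => (Q.w j : ℝ)) (fun j => (Q.u T i j : ℝ)) (fun j => (Q.key i j : ℝ))
        (Q.F T i : ℝ) (a : ℝ) l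
        = nodeT Q.J (expT Q.J) (h.inst.J i) h.inst.w
          ((h.state.opened (Greedy.toSet Q.L T)).u i) (h.inst.key i)
          ((h.state.opened (Greedy.toSet Q.L T)).F i) a l := by
      intro l
      unfold nodeT
      congr 1
      rw [h.sum_J_cast i]
      refine Finset.sum_congr rfl fun j _ => ?_
      rw [h.u_cast hT i j, h.key_cast i j, h.F_cast hT i]
      have hE : (fun s => ((expT Q.J s : ℚ) : ℝ)) = (expT Q.J : ℕ → ℝ) := by
        funext s; exact expT_cast _ _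
      rw [hE]
      rfl
    unfold VT
    rw [hnode]
    congr 1
    apply List.map_congr_left
    intro l _
    exact hnode l

/-- final cost of a list of copies -/
def costQ (Q : QD) (T : List ℕ) : ℚ := ∑ j ∈ Finset.range Q.n, Q.w j * Q.K T j

/-- fractional cost -/
def fracQ (Q : QD) : ℚ := ∑ j ∈ Finset.range Q.n, Q.w j * Q.C j

theorem cost_cast {T : List ℕ} (hT : ∀ i ∈ T, i < Q.L) :
    (h.state.opened (Greedy.toSet Q.L T)).cost = (costQ Q T : ℚ) := by
  unfold FracInst.State.cost costQ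
  push_cast
  rw [Finset.sum_range]
  refine Finset.sum_congr rfl fun j _ => ?_
  rw [h.K_cast hT j]
  rfl

theorem frac_cast : ∑ j, h.inst.w j * h.inst.C j = (fracQ Q : ℚ) := by
  unfold fracQ
  push_cast
  rw [Finset.sum_range]
  refine Finset.sum_congr rfl fun j _ => ?_
  rw [h.C_cast j]
  rfl

end Good

end QD

/-- **The slack world, computed, with committed copies.**  Copies `i` with `live i = false` must
be useless in the initial state; only the others count for the mass `n0`. -/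
theorem slack_candidates_live (P : SlackK.Params) {Q : QD} (h : Q.Good) (live : ℕ → Bool)
    (hdead : ∀ i < Q.L, live i = false → ∀ j < Q.n, Q.N j i = true → Q.K0 j ≤ Q.d i j)
    (k : ℕ) (G n0 : ℚ)
    (hlive : (((Finset.range Q.L).filter (fun i => live i = true)).card : ℚ) ≤ n0 * Q.M)
    (hk0 : P.k0 ≤ k) (hmass : n0 ≤ (1 - P.δ) * k) (hG : 0 < G)
    (hGC : (1 + 2 / Real.exp 1) * (QD.Good.fracQ Q : ℝ) ≤ G)
    (hJ0 : 0 < Q.J) (hJ : 12 * (k : ℚ) ≤ P.η * (Q.J : ℚ) ^ 2) :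
    ∃ T ∈ Greedy.prefixes P Q.L Q.eval k G n0, Greedy.Ok Q.L T ∧
      T.length ≤ k ∧ (QD.Good.costQ Q T : ℝ) ≤ (1 + 10 * P.ε) * G := by
  have hMpos : (0 : ℚ) < Q.M := by exact_mod_cast h.M_pos
  have hGr : (0 : ℝ) < G := by exact_mod_cast hG
  have hfrac : (1 + 2 / Real.exp 1) * ∑ j, h.inst.w j * h.inst.C j ≤ (G : ℝ) := by
    rw [h.frac_cast]; exact hGC
  have hk : 0 < k := lt_of_lt_of_le P.hk0 hk0
  let lv : Finset (Fin Q.L) := Finset.univ.filter (fun i => live (i : ℕ) = true)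
  have hd : ∀ i, i ∉ lv → h.state.U i = 0 := by
    intro i hi
    have hi' : live (i : ℕ) = false := by
      by_contra hne
      exact hi (Finset.mem_filter.2 ⟨Finset.mem_univ _, by simpa using hne⟩)
    unfold FracInst.State.U
    refine Finset.sum_eq_zero fun j hj => ?_
    have hj' : Q.N j i = true := by
      have := FracInst.mem_J.1 hj
      simpa [QD.Good.inst] using this
    have h1 : h.state.u i j = 0 := by
      unfold FracInst.State.u
      apply max_eq_right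
      have h2 := hdead i i.2 hi' j j.2 hj'
      change (Q.K0 j : ℝ) - (Q.d i j : ℝ) ≤ 0
      rw [sub_nonpos]
      exact_mod_cast h2
    rw [h1, mul_zero]
  have hcard : (lv.card : ℝ) = (((Finset.range Q.L).filter (fun i => live i = true)).card : ℝ) := by
    have : lv.card = ((Finset.range Q.L).filter (fun i => live i = true)).card := by
      rw [Finset.card_filter, Finset.card_filter, Finset.sum_range]
    rw [this]
  have hn0 : (lv.card : ℝ) / h.inst.M ≤ (n0 : ℝ) := by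
    have hMr : (0 : ℝ) < h.inst.M := by exact_mod_cast h.M_pos
    rw [div_le_iff₀ hMr, hcard]
    have e : ((h.inst.M : ℕ) : ℝ) = (Q.M : ℝ) := rfl
    rw [e]
    exact_mod_cast hlive
  obtain ⟨T, hT, hok, hlen, hcost⟩ := Greedy.greedy_good (P := P)
    (Φ := h.inst.potLive h.state lv hd (n0 : ℝ) hn0 (G : ℝ) hGr hfrac) (k := k) (V := Q.eval)
    (G := G) (n0 := n0) hk0
    (by
      change (n0 : ℝ) ≤ (1 - P.δ) * k
      exact_mod_cast hmass)
    rfl rfl
    (by
      intro a ha T hT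
      rw [h.eval_cast a hT]
      have h1 := (h.state.opened (Greedy.toSet Q.L T)).RT_err (J := Q.J) hJ0 a
      refine le_trans h1 ?_
      have hJr : (0 : ℝ) < Q.J := by exact_mod_cast hJ0
      have hkr : (0 : ℝ) < k := by exact_mod_cast hk
      have h2 : ∑ j, h.inst.w j * h.inst.C j ≤ (G : ℝ) := by
        have h3 : 0 ≤ ∑ j, h.inst.w j * h.inst.C j :=
          Finset.sum_nonneg fun j _ => mul_nonneg (h.inst.w_nonneg j) (h.inst.C_nonneg j)
        have h4 : 0 < 2 / Real.exp 1 := by positivity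
        nlinarith
      have h5 : 2 / (Q.J : ℝ) ^ 2 * ∑ j, h.inst.w j * h.inst.C j ≤ 2 / (Q.J : ℝ) ^ 2 * G :=
        mul_le_mul_of_nonneg_left h2 (by positivity)
      refine le_trans h5 ?_
      have h6 : 12 * (k : ℝ) ≤ P.η * (Q.J : ℝ) ^ 2 := by exact_mod_cast hJ
      rw [div_div, div_mul_eq_mul_div, div_le_div_iff₀ (by positivity) (by positivity)]
      nlinarith)
  refine ⟨T, hT, hok, hlen, ?_⟩
  have e : (h.inst.potLive h.state lv hd (n0 : ℝ) hn0 (G : ℝ) hGr hfrac).c (Greedy.toSet Q.L T)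
      = (h.state.opened (Greedy.toSet Q.L T)).cost := rfl
  rw [e, h.cost_cast hok.2] at hcost
  exact hcost

/-- **The slack world, computed.**  Data `Q` with mass `L/M ≤ (1-δ) k`, fractional cost at most
`G / (1+2/e)`, `J` large: one of the prefixes computed by the greedy has at most `k` copies and
cost at most `(1+10 ε) G`. -/
theorem slack_candidates (P : SlackK.Params) {Q : QD} (h : Q.Good) (k : ℕ) (G : ℚ)
    (hk0 : P.k0 ≤ k) (hmass : (Q.L : ℚ) ≤ (1 - P.δ) * k * Q.M) (hG : 0 < G)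
    (hGC : (1 + 2 / Real.exp 1) * (QD.Good.fracQ Q : ℝ) ≤ G)
    (hJ0 : 0 < Q.J) (hJ : 12 * (k : ℚ) ≤ P.η * (Q.J : ℚ) ^ 2) :
    ∃ T ∈ Greedy.prefixes P Q.L Q.eval k G ((Q.L : ℚ) / Q.M), Greedy.Ok Q.L T ∧
      T.length ≤ k ∧ (QD.Good.costQ Q T : ℝ) ≤ (1 + 10 * P.ε) * G := by
  have hMpos : (0 : ℚ) < Q.M := by exact_mod_cast h.M_pos
  have hGr : (0 : ℝ) < G := by exact_mod_cast hG
  have hfrac : (1 + 2 / Real.exp 1) * ∑ j, h.inst.w j * h.inst.C j ≤ (G : ℝ) := by
    rw [h.frac_cast]; exact hGC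
  have hk : 0 < k := lt_of_lt_of_le P.hk0 hk0
  obtain ⟨T, hT, hok, hlen, hcost⟩ := Greedy.greedy_good (P := P)
    (Φ := h.inst.pot h.state (G : ℝ) hGr hfrac) (k := k) (V := Q.eval) (G := G)
    (n0 := (Q.L : ℚ) / Q.M) hk0
    (by
      change ((Fintype.card (Fin Q.L) : ℕ) : ℝ) / (Q.M : ℝ) ≤ (1 - P.δ) * k
      rw [Fintype.card_fin, div_le_iff₀ (by exact_mod_cast h.M_pos)]
      exact_mod_cast hmass)
    rfl
    (by
      change ((Fintype.card (Fin Q.L) : ℕ) : ℝ) / (Q.M : ℝ) = (((Q.L : ℚ) / Q.M : ℚ) : ℝ)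
      rw [Fintype.card_fin]; push_cast; rfl)
    (by
      intro a ha T hT
      rw [h.eval_cast a hT]
      have h1 := (h.state.opened (Greedy.toSet Q.L T)).RT_err (J := Q.J) hJ0 a
      refine le_trans h1 ?_
      have hJr : (0 : ℝ) < Q.J := by exact_mod_cast hJ0
      have hkr : (0 : ℝ) < k := by exact_mod_cast hk
      have h2 : ∑ j, h.inst.w j * h.inst.C j ≤ (G : ℝ) := by
        have h3 : 0 ≤ ∑ j, h.inst.w j * h.inst.C j :=
          Finset.sum_nonneg fun j _ => mul_nonneg (h.inst.w_nonneg j) (h.inst.C_nonneg j)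
        have h4 : 0 < 2 / Real.exp 1 := by positivity
        nlinarith
      have h5 : 2 / (Q.J : ℝ) ^ 2 * ∑ j, h.inst.w j * h.inst.C j ≤ 2 / (Q.J : ℝ) ^ 2 * G :=
        mul_le_mul_of_nonneg_left h2 (by positivity)
      refine le_trans h5 ?_
      have h6 : 12 * (k : ℝ) ≤ P.η * (Q.J : ℝ) ^ 2 := by exact_mod_cast hJ
      rw [div_div, div_mul_eq_mul_div, div_le_div_iff₀ (by positivity) (by positivity)]
      nlinarith)
  refine ⟨T, hT, hok, hlen, ?_⟩
  have e : (h.inst.pot h.state (G : ℝ) hGr hfrac).c (Greedy.toSet Q.L T)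
      = (h.state.opened (Greedy.toSet Q.L T)).cost := rfl
  rw [e, h.cost_cast hok.2] at hcost
  exact hcost

/-- the candidates of the slack world are poly-time -/
theorem ptf_slack_candidates {γ : Type} [PTCode γ] (P : SlackK.Params) {Q : γ → QD}
    (h : QD.PTFam Q) {k : γ → ℕ} {G : γ → ℚ} (hk : PTF k) (hG : PTF G) :
    PTF (fun c => Greedy.prefixes P (Q c).L (Q c).eval (k c) (G c)
      (((Q c).L : ℚ) / ((Q c).M : ℚ))) := by
  have hL : PTF (fun c => (((Q c).L : ℕ) : ℚ)) := PTF.ratNatCast (PTU.toPTF h.L)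
  have hM : PTF (fun c => (((Q c).M : ℕ) : ℚ)) := PTF.ratNatCast h.M
  exact Greedy.ptf_prefixes (V := fun c => (Q c).eval) P h.L h.ptf_eval hk hG
    (PTF.ratDiv hL hM)

/-- the candidates of the slack world with committed copies are poly-time -/
theorem ptf_slack_candidates_live {γ : Type} [PTCode γ] (P : SlackK.Params) {Q : γ → QD}
    (h : QD.PTFam Q) {k : γ → ℕ} {G n0 : γ → ℚ} (hk : PTF k) (hG : PTF G) (hn : PTF n0) :
    PTF (fun c => Greedy.prefixes P (Q c).L (Q c).eval (k c) (G c) (n0 c)) :=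
  Greedy.ptf_prefixes (V := fun c => (Q c).eval) P h.L h.ptf_eval hk hG hn

end Crest.Agent.R310
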