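import Crest.Agent.R310.FracCode

/-!
# R310, block FRAC: specification

* `near r Y m j e`: copy `e` of the list `Y` is one of the `m` copies nearest to `j`
  (order: distance, location, index);
* `fracY_spec`: the copies of `fracY` form a nearly optimal fractional solution.
-/

set_option linter.dupNamespace false
set_option autoImplicit false

namespace Crest.Agent.R310

open Crest.Agent.Lib.PT Crest.Agent.Lib.PT.Arith Crest.LogicCS.KMedian Finset

/-! ### ranks -/

section rank

variable {Λ : Type*} [LinearOrder Λ] (κ : ℕ → Λ) (L : ℕ)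

/-- rank of `e` among the indices below `L` -/
def rk (e : ℕ) : ℕ := ((range L).filter (fun e' => κ e' < κ e)).card

theorem rk_lt {e : ℕ} (he : e < L) : rk κ L e < L := by
  unfold rk
  have h1 : (range L).filter (fun e' => κ e' < κ e) ⊂ range L := by
    rw [Finset.filter_ssubset]
    exact ⟨e, mem_range.2 he, lt_irrefl _⟩
  simpa using Finset.card_lt_card h1

theorem rk_lt_rk {e e' : ℕ} (he : e' < L) (h : κ e' < κ e) : rk κ L e' < rk κ L e := by
  unfold rk
  apply Finset.card_lt_card
  rw [Finset.ssubset_iff_of_subset]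
  · exact ⟨e', by simp [he, h], by simp⟩
  · intro x hx
    rw [Finset.mem_filter] at hx ⊢
    exact ⟨hx.1, hx.2.trans h⟩

theorem card_rk_lt (hinj : ∀ e < L, ∀ e' < L, κ e = κ e' → e = e') {m : ℕ} (hm : m ≤ L) :
    ((range L).filter (fun e => rk κ L e < m)).card = m := by
  have hi : Set.InjOn (rk κ L) (range L : Set ℕ) := by
    intro e he e' he' h
    have he1 : e < L := by simpa using he
    have he2 : e' < L := by simpa using he'
    rcases lt_trichotomy (κ e) (κ e') with h1 | h1 | h1
    · have := rk_lt_rk κ L he1 h1; omega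
    · exact hinj e he1 e' he2 h1
    · have := rk_lt_rk κ L he2 h1; omega
  have himg : (range L).image (rk κ L) = range L := by
    apply Finset.eq_of_subset_of_card_le
    · intro x hx
      obtain ⟨e, he, rfl⟩ := Finset.mem_image.1 hx
      exact mem_range.2 (rk_lt κ L (mem_range.1 he))
    · rw [Finset.card_image_of_injOn hi]
  have h2 : ((range L).filter (fun e => rk κ L e < m)).image (rk κ L) = range m := by
    ext x
    rw [Finset.mem_image, mem_range]
    constructor
    · rintro ⟨e, he, rfl⟩; exact (Finset.mem_filter.1 he).2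
    · intro hx
      have : x ∈ (range L).image (rk κ L) := by rw [himg]; exact mem_range.2 (by omega)
      obtain ⟨e, he, rfl⟩ := Finset.mem_image.1 this
      exact ⟨e, Finset.mem_filter.2 ⟨he, hx⟩, rfl⟩
  rw [← Finset.card_image_of_injOn (s := (range L).filter (fun e => rk κ L e < m))
    (hi.mono (by intro x hx; simp only [Finset.coe_filter, Set.mem_ofPred_eq] at hx; exact hx.1)),
    h2, Finset.card_range]

theorem rk_sum_le (hinj : ∀ e < L, ∀ e' < L, κ e = κ e' → e = e') {m : ℕ} (hm : m ≤ L)
    (g : ℕ → ℚ) (hg : ∀ e e', κ e ≤ κ e' → g e ≤ g e') {X : Finset ℕ} (hX : X ⊆ range L)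
    (hXm : X.card = m) :
    ∑ e ∈ (range L).filter (fun e => rk κ L e < m), g e ≤ ∑ e ∈ X, g e := by
  classical
  set Nr := (range L).filter (fun e => rk κ L e < m) with hN
  have hc : Nr.card = m := card_rk_lt κ L hinj hm
  have hpt : ∀ e ∈ Nr \ X, ∀ e' ∈ X \ Nr, g e ≤ g e' := by
    intro e he e' he'
    rw [Finset.mem_sdiff] at he he'
    have h1 := (Finset.mem_filter.1 he.1).2
    have h2 : ¬ rk κ L e' < m := fun h => he'.2 (Finset.mem_filter.2 ⟨hX he'.1, h⟩)
    apply hg
    by_contra hlt
    have := rk_lt_rk κ L (mem_range.1 (hX he'.1)) (not_le.1 hlt)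
    omega
  have hcard : (Nr \ X).card = (X \ Nr).card := by
    have h1 := Finset.card_sdiff_add_card_inter Nr X
    have h2 := Finset.card_sdiff_add_card_inter X Nr
    rw [Finset.inter_comm] at h2
    omega
  have h3 : ∑ e ∈ Nr \ X, g e ≤ ∑ e ∈ X \ Nr, g e := by
    rcases (Nr \ X).eq_empty_or_nonempty with h0 | h0
    · rw [h0, Finset.card_empty] at hcard
      have : X \ Nr = ∅ := Finset.card_eq_zero.1 hcard.symm
      rw [h0, this]
    · have hne := h0
      obtain ⟨e0, he0, hmax⟩ := Finset.exists_max_image (Nr \ X) g h0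
      refine (Finset.sum_le_card_nsmul _ _ (g e0) hmax).trans ?_
      rw [hcard]
      exact Finset.card_nsmul_le_sum _ _ _ (fun e' he' => hpt e0 he0 e' he')
  have e1 := Finset.sum_inter_add_sum_sdiff Nr X g
  have e2 := Finset.sum_inter_add_sum_sdiff X Nr g
  rw [← e1, ← e2, Finset.inter_comm X Nr]
  linarith

end rank

/-! ### the nearest copies -/

/-- order of the copies seen from `j` -/
def copyKey (r : RI) (Y : List ℕ) (j e : ℕ) : ℚ ×ₗ ℕ ×ₗ ℕ :=
  toLex (riD r (Y.getD e 0) j, toLex (Y.getD e 0, e))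

theorem copyKey_lt (r : RI) (Y : List ℕ) (j e' e : ℕ) :
    copyKey r Y j e' < copyKey r Y j e ↔
      (riD r (Y.getD e' 0) j < riD r (Y.getD e 0) j ∨
        (riD r (Y.getD e' 0) j = riD r (Y.getD e 0) j ∧
          (Y.getD e' 0 < Y.getD e 0 ∨ (Y.getD e' 0 = Y.getD e 0 ∧ e' < e)))) := by
  unfold copyKey
  rw [Prod.Lex.toLex_lt_toLex]
  simp only [Prod.Lex.toLex_lt_toLex]

theorem copyKey_inj {r : RI} {Y : List ℕ} {j e e' : ℕ} (h : copyKey r Y j e = copyKey r Y j e') :
    e = e' := by
  unfold copyKey at h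
  have h1 := toLex.injective h
  rw [Prod.mk.injEq] at h1
  have h2 := toLex.injective h1.2
  rw [Prod.mk.injEq] at h2
  exact h2.2

theorem copyKey_le_imp {r : RI} {Y : List ℕ} {j e e' : ℕ} (h : copyKey r Y j e ≤ copyKey r Y j e') :
    riD r (Y.getD e 0) j ≤ riD r (Y.getD e' 0) j := by
  by_contra hlt
  exact absurd ((copyKey_lt r Y j e' e).2 (Or.inl (not_le.1 hlt))) (not_lt.2 h)

/-- does `e'` come before `e`? -/
def nBefore (r : RI) (Y : List ℕ) (j e' e : ℕ) : Bool :=
  decide (riD r (Y.getD e' 0) j < riD r (Y.getD e 0) j ∨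
        (riD r (Y.getD e' 0) j = riD r (Y.getD e 0) j ∧
          (Y.getD e' 0 < Y.getD e 0 ∨ (Y.getD e' 0 = Y.getD e 0 ∧ e' < e))))

/-- copy `e` is one of the `m` nearest copies of client `j` -/
def near (r : RI) (Y : List ℕ) (m j e : ℕ) : Bool :=
  decide (((List.range Y.length).filter (fun e' => nBefore r Y j e' e)).length < m)

theorem near_iff (r : RI) (Y : List ℕ) (m j e : ℕ) :
    near r Y m j e = true ↔ rk (copyKey r Y j) Y.length e < m := by
  unfold near rk
  rw [decide_eq_true_eq]
  have : ((List.range Y.length).filter (fun e' => nBefore r Y j e' e)).length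
      = ((range Y.length).filter (fun e' => copyKey r Y j e' < copyKey r Y j e)).card := by
    rw [← List.toFinset_card_of_nodup (List.Nodup.filter _ List.nodup_range)]
    congr 1
    ext x
    simp only [List.mem_toFinset, List.mem_filter, List.mem_range, Finset.mem_filter,
      Finset.mem_range, nBefore, decide_eq_true_eq, copyKey_lt]
  rw [this]

theorem near_card (r : RI) (Y : List ℕ) {m : ℕ} (hm : m ≤ Y.length) (j : ℕ) :
    ((range Y.length).filter (fun e => near r Y m j e = true)).card = m := by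
  have : (range Y.length).filter (fun e => near r Y m j e = true)
      = (range Y.length).filter (fun e => rk (copyKey r Y j) Y.length e < m) := by
    ext e; simp only [Finset.mem_filter, near_iff]
  rw [this]
  exact card_rk_lt _ _ (fun e _ e' _ h => copyKey_inj h) hm

theorem near_min (r : RI) (Y : List ℕ) {m : ℕ} (hm : m ≤ Y.length) (j : ℕ) {X : Finset ℕ}
    (hX : X ⊆ range Y.length) (hXm : m ≤ X.card) (hd : ∀ e ∈ X, 0 ≤ riD r (Y.getD e 0) j) :
    ∑ e ∈ (range Y.length).filter (fun e => near r Y m j e = true), riD r (Y.getD e 0) j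
      ≤ ∑ e ∈ X, riD r (Y.getD e 0) j := by
  obtain ⟨X', hX', hc⟩ := Finset.exists_subset_card_eq hXm
  have : (range Y.length).filter (fun e => near r Y m j e = true)
      = (range Y.length).filter (fun e => rk (copyKey r Y j) Y.length e < m) := by
    ext e; simp only [Finset.mem_filter, near_iff]
  rw [this]
  refine (rk_sum_le (copyKey r Y j) Y.length (fun e _ e' _ h => copyKey_inj h) hm
    (fun e => riD r (Y.getD e 0) j) (fun e e' h => copyKey_le_imp h) (hX'.trans hX) hc).trans ?_
  exact Finset.sum_le_sum_of_subset_of_nonneg hX' (fun e he _ => hd e he)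

theorem ptf_near {γ : Type} [PTCode γ] {r : γ → RI} {Y : γ → List ℕ} {m j e : γ → ℕ}
    (hr : PTF r) (hY : PTF Y) (hm : PTF m) (hj : PTF j) (he : PTF e) :
    PTF (fun c => near (r c) (Y c) (m c) (j c) (e c)) := by
  refine PTPred.toPTF (PTPred.natLt (PTU.toPTF (PTU.length (PTF.filter
    (l := fun c => List.range (Y c).length) (p := fun c e' => nBefore (r c) (Y c) (j c) e' (e c))
    (PTF.range (PTU.length hY)) ?_))) hm)
  have h1 : PTF (fun x : γ × ℕ => x.1) := PTF.fst
  have hr' : PTF (fun x : γ × ℕ => r x.1) := PTF.comp hr h1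
  have hj' : PTF (fun x : γ × ℕ => j x.1) := PTF.comp hj h1
  have he' : PTF (fun x : γ × ℕ => e x.1) := PTF.comp he h1
  have hY' : PTF (fun x : γ × ℕ => Y x.1) := PTF.comp hY h1
  have y1 : PTF (fun x : γ × ℕ => (Y x.1).getD x.2 0) := ptf_getDN PTF.snd hY' (PTF.const _)
  have y2 : PTF (fun x : γ × ℕ => (Y x.1).getD (e x.1) 0) := ptf_getDN he' hY' (PTF.const _)
  have d1 : PTF (fun x : γ × ℕ => riD (r x.1) ((Y x.1).getD x.2 0) (j x.1)) := ptf_riD hr' y1 hj'
  have d2 : PTF (fun x : γ × ℕ => riD (r x.1) ((Y x.1).getD (e x.1) 0) (j x.1)) :=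
    ptf_riD hr' y2 hj'
  exact PTPred.toPTF (PTPred.or (PTPred.ratLt d1 d2) (PTPred.and (PTPred.ratEq d1 d2)
    (PTPred.or (PTPred.natLt y1 y2) (PTPred.and (PTPred.natEq y1 y2) (PTPred.natLt PTF.snd he')))))

end Crest.Agent.R310
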