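import Crest.Agent.R310.Blackwell

/-!
# R310, block FRAC: the fractional solution, mathematics

Stars `(i, S)`; the star player maximises `∑_{j ∈ C, d i j ≤ A} (R_j - R_0 d i j / A)^+`.
-/

set_option linter.dupNamespace false
set_option autoImplicit false
set_option linter.unusedSectionVars false

namespace Crest.Agent.R310

open Finset

namespace FracM

variable {ι φ : Type*} [DecidableEq ι] (C : Finset ι) (d : φ → ι → ℚ) (k : ℕ) (A : ℚ)
  (a : ℕ → φ) (S : ℕ → Finset ι)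

/-- client weights: `(t - k · #cov)^+` -/
def RJ (t : ℕ) (j : ι) : ℚ := max 0 ((t : ℚ) - k * (((range t).filter (fun s => j ∈ S s)).card : ℚ))

/-- total cost so far -/
def costH (t : ℕ) : ℚ := ∑ s ∈ range t, ∑ j ∈ S s, d (a s) j

/-- cost weight -/
def R0 (t : ℕ) : ℚ := max 0 (k * costH d a S t / A - t)

/-- the set accepted by facility `i` -/
def acc (RJ : ι → ℚ) (R0 : ℚ) (i : φ) : Finset ι :=
  C.filter (fun j => d i j ≤ A ∧ R0 * d i j / A < RJ j)

/-- gain of facility `i` -/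
def gain (RJ : ι → ℚ) (R0 : ℚ) (i : φ) : ℚ :=
  ∑ j ∈ C, if d i j ≤ A then max 0 (RJ j - R0 * d i j / A) else 0

theorem gain_nonneg (RJ : ι → ℚ) (R0 : ℚ) (i : φ) : 0 ≤ gain C d A RJ R0 i := by
  unfold gain
  refine Finset.sum_nonneg fun j _ => ?_
  split_ifs
  · exact le_max_left _ _
  · exact le_rfl

theorem gain_eq_acc (RJ : ι → ℚ) (R0 : ℚ) (i : φ) :
    gain C d A RJ R0 i = ∑ j ∈ acc C d A RJ R0 i, (RJ j - R0 * d i j / A) := by
  unfold gain acc
  rw [Finset.sum_filter]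
  refine Finset.sum_congr rfl fun j _ => ?_
  by_cases h1 : d i j ≤ A
  · by_cases h2 : R0 * d i j / A < RJ j
    · rw [if_pos h1, if_pos ⟨h1, h2⟩, max_eq_right (by linarith)]
    · rw [if_pos h1, if_neg (fun h => h2 h.2), max_eq_left (by linarith)]
  · rw [if_neg h1, if_neg (fun h => h1 h.1)]

/-- the vectors of the approachability argument -/
def vec (t : ℕ) : Option ι → ℚ
  | none => 1 - k * (∑ j ∈ S t, d (a t) j) / A
  | some j => k * (if j ∈ S t then 1 else 0) - 1

theorem vec_none (t : ℕ) : vec d k A a S t none = 1 - k * (∑ j ∈ S t, d (a t) j) / A := rfl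

theorem vec_some (t : ℕ) (j : ι) :
    vec d k A a S t (some j) = k * (if j ∈ S t then 1 else 0) - 1 := rfl

theorem negSum_some (t : ℕ) (j : ι) : negSum (vec d k A a S) t (some j) = RJ k S t j := by
  unfold negSum RJ vec
  congr 1
  rw [Finset.sum_sub_distrib, ← Finset.mul_sum, Finset.sum_boole]
  simp

theorem negSum_none (t : ℕ) : negSum (vec d k A a S) t none = R0 d k A a S t := by
  unfold negSum R0 vec costH
  congr 1
  rw [Finset.sum_sub_distrib, ← Finset.sum_div, ← Finset.mul_sum]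
  simp

/-- run of the algorithm -/
structure Run (F : Finset φ) (M : ℕ) : Prop where
  S_eq : ∀ t < M, S t = acc C d A (RJ k S t) (R0 d k A a S t) (a t)
  opt : ∀ t < M, ∀ i ∈ F, gain C d A (RJ k S t) (R0 d k A a S t) i
      ≤ gain C d A (RJ k S t) (R0 d k A a S t) (a t)

variable {C d k A a S}

theorem Run.inner {F : Finset φ} {M : ℕ} (h : Run C d k A a S F M) (hA : 0 < A)
    (hd : ∀ i j, 0 ≤ d i j) (O : Finset φ) (hO : O ⊆ F) (hOk : O.card ≤ k) (o : ι → φ)
    (ho : ∀ j ∈ C, o j ∈ O) (hcost : ∑ j ∈ C, d (o j) j ≤ A) {t : ℕ} (ht : t < M) :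
    0 ≤ ∑ j ∈ insertNone C, negSum (vec d k A a S) t j * vec d k A a S t j := by
  classical
  rw [Finset.sum_insertNone, negSum_none]
  have e1 : ∀ j ∈ C, negSum (vec d k A a S) t (some j) * vec d k A a S t (some j)
      = k * (if j ∈ S t then RJ k S t j else 0) - RJ k S t j := by
    intro j _
    rw [negSum_some, vec_some]
    by_cases hj : j ∈ S t
    · simp only [hj, if_true]; ring
    · simp only [hj, if_false]; ring
  rw [Finset.sum_congr rfl e1, Finset.sum_sub_distrib, ← Finset.mul_sum]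
  have hSC : S t ⊆ C := by rw [h.S_eq t ht]; exact Finset.filter_subset _ _
  have e2 : ∑ j ∈ C, (if j ∈ S t then RJ k S t j else 0) = ∑ j ∈ S t, RJ k S t j := by
    rw [← Finset.sum_filter]
    congr 1
    ext j
    rw [Finset.mem_filter]
    exact ⟨fun h => h.2, fun h => ⟨hSC h, h⟩⟩
  rw [e2]
  have e3 : gain C d A (RJ k S t) (R0 d k A a S t) (a t)
      = ∑ j ∈ S t, RJ k S t j - R0 d k A a S t * (∑ j ∈ S t, d (a t) j) / A := by
    rw [gain_eq_acc, ← h.S_eq t ht, Finset.sum_sub_distrib, ← Finset.sum_div, ← Finset.mul_sum]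
  have hR0 : 0 ≤ R0 d k A a S t := le_max_left _ _
  -- competitor
  have hdA : ∀ j ∈ C, d (o j) j ≤ A := fun j hj =>
    (Finset.single_le_sum (f := fun j => d (o j) j) (fun j _ => hd _ _) hj).trans hcost
  have c1 : ∑ j ∈ C, (RJ k S t j - R0 d k A a S t * d (o j) j / A)
      ≤ ∑ i ∈ O, gain C d A (RJ k S t) (R0 d k A a S t) i := by
    unfold gain
    rw [Finset.sum_comm]
    refine Finset.sum_le_sum fun j hj => ?_
    refine le_trans ?_ (Finset.single_le_sum (f := fun i => if d i j ≤ A then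
      max 0 (RJ k S t j - R0 d k A a S t * d i j / A) else 0) (fun i _ => ?_) (ho j hj))
    · change _ ≤ if d (o j) j ≤ A then
        max 0 (RJ k S t j - R0 d k A a S t * d (o j) j / A) else 0
      rw [if_pos (hdA j hj)]
      exact le_max_right _ _
    · change 0 ≤ if d i j ≤ A then _ else _
      split_ifs
      · exact le_max_left _ _
      · exact le_rfl
  have c2 : ∑ i ∈ O, gain C d A (RJ k S t) (R0 d k A a S t) i
      ≤ k * gain C d A (RJ k S t) (R0 d k A a S t) (a t) := by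
    have h1 : ∑ i ∈ O, gain C d A (RJ k S t) (R0 d k A a S t) i
        ≤ ∑ _i ∈ O, gain C d A (RJ k S t) (R0 d k A a S t) (a t) :=
      Finset.sum_le_sum fun i hi => h.opt t ht i (hO hi)
    rw [Finset.sum_const, nsmul_eq_mul] at h1
    refine h1.trans (mul_le_mul_of_nonneg_right ?_ (gain_nonneg _ _ _ _ _ _))
    exact_mod_cast hOk
  have c3 : ∑ j ∈ C, RJ k S t j - R0 d k A a S t
      ≤ ∑ j ∈ C, (RJ k S t j - R0 d k A a S t * d (o j) j / A) := by
    rw [Finset.sum_sub_distrib, ← Finset.sum_div, ← Finset.mul_sum]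
    have : R0 d k A a S t * (∑ j ∈ C, d (o j) j) / A ≤ R0 d k A a S t := by
      rw [div_le_iff₀ hA]
      exact mul_le_mul_of_nonneg_left hcost hR0
    linarith
  have e4 : R0 d k A a S t * vec d k A a S t none
      = R0 d k A a S t - k * (R0 d k A a S t * (∑ j ∈ S t, d (a t) j) / A) := by
    unfold vec
    ring
  rw [e4]
  have := (c3.trans c1).trans c2
  rw [e3] at this
  linarith

theorem Run.norm {F : Finset φ} {M : ℕ} (h : Run C d k A a S F M) (hA : 0 < A)
    (hd : ∀ i j, 0 ≤ d i j) {n : ℕ} (hn : C.card ≤ n) (hn1 : 1 ≤ n) (hk : 1 ≤ k)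
    {t : ℕ} (ht : t < M) :
    ∑ j ∈ insertNone C, vec d k A a S t j ^ 2 ≤ ((2 * k ^ 2 * n ^ 2 : ℕ) : ℚ) := by
  rw [Finset.sum_insertNone]
  have hkq : (1 : ℚ) ≤ k := by exact_mod_cast hk
  have hnq : (1 : ℚ) ≤ n := by exact_mod_cast hn1
  have hnn : (C.card : ℚ) ≤ n := by exact_mod_cast hn
  have hSC : S t ⊆ C := by rw [h.S_eq t ht]; exact Finset.filter_subset _ _
  have h1 : ∑ j ∈ C, vec d k A a S t (some j) ^ 2 ≤ k ^ 2 * n ^ 2 := by
    have : ∀ j ∈ C, vec d k A a S t (some j) ^ 2 ≤ (k : ℚ) ^ 2 := by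
      intro j _
      rw [vec_some]
      by_cases hj : j ∈ S t
      · rw [if_pos hj]; nlinarith
      · rw [if_neg hj]; nlinarith
    refine (Finset.sum_le_sum this).trans ?_
    rw [Finset.sum_const, nsmul_eq_mul]
    nlinarith [sq_nonneg (k : ℚ), mul_le_mul_of_nonneg_right hnn (sq_nonneg (k : ℚ)),
      mul_le_mul_of_nonneg_left hnq (show (0 : ℚ) ≤ n * k ^ 2 by positivity)]
  have h2 : vec d k A a S t none ^ 2 ≤ (k : ℚ) ^ 2 * n ^ 2 := by
    unfold vec
    have c0 : 0 ≤ ∑ j ∈ S t, d (a t) j := Finset.sum_nonneg fun j _ => hd _ _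
    have c1 : ∑ j ∈ S t, d (a t) j ≤ n * A := by
      have : ∀ j ∈ S t, d (a t) j ≤ A := by
        intro j hj
        rw [h.S_eq t ht] at hj
        exact (Finset.mem_filter.1 hj).2.1
      refine (Finset.sum_le_sum this).trans ?_
      rw [Finset.sum_const, nsmul_eq_mul]
      refine mul_le_mul_of_nonneg_right ?_ hA.le
      have := Finset.card_le_card hSC
      exact_mod_cast this.trans hn
    have c2 : 0 ≤ (k : ℚ) * (∑ j ∈ S t, d (a t) j) / A := by positivity
    have c3 : (k : ℚ) * (∑ j ∈ S t, d (a t) j) / A ≤ k * n := by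
      rw [div_le_iff₀ hA]
      have := mul_le_mul_of_nonneg_left c1 (show (0 : ℚ) ≤ k by positivity)
      linarith
    rw [← mul_pow]
    apply sq_le_sq'
    · nlinarith
    · nlinarith
  push_cast
  linarith

/-- **Output of the algorithm.** -/
theorem Run.spec {F : Finset φ} {n q : ℕ} (hk : 1 ≤ k) (hn : C.card ≤ n) (hn1 : 1 ≤ n)
    (h : Run C d k A a S F (2 * k ^ 2 * n ^ 2 * q ^ 2)) (hA : 0 < A)
    (hd : ∀ i j, 0 ≤ d i j) (O : Finset φ) (hO : O ⊆ F) (hOk : O.card ≤ k) (o : ι → φ)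
    (ho : ∀ j ∈ C, o j ∈ O) (hcost : ∑ j ∈ C, d (o j) j ≤ A) :
    (∀ j ∈ C, 2 * k * n ^ 2 * q * (q - 1)
      ≤ ((range (2 * k ^ 2 * n ^ 2 * q ^ 2)).filter (fun s => j ∈ S s)).card) ∧
    costH d a S (2 * k ^ 2 * n ^ 2 * q ^ 2) ≤ ((2 * k * n ^ 2 * q * (q + 1) : ℕ) : ℚ) * A := by
  have hkq : (0 : ℚ) < k := by exact_mod_cast hk
  have key : ∀ j ∈ insertNone C, -(((2 * k ^ 2 * n ^ 2 : ℕ) : ℚ) * q)
      ≤ ∑ s ∈ range (2 * k ^ 2 * n ^ 2 * q ^ 2), vec d k A a S s j := fun j hj =>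
    blackwell_coord (insertNone C) (vec d k A a S) (2 * k ^ 2 * n ^ 2) q
      (fun t ht => h.inner hA hd O hO hOk o ho hcost ht)
      (fun t ht => h.norm hA hd hn hn1 hk ht) hj
  constructor
  · intro j hj
    have h1 := key (some j) (by simpa using hj)
    have h2 : ∑ s ∈ range (2 * k ^ 2 * n ^ 2 * q ^ 2), vec d k A a S s (some j)
        = k * (((range (2 * k ^ 2 * n ^ 2 * q ^ 2)).filter (fun s => j ∈ S s)).card : ℚ)
          - ((2 * k ^ 2 * n ^ 2 * q ^ 2 : ℕ) : ℚ) := by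
      unfold vec
      rw [Finset.sum_sub_distrib, ← Finset.mul_sum, Finset.sum_boole]
      simp
    rw [h2] at h1
    rcases Nat.eq_zero_or_pos q with hq | hq
    · subst hq; simp
    have h3 : (k : ℚ) * ((2 * k * n ^ 2 * q * (q - 1) : ℕ) : ℚ)
        ≤ k * (((range (2 * k ^ 2 * n ^ 2 * q ^ 2)).filter (fun s => j ∈ S s)).card : ℚ) := by
      have h4 : ((q - 1 : ℕ) : ℚ) = (q : ℚ) - 1 := by
        rw [Nat.cast_sub hq]; simp
      have h5 : ((2 * k * n ^ 2 * q * (q - 1) : ℕ) : ℚ) = 2 * k * n ^ 2 * q * ((q : ℚ) - 1) := by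
        rw [← h4]; push_cast; ring
      rw [h5]
      push_cast at h1
      linarith
    have h6 := le_of_mul_le_mul_left h3 hkq
    exact_mod_cast h6
  · have h1 := key none (by simp)
    have h2 : ∑ s ∈ range (2 * k ^ 2 * n ^ 2 * q ^ 2), vec d k A a S s none
        = ((2 * k ^ 2 * n ^ 2 * q ^ 2 : ℕ) : ℚ)
          - k * costH d a S (2 * k ^ 2 * n ^ 2 * q ^ 2) / A := by
      unfold vec costH
      rw [Finset.sum_sub_distrib, ← Finset.sum_div, ← Finset.mul_sum]
      simp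
    rw [h2] at h1
    have h3 : k * costH d a S (2 * k ^ 2 * n ^ 2 * q ^ 2) / A
        ≤ k * ((2 * k * n ^ 2 * q * (q + 1) : ℕ) : ℚ) := by
      push_cast at h1 ⊢
      linarith
    rw [div_le_iff₀ hA] at h3
    have h4 : (k : ℚ) * costH d a S (2 * k ^ 2 * n ^ 2 * q ^ 2)
        ≤ k * (((2 * k * n ^ 2 * q * (q + 1) : ℕ) : ℚ) * A) := by
      rw [← mul_assoc]; exact h3
    exact le_of_mul_le_mul_left h4 hkq

end FracM

end Crest.Agent.R310
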