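import Crest.Agent.R310.LocalSearchCode
import Crest.Agent.R310.FracMath

/-!
# R310, block FRAC: the fractional solution as a `PTF` function

`fracY r k q A` = list of copies of facilities, `fracM r k q` = number of copies of mass one.
-/

set_option linter.dupNamespace false
set_option autoImplicit false

namespace Crest.Agent.R310

open Crest.Agent.Lib.PT Crest.Agent.Lib.PT.Arith Crest.LogicCS.KMedian

/-- history: chosen facility and accepted clients of every round -/
abbrev Hist := List (ℕ × List Bool)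

/-- facility of round `s` -/
def hFac (h : Hist) (s : ℕ) : ℕ := (h.getD s (0, [])).1
/-- is client `j` accepted in round `s`? -/
def hAcc (h : Hist) (s j : ℕ) : Bool := (h.getD s (0, [])).2.getD j false
/-- number of rounds that accept `j` -/
def hCov (h : Hist) (j : ℕ) : ℕ := ∑ s ∈ Finset.range h.length, if hAcc h s j = true then 1 else 0
/-- total cost -/
def hCost (r : RI) (h : Hist) : ℚ :=
  ∑ s ∈ Finset.range h.length, ∑ j ∈ Finset.range (riN r),
    if hAcc h s j = true then riD r (hFac h s) j else 0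
/-- client weight -/
def hRJ (k : ℕ) (h : Hist) (j : ℕ) : ℚ := max 0 ((h.length : ℚ) - k * (hCov h j : ℚ))
/-- cost weight -/
def hR0 (r : RI) (k : ℕ) (A : ℚ) (h : Hist) : ℚ := max 0 (k * hCost r h / A - h.length)
/-- gain of a facility -/
def fGain (r : RI) (k : ℕ) (A : ℚ) (h : Hist) (i : ℕ) : ℚ :=
  ∑ j ∈ Finset.range (riN r), if riC r j = true ∧ riD r i j ≤ A then
    max 0 (hRJ k h j - hR0 r k A h * riD r i j / A) else 0
/-- accepted clients -/
def fMask (r : RI) (k : ℕ) (A : ℚ) (h : Hist) (i : ℕ) : List Bool :=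
  (List.range (riN r)).map fun j =>
    decide (riC r j = true ∧ riD r i j ≤ A ∧ hR0 r k A h * riD r i j / A < hRJ k h j)
/-- best facility -/
def fBest (r : RI) (k : ℕ) (A : ℚ) (h : Hist) : ℕ :=
  (facL r).foldl (fun o c => if fGain r k A h o < fGain r k A h c then c else o)
    ((facL r).headD 0)
/-- one round -/
def fStep (r : RI) (k : ℕ) (A : ℚ) (h : Hist) : Hist :=
  h ++ [(fBest r k A h, fMask r k A h (fBest r k A h))]
/-- number of rounds -/
def fracT (r : RI) (k q : ℕ) : ℕ := 2 * k ^ 2 * riN r ^ 2 * q ^ 2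
/-- number of copies of mass one -/
def fracM (r : RI) (k q : ℕ) : ℕ := 2 * k * riN r ^ 2 * q * (q - 1)
/-- the whole run -/
def fHist (r : RI) (k : ℕ) (A : ℚ) (t : ℕ) : Hist := (fStep r k A)^[t] []
/-- **list of copies** -/
def fracY (r : RI) (k q : ℕ) (A : ℚ) : List ℕ := (fHist r k A (fracT r k q)).map Prod.fst

/-! ### poly-time -/

section ptf
variable {γ : Type} [PTCode γ] {r : γ → RI} {k q : γ → ℕ} {A : γ → ℚ} {h : γ → Hist}
  {i j s : γ → ℕ}

theorem ptf_hFac (hh : PTF h) (hs : PTF s) : PTF (fun c => hFac (h c) (s c)) :=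
  PTF.comp (g := fun p : ℕ × List Bool => p.1) PTF.fst (ptf_getDN hs hh (PTF.const _))

theorem ptf_hAcc (hh : PTF h) (hs : PTF s) (hj : PTF j) : PTF (fun c => hAcc (h c) (s c) (j c)) :=
  ptf_getDN hj (PTF.comp (g := fun p : ℕ × List Bool => p.2) PTF.snd
    (ptf_getDN hs hh (PTF.const _))) (PTF.const _)

theorem ptf_hCov (hh : PTF h) (hj : PTF j) : PTF (fun c => hCov (h c) (j c)) := by
  refine PTF.natSumRange (PTU.length hh)
    (f := fun c s => if hAcc (h c) s (j c) = true then 1 else 0) ?_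
  exact PTF.ite (PTF.toPTPred (ptf_hAcc (PTF.comp hh PTF.fst) PTF.snd (PTF.comp hj PTF.fst)))
    (PTF.const _) (PTF.const _)

theorem ptf_hCost (hr : PTF r) (hh : PTF h) : PTF (fun c => hCost (r c) (h c)) := by
  refine PTF.ratSumRange (PTU.length hh)
    (f := fun c s => ∑ j ∈ Finset.range (riN (r c)),
      if hAcc (h c) s j = true then riD (r c) (hFac (h c) s) j else 0) ?_
  have hr1 : PTF (fun p : γ × ℕ => r p.1) := PTF.comp hr PTF.fst
  refine PTF.ratSumRange (α := γ × ℕ) (n := fun p => riN (r p.1)) (ptu_riN hr1)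
    (f := fun p j => if hAcc (h p.1) p.2 j = true then riD (r p.1) (hFac (h p.1) p.2) j else 0) ?_
  have h1 : PTF (fun x : (γ × ℕ) × ℕ => x.1.1) := PTF.comp PTF.fst PTF.fst
  have h2 : PTF (fun x : (γ × ℕ) × ℕ => x.1.2) := PTF.comp PTF.snd PTF.fst
  refine PTF.ite (PTF.toPTPred (ptf_hAcc (PTF.comp hh h1) h2 PTF.snd)) ?_ (PTF.const _)
  exact ptf_riD (PTF.comp hr h1) (ptf_hFac (PTF.comp hh h1) h2) PTF.snd

theorem ptf_hRJ (hk : PTF k) (hh : PTF h) (hj : PTF j) : PTF (fun c => hRJ (k c) (h c) (j c)) := by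
  refine PTF.ratMax (PTF.const _) (PTF.ratSub (PTF.ratNatCast (PTU.toPTF (PTU.length hh))) ?_)
  exact PTF.ratMul (PTF.ratNatCast hk) (PTF.ratNatCast (ptf_hCov hh hj))

theorem ptf_hR0 (hr : PTF r) (hk : PTF k) (hA : PTF A) (hh : PTF h) :
    PTF (fun c => hR0 (r c) (k c) (A c) (h c)) := by
  refine PTF.ratMax (PTF.const _) (PTF.ratSub ?_ (PTF.ratNatCast (PTU.toPTF (PTU.length hh))))
  exact PTF.ratDiv (PTF.ratMul (PTF.ratNatCast hk) (ptf_hCost hr hh)) hA

theorem ptf_fGain (hr : PTF r) (hk : PTF k) (hA : PTF A) (hh : PTF h) (hi : PTF i) :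
    PTF (fun c => fGain (r c) (k c) (A c) (h c) (i c)) := by
  refine PTF.ratSumRange (ptu_riN hr)
    (f := fun c j => if riC (r c) j = true ∧ riD (r c) (i c) j ≤ A c then
      max 0 (hRJ (k c) (h c) j - hR0 (r c) (k c) (A c) (h c) * riD (r c) (i c) j / A c) else 0) ?_
  have h1 : PTF (fun x : γ × ℕ => x.1) := PTF.fst
  have hd : PTF (fun x : γ × ℕ => riD (r x.1) (i x.1) x.2) :=
    ptf_riD (PTF.comp hr h1) (PTF.comp hi h1) PTF.snd
  refine PTF.ite (PTPred.and (PTF.toPTPred (ptf_riC (PTF.comp hr h1) PTF.snd))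
    (PTPred.ratLe hd (PTF.comp hA h1))) ?_ (PTF.const _)
  refine PTF.ratMax (PTF.const _) (PTF.ratSub (ptf_hRJ (PTF.comp hk h1) (PTF.comp hh h1) PTF.snd) ?_)
  exact PTF.ratDiv (PTF.ratMul (ptf_hR0 (PTF.comp hr h1) (PTF.comp hk h1) (PTF.comp hA h1)
    (PTF.comp hh h1)) hd) (PTF.comp hA h1)

theorem ptf_fMask (hr : PTF r) (hk : PTF k) (hA : PTF A) (hh : PTF h) (hi : PTF i) :
    PTF (fun c => fMask (r c) (k c) (A c) (h c) (i c)) := by
  refine PTF.tabulate (ptu_riN hr) (f := fun c j =>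
    decide (riC (r c) j = true ∧ riD (r c) (i c) j ≤ A c ∧
      hR0 (r c) (k c) (A c) (h c) * riD (r c) (i c) j / A c < hRJ (k c) (h c) j)) ?_
  have h1 : PTF (fun x : γ × ℕ => x.1) := PTF.fst
  have hd : PTF (fun x : γ × ℕ => riD (r x.1) (i x.1) x.2) :=
    ptf_riD (PTF.comp hr h1) (PTF.comp hi h1) PTF.snd
  refine PTPred.toPTF (PTPred.and (PTF.toPTPred (ptf_riC (PTF.comp hr h1) PTF.snd))
    (PTPred.and (PTPred.ratLe hd (PTF.comp hA h1)) (PTPred.ratLt ?_ ?_)))
  · exact PTF.ratDiv (PTF.ratMul (ptf_hR0 (PTF.comp hr h1) (PTF.comp hk h1) (PTF.comp hA h1)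
      (PTF.comp hh h1)) hd) (PTF.comp hA h1)
  · exact ptf_hRJ (PTF.comp hk h1) (PTF.comp hh h1) PTF.snd

end ptf

/-! ### argmax by a fold -/

theorem foldl_argmax (g : ℕ → ℚ) (l : List ℕ) (a : ℕ) :
    (l.foldl (fun o c => if g o < g c then c else o) a = a ∨
      l.foldl (fun o c => if g o < g c then c else o) a ∈ l) ∧
    g a ≤ g (l.foldl (fun o c => if g o < g c then c else o) a) ∧
    ∀ c ∈ l, g c ≤ g (l.foldl (fun o c => if g o < g c then c else o) a) := by
  induction l generalizing a with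
  | nil => simp
  | cons b l ih =>
    rw [List.foldl_cons]
    by_cases hab : g a < g b
    · rw [if_pos hab]
      obtain ⟨h1, h2, h3⟩ := ih b
      refine ⟨Or.inr ?_, hab.le.trans h2, ?_⟩
      · rcases h1 with h1 | h1
        · rw [h1]; simp
        · exact List.mem_cons_of_mem _ h1
      · intro c hc
        rcases List.mem_cons.1 hc with rfl | hc
        · exact h2
        · exact h3 c hc
    · rw [if_neg hab]
      obtain ⟨h1, h2, h3⟩ := ih a
      refine ⟨?_, h2, ?_⟩
      · rcases h1 with h1 | h1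
        · exact Or.inl h1
        · exact Or.inr (List.mem_cons_of_mem _ h1)
      · intro c hc
        rcases List.mem_cons.1 hc with rfl | hc
        · exact (not_lt.1 hab).trans h2
        · exact h3 c hc

theorem fBest_mem (r : RI) (k : ℕ) (A : ℚ) (h : Hist) :
    fBest r k A h ∈ facL r ∨ (facL r = [] ∧ fBest r k A h = 0) := by
  unfold fBest
  rcases hf : facL r with _ | ⟨a, l⟩
  · exact Or.inr ⟨rfl, rfl⟩
  · refine Or.inl ?_
    rcases (foldl_argmax (fGain r k A h) (a :: l) a).1 with h1 | h1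
    · rw [List.headD_cons, h1]; simp
    · exact h1

theorem fBest_max (r : RI) (k : ℕ) (A : ℚ) (h : Hist) {i : ℕ} (hi : i ∈ facL r) :
    fGain r k A h i ≤ fGain r k A h (fBest r k A h) :=
  (foldl_argmax (fGain r k A h) (facL r) _).2.2 i hi

section ptf
variable {γ : Type} [PTCode γ] {r : γ → RI} {k q : γ → ℕ} {A : γ → ℚ} {h : γ → Hist}

theorem ptf_fBest (hr : PTF r) (hk : PTF k) (hA : PTF A) (hh : PTF h) :
    PTF (fun c => fBest (r c) (k c) (A c) (h c)) := by
  refine PTF.foldl_bdd (γ := γ) (α := ℕ) (β := ℕ) (l := fun c => facL (r c))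
    (f := fun c o b => if fGain (r c) (k c) (A c) (h c) o < fGain (r c) (k c) (A c) (h c) b
      then b else o) (b := fun c => (facL (r c)).headD 0) (ptf_facL hr) ?_ ?_
    (G := fun c => sz (facL (r c))) (ptf_facL hr).sz ?_ ?_
  · have h1 : PTF (fun p : γ × ℕ × ℕ => p.1) := PTF.fst
    have h2 : PTF (fun p : γ × ℕ × ℕ => p.2.1) := by fun_prop
    have h3 : PTF (fun p : γ × ℕ × ℕ => p.2.2) := by fun_prop
    refine PTF.ite (PTPred.ratLt ?_ ?_) h3 h2
    · exact ptf_fGain (PTF.comp hr h1) (PTF.comp hk h1) (PTF.comp hA h1) (PTF.comp hh h1) h2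
    · exact ptf_fGain (PTF.comp hr h1) (PTF.comp hk h1) (PTF.comp hA h1) (PTF.comp hh h1) h3
  · refine PTF.of_eq (PTF.optionGetD (s := fun c => (facL (r c)).head?) (d := fun _ => (0 : ℕ))
      (PTF.head? (ptf_facL hr)) (PTF.const _)) (fun c => ?_)
    cases facL (r c) <;> rfl
  · intro c b a ha hb
    change sz (if _ then a else b) ≤ _
    split_ifs
    · exact sz_mem_le ha
    · exact hb
  · intro c
    change sz ((facL (r c)).headD 0) ≤ _
    cases hf : facL (r c) with
    | nil => simp [sz_nat]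
    | cons a l => simp only [List.headD_cons, sz_cons]; omega

theorem ptf_fStep (hr : PTF r) (hk : PTF k) (hA : PTF A) (hh : PTF h) :
    PTF (fun c => fStep (r c) (k c) (A c) (h c)) := by
  have hb := ptf_fBest hr hk hA hh
  refine PTF.append hh (PTF.listCons (PTF.prodMk hb (ptf_fMask hr hk hA hh hb)) (PTF.const []))

end ptf

theorem fHist_succ (r : RI) (k : ℕ) (A : ℚ) (t : ℕ) :
    fHist r k A (t+1) = fStep r k A (fHist r k A t) := by
  unfold fHist; rw [Function.iterate_succ_apply']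

theorem length_fHist (r : RI) (k : ℕ) (A : ℚ) (t : ℕ) : (fHist r k A t).length = t := by
  induction t with
  | zero => rfl
  | succ t ih =>
    rw [fHist_succ]
    unfold fStep
    rw [List.length_append, ih]; rfl

theorem fHist_entry (r : RI) (k : ℕ) (A : ℚ) (t : ℕ) : ∀ e ∈ fHist r k A t,
    sz e ≤ 2 * sz (facL r) + 1 + 3 * riN r ∧ (e.1 ∈ facL r ∨ facL r = []) := by
  induction t with
  | zero => intro e he; simp [fHist] at he
  | succ t ih =>
    intro e he
    rw [fHist_succ] at he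
    unfold fStep at he
    rcases List.mem_append.1 he with he | he
    · exact ih e he
    · rw [List.mem_singleton] at he
      subst he
      constructor
      · simp only [sz_prod, sz_boolList]
        have h1 : (fMask r k A (fHist r k A t) (fBest r k A (fHist r k A t))).length = riN r := by
          simp [fMask]
        rw [h1]
        have h2 : sz (fBest r k A (fHist r k A t)) ≤ sz (facL r) := by
          rcases fBest_mem r k A (fHist r k A t) with h | ⟨_, h⟩
          · exact sz_mem_le h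
          · rw [h]; simp [sz_nat]
        omega
      · rcases fBest_mem r k A (fHist r k A t) with h | ⟨h, _⟩
        · exact Or.inl h
        · exact Or.inr h

section ptf
variable {γ : Type} [PTCode γ] {r : γ → RI} {k q t : γ → ℕ} {A : γ → ℚ}

theorem ptf_fHist (hr : PTF r) (hk : PTF k) (hA : PTF A) (ht : PTU t) :
    PTF (fun c => fHist (r c) (k c) (A c) (t c)) := by
  refine PTF.iterate' (γ := γ) (n := t) (f := fun c x => fStep (r c) (k c) (A c) x)
    (a := fun _ => []) ht ?_ (PTF.const _)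
    (B := fun c => t c * (2 * (2 * sz (facL (r c)) + 1 + 3 * riN (r c)) + 1)) ?_ ?_
  · exact ptf_fStep (PTF.comp hr PTF.fst) (PTF.comp hk PTF.fst) (PTF.comp hA PTF.fst) PTF.snd
  · have h1 : PB (fun c => sz (facL (r c))) := (ptf_facL hr).sz
    have h2 : PB (fun c => riN (r c)) := PTU.pb (ptu_riN hr)
    have h3 : PB t := PTU.pb ht
    exact PB.mul h3 (PB.add (PB.mul (PB.const 2) (PB.add (PB.add (PB.mul (PB.const 2) h1)
      (PB.const 1)) (PB.mul (PB.const 3) h2))) (PB.const 1))
  · intro c i hi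
    have h1 : (fHist (r c) (k c) (A c) i).length = i := length_fHist _ _ _ _
    have h2 := sz_list_le (l := fHist (r c) (k c) (A c) i)
      (m := 2 * sz (facL (r c)) + 1 + 3 * riN (r c))
      (fun e he => (fHist_entry (r c) (k c) (A c) i e he).1)
    rw [h1] at h2
    exact h2.trans (Nat.mul_le_mul_right _ hi)

theorem ptu_fracT (hr : PTF r) (hk : PTU k) (hq : PTU q) :
    PTU (fun c => fracT (r c) (k c) (q c)) := by
  have h1 : PTU (fun c => riN (r c)) := ptu_riN hr
  refine PTU.of_eq (PTU.mul (PTU.mul (PTU.mul (PTU.const 2) (PTU.mul hk hk)) (PTU.mul h1 h1))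
    (PTU.mul hq hq)) (fun c => ?_)
  unfold fracT; ring

theorem ptu_fracM (hr : PTF r) (hk : PTU k) (hq : PTU q) :
    PTU (fun c => fracM (r c) (k c) (q c)) := by
  have h1 : PTU (fun c => riN (r c)) := ptu_riN hr
  refine PTU.of_eq (PTU.mul (PTU.mul (PTU.mul (PTU.mul (PTU.const 2) hk) (PTU.mul h1 h1))
    hq) (PTU.sub hq (PTU.const 1))) (fun c => ?_)
  unfold fracM; ring

theorem ptf_fracY (hr : PTF r) (hk : PTU k) (hq : PTU q) (hA : PTF A) :
    PTF (fun c => fracY (r c) (k c) (q c) (A c)) :=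
  PTF.map (l := fun c => fHist (r c) (k c) (A c) (fracT (r c) (k c) (q c)))
    (f := fun _ p => p.1) (ptf_fHist hr (PTU.toPTF hk) hA (ptu_fracT hr hk hq))
    (PTF.comp PTF.fst PTF.snd)

end ptf

theorem length_fracY (r : RI) (k q : ℕ) (A : ℚ) : (fracY r k q A).length = fracT r k q := by
  unfold fracY; rw [List.length_map, length_fHist]

theorem fracY_mem (r : RI) (hF : facL r ≠ []) (k q : ℕ) (A : ℚ) : ∀ e ∈ fracY r k q A, e ∈ facL r := by
  intro e he
  unfold fracY at he
  obtain ⟨p, hp, rfl⟩ := List.mem_map.1 he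
  exact ((fHist_entry r k A _ p hp).2).resolve_right hF

end Crest.Agent.R310
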