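import Crest.Agent.R310.GranCore

/-!
# R310, block GRAN, part 3: expectations and the choice of the seed (abstract)
-/

set_option linter.dupNamespace false
set_option linter.unusedSectionVars false
set_option autoImplicit false

namespace Crest.Agent.R310.Gran

open Finset

/-- four nonnegative functions, controlled simultaneously -/
theorem four_avg {Ω : Type*} {S : Finset Ω} (hS : S.Nonempty) {f1 f2 f3 f4 : Ω → ℚ}
    (h1 : ∀ ω ∈ S, 0 ≤ f1 ω) (h2 : ∀ ω ∈ S, 0 ≤ f2 ω) (h3 : ∀ ω ∈ S, 0 ≤ f3 ω)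
    (h4 : ∀ ω ∈ S, 0 ≤ f4 ω) {B1 B2 B3 B4 e : ℚ} (hB1 : 0 < B1) (hB2 : 0 < B2) (hB3 : 0 < B3)
    (hB4 : 0 < B4) (he : 0 < e) (he1 : e ≤ 1) (a1 : avg S f1 ≤ B1) (a2 : avg S f2 ≤ B2)
    (a3 : avg S f3 ≤ B3) (a4 : avg S f4 ≤ B4) :
    ∃ ω ∈ S, f1 ω ≤ (1 + 3 * e) * B1 ∧ f2 ω ≤ 4 / e * B2 ∧ f3 ω ≤ 4 / e * B3 ∧
      f4 ω ≤ 4 / e * B4 := by
  have hF : avg S (fun ω => ((f1 ω / B1 + e * (f2 ω / B2)) + e * (f3 ω / B3)) + e * (f4 ω / B4))
      ≤ 1 + 3 * e := by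
    rw [avg_add, avg_add, avg_add, avg_smul, avg_smul, avg_smul, avg_div, avg_div, avg_div,
      avg_div]
    have d1 : avg S f1 / B1 ≤ 1 := (div_le_one hB1).2 a1
    have d2 : avg S f2 / B2 ≤ 1 := (div_le_one hB2).2 a2
    have d3 : avg S f3 / B3 ≤ 1 := (div_le_one hB3).2 a3
    have d4 : avg S f4 / B4 ≤ 1 := (div_le_one hB4).2 a4
    nlinarith
  obtain ⟨ω, hω, h⟩ := exists_le_avg hS hF
  have n1 : 0 ≤ f1 ω / B1 := div_nonneg (h1 ω hω) hB1.le
  have n2 : 0 ≤ f2 ω / B2 := div_nonneg (h2 ω hω) hB2.le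
  have n3 : 0 ≤ f3 ω / B3 := div_nonneg (h3 ω hω) hB3.le
  have n4 : 0 ≤ f4 ω / B4 := div_nonneg (h4 ω hω) hB4.le
  have m2 := mul_nonneg he.le n2
  have m3 := mul_nonneg he.le n3
  have m4 := mul_nonneg he.le n4
  refine ⟨ω, hω, ?_, ?_, ?_, ?_⟩
  · rw [← div_le_iff₀ hB1]; linarith
  · rw [← div_le_iff₀ hB2, le_div_iff₀ he]; linarith
  · rw [← div_le_iff₀ hB3, le_div_iff₀ he]; linarith
  · rw [← div_le_iff₀ hB4, le_div_iff₀ he]; linarith

namespace Core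

variable {X Ω : Type} [DecidableEq X] (c : Core X) {R : Ω → X → Bool} {S : Finset Ω} {p : ℚ}

/-- bound of the plan of an attached client -/
def attB (c : Core X) (R : Ω → X → Bool) (d : ℕ → ℚ) (g : ℕ) (ω : Ω) : ℚ :=
  c.M * d g + ∑ x ∈ c.Z g, (d (c.loc x) - d g) * ind R ω x
    + (cnt R ω (c.Z g) : ℚ) ^ 2 / (2 * c.M) * d g

/-- bound of the plan of an ordinary client -/
def ordB (c : Core X) (R : Ω → X → Bool) (p : ℚ) (d : ℕ → ℚ) (g b : ℕ) (N Zs : Finset X)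
    (U0 : ℚ) (ω : Ω) : ℚ :=
  b * d g + ∑ x ∈ N, d (c.loc x) * ind R ω x
    + (2 + |(cnt R ω N : ℚ) - p * N.card| + |(cnt R ω Zs : ℚ) - p * Zs.card|) * U0

/-- **Expected cost of an attached client.** -/
theorem avg_att (h : PW S R p c.U) {m : ℕ} (hm : 0 < m) (hpm : p * m ≤ c.M)
    (hpm1 : (c.M : ℚ) - 1 ≤ p * m) {T : ℕ} (hT : 2 ≤ T) {g : ℕ} (hg : g ∈ c.Gf)
    (hζ : 2 * T * (c.Z g).card ≤ m) {d : ℕ → ℚ} (hd : 0 ≤ d g) {a : ℕ} (haT : T * m ≤ T * a + m)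
    {Sj : ℚ} (hS1 : a * d g ≤ Sj)
    (hS2 : ∑ x ∈ c.Z g, d (c.loc x) + a * d g ≤ 2 * (c.Z g).card * d g + Sj) :
    avg S (c.attB R d g) ≤ c.M / m * Sj * (1 + 4 / T + 4 / c.M) := by
  set ζ : ℚ := ((c.Z g).card : ℚ) with hζdef
  have hMq : (1 : ℚ) ≤ c.M := by exact_mod_cast c.M_pos
  have hM0 : (0 : ℚ) < c.M := by linarith
  have hmq : (0 : ℚ) < m := by exact_mod_cast hm
  have hTq : (2 : ℚ) ≤ T := by exact_mod_cast hT
  have hT0 : (0 : ℚ) < T := by linarith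
  have hp0 := h.p_nonneg
  have hζ0 : 0 ≤ ζ := by positivity
  have hζm : 2 * T * ζ ≤ m := by rw [hζdef]; exact_mod_cast hζ
  have haq : (T : ℚ) * m ≤ T * a + m := by exact_mod_cast haT
  -- expectation
  have e1 : avg S (c.attB R d g) = c.M * d g + p * ∑ x ∈ c.Z g, (d (c.loc x) - d g)
      + avg S (fun ω => (cnt R ω (c.Z g) : ℚ) ^ 2) / (2 * c.M) * d g := by
    unfold attB
    rw [avg_add, avg_add, avg_const h.ne, h.mean (c.Z_sub g hg) (fun x => d (c.loc x) - d g)]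
    congr 1
    rw [show (fun ω => (cnt R ω (c.Z g) : ℚ) ^ 2 / (2 * c.M) * d g)
      = fun ω => (d g / (2 * c.M)) * (cnt R ω (c.Z g) : ℚ) ^ 2 from by
        funext ω; ring, avg_smul]
    ring
  have e2 : ∑ x ∈ c.Z g, (d (c.loc x) - d g) = ∑ x ∈ c.Z g, d (c.loc x) - ζ * d g := by
    rw [sum_sub_distrib, sum_const, nsmul_eq_mul]
  have e3 := h.sq_cnt (c.Z_sub g hg)
  have hpζ : p * ζ ≤ c.M / (2 * T) := by
    rw [le_div_iff₀ (by positivity)]
    have := mul_le_mul_of_nonneg_left hζm hp0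
    nlinarith
  have hpζ0 : 0 ≤ p * ζ := mul_nonneg hp0 hζ0
  have e4 : avg S (fun ω => (cnt R ω (c.Z g) : ℚ) ^ 2) / (2 * c.M) * d g
      ≤ (c.M / (4 * T) + 1 / (2 * T)) * d g := by
    refine mul_le_mul_of_nonneg_right ?_ hd
    rw [div_le_iff₀ (by positivity)]
    refine e3.trans ?_
    have h5 : (p * ζ) ^ 2 ≤ (p * ζ) * (c.M / (2 * T)) := by
      rw [pow_two]; exact mul_le_mul_of_nonneg_left hpζ hpζ0
    have h6 : (p * ζ) * (c.M / (2 * T)) ≤ c.M / (2 * T) * (c.M / (2 * T)) :=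
      mul_le_mul_of_nonneg_right hpζ (by positivity)
    have h7 : c.M / (2 * T) * (c.M / (2 * T)) ≤ (c.M : ℚ) / (2 * T) * c.M := by
      refine mul_le_mul_of_nonneg_left ?_ (by positivity)
      rw [div_le_iff₀ (by positivity)]
      nlinarith
    have h8 : (c.M / (4 * T) + 1 / (2 * T)) * (2 * c.M)
        = (c.M : ℚ) / (2 * T) * c.M + 2 * (c.M / (2 * T)) := by field_simp; ring
    rw [h8]
    have h9 : 0 ≤ (c.M : ℚ) / (2 * T) := by positivity
    linarith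
  have hd2 : d g ≤ 2 * Sj / m := by
    rw [le_div_iff₀ hmq]
    have : (m : ℚ) ≤ 2 * a := by nlinarith
    nlinarith
  have hSj : 0 ≤ Sj := le_trans (mul_nonneg (by positivity) hd) hS1
  have hpa : (c.M : ℚ) - p * a ≤ 1 + c.M / T := by
    have h10 : (m : ℚ) - m / T ≤ a := by
      rw [sub_le_iff_le_add, ← sub_le_iff_le_add', le_div_iff₀ hT0]; nlinarith
    have h11 := mul_le_mul_of_nonneg_left h10 hp0
    have h12 : p * (m / T) ≤ c.M / T := by
      rw [← mul_div_assoc]; exact div_le_div_of_nonneg_right hpm hT0.le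
    nlinarith
  -- combine
  have c1 := mul_le_mul_of_nonneg_left hS2 hp0
  have c2 : p * Sj ≤ c.M / m * Sj := by
    refine mul_le_mul_of_nonneg_right ?_ hSj
    rw [le_div_iff₀ hmq]; exact hpm
  have c3 : (c.M : ℚ) * d g + p * (∑ x ∈ c.Z g, d (c.loc x) - ζ * d g)
      ≤ p * Sj + (c.M - p * a + p * ζ) * d g := by
    have : p * (∑ x ∈ c.Z g, d (c.loc x)) + p * (a * d g) ≤ p * (2 * ζ * d g) + p * Sj := by
      rw [← mul_add, ← mul_add]; exact c1
    nlinarith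
  have c4 : ((c.M : ℚ) - p * a + p * ζ) * d g ≤ (1 + c.M / T + c.M / (2 * T)) * d g :=
    mul_le_mul_of_nonneg_right (by linarith) hd
  have c5 : (1 + c.M / T + c.M / (2 * T)) * d g + (c.M / (4 * T) + 1 / (2 * T)) * d g
      ≤ (2 + 2 * (c.M / T)) * d g := by
    rw [← add_mul]
    refine mul_le_mul_of_nonneg_right ?_ hd
    have h13 : (1 : ℚ) / (2 * T) ≤ 1 := by
      rw [div_le_one (by positivity)]; linarith
    have h14 : (c.M : ℚ) / (2 * T) = (c.M / T) / 2 := by field_simp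
    have h15 : (c.M : ℚ) / (4 * T) = (c.M / T) / 4 := by field_simp
    have h16 : 0 ≤ (c.M : ℚ) / T := by positivity
    rw [h14, h15]
    linarith
  have c6 : (2 + 2 * (c.M / T : ℚ)) * d g ≤ (2 + 2 * (c.M / T)) * (2 * Sj / m) :=
    mul_le_mul_of_nonneg_left hd2 (by positivity)
  have c7 : (c.M : ℚ) / m * Sj * (1 + 4 / T + 4 / c.M)
      = c.M / m * Sj + (2 + 2 * (c.M / T)) * (2 * Sj / m) := by
    field_simp; ring
  rw [e1, e2, c7]
  linarith

/-- **Expected cost of an ordinary client.** -/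
theorem avg_ord (h : PW S R p c.U) {m : ℕ} (hm : 0 < m) (hpm : p * m ≤ c.M) {d : ℕ → ℚ}
    {g b : ℕ} {N Zs : Finset X} (hN : N ⊆ c.U) (hZ : Zs ⊆ c.U) (hNm : N.card ≤ m)
    (hZm : Zs.card ≤ m) (hd : 0 ≤ d g) (hdN : ∀ x ∈ N, 0 ≤ d (c.loc x)) {a : ℕ}
    (hb : b * m ≤ c.M * a) {Sj : ℚ} (hS : a * d g + ∑ x ∈ N, d (c.loc x) ≤ Sj) {cc U0 : ℚ}
    (hcc : 0 < cc) (hU0 : 0 ≤ U0) :
    avg S (c.ordB R p d g b N Zs U0) ≤ c.M / m * Sj + (2 + c.M / cc + cc) * U0 := by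
  have hM0 : (0 : ℚ) < c.M := by exact_mod_cast c.M_pos
  have hmq : (0 : ℚ) < m := by exact_mod_cast hm
  have hp0 := h.p_nonneg
  have e1 : avg S (c.ordB R p d g b N Zs U0) = b * d g + p * ∑ x ∈ N, d (c.loc x)
      + (2 + avg S (fun ω => |(cnt R ω N : ℚ) - p * N.card|)
        + avg S (fun ω => |(cnt R ω Zs : ℚ) - p * Zs.card|)) * U0 := by
    unfold ordB
    rw [avg_add, avg_add, avg_const h.ne, h.mean hN (fun x => d (c.loc x))]
    congr 1
    rw [show (fun ω => (2 + |(cnt R ω N : ℚ) - p * N.card| + |(cnt R ω Zs : ℚ) - p * Zs.card|) * U0)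
      = fun ω => U0 * ((2 + |(cnt R ω N : ℚ) - p * N.card|)
        + |(cnt R ω Zs : ℚ) - p * Zs.card|) from by funext ω; ring, avg_smul, avg_add, avg_add,
      avg_const h.ne]
    ring
  have hdev : ∀ V : Finset X, V ⊆ c.U → V.card ≤ m →
      avg S (fun ω => |(cnt R ω V : ℚ) - p * V.card|) ≤ c.M / (2 * cc) + cc / 2 := by
    intro V hV hVm
    refine (h.dev_cnt hV hcc).trans ?_
    have h1 : p * V.card ≤ c.M := by
      refine le_trans (mul_le_mul_of_nonneg_left ?_ hp0) hpm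
      exact_mod_cast hVm
    have := div_le_div_of_nonneg_right h1 (show 0 ≤ 2 * cc by positivity)
    linarith
  have d1 := hdev N hN hNm
  have d2 := hdev Zs hZ hZm
  have e2 : (b : ℚ) * d g ≤ c.M / m * (a * d g) := by
    rw [← mul_assoc]
    refine mul_le_mul_of_nonneg_right ?_ hd
    rw [div_mul_eq_mul_div, le_div_iff₀ hmq]
    exact_mod_cast hb
  have e3 : p * ∑ x ∈ N, d (c.loc x) ≤ c.M / m * ∑ x ∈ N, d (c.loc x) := by
    refine mul_le_mul_of_nonneg_right ?_ (sum_nonneg hdN)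
    rw [le_div_iff₀ hmq]; exact hpm
  have e4 := mul_le_mul_of_nonneg_left hS (show (0 : ℚ) ≤ c.M / m by positivity)
  rw [e1]
  have e5 : (2 + avg S (fun ω => |(cnt R ω N : ℚ) - p * N.card|)
        + avg S (fun ω => |(cnt R ω Zs : ℚ) - p * Zs.card|)) * U0
      ≤ (2 + c.M / cc + cc) * U0 := by
    refine mul_le_mul_of_nonneg_right ?_ hU0
    have : (c.M : ℚ) / (2 * cc) = (c.M / cc) / 2 := by field_simp
    rw [this] at d1 d2
    linarith
  rw [mul_add] at e4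
  linarith

/-- **Expected number of added copies of a representative.** -/
theorem avg_add_rep (h : PW S R p c.U) {m : ℕ} (hm : 0 < m) (hpm : p * m ≤ c.M)
    (hpm1 : (c.M : ℚ) - 1 ≤ p * m) {E : ℕ} (hE : 0 < E) (hME : 2 * E + E ^ 2 ≤ c.M) {j : ℕ}
    (hj : j ∈ c.J0) (hP : E * m ≤ E * (c.P j).card + 2 * m) (hP' : (c.P j).card ≤ m) :
    avg S (fun ω => ((c.M - cnt R ω (c.P j) : ℕ) : ℚ)) ≤ 3 * c.M / E := by
  have hM0 : (0 : ℚ) < c.M := by exact_mod_cast c.M_pos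
  have hmq : (0 : ℚ) < m := by exact_mod_cast hm
  have hEq : (0 : ℚ) < E := by exact_mod_cast hE
  have hp0 := h.p_nonneg
  have hPm : p * (c.P j).card ≤ c.M := by
    refine le_trans (mul_le_mul_of_nonneg_left ?_ hp0) hpm
    exact_mod_cast hP'
  have h1 : ∀ ω ∈ S, ((c.M - cnt R ω (c.P j) : ℕ) : ℚ)
      ≤ (c.M - p * (c.P j).card) + |(cnt R ω (c.P j) : ℚ) - p * (c.P j).card| := by
    intro ω _
    have a1 := neg_abs_le ((cnt R ω (c.P j) : ℚ) - p * (c.P j).card)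
    have a2 := abs_nonneg ((cnt R ω (c.P j) : ℚ) - p * (c.P j).card)
    rcases le_total (cnt R ω (c.P j)) c.M with h2 | h2
    · rw [Nat.cast_sub h2]; linarith
    · rw [Nat.sub_eq_zero_of_le h2]; push_cast; linarith
  refine (avg_mono h1).trans ?_
  rw [avg_add, avg_const h.ne]
  have h2 := h.dev_cnt (c.P_sub j hj) (c := c.M / E) (by positivity)
  have h3 : p * ((c.P j).card : ℚ) / (2 * (c.M / E)) ≤ E / 2 := by
    rw [div_le_iff₀ (by positivity)]
    have : (E : ℚ) / 2 * (2 * (c.M / E)) = c.M := by field_simp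
    rw [this]; exact hPm
  have h4 : (m : ℚ) - 2 * m / E ≤ (c.P j).card := by
    have : (E : ℚ) * m ≤ E * (c.P j).card + 2 * m := by exact_mod_cast hP
    rw [sub_le_iff_le_add, ← sub_le_iff_le_add', le_div_iff₀ hEq]
    nlinarith
  have h5 := mul_le_mul_of_nonneg_left h4 hp0
  have h6 : p * (2 * m / E) ≤ 2 * c.M / E := by
    rw [← mul_div_assoc]
    refine div_le_div_of_nonneg_right ?_ hEq.le
    nlinarith
  have h7 : (c.M : ℚ) - p * (c.P j).card ≤ 1 + 2 * c.M / E := by nlinarith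
  have h8 : (1 : ℚ) + E / 2 ≤ c.M / E / 2 := by
    rw [le_div_iff₀ (by norm_num), le_div_iff₀ hEq]
    have : (2 : ℚ) * E + E ^ 2 ≤ c.M := by exact_mod_cast hME
    nlinarith
  have h9 : 3 * (c.M : ℚ) / E = 2 * c.M / E + c.M / E / 2 + c.M / E / 2 := by field_simp; ring
  rw [h9]
  linarith

theorem sum_cf : ∑ x ∈ c.U, c.cf x = c.H.card - ∑ g ∈ c.Gf, ((c.Z g).card : ℚ) := by
  classical
  unfold cf
  rw [sum_sub_distrib]
  congr 1
  · unfold H
    rw [card_filter]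
    push_cast
    rfl
  · have : ∀ g ∈ c.Gf, ((c.Z g).card : ℚ) = ∑ x ∈ c.U, (if x ∈ c.Z g then 1 else 0) := by
      intro g hg
      rw [sum_ite_mem, inter_eq_right.2 (c.Z_sub g hg)]
      simp
    rw [sum_congr rfl this, sum_comm]
    refine sum_congr rfl fun x _ => ?_
    rw [← sum_filter, sum_const, nsmul_eq_mul, mul_one]

theorem sum_load : ∑ x ∈ c.U, ((c.Gf.filter (fun g => x ∈ c.Z g)).card : ℚ)
    = ∑ g ∈ c.Gf, ((c.Z g).card : ℚ) := by
  classical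
  have : ∀ g ∈ c.Gf, ((c.Z g).card : ℚ) = ∑ x ∈ c.U, (if x ∈ c.Z g then 1 else 0) := by
    intro g hg
    rw [sum_ite_mem, inter_eq_right.2 (c.Z_sub g hg)]
    simp
  rw [sum_congr rfl this, sum_comm]
  refine sum_congr rfl fun x _ => ?_
  rw [← sum_filter, sum_const, nsmul_eq_mul, mul_one]

theorem sum_cf_sq {K : ℕ} (hK : ∀ x ∈ c.U, (c.Gf.filter (fun g => x ∈ c.Z g)).card ≤ K) :
    ∑ x ∈ c.U, c.cf x ^ 2 ≤ c.H.card + K * ∑ g ∈ c.Gf, ((c.Z g).card : ℚ) := by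
  classical
  rw [← c.sum_load]
  have hH : (c.H.card : ℚ) = ∑ x ∈ c.U, (if c.loc x ∉ c.Gf then (1 : ℚ) else 0) := by
    unfold H
    rw [card_filter]
    push_cast
    rfl
  rw [hH, mul_sum, ← sum_add_distrib]
  refine sum_le_sum fun x hx => ?_
  have h1 : ((c.Gf.filter (fun g => x ∈ c.Z g)).card : ℚ) ≤ K := by exact_mod_cast hK x hx
  have h2 : (0 : ℚ) ≤ ((c.Gf.filter (fun g => x ∈ c.Z g)).card : ℚ) := by positivity
  unfold cf
  split_ifs <;> nlinarith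

/-- a coarse tight location that is not full has a sampled foreign item -/
theorem notFull_le (ω : Ω) :
    (c.Gf.filter (fun g => c.mu R ω g < c.M)).card ≤ ∑ g ∈ c.Gf, cnt R ω (c.Z g) := by
  rw [card_filter]
  refine sum_le_sum fun g hg => ?_
  split_ifs with h
  · by_contra hcon
    have h0 : cnt R ω (c.Z g) = 0 := by omega
    unfold mu at h
    rw [if_pos hg, h0] at h
    simp at h
  · exact Nat.zero_le _

/-- **The good seed.** -/
theorem exists_good (h : PW S R p c.U) {m : ℕ} (hm : 0 < m) (hpm : p * m ≤ c.M)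
    (hpm1 : (c.M : ℚ) - 1 ≤ p * m) {T E K C2 CH s : ℕ} (hT : 0 < T) (hE : 4 ≤ E)
    (hs : 0 < s) (hC2 : 0 < C2) (hKs : K ≤ C2 * s)
    (hζ : ∀ g ∈ c.Gf, 2 * T * (c.Z g).card ≤ m)
    (hZsum : ∑ g ∈ c.Gf, (c.Z g).card ≤ C2 * s * m)
    (hH : c.H.card ≤ CH * s * m)
    (hK : ∀ x ∈ c.U, (c.Gf.filter (fun g => x ∈ c.Z g)).card ≤ K)
    (hP : ∀ j ∈ c.J0, E * m ≤ E * (c.P j).card + 2 * m) (hP' : ∀ j ∈ c.J0, (c.P j).card ≤ m)
    (hPd : ∑ j ∈ c.J0, (c.P j).card ≤ c.H.card)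
    (hME : 2 * E + E ^ 2 ≤ c.M) {e : ℚ} (he : 0 < e) (he1 : e ≤ 1)
    (hM1 : 4 * ((CH : ℚ) + C2 ^ 2) ≤ e ^ 3 * c.M)
    (hM2 : 3 * (C2 : ℚ) ≤ e ^ 2 * T) (hM3 : 6 * (C2 : ℚ) ≤ e ^ 2 * c.M)
    (hM4 : 72 * (CH : ℚ) ≤ e ^ 2 * E)
    {f1 : Ω → ℚ} (hf1 : ∀ ω ∈ S, 0 ≤ f1 ω) {B1 : ℚ} (hB1 : 0 < B1) (ha1 : avg S f1 ≤ B1) :
    ∃ ω ∈ S, f1 ω ≤ (1 + 3 * e) * B1 ∧
      ((∑ v ∈ c.Lam, c.mu R ω v : ℕ) : ℚ) ≤ c.M * c.Gf.card
        + p * (c.H.card - ∑ g ∈ c.Gf, ((c.Z g).card : ℚ)) + 2 * e * c.M * s ∧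
      ((c.Gf.filter (fun g => c.mu R ω g < c.M)).card : ℚ) ≤ 4 / e * (c.M * C2 * s) := by
  classical
  have hM0 : (0 : ℚ) < c.M := by exact_mod_cast c.M_pos
  have hmq : (0 : ℚ) < m := by exact_mod_cast hm
  have hTq : (0 : ℚ) < T := by exact_mod_cast hT
  have hEq : (4 : ℚ) ≤ E := by exact_mod_cast hE
  have hE0 : (0 : ℚ) < E := by linarith
  have hsq : (1 : ℚ) ≤ s := by exact_mod_cast hs
  have hs0 : (0 : ℚ) < s := by linarith
  have hC2q : (1 : ℚ) ≤ C2 := by exact_mod_cast hC2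
  have hp0 := h.p_nonneg
  have hpm' : p ≤ c.M / m := by rw [le_div_iff₀ hmq]; exact hpm
  set V : Ω → ℚ := fun ω => ∑ x ∈ c.U, c.cf x * ind R ω x with hV
  set EV : ℚ := p * ∑ x ∈ c.U, c.cf x with hEV
  set Zt : ℚ := ∑ g ∈ c.Gf, ((c.Z g).card : ℚ) with hZt
  have hZt0 : 0 ≤ Zt := sum_nonneg fun _ _ => by positivity
  have hZt1 : Zt ≤ C2 * s * m := by rw [hZt]; exact_mod_cast hZsum
  have hHq : (c.H.card : ℚ) ≤ CH * s * m := by exact_mod_cast hH
  -- second function: variance of the mass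
  have a2 : avg S (fun ω => (V ω - EV) ^ 2) ≤ c.M * s ^ 2 * (CH + C2 ^ 2) := by
    refine (h.var (subset_refl _) c.cf).trans ?_
    have h1 := c.sum_cf_sq hK
    have h2 : (K : ℚ) * Zt ≤ (C2 * s) * (C2 * s * m) := by
      have hK' : (K : ℚ) ≤ C2 * s := by exact_mod_cast hKs
      exact mul_le_mul hK' hZt1 hZt0 (by positivity)
    have h3 : ∑ x ∈ c.U, c.cf x ^ 2 ≤ (CH * s + (C2 * s) ^ 2) * m := by nlinarith
    have h4 : 0 ≤ ∑ x ∈ c.U, c.cf x ^ 2 := sum_nonneg fun _ _ => sq_nonneg _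
    calc p * ∑ x ∈ c.U, c.cf x ^ 2 ≤ c.M / m * ((CH * s + (C2 * s) ^ 2) * m) :=
          mul_le_mul hpm' h3 h4 (by positivity)
      _ = c.M * (CH * s + (C2 * s) ^ 2) := by field_simp
      _ ≤ c.M * s ^ 2 * (CH + C2 ^ 2) := by
          have : (CH : ℚ) * s ≤ CH * s ^ 2 := by
            refine mul_le_mul_of_nonneg_left ?_ (by positivity)
            nlinarith
          nlinarith
  -- third function: caps and additions
  have a3 : avg S (fun ω => ∑ g ∈ c.Gf, (cnt R ω (c.Z g) : ℚ) ^ 2 / (2 * c.M)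
        + ∑ j ∈ c.J0, ((c.M - cnt R ω (c.P j) : ℕ) : ℚ))
      ≤ C2 * s * (c.M / (4 * T) + 1 / 2) + 6 * CH * s * c.M / E := by
    rw [avg_add, avg_sum, avg_sum]
    refine add_le_add ?_ ?_
    · have h1 : ∀ g ∈ c.Gf, avg S (fun ω => (cnt R ω (c.Z g) : ℚ) ^ 2 / (2 * c.M))
          ≤ ((c.Z g).card : ℚ) * ((c.M / (4 * T) + 1 / 2) / m) := by
        intro g hg
        rw [avg_div, div_le_iff₀ (by positivity)]
        refine (h.sq_cnt (c.Z_sub g hg)).trans ?_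
        set ζ : ℚ := ((c.Z g).card : ℚ)
        have hζ0 : 0 ≤ ζ := by positivity
        have hζm : 2 * T * (((c.Z g).card : ℕ) : ℚ) ≤ m := by exact_mod_cast hζ g hg
        have hpζ : p * ζ ≤ c.M / (2 * T) := by
          rw [le_div_iff₀ (by positivity)]
          have := mul_le_mul_of_nonneg_left hζm hp0
          nlinarith
        have h2 : (p * ζ) ^ 2 + p * ζ ≤ (p * ζ) * (c.M / (2 * T) + 1) := by
          rw [pow_two, mul_add, mul_one]
          have := mul_le_mul_of_nonneg_left hpζ (mul_nonneg hp0 hζ0)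
          linarith
        have h3 : (p * ζ) * (c.M / (2 * T) + 1) ≤ (c.M / m * ζ) * (c.M / (2 * T) + 1) :=
          mul_le_mul_of_nonneg_right (mul_le_mul_of_nonneg_right hpm' hζ0) (by positivity)
        refine h2.trans (h3.trans (le_of_eq ?_))
        field_simp
        ring
      refine (sum_le_sum h1).trans ?_
      rw [← sum_mul]
      have h4 : Zt * ((c.M / (4 * T) + 1 / 2) / m) ≤ (C2 * s * m) * ((c.M / (4 * T) + 1 / 2) / m) :=
        mul_le_mul_of_nonneg_right hZt1 (by positivity)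
      refine h4.trans (le_of_eq ?_)
      field_simp
    · have h1 : ∀ j ∈ c.J0, avg S (fun ω => ((c.M - cnt R ω (c.P j) : ℕ) : ℚ)) ≤ 3 * c.M / E :=
        fun j hj => c.avg_add_rep h hm hpm hpm1 (by omega) hME hj (hP j hj) (hP' j hj)
      refine (sum_le_sum h1).trans ?_
      rw [sum_const, nsmul_eq_mul]
      have h2 : (c.J0.card : ℚ) * m ≤ 2 * c.H.card := by
        have h3 : ∀ j ∈ c.J0, m ≤ 2 * (c.P j).card := by
          intro j hj
          have := hP j hj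
          have hx : 4 * m ≤ E * m := Nat.mul_le_mul_right _ hE
          by_contra hcon
          push Not at hcon
          have : E * (2 * (c.P j).card) + E ≤ E * m := by
            have : 2 * (c.P j).card + 1 ≤ m := hcon
            nlinarith
          nlinarith
        have h4 : c.J0.card * m ≤ 2 * ∑ j ∈ c.J0, (c.P j).card := by
          rw [mul_sum, ← smul_eq_mul, ← sum_const]
          exact sum_le_sum h3
        have h5 : c.J0.card * m ≤ 2 * c.H.card := by omega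
        exact_mod_cast h5
      have h6 : (c.J0.card : ℚ) ≤ 2 * (CH * s) := by
        have : (c.J0.card : ℚ) * m ≤ (2 * (CH * s)) * m := by linarith
        exact le_of_mul_le_mul_right this hmq
      have h7 := mul_le_mul_of_nonneg_right h6 (show 0 ≤ 3 * (c.M : ℚ) / E by positivity)
      refine h7.trans (le_of_eq ?_)
      field_simp
      ring
  -- fourth function
  have a4 : avg S (fun ω => ∑ g ∈ c.Gf, (cnt R ω (c.Z g) : ℚ)) ≤ c.M * C2 * s := by
    rw [avg_sum]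
    have h1 : ∀ g ∈ c.Gf, avg S (fun ω => (cnt R ω (c.Z g) : ℚ)) = p * (c.Z g).card :=
      fun g hg => h.mean_cnt (c.Z_sub g hg)
    rw [sum_congr rfl h1, ← mul_sum]
    calc p * Zt ≤ c.M / m * (C2 * s * m) := mul_le_mul hpm' hZt1 hZt0 (by positivity)
      _ = c.M * C2 * s := by field_simp
  have hB2 : (0 : ℚ) < c.M * s ^ 2 * (CH + C2 ^ 2) := by positivity
  have hB3 : (0 : ℚ) < C2 * s * (c.M / (4 * T) + 1 / 2) + 6 * CH * s * c.M / E := by positivity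
  have hB4 : (0 : ℚ) < c.M * C2 * s := by positivity
  obtain ⟨ω, hω, r1, r2, r3, r4⟩ := four_avg h.ne hf1 (fun ω _ => sq_nonneg (V ω - EV))
    (fun ω _ => add_nonneg (sum_nonneg fun g _ => by positivity) (sum_nonneg fun j _ => by
      positivity)) (fun ω _ => sum_nonneg fun g _ => by positivity) hB1 hB2 hB3 hB4 he he1 ha1
    a2 a3 a4
  refine ⟨ω, hω, r1, ?_, ?_⟩
  · have hmass := c.mass (R := R) ω
    have k1 : V ω - EV ≤ e * c.M * s := by
      have : (V ω - EV) ^ 2 ≤ (e * c.M * s) ^ 2 := by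
        refine r2.trans ?_
        rw [div_mul_eq_mul_div, div_le_iff₀ he]
        have := mul_le_mul_of_nonneg_left hM1 (show (0 : ℚ) ≤ c.M * s ^ 2 by positivity)
        nlinarith
      exact (le_abs_self _).trans (abs_le_of_sq_le_sq this (by positivity))
    have k2 : 4 / e * (C2 * s * (c.M / (4 * T) + 1 / 2) + 6 * CH * s * c.M / E) ≤ e * c.M * s := by
      rw [div_mul_eq_mul_div, div_le_iff₀ he]
      have t1 : (C2 : ℚ) * (c.M / T) ≤ e ^ 2 * c.M / 3 := by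
        rw [← mul_div_assoc, div_le_div_iff₀ hTq (by norm_num)]
        have := mul_le_mul_of_nonneg_right hM2 hM0.le
        nlinarith
      have t2 : (C2 : ℚ) * 2 ≤ e ^ 2 * c.M / 3 := by linarith
      have t3 : 24 * (CH : ℚ) * (c.M / E) ≤ e ^ 2 * c.M / 3 := by
        rw [← mul_div_assoc, div_le_div_iff₀ hE0 (by norm_num)]
        have := mul_le_mul_of_nonneg_right hM4 hM0.le
        nlinarith
      have t4 : 4 * (C2 * s * (c.M / (4 * T) + 1 / 2) + 6 * CH * s * c.M / E)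
          = ((C2 : ℚ) * (c.M / T) + C2 * 2 + 24 * CH * (c.M / E)) * s := by
        field_simp
        ring
      rw [t4]
      have t5 : ((C2 : ℚ) * (c.M / T) + C2 * 2 + 24 * CH * (c.M / E)) * s
          ≤ (e ^ 2 * c.M) * s := mul_le_mul_of_nonneg_right (by linarith) hs0.le
      nlinarith
    have k3 : EV = p * (c.H.card - Zt) := by rw [hEV, c.sum_cf]
    rw [← k3]
    linarith
  · have h5 := c.notFull_le (R := R) ω
    have h6 : ((c.Gf.filter (fun g => c.mu R ω g < c.M)).card : ℚ)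
        ≤ ∑ g ∈ c.Gf, (cnt R ω (c.Z g) : ℚ) := by exact_mod_cast h5
    exact h6.trans r4

end Core

end Crest.Agent.R310.Gran
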