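import Crest.Agent.R310.GranFin

/-!
# R310, block GRAN, part 10: `GranOK` and `GranPT`
-/

set_option linter.dupNamespace false
set_option linter.unusedSectionVars false
set_option autoImplicit false

namespace Crest.Agent.R310.Gran

open Finset Crest.Agent.Lib.PT Crest.Agent.Lib.PT.Arith Crest.LogicCS.KMedian

/-- every copy repeated `M` times -/
def rep (M : ℕ) (Y : List ℕ) : List ℕ := Y.flatMap (fun v => List.replicate M v)

theorem length_rep (M : ℕ) (Y : List ℕ) : (rep M Y).length = M * Y.length := by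
  unfold rep
  induction Y with
  | nil => simp
  | cons a Y ih => rw [List.flatMap_cons, List.length_append, ih, List.length_replicate,
      List.length_cons]; ring

theorem count_rep (M : ℕ) (Y : List ℕ) (v : ℕ) : (rep M Y).count v = M * Y.count v := by
  unfold rep
  induction Y with
  | nil => simp
  | cons a Y ih =>
    rw [List.flatMap_cons, List.count_append, ih, List.count_replicate, List.count_cons]
    by_cases hav : a = v
    · simp [hav]; ring
    · simp [hav]

theorem mem_rep {M : ℕ} {Y : List ℕ} {v : ℕ} (h : v ∈ rep M Y) : v ∈ Y := by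
  unfold rep at h
  obtain ⟨a, ha, hv⟩ := List.mem_flatMap.1 h
  rw [(List.mem_replicate.1 hv).2]
  exact ha

/-- the fine cost of the repeated list -/
theorem near_rep {r : RI} {Y : List ℕ} {m M j N : ℕ} (hm : m ≤ Y.length)
    (hY : ∀ y ∈ Y, y < N) (hd : ∀ v, 0 ≤ riD r v j) :
    ∑ e ∈ (range (rep M Y).length).filter (fun e => near r (rep M Y) (M * m) j e = true),
        riD r ((rep M Y).getD e 0) j
      ≤ M * ∑ e ∈ (range Y.length).filter (fun e => near r Y m j e = true),
        riD r (Y.getD e 0) j := by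
  classical
  set F := (range Y.length).filter (fun e => near r Y m j e = true) with hF
  have hFl : ∀ e ∈ F, Y.getD e 0 ∈ range N := by
    intro e he
    have he1 : e < Y.length := mem_range.1 (mem_filter.1 he).1
    rw [List.getD_eq_getElem?_getD, List.getElem?_eq_getElem he1, Option.getD_some]
    exact mem_range.2 (hY _ (List.getElem_mem _))
  have hcnt : ∀ v, ((range Y.length).filter (fun e => Y.getD e 0 = v)).card = Y.count v := by
    intro v
    have := Par.cntL_count (c := ⟨r, Y, m, [], 0, 0, 0, 0⟩) v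
    rw [Par.cntL_eq] at this
    exact this
  have h := near_le_plan (r := r) (Yc := rep M Y) (N := N) (M := M * m) (j := j)
    (n := fun v => M * (F.filter (fun e => Y.getD e 0 = v)).card)
    (fun v _ => by
      rw [count_rep, ← hcnt v]
      refine Nat.mul_le_mul_left _ (card_le_card ?_)
      intro e he
      rw [mem_filter] at he ⊢
      exact ⟨(mem_filter.1 he.1).1, he.2⟩)
    (by
      rw [← mul_sum]
      congr 1
      rw [← card_eq_sum_card_fiberwise hFl]
      exact near_card r Y hm j) hd
  refine h.2.trans (le_of_eq ?_)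
  have e1 : ∀ v ∈ range N, ((M * (F.filter (fun e => Y.getD e 0 = v)).card : ℕ) : ℚ) * riD r v j
      = M * ∑ e ∈ F.filter (fun e => Y.getD e 0 = v), riD r (Y.getD e 0) j := by
    intro v _
    rw [sum_congr rfl (g := fun _ => riD r v j) (fun e he => by rw [(mem_filter.1 he).2]),
      sum_const, nsmul_eq_mul]
    push_cast; ring
  rw [sum_congr rfl e1, ← mul_sum]
  congr 1
  exact sum_fiberwise_of_maps_to hFl _

/-- the parameters used by the generator -/
def par (T E M κ : ℕ) (r : RI) (Y : List ℕ) (m : ℕ) (Gt : List ℕ) (s : ℕ) : Par :=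
  ⟨r, rep M Y, M * m, Gt, T, E, M, κ * s⟩

/-- the generator -/
def gran (T E M κ : ℕ) (r : RI) (Y : List ℕ) (m : ℕ) (Gt : List ℕ) (s : ℕ) : List (List ℕ) :=
  (par T E M κ r Y m Gt s).granL

theorem gran_pt (T E M κ : ℕ) : GranPT (gran T E M κ) := by
  intro r Y m Gt s hr hY hm hGt hs
  have hY' : PTF (fun c => rep M (Y c)) := by
    refine PTF.flatMap (l := fun c => Y c) (f := fun _ v => List.replicate M v) hY ?_
    exact PTF.replicate (PTU.const _) PTF.snd
  exact granPT_of T E M κ r (fun c => rep M (Y c)) (fun c => M * m c) Gt s hr hY'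
    (PTU.mul (PTU.const _) hm) hGt hs

/-- **the block GRAN** -/
theorem block_gran (x : ℚ) (C1 C2 : ℕ) (hx : 0 < x) (hx1 : 1000 * x ≤ 1) :
    ∃ gran M s0 C3, 0 < M ∧ GranOK x C1 C2 gran M s0 C3 ∧ GranPT gran := by
  classical
  have he : 0 < x / 8 := by positivity
  obtain ⟨T, E, M, hN⟩ := exists_num he (by linarith) C1 (C2 + 1) (by omega)
  obtain ⟨s0, hs0⟩ := exists_nat_ge (3 / x)
  obtain ⟨C3, hC3⟩ := exists_nat_ge (4 / (x / 8) * ((M : ℚ) * ((C2 + 1 : ℕ) : ℚ)))
  refine ⟨gran T E M (C2 + 1), M, max s0 1, 2 * T * (C2 + 1) + C3, hN.M_pos, ?_, gran_pt _ _ _ _⟩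
  intro I Y m Gt s A hI hYN hm hmY hGn hGN hs hA hf hdef hlen
  have hs1 : 1 ≤ s := (le_max_right _ _).trans hs
  have hsq : 3 / x ≤ s := hs0.trans (by exact_mod_cast (le_max_left _ _).trans hs)
  set c : Par := par T E M (C2 + 1) (raw I) Y m Gt s with hc
  have hMpos := hN.M_pos
  have hL : c.L = M * Y.length := length_rep M Y
  have hn : c.n = I.N := riN_raw I
  have hm' : c.m = M * m := rfl
  have h : c.Ok := by
    refine ⟨fun i j => riD_nonneg hI i j, ?_, ?_, ?_, ?_, ?_, ?_, ?_, ?_, hGn, hN.T2, hN.E4,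
      hN.M_pos, hN.M_even, ?_, ?_⟩
    · intro i hi
      rw [hn] at hi
      have := riD_raw I ⟨i, hi⟩ ⟨i, hi⟩
      simp only at this
      change riD (raw I) i i = 0
      rw [this]; exact hI.1 _
    · intro i hi j hj hij
      rw [hn] at hi hj
      have := riD_raw I ⟨i, hi⟩ ⟨j, hj⟩
      simp only at this
      change 0 < riD (raw I) i j
      rw [this]
      exact hI.2.1 _ _ (by simpa using hij)
    · intro i hi j hj
      rw [hn] at hi hj
      exact riD_symm hI hi hj
    · intro i hi j hj k hk
      rw [hn] at hi hj hk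
      exact riD_tri hI hi hj hk
    · intro e he'
      rw [hn]
      have he2 : e < (rep M Y).length := he'
      change (rep M Y).getD e 0 < I.N
      rw [List.getD_eq_getElem?_getD, List.getElem?_eq_getElem he2, Option.getD_some]
      exact hYN _ (mem_rep (List.getElem_mem _))
    · exact Nat.mul_pos hMpos hm
    · rw [hL, hm']; exact Nat.mul_le_mul_left _ hmY
    · intro g hg; rw [hn]; exact hGN g hg
    · rw [hm']; exact Nat.le_mul_of_pos_right _ hm
    · exact Nat.mul_pos (by omega) hs1
  have hMq : (0 : ℚ) < M := by exact_mod_cast hMpos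
  have hmq : (0 : ℚ) < m := by exact_mod_cast hm
  have hcost : ∑ j ∈ cliS (raw I), c.nc j ≤ c.m * A := by
    have h1 : ∀ j ∈ cliS (raw I), c.nc j ≤ M * ∑ e ∈ (range Y.length).filter
        (fun e => near (raw I) Y m j e = true), riD (raw I) (Y.getD e 0) j := by
      intro j _
      rw [Par.nc_eq]
      exact near_rep hmY hYN fun v => riD_nonneg hI v j
    refine (sum_le_sum h1).trans ?_
    rw [← mul_sum, hm']
    push_cast
    have h2 := mul_le_mul_of_nonneg_left hf hMq.le
    unfold fsum at h2
    linarith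
  have hcount : ∀ v, c.cntL v = M * Y.count v := fun v => by
    rw [Par.cntL_count]; exact count_rep M Y v
  have hdef' : ∑ g ∈ c.Gt.toFinset, (c.m - c.cntL g) ≤ (C2 + 1) * s * c.m := by
    have h1 : ∑ g ∈ c.Gt.toFinset, (c.m - c.cntL g)
        = M * (Gt.map (fun g => m - min m (Y.count g))).sum := by
      rw [← List.sum_toFinset _ hGn, mul_sum]
      refine sum_congr rfl fun g _ => ?_
      rw [hcount, hm', ← Nat.mul_sub]
      congr 1
      omega
    rw [h1, hm']
    calc M * (Gt.map (fun g => m - min m (Y.count g))).sum ≤ M * (C2 * s * m) :=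
          Nat.mul_le_mul_left _ hdef
      _ ≤ (C2 + 1) * s * (M * m) := by nlinarith [Nat.zero_le (s * (M * m))]
  have hlen' : c.L ≤ c.m * (c.Gt.length + C1 * s) := by
    rw [hL, hm', mul_assoc]
    exact Nat.mul_le_mul_left _ hlen
  have hs3 : 3 ≤ 8 * (x / 8) * s := by
    rw [div_le_iff₀ hx] at hsq
    linarith
  obtain ⟨Yc, h1, h2, h3, h4, h5, h6⟩ := Par.main h (e := x / 8) (C1 := C1) (C2 := C2 + 1)
    (s := s) hN rfl hs3 (D := cliS (raw I))
    (fun j hj => by
      unfold cliS at hj
      exact mem_range.1 (mem_filter.1 hj).1) hA hcost hdef' hlen' (C3 := C3) hC3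
  refine ⟨Yc, h1, fun y hy => mem_rep (h2 y hy), h3, ?_, ?_, h6⟩
  · have e1 : 8 * (x / 8) = x := by ring
    rw [e1] at h4
    exact h4
  · have e1 : 8 * (x / 8) = x := by ring
    rw [e1, hL, hm'] at h5
    have h7 : ((Yc.length : ℚ) * m) * M ≤ (M * (Y.length + x * s * m)) * M := by
      have h8 : (Yc.length : ℚ) * ((M * m : ℕ) : ℚ)
          ≤ M * (((M * Y.length : ℕ) : ℚ) + x * s * ((M * m : ℕ) : ℚ)) := h5
      push_cast at h8
      nlinarith
    exact le_of_mul_le_mul_right h7 hMq

end Crest.Agent.R310.Gran
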