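import Crest.Agent.R310.GranInst

/-!
# R310, block GRAN, bridge (helper929): multiplicities of the coarse list `granY`
-/

set_option linter.dupNamespace false
set_option linter.unusedSectionVars false
set_option autoImplicit false

namespace Crest.Agent.R310.Gran

open Finset

/-! ### generic list lemmas -/

theorem sum_ite_list {l : List ℕ} (hl : l.Nodup) (f : ℕ → ℕ) (v : ℕ) :
    (l.map (fun g => if g = v then f g else 0)).sum = if v ∈ l then f v else 0 := by
  rw [← List.sum_toFinset _ hl]
  have : ∀ g ∈ l.toFinset, (if g = v then f g else 0) = if v = g then f v else 0 := by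
    intro g _
    by_cases h : g = v
    · rw [if_pos h, if_pos h.symm, h]
    · rw [if_neg h, if_neg (fun h' => h h'.symm)]
  rw [Finset.sum_congr rfl this, Finset.sum_ite_eq]
  simp only [List.mem_toFinset]

theorem count_map_const (l : List ℕ) (a v : ℕ) :
    (l.map (fun _ => a)).count v = if a = v then l.length else 0 := by
  rw [List.map_const', List.count_replicate]
  simp only [beq_iff_eq]

theorem length_filter_range (L : ℕ) (p : ℕ → Bool) :
    ((List.range L).filter p).length = ((range L).filter (fun x => p x = true)).card := by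
  rw [← List.toFinset_card_of_nodup (List.Nodup.filter _ List.nodup_range)]
  congr 1
  ext x
  simp only [List.mem_toFinset, List.mem_filter, List.mem_range, Finset.mem_filter,
    Finset.mem_range]

theorem sum_map_filter_range (L : ℕ) (p : ℕ → Bool) (f : ℕ → ℕ) :
    (((List.range L).filter p).map f).sum = ∑ x ∈ (range L).filter (fun x => p x = true), f x := by
  rw [← List.sum_toFinset _ (List.Nodup.filter _ List.nodup_range)]
  refine Finset.sum_congr ?_ fun _ _ => rfl
  ext x
  simp only [List.mem_toFinset, List.mem_filter, List.mem_range, Finset.mem_filter,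
    Finset.mem_range]

/-- number of pairs -/
theorem card_pairs (A : Finset ℕ) (b : ℕ → ℕ) (p : ℕ → ℕ → Bool) (W : Finset (ℕ × ℕ))
    (hW : ∀ q : ℕ × ℕ, q ∈ W ↔ q.1 ∈ A ∧ q.2 < b q.1 ∧ p q.1 q.2 = true) :
    W.card = ∑ x ∈ A, ((range (b x)).filter (fun i => p x i = true)).card := by
  classical
  rw [Finset.card_eq_sum_card_fiberwise (f := Prod.fst) (t := A)
    (fun q hq => ((hW q).1 hq).1)]
  refine Finset.sum_congr rfl fun x hx => ?_
  have : W.filter (fun q => q.1 = x) = ((range (b x)).filter (fun i => p x i = true)).image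
      (fun i => (x, i)) := by
    ext q
    rw [Finset.mem_filter, Finset.mem_image, hW]
    constructor
    · rintro ⟨⟨_, h2, h3⟩, rfl⟩
      exact ⟨q.2, Finset.mem_filter.2 ⟨Finset.mem_range.2 h2, h3⟩, rfl⟩
    · rintro ⟨i, hi, rfl⟩
      rw [Finset.mem_filter, Finset.mem_range] at hi
      exact ⟨⟨hx, hi.1, hi.2⟩, rfl⟩
  rw [this, Finset.card_image_of_injective]
  intro i i' h
  exact (Prod.mk.injEq _ _ _ _ ▸ h).2

/-- items with one index per copy -/
theorem card_image_pairs (A : Finset ℕ) (k : ℕ → ℕ) (p : ℕ → ℕ → Bool) (W : Finset (ℕ × ℕ))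
    (hW : ∀ q : ℕ × ℕ, q ∈ W ↔ q.1 ∈ A ∧ q.2 = k q.1) :
    (W.filter (fun q => p q.1 q.2 = true)).card = (A.filter (fun x => p x (k x) = true)).card := by
  classical
  have : W.filter (fun q => p q.1 q.2 = true) =
      (A.filter (fun x => p x (k x) = true)).image (fun x => (x, k x)) := by
    ext q
    rw [Finset.mem_filter, Finset.mem_image, hW]
    constructor
    · rintro ⟨⟨h1, h2⟩, h3⟩
      refine ⟨q.1, Finset.mem_filter.2 ⟨h1, by rw [← h2]; exact h3⟩, ?_⟩
      rw [← h2]
    · rintro ⟨x, hx, rfl⟩
      rw [Finset.mem_filter] at hx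
      exact ⟨⟨hx.1, rfl⟩, hx.2⟩
  rw [this, Finset.card_image_of_injective]
  intro i i' h
  exact (Prod.mk.injEq _ _ _ _ ▸ h).1

/-- length = sum of the multiplicities -/
theorem length_eq_sum_count {l : List ℕ} {n : ℕ} (hl : ∀ v ∈ l, v < n) :
    l.length = ∑ v ∈ range n, l.count v := by
  induction l with
  | nil => simp
  | cons a l ih =>
    have ha : a < n := hl a List.mem_cons_self
    rw [List.length_cons, ih (fun v hv => hl v (List.mem_cons_of_mem _ hv))]
    have : ∀ v ∈ range n, (a :: l).count v = l.count v + if a = v then 1 else 0 := by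
      intro v _
      rw [List.count_cons]
      simp only [beq_iff_eq]
    rw [Finset.sum_congr rfl this, Finset.sum_add_distrib, Finset.sum_ite_eq,
      if_pos (Finset.mem_range.2 ha)]

namespace Par

variable (c : Par)

theorem mem_GfL {v : ℕ} : v ∈ c.GfL ↔ c.isF v = true := by
  unfold GfL
  rw [List.mem_filter]
  constructor
  · exact fun h => h.2
  · intro h
    refine ⟨?_, h⟩
    unfold isF at h
    rw [Bool.and_eq_true, decide_eq_true_eq] at h
    exact h.1

theorem nodup_GfL (h : c.Gt.Nodup) : c.GfL.Nodup := h.filter _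

/-- number of copies at `v` -/
theorem cntL_count (v : ℕ) : c.cntL v = c.Y.count v := by
  unfold cntL
  rw [length_filter_range]
  have hc : ∀ Y : List ℕ, ((range Y.length).filter (fun e => Y.getD e 0 = v)).card = Y.count v := by
    intro Y
    rw [Finset.card_filter]
    induction Y with
    | nil => simp
    | cons a Y ih =>
      rw [List.length_cons, Finset.sum_range_succ']
      simp only [List.getD_cons_succ, List.getD_cons_zero]
      rw [ih, List.count_cons]
      simp only [beq_iff_eq]
  rw [← hc c.Y]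
  congr 1
  ext e
  rw [Finset.mem_filter, Finset.mem_filter, decide_eq_true_eq]
  rfl

/-! ### the three parts -/

theorem count_partF (h : c.Gt.Nodup) (P : ℕ) (s : ℕ × ℕ) (v : ℕ) :
    (c.partF P s).count v = if c.isF v = true then c.M - min (c.M / 2) (c.zc P s v) else 0 := by
  unfold partF
  rw [List.count_flatMap]
  have : (List.count v ∘ fun g => List.replicate (c.M - min (c.M / 2) (c.zc P s g)) g) =
      fun g => if g = v then (c.M - min (c.M / 2) (c.zc P s g)) else 0 := by
    funext g
    simp only [Function.comp]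
    rw [List.count_replicate]
    simp only [beq_iff_eq]
  rw [this, sum_ite_list (c.nodup_GfL h)]
  simp only [c.mem_GfL]

theorem count_partH (P : ℕ) (s : ℕ × ℕ) (v : ℕ) :
    (c.partH P s).count v = if c.isF v = true then 0 else
      ∑ x ∈ (range c.L).filter (fun x => c.live x = true ∧ c.loc x = v),
        ((range (c.load x / c.K + 1)).filter (fun i => c.hit P s x i = true)).card := by
  unfold partH
  rw [List.count_flatMap]
  have h1 : (List.count v ∘ fun x =>
      ((List.range (c.load x / c.K + 1)).filter (fun i => c.hit P s x i)).map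
      (fun _ => c.loc x)) = fun x => if c.loc x = v then
        ((range (c.load x / c.K + 1)).filter (fun i => c.hit P s x i = true)).card else 0 := by
    funext x
    simp only [Function.comp]
    rw [count_map_const, length_filter_range]
  rw [h1, sum_map_filter_range]
  split_ifs with hv
  · refine Finset.sum_eq_zero fun x hx => ?_
    rw [Finset.mem_filter, Bool.and_eq_true, Bool.not_eq_true'] at hx
    rw [if_neg]
    intro h
    rw [h, hv] at hx
    exact absurd hx.2.2 (by simp)
  · rw [← Finset.sum_filter, Finset.filter_filter]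
    refine Finset.sum_congr ?_ fun _ _ => rfl
    ext x
    rw [Finset.mem_filter, Finset.mem_filter, Bool.and_eq_true, Bool.not_eq_true']
    constructor
    · rintro ⟨a, ⟨b, _⟩, d⟩; exact ⟨a, b, d⟩
    · rintro ⟨a, b, d⟩
      refine ⟨a, ⟨b, ?_⟩, d⟩
      rw [d]
      simpa using hv

theorem count_partA (hr : c.reps.Nodup) (P : ℕ) (s : ℕ × ℕ) (v : ℕ) :
    (c.partA P s).count v = ∑ j ∈ c.reps.toFinset.filter (fun j => c.pt j = v),
      (c.M - c.pc P s j) := by
  unfold partA
  rw [List.count_flatMap]
  have h1 : (List.count v ∘ fun j => List.replicate (c.M - c.pc P s j) (c.pt j)) =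
      fun j => if c.pt j = v then c.M - c.pc P s j else 0 := by
    funext j
    simp only [Function.comp]
    rw [List.count_replicate]
    simp only [beq_iff_eq]
  rw [h1, ← List.sum_toFinset _ hr, Finset.sum_filter]

theorem count_granY_list (h : c.Gt.Nodup) (hr : c.reps.Nodup) (P : ℕ) (s : ℕ × ℕ) (v : ℕ) :
    (c.granY P s).count v = (if c.isF v = true then c.M - min (c.M / 2) (c.zc P s v) else
      ∑ x ∈ (range c.L).filter (fun x => c.live x = true ∧ c.loc x = v),
        ((range (c.load x / c.K + 1)).filter (fun i => c.hit P s x i = true)).card) +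
      ∑ j ∈ c.reps.toFinset.filter (fun j => c.pt j = v), (c.M - c.pc P s j) := by
  unfold granY
  rw [List.count_append, List.count_append, c.count_partF h, c.count_partH, c.count_partA hr]
  split_ifs <;> ring

theorem nodup_PL (j : ℕ) : (c.PL j).Nodup := List.Nodup.filter _ List.nodup_range

/-- `pc` as a number of items -/
theorem pc_eq (P : ℕ) (s : ℕ × ℕ) (j : ℕ) (W : Finset (ℕ × ℕ))
    (hW : ∀ q : ℕ × ℕ, q ∈ W ↔ (q.1 < c.L ∧ c.Pb j q.1 = true) ∧ q.2 = 0) :
    cnt (fun (s : ℕ × ℕ) (q : ℕ × ℕ) => c.hit P s q.1 q.2) s W = c.pc P s j := by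
  classical
  unfold cnt pc
  rw [card_image_pairs ((c.PL j).toFinset) (fun _ => 0) (fun x i => c.hit P s x i) W
    (fun q => by rw [hW, List.mem_toFinset, mem_PL, mem_PF_iff])]
  rw [← List.toFinset_card_of_nodup ((c.nodup_PL j).filter _)]
  congr 1
  ext x
  simp only [Finset.mem_filter, List.mem_toFinset, List.mem_filter]

/-- `zc` as a number of items -/
theorem zc_eq (P : ℕ) (s : ℕ × ℕ) (g : ℕ) (W : Finset (ℕ × ℕ))
    (hW : ∀ q : ℕ × ℕ, q ∈ W ↔ (q.1 < c.L ∧ c.Zb g q.1 = true) ∧ q.2 = c.rank g q.1 / c.K) :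
    cnt (fun (s : ℕ × ℕ) (q : ℕ × ℕ) => c.hit P s q.1 q.2) s W = c.zc P s g := by
  classical
  unfold cnt zc
  rw [card_image_pairs ((range c.L).filter (fun x => c.Zb g x = true))
    (fun x => c.rank g x / c.K) (fun x i => c.hit P s x i) W
    (fun q => by rw [hW, Finset.mem_filter, Finset.mem_range])]
  rw [length_filter_range, Finset.filter_filter]
  congr 1
  ext x
  simp only [Finset.mem_filter, Finset.mem_range, Bool.and_eq_true]

/-- hub items at `v` -/
theorem hub_eq (P : ℕ) (s : ℕ × ℕ) (v : ℕ) (W : Finset (ℕ × ℕ))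
    (hW : ∀ q : ℕ × ℕ, q ∈ W ↔ q.1 < c.L ∧ c.live q.1 = true ∧ c.loc q.1 = v ∧
      q.2 < c.load q.1 / c.K + 1) :
    cnt (fun (s : ℕ × ℕ) (q : ℕ × ℕ) => c.hit P s q.1 q.2) s W =
      ∑ x ∈ (range c.L).filter (fun x => c.live x = true ∧ c.loc x = v),
        ((range (c.load x / c.K + 1)).filter (fun i => c.hit P s x i = true)).card := by
  classical
  unfold cnt
  refine card_pairs ((range c.L).filter (fun x => c.live x = true ∧ c.loc x = v))
    (fun x => c.load x / c.K + 1) (fun x i => c.hit P s x i) _ (fun q => ?_)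
  rw [Finset.mem_filter, hW, Finset.mem_filter, Finset.mem_range]
  constructor
  · rintro ⟨⟨a, b, d, e⟩, f⟩; exact ⟨⟨a, b, d⟩, e, f⟩
  · rintro ⟨⟨a, b, d⟩, e, f⟩; exact ⟨⟨a, b, d, e⟩, f⟩

variable {c}

/-- **Multiplicities of the coarse list.** -/
theorem count_granY (h : c.Ok) (hn : c.reps.Nodup) (P : ℕ) (s : ℕ × ℕ) {v : ℕ} (hv : v < c.n) :
    (c.granY P s).count v = (core h).mu (c.hitI P) s v := by
  rw [c.count_granY_list h.Gt_nodup hn]
  unfold Core.mu
  have hZ : cnt (c.hitI P) s (c.ZI v) = c.zc P s v :=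
    c.zc_eq P s v (c.ZI v) (fun q => by rw [mem_ZI, mem_ZF_iff])
  have hP : ∀ j, cnt (c.hitI P) s (c.PI j) = c.pc P s j := fun j =>
    c.pc_eq P s j (c.PI j) (fun q => by rw [mem_PI, mem_PF_iff])
  by_cases hF : c.isF v = true
  · have hG : v ∈ (core h).Gf := mem_Gf.2 hF
    rw [if_pos hF, if_pos hG]
    have h0 : c.reps.toFinset.filter (fun j => c.pt j = v) = ∅ := by
      rw [Finset.filter_eq_empty_iff]
      intro j hj hpt
      have h1 := (core h).pt_hub j hj
      change c.pt j ∉ c.Gf at h1
      rw [hpt] at h1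
      exact h1 hG
    rw [h0, Finset.sum_empty, add_zero]
    change _ = c.M - min (c.M / 2) (cnt (c.hitI P) s (c.ZI v))
    rw [hZ]
  · have hG : v ∉ (core h).Gf := fun h' => hF (mem_Gf.1 h')
    rw [if_neg hF, if_neg hG]
    congr 1
    · refine (c.hub_eq P s v _ (fun q => ?_)).symm
      change q ∈ c.UF.filter (fun x => c.loc x.1 = v) ↔ _
      rw [Finset.mem_filter, mem_UF, mem_liveF]
      have h1 := load_le h q.1
      have h2 : c.load q.1 / c.K ≤ c.load q.1 := Nat.div_le_self _ _
      constructor
      · rintro ⟨⟨⟨a, b⟩, _, e⟩, f⟩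
        exact ⟨a, b, f, by omega⟩
      · rintro ⟨a, b, f, e⟩
        exact ⟨⟨⟨a, b⟩, by omega, by omega⟩, f⟩
    · refine Finset.sum_congr rfl fun j _ => ?_
      change _ = c.M - cnt (c.hitI P) s (c.PI j)
      rw [hP]

/-- every entry of the coarse list is an entry of the fine list -/
theorem granY_mem (h : c.Ok) (P : ℕ) (s : ℕ × ℕ) : ∀ y ∈ c.granY P s, y ∈ c.Y := by
  have hloc : ∀ e < c.L, c.loc e ∈ c.Y := by
    intro e he
    unfold loc
    have he' : e < c.Y.length := he
    rw [List.getD_eq_getElem _ _ he']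
    exact List.getElem_mem he'
  intro y hy
  unfold granY at hy
  rw [List.mem_append, List.mem_append] at hy
  rcases hy with hy | hy | hy
  · unfold partF at hy
    obtain ⟨g, hg, hy⟩ := List.mem_flatMap.1 hy
    rw [List.mem_replicate] at hy
    rw [hy.2]
    have h1 := (isF_iff.1 ((c.mem_GfL).1 hg)).2
    rw [c.cntL_count] at h1
    have hpos : 0 < c.Y.count g := by
      by_contra h0
      have h2 : c.Y.count g = 0 := by omega
      rw [h2] at h1
      have h3 := h.m_pos
      have h4 := h.T2
      simp only [Nat.sub_zero] at h1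
      nlinarith
    exact List.count_pos_iff.1 hpos
  · unfold partH at hy
    obtain ⟨x, hx, hy⟩ := List.mem_flatMap.1 hy
    obtain ⟨i, _, rfl⟩ := List.mem_map.1 hy
    exact hloc x (List.mem_range.1 (List.mem_filter.1 hx).1)
  · unfold partA at hy
    obtain ⟨j, hj, hy⟩ := List.mem_flatMap.1 hy
    rw [List.mem_replicate] at hy
    rw [hy.2]
    obtain ⟨e, he, hpt⟩ := pt_spec h (reps_prop hj).2
    rw [hpt]
    exact hloc e (mem_PF_iff.1 he).1

/-- entries of the fine list are points -/
theorem Y_lt (h : c.Ok) : ∀ y ∈ c.Y, y < c.n := by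
  intro y hy
  obtain ⟨e, he, rfl⟩ := List.getElem_of_mem hy
  have := h.loc_lt e he
  unfold loc at this
  rw [List.getD_eq_getElem _ _ he] at this
  exact this

/-- **Length of the coarse list.** -/
theorem length_granY (h : c.Ok) (hn : c.reps.Nodup) (P : ℕ) (s : ℕ × ℕ) :
    (c.granY P s).length = ∑ v ∈ range c.n, (core h).mu (c.hitI P) s v := by
  rw [length_eq_sum_count (fun y hy => Y_lt h y (granY_mem h P s y hy))]
  exact Finset.sum_congr rfl fun v hv => count_granY h hn P s (Finset.mem_range.1 hv)

end Par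

end Crest.Agent.R310.Gran
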