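import Crest.Agent.R310.GranCore
import Crest.Agent.R310.FracSpec

/-!
# R310, block GRAN, part 5: capacity of balls; from plans to the nearest copies of a list
-/

set_option linter.dupNamespace false
set_option linter.unusedSectionVars false
set_option autoImplicit false

namespace Crest.Agent.R310.Gran

open Finset

namespace Core

variable {X Ω : Type} [DecidableEq X] (c : Core X) {R : Ω → X → Bool}

/-- the sampled items at the hubs of a ball -/
theorem hub_part {ω : Ω} {Bl : Finset ℕ} {V : Finset X} (hV : V ⊆ c.U)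
    (hVB : ∀ x ∈ V, c.loc x ∈ Bl) (hVH : ∀ x ∈ V, c.loc x ∉ c.Gf) :
    cnt R ω V ≤ ∑ v ∈ Bl \ c.Gf, cnt R ω (c.U.filter (fun x => c.loc x = v)) := by
  have h1 : cnt R ω V = ∑ v ∈ Bl \ c.Gf, ((V.filter (fun x => R ω x = true)).filter
      (fun x => c.loc x = v)).card := by
    rw [card_loc (loc := c.loc) (fun x hx => ?_)]
    · rfl
    · have hx' := (mem_filter.1 hx).1
      exact mem_sdiff.2 ⟨hVB x hx', hVH x hx'⟩
  rw [h1]
  refine sum_le_sum fun v _ => ?_
  unfold cnt
  apply card_le_card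
  intro x hx
  simp only [mem_filter] at hx ⊢
  exact ⟨⟨hV hx.1.1, hx.2⟩, hx.1.2⟩

theorem sum_split {ω : Ω} {Bl : Finset ℕ} :
    ∑ v ∈ Bl, c.mu R ω v = ∑ v ∈ Bl.filter (fun v => v ∈ c.Gf), c.mu R ω v
      + ∑ v ∈ Bl \ c.Gf, (cnt R ω (c.U.filter (fun x => c.loc x = v))
        + ∑ j ∈ c.J0.filter (fun j => c.pt j = v), (c.M - cnt R ω (c.P j))) := by
  have h1 : ∑ v ∈ Bl \ c.Gf, (cnt R ω (c.U.filter (fun x => c.loc x = v))
        + ∑ j ∈ c.J0.filter (fun j => c.pt j = v), (c.M - cnt R ω (c.P j)))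
      = ∑ v ∈ Bl \ c.Gf, c.mu R ω v := by
    refine sum_congr rfl fun v hv => ?_
    unfold mu
    rw [if_neg (mem_sdiff.1 hv).2]
  have h2 : Bl.filter (fun v => v ∈ c.Gf) = Bl \ (Bl \ c.Gf) := by
    ext v; simp only [mem_filter, mem_sdiff]; tauto
  rw [h1, h2, sum_sdiff sdiff_subset]

/-- a ball that contains a nearly full tight location and its foreign items is rich -/
theorem cap_tight {ω : Ω} {Bl : Finset ℕ} {g : ℕ} (hg : g ∈ c.Gf) (hgB : g ∈ Bl)
    (hZ : ∀ x ∈ c.Z g, c.loc x ∈ Bl) : c.M ≤ ∑ v ∈ Bl, c.mu R ω v := by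
  classical
  by_cases h : ∃ x ∈ c.Z g, c.loc x ∈ c.Gf
  · obtain ⟨x, hx, hxG⟩ := h
    have hne : c.loc x ≠ g := c.Z_ne g hg x hx
    have h1 := c.avail_tight (R := R) (ω := ω) hg
    have h2 := c.avail_tight (R := R) (ω := ω) hxG
    have h3 : c.mu R ω g + c.mu R ω (c.loc x) ≤ ∑ v ∈ Bl, c.mu R ω v := by
      rw [← sum_pair (Ne.symm hne)]
      apply sum_le_sum_of_subset
      intro v hv
      rcases mem_insert.1 hv with rfl | hv
      · exact hgB
      · rw [mem_singleton.1 hv]; exact hZ x hx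
    have h4 := c.M_even
    omega
  · push Not at h
    rw [c.sum_split]
    have h1 : c.mu R ω g ≤ ∑ v ∈ Bl.filter (fun v => v ∈ c.Gf), c.mu R ω v :=
      single_le_sum (f := fun v => c.mu R ω v) (fun _ _ => Nat.zero_le _)
        (mem_filter.2 ⟨hgB, hg⟩)
    have h2 := c.hub_part (R := R) (ω := ω) (c.Z_sub g hg) hZ h
    have h3 : ∑ v ∈ Bl \ c.Gf, cnt R ω (c.U.filter (fun x => c.loc x = v))
        ≤ ∑ v ∈ Bl \ c.Gf, (cnt R ω (c.U.filter (fun x => c.loc x = v))
        + ∑ j ∈ c.J0.filter (fun j => c.pt j = v), (c.M - cnt R ω (c.P j))) :=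
      sum_le_sum fun v _ => Nat.le_add_right _ _
    have h4 : c.M ≤ c.mu R ω g + cnt R ω (c.Z g) := by
      unfold mu
      rw [if_pos hg]
      have : min (c.M / 2) (cnt R ω (c.Z g)) ≤ cnt R ω (c.Z g) := min_le_right _ _
      omega
    omega

/-- a ball that contains a representative is rich -/
theorem cap_rep {ω : Ω} {Bl : Finset ℕ} {j : ℕ} (hj : j ∈ c.J0)
    (hP : ∀ x ∈ c.P j, c.loc x ∈ Bl) (hpt : c.pt j ∈ Bl) : c.M ≤ ∑ v ∈ Bl, c.mu R ω v := by
  classical
  rw [c.sum_split]
  have h2 := c.hub_part (R := R) (ω := ω) (c.P_sub j hj) hP (c.P_hub j hj)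
  have h3 : c.M - cnt R ω (c.P j) ≤ ∑ v ∈ Bl \ c.Gf, ∑ j ∈ c.J0.filter (fun j => c.pt j = v),
      (c.M - cnt R ω (c.P j)) := by
    refine le_trans ?_ (single_le_sum (f := fun v => ∑ j ∈ c.J0.filter (fun j => c.pt j = v),
      (c.M - cnt R ω (c.P j))) (fun _ _ => Nat.zero_le _)
      (mem_sdiff.2 ⟨hpt, c.pt_hub j hj⟩))
    exact single_le_sum (f := fun j => c.M - cnt R ω (c.P j)) (fun _ _ => Nat.zero_le _)
      (mem_filter.2 ⟨hj, rfl⟩)
  rw [sum_add_distrib]
  omega

end Core

/-! ### from a plan to the nearest copies -/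

/-- a plan `n ≤ multiplicities` of total `M` bounds the cost of the `M` nearest copies -/
theorem near_le_plan {r : RI} {Yc : List ℕ} {N M j : ℕ}
    {n : ℕ → ℕ} (hn : ∀ v < N, n v ≤ Yc.count v) (hM : ∑ v ∈ range N, n v = M)
    (hd : ∀ v, 0 ≤ riD r v j) :
    M ≤ Yc.length ∧
    ∑ e ∈ (range Yc.length).filter (fun e => near r Yc M j e = true), riD r (Yc.getD e 0) j
      ≤ ∑ v ∈ range N, (n v : ℚ) * riD r v j := by
  classical
  -- the fibers
  have hfib : ∀ v, ((range Yc.length).filter (fun e => Yc.getD e 0 = v)).card = Yc.count v := by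
    intro v
    have h1 : ∀ l : List ℕ, ((range l.length).filter (fun e => l.getD e 0 = v)).card
        = l.count v := by
      intro l
      induction l with
      | nil => simp
      | cons a l ih =>
        rw [List.length_cons, range_add_one', filter_insert, List.count_cons]
        have e1 : ((range l.length).map ⟨fun i => i + 1, fun i j => by simp⟩).filter
            (fun e => (a :: l).getD e 0 = v)
            = ((range l.length).filter (fun e => l.getD e 0 = v)).map
              ⟨fun i => i + 1, fun i j => by simp⟩ := by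
          rw [filter_map]
          rfl
        by_cases hav : a = v
        · rw [if_pos (by simpa using hav), card_insert_of_notMem (by simp), e1, card_map, ih]
          simp [hav]
        · rw [if_neg (by simpa using hav), e1, card_map, ih]
          simp [hav]
    exact h1 Yc
  have hex : ∀ v, ∃ W ⊆ (range Yc.length).filter (fun e => Yc.getD e 0 = v),
      W.card = (if v < N then n v else 0) := by
    intro v
    apply exists_subset_card_eq
    rw [hfib]
    split_ifs with h
    · exact hn v h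
    · exact Nat.zero_le _
  choose W hW1 hW2 using hex
  set X : Finset ℕ := (range N).biUnion W with hX
  have hXs : X ⊆ range Yc.length := by
    intro e he
    obtain ⟨v, _, h⟩ := mem_biUnion.1 he
    exact (mem_filter.1 (hW1 v h)).1
  have hdis : ∀ v ∈ range N, ∀ v' ∈ range N, v ≠ v' → Disjoint (W v) (W v') := by
    intro v _ v' _ hne
    rw [disjoint_left]
    intro e he he'
    exact hne ((mem_filter.1 (hW1 v he)).2.symm.trans (mem_filter.1 (hW1 v' he')).2)
  have hXc : X.card = M := by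
    rw [hX, card_biUnion hdis, ← hM]
    exact sum_congr rfl fun v hv => by rw [hW2, if_pos (mem_range.1 hv)]
  have hML : M ≤ Yc.length := by
    rw [← hXc]
    simpa using card_le_card hXs
  refine ⟨hML, (near_min r Yc hML j hXs hXc.ge (fun e _ => hd _)).trans (le_of_eq ?_)⟩
  rw [hX, sum_biUnion hdis]
  refine sum_congr rfl fun v hv => ?_
  have : ∀ e ∈ W v, riD r (Yc.getD e 0) j = riD r v j := by
    intro e he
    rw [(mem_filter.1 (hW1 v he)).2]
  rw [sum_congr rfl this, sum_const, nsmul_eq_mul, hW2, if_pos (mem_range.1 hv)]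

end Crest.Agent.R310.Gran
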