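import Crest.Agent.R310.GranGeo

/-!
# R310, block GRAN, part 8: expected costs of the clients
-/

set_option linter.dupNamespace false
set_option linter.unusedSectionVars false
set_option autoImplicit false

namespace Crest.Agent.R310.Gran

open Finset

namespace Par

variable {c : Par}

/-- a random plan with expected cost at most `B` -/
def HasPlan (h : c.Ok) (P : ℕ) (j : ℕ) (B : ℚ) : Prop :=
  ∃ bd : ℕ × ℕ → ℚ, (∀ ω, ∃ n : ℕ → ℕ, (∀ v ∈ range c.n, n v ≤ (core h).mu (c.hitI P) ω v) ∧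
    ∑ v ∈ range c.n, n v = c.M ∧ ∑ v ∈ range c.n, (n v : ℚ) * riD c.r v j ≤ bd ω) ∧
    avg (seeds P) bd ≤ B

theorem att_bd (h : c.Ok) {P : ℕ} {p : ℚ} (hPW : PW (seeds P) (c.hitI P) p c.UF)
    (hpm : p * c.m ≤ c.M) (hpm1 : (c.M : ℚ) - 1 ≤ p * c.m) {j g : ℕ} (hj : j < c.n)
    (hg : g ∈ c.Gf) (ha : c.T * c.m ≤ c.T * c.aa j g + c.m) :
    HasPlan h P j (c.M / c.m * c.nc j * (1 + 4 / c.T + 4 / c.M)) := by
  refine ⟨(core h).attB (c.hitI P) (fun v => riD c.r v j) g, fun ω => ?_, ?_⟩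
  · exact (core h).plan_att (R := c.hitI P) (ω := ω) hg (fun v => riD c.r v j)
      (fun v _ => h.d_nonneg v j)
  · refine (core h).avg_att hPW h.m_pos hpm hpm1 h.T2 hg ?_ (h.d_nonneg g j) ha
      (aa_mul_le h j g) ?_
    · change 2 * c.T * (c.ZI g).card ≤ c.m
      rw [card_ZI]
      exact own_large h hg
    · change ∑ q ∈ c.ZI g, riD c.r (c.loc q.1) j + c.aa j g * riD c.r g j
        ≤ 2 * ((c.ZI g).card : ℚ) * riD c.r g j + c.nc j
      rw [card_ZI, sum_ZI g (fun x => riD c.r (c.loc x) j)]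
      exact att_ineq h hj (Gf_lt h hg)

/-- hub items of a client -/
def NI (c : Par) (j : ℕ) : Finset (ℕ × ℕ) :=
  ((c.NF j).filter (fun e => c.loc e ∉ c.Gf)).image (fun x => (x, 0))

theorem mem_NI {j : ℕ} {q : ℕ × ℕ} :
    q ∈ c.NI j ↔ (q.1 ∈ c.NF j ∧ c.loc q.1 ∉ c.Gf) ∧ q.2 = 0 := by
  unfold NI
  rw [mem_image]
  constructor
  · rintro ⟨x, hx, rfl⟩; exact ⟨mem_filter.1 hx, rfl⟩
  · rintro ⟨h1, h2⟩; exact ⟨q.1, mem_filter.2 h1, by rw [← h2]⟩

theorem card_NI (j : ℕ) :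
    (c.NI j).card = ((c.NF j).filter (fun e => c.loc e ∉ c.Gf)).card :=
  card_image_of_injective _ fun _ _ h => (Prod.mk.inj h).1

theorem sum_NI (j : ℕ) (f : ℕ → ℚ) :
    ∑ q ∈ c.NI j, f q.1 = ∑ x ∈ (c.NF j).filter (fun e => c.loc e ∉ c.Gf), f x := by
  unfold NI
  rw [sum_image (fun _ _ _ _ h => (Prod.mk.inj h).1)]

theorem NI_sub (j : ℕ) : c.NI j ⊆ c.UF := by
  intro q hq
  rw [mem_NI] at hq
  rw [mem_UF, hq.2]
  exact ⟨NF_live hq.1.1, Nat.zero_le _, Nat.zero_le _⟩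

theorem ord_bd (h : c.Ok)
    (hcov : ∀ j, j < c.n → c.isB j = true → ∃ j0 ∈ c.reps, c.nc j0 ≤ c.nc j ∧
      ∃ e ∈ c.PF j, e ∈ c.PF j0)
    {P : ℕ} {p : ℚ} (hPW : PW (seeds P) (c.hitI P) p c.UF)
    (hpm : p * c.m ≤ c.M) (hpm1 : (c.M : ℚ) - 1 ≤ p * c.m) {j : ℕ} (hj : j < c.n)
    (hna : ∀ g ∈ c.Gf, c.T * c.aa j g + c.m < c.T * c.m) {cc : ℚ} (hcc : 0 < cc) :
    HasPlan h P j (c.M / c.m * c.nc j + (2 + c.M / cc + cc) * c.U0 j) := by
  classical
  have hmq : (0 : ℚ) < c.m := by exact_mod_cast h.m_pos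
  have hMq : (0 : ℚ) < c.M := by exact_mod_cast h.M_pos
  have hTq : (2 : ℚ) ≤ c.T := by exact_mod_cast h.T2
  have hp0 := hPW.p_nonneg
  have hcap := ord_cap h hcov hj hna P
  have hBL : c.ball j ⊆ (core h).Lam := filter_subset _ _
  have hdg : ∀ v, 0 ≤ riD c.r v j := fun v => h.d_nonneg v j
  have hU0 := U0_nonneg h j
  have hU : ∀ v ∈ c.ball j, riD c.r v j ≤ c.U0 j := fun v hv => (mem_filter.1 hv).2
  have hNH : ∀ x ∈ c.NI j, (core h).loc x ∉ (core h).Gf := fun x hx => (mem_NI.1 hx).1.2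
  have hNm : (c.NI j).card ≤ c.m := by
    rw [card_NI, ← card_NF h j]; exact card_filter_le _ _
  by_cases hex : ∃ e0 ∈ c.NF j, c.loc e0 ∈ c.Gf
  · obtain ⟨e0, he0, hg⟩ := hex
    set g := c.loc e0 with hgdef
    have hgn := Gf_lt h hg
    have hfe : (c.NF j).filter (fun e => c.loc e ∉ c.Gf)
        = (c.NF j).filter (fun e => ¬ c.loc e = g) := by
      apply filter_congr
      intro e he
      constructor
      · intro h1 h2; exact h1 (h2 ▸ hg)
      · intro h1 h2; exact h1 (ord_unique h hna he he0 h2 hg)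
    have hadd := aa_add h j g
    have hcard : c.aa j g + (c.NI j).card = c.m := by rw [card_NI, hfe]; exact hadd
    set b : ℕ := c.M * c.aa j g / c.m with hb
    have hbm : b * c.m ≤ c.M * c.aa j g := Nat.div_mul_le_self _ _
    have hbm2 : c.M * c.aa j g < (b + 1) * c.m := by
      have := Nat.lt_div_mul_add (a := c.M * c.aa j g) h.m_pos
      rw [add_mul, one_mul]; exact this
    have hζ := own_large h hg
    have hna' := hna g hg
    have hb1 : ((core h).M : ℚ) - 2 ≤ p * (c.NI j).card + b := by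
      change (c.M : ℚ) - 2 ≤ p * (c.NI j).card + b
      have h1 : (c.aa j g : ℚ) + (c.NI j).card = c.m := by exact_mod_cast hcard
      have h2 : (c.M : ℚ) * c.aa j g < (b + 1) * c.m := by exact_mod_cast hbm2
      have h3 : p * c.aa j g ≤ b + 1 := by
        have h4 : p * c.m * c.aa j g ≤ c.M * c.aa j g :=
          mul_le_mul_of_nonneg_right hpm (by positivity)
        have h5 : (p * c.aa j g) * c.m ≤ (b + 1) * c.m := by nlinarith
        exact le_of_mul_le_mul_right h5 hmq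
      have h6 : ((c.NI j).card : ℚ) = c.m - c.aa j g := by linarith
      rw [h6]
      nlinarith
    have hb2 : (b : ℚ) + p * (c.ZI g).card ≤ (core h).M := by
      change (b : ℚ) + p * (c.ZI g).card ≤ c.M
      rw [card_ZI]
      have h1 : (b : ℚ) * c.m ≤ c.M * c.aa j g := by exact_mod_cast hbm
      have h2 : 2 * (c.T : ℚ) * (c.ZF g).card ≤ c.m := by exact_mod_cast hζ
      have h3 : (c.T : ℚ) * c.aa j g + c.m ≤ c.T * c.m := by exact_mod_cast hna'.le
      have h4 : p * (c.ZF g).card * c.m ≤ c.M * (c.ZF g).card := by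
        have := mul_le_mul_of_nonneg_right hpm (show (0 : ℚ) ≤ (c.ZF g).card by positivity)
        nlinarith
      have h5 : (c.aa j g : ℚ) + (c.ZF g).card ≤ c.m := by
        have hT0 : (0 : ℚ) < c.T := by linarith
        have : (c.T : ℚ) * (c.aa j g + (c.ZF g).card) ≤ c.T * c.m := by
          have : (0 : ℚ) ≤ c.T * (c.ZF g).card := by positivity
          nlinarith
        exact le_of_mul_le_mul_left this hT0
      have h6 : (b + p * (c.ZF g).card) * c.m ≤ c.M * c.m := by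
        have := mul_le_mul_of_nonneg_left h5 hMq.le
        nlinarith
      exact le_of_mul_le_mul_right h6 hmq
    have hZm : (c.ZI g).card ≤ c.m := by
      rw [card_ZI]
      have := card_ZF_own h hgn
      omega
    have hS : c.aa j g * riD c.r g j + ∑ x ∈ c.NI j, riD c.r (c.loc x.1) j ≤ c.nc j := by
      rw [sum_NI j (fun x => riD c.r (c.loc x) j), hfe, nc_split j g]
    refine ⟨(core h).ordB (c.hitI P) p (fun v => riD c.r v j) g b (c.NI j) (c.ZI g) (c.U0 j),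
      fun ω => ?_, ?_⟩
    · exact (core h).plan_ord (R := c.hitI P) (ω := ω) (N := c.NI j) (Zs := c.ZI g) (g := g)
        (b := b) (Bl := c.ball j) (NI_sub j) hNH (Or.inl ⟨hg, rfl⟩) hBL (hcap ω)
        (d := fun v => riD c.r v j) (fun v _ => hdg v) (hdg g) hU0 hU hb1 hb2
    · exact (core h).avg_ord hPW h.m_pos hpm (d := fun v => riD c.r v j) (g := g) (b := b)
        (NI_sub j) (ZI_sub h hg) hNm hZm (hdg g) (fun x _ => hdg (c.loc x.1)) hbm hS hcc hU0
  · push Not at hex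
    have hfe : (c.NF j).filter (fun e => c.loc e ∉ c.Gf) = c.NF j :=
      filter_true_of_mem fun e he => hex e he
    have hcard : (c.NI j).card = c.m := by rw [card_NI, hfe, card_NF h]
    refine ⟨(core h).ordB (c.hitI P) p (fun v => riD c.r v j) 0 0 (c.NI j) ∅ (c.U0 j),
      fun ω => ?_, ?_⟩
    · refine (core h).plan_ord (R := c.hitI P) (ω := ω) (N := c.NI j) (Zs := ∅) (g := 0)
        (b := 0) (Bl := c.ball j) (NI_sub j) hNH (Or.inr ⟨rfl, rfl⟩) hBL (hcap ω)
        (d := fun v => riD c.r v j) (fun v _ => hdg v) (hdg 0) hU0 hU ?_ ?_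
      · change (c.M : ℚ) - 2 ≤ p * (c.NI j).card + (0 : ℕ)
        rw [hcard]; push_cast; linarith
      · rw [card_empty]; push_cast
        change (0 : ℚ) + p * 0 ≤ c.M
        rw [mul_zero, add_zero]; exact hMq.le
    · have hS : ((0 : ℕ) : ℚ) * riD c.r 0 j + ∑ x ∈ c.NI j, riD c.r (c.loc x.1) j ≤ c.nc j := by
        rw [sum_NI j (fun x => riD c.r (c.loc x) j), hfe, nc_eq]
        simp
      exact (core h).avg_ord hPW h.m_pos hpm (d := fun v => riD c.r v j) (g := 0) (b := 0)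
        (NI_sub j) (empty_subset _) hNm (by simp) (hdg 0) (fun x _ => hdg (c.loc x.1)) (a := 0)
        (by simp) hS hcc hU0

theorem HasPlan.mono {h : c.Ok} {P j : ℕ} {B B' : ℚ} (hB : HasPlan h P j B) (hle : B ≤ B') :
    HasPlan h P j B' := by
  obtain ⟨bd, h1, h2⟩ := hB
  exact ⟨bd, h1, h2.trans hle⟩

/-- **every point has a cheap random plan** -/
theorem all_bd (h : c.Ok)
    (hcov : ∀ j, j < c.n → c.isB j = true → ∃ j0 ∈ c.reps, c.nc j0 ≤ c.nc j ∧
      ∃ e ∈ c.PF j, e ∈ c.PF j0)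
    {P : ℕ} {p : ℚ} (hPW : PW (seeds P) (c.hitI P) p c.UF)
    (hpm : p * c.m ≤ c.M) (hpm1 : (c.M : ℚ) - 1 ≤ p * c.m) {y : ℚ} (hy : 0 < y)
    (h1 : 8 ≤ y * c.T) (h2 : 8 ≤ y * c.M) (h3 : 81 * (c.E : ℚ) ^ 2 ≤ y ^ 2 * c.M)
    (h4 : 18 * (c.E : ℚ) ≤ y * c.M) {j : ℕ} (hj : j < c.n) :
    HasPlan h P j (c.M / c.m * c.nc j * (1 + y)) := by
  have hmq : (0 : ℚ) < c.m := by exact_mod_cast h.m_pos
  have hMq : (0 : ℚ) < c.M := by exact_mod_cast h.M_pos
  have hTq : (2 : ℚ) ≤ c.T := by exact_mod_cast h.T2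
  have hT0 : (0 : ℚ) < c.T := by linarith
  have hEq : (4 : ℚ) ≤ c.E := by exact_mod_cast h.E4
  have hE0 : (0 : ℚ) < c.E := by linarith
  have hnc := nc_nonneg h j
  by_cases hatt : ∃ g ∈ c.Gf, c.T * c.m ≤ c.T * c.aa j g + c.m
  · obtain ⟨g, hg, ha⟩ := hatt
    refine (att_bd h hPW hpm hpm1 hj hg ha).mono ?_
    refine mul_le_mul_of_nonneg_left ?_ (by positivity)
    have a1 : 4 / (c.T : ℚ) ≤ y / 2 := by
      rw [div_le_div_iff₀ hT0 (by norm_num)]; linarith
    have a2 : 4 / (c.M : ℚ) ≤ y / 2 := by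
      rw [div_le_div_iff₀ hMq (by norm_num)]; linarith
    linarith
  · push Not at hatt
    have hcc : (0 : ℚ) < y * c.M / (9 * c.E) := by positivity
    refine (ord_bd h hcov hPW hpm hpm1 hj hatt hcc).mono ?_
    have e1 : (c.M : ℚ) / (y * c.M / (9 * c.E)) = 9 * c.E / y := by field_simp
    have e2 : c.U0 j = c.M / c.m * c.nc j * (3 * c.E / c.M) := by
      unfold U0; field_simp
    have e3 : (2 + c.M / (y * c.M / (9 * c.E)) + y * c.M / (9 * c.E)) * (3 * c.E / c.M) ≤ y := by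
      rw [e1]
      have b1 : 2 * (3 * (c.E : ℚ) / c.M) ≤ y / 3 := by
        rw [← mul_div_assoc, div_le_div_iff₀ hMq (by norm_num)]; linarith
      have b2 : 9 * (c.E : ℚ) / y * (3 * c.E / c.M) ≤ y / 3 := by
        rw [div_mul_div_comm, div_le_div_iff₀ (by positivity) (by norm_num)]
        nlinarith
      have b3 : y * c.M / (9 * c.E) * (3 * c.E / c.M) = y / 3 := by field_simp; norm_num
      rw [add_mul, add_mul, b3]
      linarith
    have e4 : (c.M : ℚ) / c.m * c.nc j + (2 + c.M / (y * c.M / (9 * c.E)) + y * c.M / (9 * c.E))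
        * c.U0 j = c.M / c.m * c.nc j * (1 + (2 + c.M / (y * c.M / (9 * c.E))
          + y * c.M / (9 * c.E)) * (3 * c.E / c.M)) := by
      rw [e2]; ring
    rw [e4]
    refine mul_le_mul_of_nonneg_left ?_ (by positivity)
    linarith

end Par

end Crest.Agent.R310.Gran
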