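import Crest.Agent.R310.GranAvg
import Crest.Agent.R310.FracSpec

/-!
# R310, block GRAN, part 4: the coarse lists (list-level definitions)

Input: raw instance `r`, list `Y` of fine copies (locations), `m` = fine granularity, `Gt` = tight
points, constants `T E M`, load bound `K`, seed `(P, a, b)`.
-/

set_option linter.dupNamespace false
set_option autoImplicit false

namespace Crest.Agent.R310.Gran

/-- parameters of the coarsening -/
structure Par where
  /-- raw instance -/
  r : RI
  /-- fine copies (locations) -/
  Y : List ℕ
  /-- fine granularity -/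
  m : ℕ
  /-- tight points -/
  Gt : List ℕ
  /-- `1/T`: tolerated deficit -/
  T : ℕ
  /-- `1/E`: accuracy of the representatives -/
  E : ℕ
  /-- coarse granularity -/
  M : ℕ
  /-- maximal load of an item -/
  K : ℕ

namespace Par

variable (c : Par)

/-- number of copies -/
def L : ℕ := c.Y.length
/-- number of points -/
def n : ℕ := riN c.r
/-- location of a copy -/
def loc (e : ℕ) : ℕ := c.Y.getD e 0
/-- copy `e` is among the first `m` copies of its location -/
def live (e : ℕ) : Bool :=
  decide (((List.range e).filter (fun e' => decide (c.loc e' = c.loc e))).length < c.m)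
/-- number of copies at `v` -/
def cntL (v : ℕ) : ℕ := ((List.range c.L).filter (fun e => decide (c.loc e = v))).length
/-- nearly full tight location -/
def isF (v : ℕ) : Bool :=
  decide (v ∈ c.Gt) && decide (2 * c.T * (c.m - c.cntL v) ≤ c.m)
/-- the nearly full tight locations -/
def GfL : List ℕ := c.Gt.filter c.isF
/-- foreign copies used by the tight location `g` -/
def Zb (g e : ℕ) : Bool := near c.r c.Y c.m g e && !decide (c.loc e = g)
/-- number of tight locations using the copy `x` -/
def load (x : ℕ) : ℕ := (c.GfL.filter (fun g => c.Zb g x)).length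
/-- number of tight locations before `g` using the copy `x` -/
def rank (g x : ℕ) : ℕ := (c.GfL.filter (fun g' => decide (g' < g) && c.Zb g' x)).length
/-- code of the item `(x, i)` -/
def code (x i : ℕ) : ℕ := x * (c.n + 1) + i
/-- total distance of a client to its `m` nearest copies -/
def nc (j : ℕ) : ℚ :=
  ∑ e ∈ Finset.range c.L, if near c.r c.Y c.m j e = true then riD c.r (c.loc e) j else 0
/-- hub copies of a client within the Markov radius -/
def Pb (j e : ℕ) : Bool :=
  near c.r c.Y c.m j e && !c.isF (c.loc e) && decide (c.m * riD c.r (c.loc e) j ≤ c.E * c.nc j)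
/-- list of these copies -/
def PL (j : ℕ) : List ℕ := (List.range c.L).filter (c.Pb j)
/-- is `j` a candidate representative? -/
def isB (j : ℕ) : Bool := decide (c.E * c.m ≤ c.E * (c.PL j).length + 2 * c.m)
/-- `j'` comes before `j` -/
def before (j' j : ℕ) : Bool :=
  decide (c.nc j' < c.nc j) || (decide (c.nc j' = c.nc j) && decide (j' < j))
/-- position of `j` in the order -/
def pos (j : ℕ) : ℕ := ((List.range c.n).filter (fun j' => c.before j' j)).length
/-- common copies -/
def meets (j j' : ℕ) : Bool := (c.PL j).any (fun e => c.Pb j' e)
/-- one step of the greedy choice -/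
def repStep (J : List ℕ) (t : ℕ) : List ℕ :=
  J ++ (List.range c.n).filter
    (fun j => c.isB j && (decide (c.pos j = t) && J.all (fun j' => !c.meets j j')))
/-- representatives -/
def reps : List ℕ := (List.range c.n).foldl c.repStep []
/-- location of the added copies of a representative -/
def pt (j : ℕ) : ℕ := c.loc ((c.PL j).headD 0)

/-- `item (x, i)` is sampled by the seed `s` -/
def hit (P : ℕ) (s : ℕ × ℕ) (x i : ℕ) : Bool := hashB P (c.M * P / c.m) s (c.code x i)

/-- number of sampled foreign items of `g` -/
def zc (P : ℕ) (s : ℕ × ℕ) (g : ℕ) : ℕ :=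
  ((List.range c.L).filter (fun x => c.Zb g x && c.hit P s x (c.rank g x / c.K))).length

/-- number of sampled hub copies of a representative -/
def pc (P : ℕ) (s : ℕ × ℕ) (j : ℕ) : ℕ := ((c.PL j).filter (fun x => c.hit P s x 0)).length

/-- copies at the nearly full tight locations -/
def partF (P : ℕ) (s : ℕ × ℕ) : List ℕ :=
  c.GfL.flatMap (fun g => List.replicate (c.M - min (c.M / 2) (c.zc P s g)) g)

/-- sampled hub copies -/
def partH (P : ℕ) (s : ℕ × ℕ) : List ℕ :=
  ((List.range c.L).filter (fun x => c.live x && !c.isF (c.loc x))).flatMap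
    (fun x => ((List.range (c.load x / c.K + 1)).filter (fun i => c.hit P s x i)).map
      (fun _ => c.loc x))

/-- added copies -/
def partA (P : ℕ) (s : ℕ × ℕ) : List ℕ :=
  c.reps.flatMap (fun j => List.replicate (c.M - c.pc P s j) (c.pt j))

/-- **the coarse list of a seed** -/
def granY (P : ℕ) (s : ℕ × ℕ) : List ℕ := c.partF P s ++ (c.partH P s ++ c.partA P s)

/-- bound of the hash range -/
def X : ℕ := c.L * (c.n + 1)

/-- **all coarse lists** -/
def granL : List (List ℕ) :=
  (List.range (2 * c.X + 1)).flatMap (fun P => (List.range P).flatMap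
    (fun a => (List.range P).map (fun b => c.granY P (a, b))))

end Par

end Crest.Agent.R310.Gran
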