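import Crest.Agent.R310.GranSeed

/-!
# R310, block GRAN: loads of the items (helper670)
-/

set_option linter.dupNamespace false
set_option autoImplicit false

namespace Crest.Agent.R310.Gran.Par

open Finset

variable {c : Par}

theorem rank_lt_rank (h : c.Ok) {x g g' : ℕ} (hg : g ∈ c.Gf) (hx : c.Zb g x = true) (hlt : g < g') :
    c.rank g x < c.rank g' x := by
  rw [rank_eq h, rank_eq h]
  apply card_lt_card
  rw [ssubset_iff_of_subset]
  · exact ⟨g, mem_filter.2 ⟨hg, hlt, hx⟩, by simp⟩
  · intro g₁ hg₁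
    rw [mem_filter] at hg₁ ⊢
    exact ⟨hg₁.1, hg₁.2.1.trans hlt, hg₁.2.2⟩

/-- every item is used by at most `K` tight locations -/
theorem load_bound (h : c.Ok) (q : ℕ × ℕ) (_hq : q ∈ c.UF) :
    (c.Gf.filter (fun g => q ∈ c.ZI g)).card ≤ c.K := by
  have h1 : (c.Gf.filter (fun g => q ∈ c.ZI g)).card ≤ (Finset.Ico (q.2 * c.K) (q.2 * c.K + c.K)).card := by
    refine card_le_card_of_injOn (fun g => c.rank g q.1) ?_ ?_
    · intro g hg
      rw [mem_coe, mem_filter, mem_ZI] at hg
      rw [mem_coe, mem_Ico]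
      have h2 : q.2 = c.rank g q.1 / c.K := hg.2.2
      have h3 : c.K * (c.rank g q.1 / c.K) ≤ c.rank g q.1 := Nat.mul_div_le _ _
      have h4 : c.rank g q.1 < c.rank g q.1 / c.K * c.K + c.K :=
        Nat.lt_div_mul_add h.K_pos
      rw [h2]
      constructor
      · rw [mul_comm]; exact h3
      · exact h4
    · intro g hg g' hg' he
      rw [mem_coe, mem_filter, mem_ZI] at hg hg'
      by_contra hne
      rcases lt_or_gt_of_ne hne with hlt | hlt
      · have := rank_lt_rank h hg.1 (mem_ZF_iff.1 hg.2.1).2 hlt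
        have he' : c.rank g q.1 = c.rank g' q.1 := he
        omega
      · have := rank_lt_rank h hg'.1 (mem_ZF_iff.1 hg'.2.1).2 hlt
        have he' : c.rank g q.1 = c.rank g' q.1 := he
        omega
  simpa using h1

theorem sum_load (h : c.Ok) : ∑ x ∈ range c.L, c.load x = ∑ g ∈ c.Gf, (c.ZF g).card := by
  have h1 : ∀ x ∈ range c.L, c.load x = ∑ g ∈ c.Gf, if c.Zb g x = true then 1 else 0 := by
    intro x _
    rw [load_eq h, card_filter]
  rw [sum_congr rfl h1, sum_comm]
  refine sum_congr rfl fun g _ => ?_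
  unfold ZF
  rw [card_filter]

/-- number of hub items -/
theorem hub_items (h : c.Ok) : c.K * ((core h).H.card) ≤
    c.K * ((c.liveF.filter (fun e => c.loc e ∉ c.Gf)).card) + ∑ g ∈ c.Gf, (c.ZF g).card := by
  classical
  set B := c.liveF.filter (fun e => c.loc e ∉ c.Gf) with hB
  have hH : ∀ q ∈ (core h).H, q.1 ∈ B ∧ q.2 ≤ c.load q.1 / c.K := by
    intro q hq
    have hq1 : q ∈ c.UF ∧ c.loc q.1 ∉ c.Gf := by
      have := (mem_filter.1 hq)
      exact this
    obtain ⟨h2, _, h3⟩ := mem_UF.1 hq1.1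
    exact ⟨mem_filter.2 ⟨h2, hq1.2⟩, h3⟩
  have h1 : (core h).H.card = ∑ x ∈ B, ((core h).H.filter (fun q => q.1 = x)).card :=
    card_eq_sum_card_fiberwise fun q hq => (hH q hq).1
  have h2 : ∀ x ∈ B, ((core h).H.filter (fun q => q.1 = x)).card ≤ c.load x / c.K + 1 := by
    intro x _
    have h3 : ((core h).H.filter (fun q => q.1 = x)).card ≤ (range (c.load x / c.K + 1)).card := by
      refine card_le_card_of_injOn (fun q => q.2) ?_ ?_
      · intro q hq
        rw [mem_coe, mem_filter] at hq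
        rw [mem_coe, mem_range]
        have h4 := (hH q hq.1).2
        rw [hq.2] at h4
        exact Nat.lt_succ_of_le h4
      · intro q hq q' hq' he
        rw [mem_coe, mem_filter] at hq hq'
        exact Prod.ext (hq.2.trans hq'.2.symm) he
    simpa using h3
  have h3 : (core h).H.card ≤ ∑ x ∈ B, (c.load x / c.K + 1) := by
    rw [h1]; exact sum_le_sum h2
  have h4 : c.K * (core h).H.card ≤ ∑ x ∈ B, (c.load x + c.K) := by
    refine (Nat.mul_le_mul_left _ h3).trans ?_
    rw [mul_sum]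
    refine sum_le_sum fun x _ => ?_
    have := Nat.mul_div_le (c.load x) c.K
    calc c.K * (c.load x / c.K + 1) = c.K * (c.load x / c.K) + c.K := by ring
      _ ≤ _ := by omega
  have h5 : ∑ x ∈ B, c.load x ≤ ∑ g ∈ c.Gf, (c.ZF g).card := by
    rw [← sum_load h]
    refine sum_le_sum_of_subset ?_
    intro x hx
    exact mem_range.2 (mem_liveF.1 (mem_filter.1 hx).1).1
  rw [sum_add_distrib, sum_const, smul_eq_mul] at h4
  calc c.K * (core h).H.card ≤ ∑ x ∈ B, c.load x + B.card * c.K := h4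
    _ ≤ ∑ g ∈ c.Gf, (c.ZF g).card + B.card * c.K := by omega
    _ = _ := by ring

end Crest.Agent.R310.Gran.Par
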