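import Crest.Agent.R310.GranDef
import Crest.Agent.R310.Assembly

/-!
# R310, block GRAN, part 5: poly-time (helper670)

`PTFam P` = a family of parameters `Par` whose data are poly-time; `PTFam.granL`: the list of all coarse
lists is poly-time.  `granPT_of`: the form needed by `Assembly`.
-/

set_option linter.dupNamespace false
set_option autoImplicit false

namespace Crest.Agent.R310.Gran

open Crest.Agent.Lib.PT Crest.Agent.Lib.PT.Arith Crest.LogicCS.KMedian

/-- a poly-time family of parameters -/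
structure PTFam {γ : Type} [PTCode γ] (P : γ → Par) : Prop where
  r : PTF (fun c => (P c).r)
  Y : PTF (fun c => (P c).Y)
  m : PTU (fun c => (P c).m)
  Gt : PTF (fun c => (P c).Gt)
  T : PTF (fun c => (P c).T)
  E : PTF (fun c => (P c).E)
  M : PTU (fun c => (P c).M)
  K : PTF (fun c => (P c).K)

section

variable {γ δ : Type} [PTCode γ] [PTCode δ]

theorem flatMap_congr_mem {α β : Type} {l : List α} {f g : α → List β} (h : ∀ a ∈ l, f a = g a) :
    l.flatMap f = l.flatMap g := by
  induction l with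
  | nil => rfl
  | cons a l ih =>
    rw [List.flatMap_cons, List.flatMap_cons, h a (by simp), ih fun b hb => h b (by simp [hb])]

theorem ptf_headD {l : γ → List ℕ} (hl : PTF l) : PTF (fun c => (l c).headD 0) := by
  refine PTF.of_eq (PTF.optionGetD (s := fun c => (l c).head?) (d := fun _ => (0 : ℕ))
    (PTF.head? hl) (PTF.const _)) (fun c => ?_)
  cases l c <;> rfl

namespace PTFam

variable {P : γ → Par} (H : PTFam P) {e v g x i j j' t : γ → ℕ}

theorem comp (H : PTFam P) {f : δ → γ} (hf : PTF f) : PTFam (fun a => P (f a)) :=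
  ⟨PTF.comp (g := fun c => (P c).r) H.r hf, PTF.comp (g := fun c => (P c).Y) H.Y hf,
    PTU.comp (n := fun c => (P c).m) H.m hf, PTF.comp (g := fun c => (P c).Gt) H.Gt hf,
    PTF.comp (g := fun c => (P c).T) H.T hf, PTF.comp (g := fun c => (P c).E) H.E hf,
    PTU.comp (n := fun c => (P c).M) H.M hf, PTF.comp (g := fun c => (P c).K) H.K hf⟩

include H

theorem ptu_L : PTU (fun c => (P c).L) := PTU.length H.Y

theorem ptu_n : PTU (fun c => (P c).n) := ptu_riN H.r

theorem loc (he : PTF e) : PTF (fun c => (P c).loc (e c)) := ptf_getDN he H.Y (PTF.const _)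

theorem ptu_cntL (hv : PTF v) : PTU (fun c => (P c).cntL (v c)) := by
  refine PTU.length (PTF.filter (l := fun c => List.range (P c).L)
    (p := fun c e => decide ((P c).loc e = v c)) (PTF.range H.ptu_L) ?_)
  exact PTPred.toPTF (PTPred.natEq ((H.comp PTF.fst).loc PTF.snd) (PTF.comp hv PTF.fst))

theorem isF (hv : PTF v) : PTF (fun c => (P c).isF (v c)) := by
  refine PTF.and (PTPred.toPTF (PTPred.mem hv H.Gt)) (PTPred.toPTF (PTPred.natLe ?_ ?_))
  · exact PTF.natMul (PTF.natMul (PTF.const 2) H.T)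
      (PTF.natSub (PTU.toPTF H.m) (PTU.toPTF (H.ptu_cntL hv)))
  · exact PTU.toPTF H.m

theorem GfL : PTF (fun c => (P c).GfL) :=
  PTF.filter (l := fun c => (P c).Gt) (p := fun c v => (P c).isF v) H.Gt
    ((H.comp PTF.fst).isF PTF.snd)

theorem Zb (hg : PTF g) (he : PTF e) : PTF (fun c => (P c).Zb (g c) (e c)) :=
  PTF.and (ptf_near H.r H.Y (PTU.toPTF H.m) hg he)
    (PTF.not (PTPred.toPTF (PTPred.natEq (H.loc he) hg)))

theorem ptu_load (hx : PTF x) : PTU (fun c => (P c).load (x c)) := by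
  refine PTU.length (PTF.filter (l := fun c => (P c).GfL) (p := fun c g => (P c).Zb g (x c))
    H.GfL ?_)
  exact (H.comp PTF.fst).Zb PTF.snd (PTF.comp hx PTF.fst)

theorem ptu_rank (hg : PTF g) (hx : PTF x) : PTU (fun c => (P c).rank (g c) (x c)) := by
  refine PTU.length (PTF.filter (l := fun c => (P c).GfL)
    (p := fun c g' => decide (g' < g c) && (P c).Zb g' (x c)) H.GfL ?_)
  exact PTF.and (PTPred.toPTF (PTPred.natLt PTF.snd (PTF.comp hg PTF.fst)))
    ((H.comp PTF.fst).Zb PTF.snd (PTF.comp hx PTF.fst))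

theorem code (hx : PTF x) (hi : PTF i) : PTF (fun c => (P c).code (x c) (i c)) :=
  PTF.natAdd (PTF.natMul hx (PTF.natAdd (PTU.toPTF H.ptu_n) (PTF.const 1))) hi

theorem nc (hj : PTF j) : PTF (fun c => (P c).nc (j c)) := by
  refine PTF.ratSumRange H.ptu_L (f := fun c e => if near (P c).r (P c).Y (P c).m (j c) e = true then
    riD (P c).r ((P c).loc e) (j c) else 0) ?_
  have H1 : PTFam (fun p : γ × ℕ => P p.1) := H.comp PTF.fst
  have hj1 : PTF (fun p : γ × ℕ => j p.1) := PTF.comp hj PTF.fst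
  exact PTF.ite (PTF.toPTPred (ptf_near H1.r H1.Y (PTU.toPTF H1.m) hj1 PTF.snd))
    (ptf_riD H1.r (H1.loc PTF.snd) hj1) (PTF.const _)

theorem Pb (hj : PTF j) (he : PTF e) : PTF (fun c => (P c).Pb (j c) (e c)) := by
  refine PTF.and (PTF.and (ptf_near H.r H.Y (PTU.toPTF H.m) hj he) (PTF.not (H.isF (H.loc he))))
    (PTPred.toPTF (PTPred.ratLe ?_ ?_))
  · exact PTF.ratMul (PTF.ratNatCast (PTU.toPTF H.m)) (ptf_riD H.r (H.loc he) hj)
  · exact PTF.ratMul (PTF.ratNatCast H.E) (H.nc hj)

theorem PL (hj : PTF j) : PTF (fun c => (P c).PL (j c)) :=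
  PTF.filter (l := fun c => List.range (P c).L) (p := fun c e => (P c).Pb (j c) e)
    (PTF.range H.ptu_L) ((H.comp PTF.fst).Pb (PTF.comp hj PTF.fst) PTF.snd)

theorem isB (hj : PTF j) : PTF (fun c => (P c).isB (j c)) := by
  have h : PTF (fun c => decide ((P c).E * (P c).m ≤
      (P c).E * ((P c).PL (j c)).length + 2 * (P c).m)) := by
    refine PTPred.toPTF (PTPred.natLe ?_ ?_)
    · exact PTF.natMul H.E (PTU.toPTF H.m)
    · exact PTF.natAdd (PTF.natMul H.E (PTU.toPTF (PTU.length (H.PL hj))))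
        (PTF.natMul (PTF.const 2) (PTU.toPTF H.m))
  first
    | exact h
    | exact PTF.and (ptf_riC H.r hj) h

theorem before (hj' : PTF j') (hj : PTF j) : PTF (fun c => (P c).before (j' c) (j c)) :=
  PTF.or (PTPred.toPTF (PTPred.ratLt (H.nc hj') (H.nc hj)))
    (PTF.and (PTPred.toPTF (PTPred.ratEq (H.nc hj') (H.nc hj))) (PTPred.toPTF (PTPred.natLt hj' hj)))

theorem ptu_pos (hj : PTF j) : PTU (fun c => (P c).pos (j c)) := by
  refine PTU.length (PTF.filter (l := fun c => List.range (P c).n)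
    (p := fun c j' => (P c).before j' (j c)) (PTF.range H.ptu_n) ?_)
  exact (H.comp PTF.fst).before PTF.snd (PTF.comp hj PTF.fst)

theorem meets (hj : PTF j) (hj' : PTF j') : PTF (fun c => (P c).meets (j c) (j' c)) :=
  PTF.any (l := fun c => (P c).PL (j c)) (p := fun c e => (P c).Pb (j' c) e) (H.PL hj)
    ((H.comp PTF.fst).Pb (PTF.comp hj' PTF.fst) PTF.snd)

theorem repNew {J : γ → List ℕ} (hJ : PTF J) (ht : PTF t) :
    PTF (fun c => (List.range (P c).n).filter (fun j => (P c).isB j && (decide ((P c).pos j = t c)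
      && (J c).all (fun j' => !(P c).meets j j')))) := by
  refine PTF.filter (l := fun c => List.range (P c).n) (p := fun c j => (P c).isB j &&
    (decide ((P c).pos j = t c) && (J c).all (fun j' => !(P c).meets j j'))) (PTF.range H.ptu_n) ?_
  have H1 : PTFam (fun p : γ × ℕ => P p.1) := H.comp PTF.fst
  refine PTF.and (H1.isB PTF.snd) (PTF.and
    (PTPred.toPTF (PTPred.natEq (PTU.toPTF (H1.ptu_pos PTF.snd)) (PTF.comp ht PTF.fst))) ?_)
  refine PTF.all (l := fun p : γ × ℕ => J p.1) (p := fun p j' => !(P p.1).meets p.2 j')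
    (PTF.comp hJ PTF.fst) (PTF.not ?_)
  exact (H1.comp PTF.fst).meets (PTF.comp PTF.snd PTF.fst) PTF.snd

theorem repStep {J : γ → List ℕ} (hJ : PTF J) (ht : PTF t) :
    PTF (fun c => (P c).repStep (J c) (t c)) :=
  PTF.append hJ (H.repNew hJ ht)

theorem reps : PTF (fun c => (P c).reps) := by
  refine PTF.foldl_add (l := fun c => List.range (P c).n)
    (f := fun c J t => (P c).repStep J t) (b := fun _ => []) (PTF.range H.ptu_n) ?_ (PTF.const _)
    (G := fun c => sz (List.range (P c).n)) (PTF.range H.ptu_n).sz ?_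
  · exact (H.comp (PTF.fst (α := γ) (β := List ℕ × ℕ))).repStep
      (PTF.comp PTF.fst PTF.snd) (PTF.comp PTF.snd PTF.snd)
  · intro c J t _
    change sz (J ++ _) ≤ _
    rw [sz_append]
    refine Nat.add_le_add_left ?_ _
    have key : ∀ (l : List ℕ) (p : ℕ → Bool), sz (l.filter p) ≤ sz l := by
      intro l p
      induction l with
      | nil => simp
      | cons a l ih =>
        rw [sz_list, sz_list] at *
        by_cases h : p a = true
        · rw [List.filter_cons_of_pos h]
          simp only [List.map_cons, List.sum_cons]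
          omega
        · rw [List.filter_cons_of_neg h]
          simp only [List.map_cons, List.sum_cons]
          omega
    exact key _ _

theorem pt (hj : PTF j) : PTF (fun c => (P c).pt (j c)) := H.loc (ptf_headD (H.PL hj))

theorem hit {Q : γ → ℕ} {s : γ → ℕ × ℕ} (hQ : PTF Q) (hs : PTF s) (hx : PTF x) (hi : PTF i) :
    PTF (fun c => (P c).hit (Q c) (s c) (x c) (i c)) := by
  refine PTPred.toPTF (PTPred.natLt (PTF.natMod ?_ hQ) ?_)
  · exact PTF.natAdd (PTF.natMul (PTF.comp PTF.fst hs) (H.code hx hi)) (PTF.comp PTF.snd hs)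
  · exact PTF.natDiv (PTF.natMul (PTU.toPTF H.M) hQ) (PTU.toPTF H.m)

theorem ptu_zc {Q : γ → ℕ} {s : γ → ℕ × ℕ} (hQ : PTF Q) (hs : PTF s) (hg : PTF g) :
    PTU (fun c => (P c).zc (Q c) (s c) (g c)) := by
  refine PTU.length (PTF.filter (l := fun c => List.range (P c).L)
    (p := fun c x => (P c).Zb (g c) x && (P c).hit (Q c) (s c) x ((P c).rank (g c) x / (P c).K))
    (PTF.range H.ptu_L) ?_)
  have H1 : PTFam (fun p : γ × ℕ => P p.1) := H.comp PTF.fst
  have hg1 : PTF (fun p : γ × ℕ => g p.1) := PTF.comp hg PTF.fst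
  exact PTF.and (H1.Zb hg1 PTF.snd) (H1.hit (PTF.comp hQ PTF.fst) (PTF.comp hs PTF.fst) PTF.snd
    (PTF.natDiv (PTU.toPTF (H1.ptu_rank hg1 PTF.snd)) H1.K))

theorem ptu_pc {Q : γ → ℕ} {s : γ → ℕ × ℕ} (hQ : PTF Q) (hs : PTF s) (hj : PTF j) :
    PTU (fun c => (P c).pc (Q c) (s c) (j c)) := by
  refine PTU.length (PTF.filter (l := fun c => (P c).PL (j c))
    (p := fun c x => (P c).hit (Q c) (s c) x 0) (H.PL hj) ?_)
  exact (H.comp PTF.fst).hit (PTF.comp hQ PTF.fst) (PTF.comp hs PTF.fst) PTF.snd (PTF.const _)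

theorem partF {Q : γ → ℕ} {s : γ → ℕ × ℕ} (hQ : PTF Q) (hs : PTF s) :
    PTF (fun c => (P c).partF (Q c) (s c)) := by
  refine PTF.flatMap (l := fun c => (P c).GfL)
    (f := fun c g => List.replicate ((P c).M - min ((P c).M / 2) ((P c).zc (Q c) (s c) g)) g)
    H.GfL ?_
  have H1 : PTFam (fun p : γ × ℕ => P p.1) := H.comp PTF.fst
  refine PTF.replicate (PTU.sub H1.M (PTF.natMinUn (PTF.natDiv (PTU.toPTF H1.M) (PTF.const 2)) ?_))
    PTF.snd
  exact H1.ptu_zc (PTF.comp hQ PTF.fst) (PTF.comp hs PTF.fst) PTF.snd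

theorem partA {Q : γ → ℕ} {s : γ → ℕ × ℕ} (hQ : PTF Q) (hs : PTF s) :
    PTF (fun c => (P c).partA (Q c) (s c)) := by
  refine PTF.flatMap (l := fun c => (P c).reps)
    (f := fun c j => List.replicate ((P c).M - (P c).pc (Q c) (s c) j) ((P c).pt j)) H.reps ?_
  have H1 : PTFam (fun p : γ × ℕ => P p.1) := H.comp PTF.fst
  exact PTF.replicate (PTU.sub H1.M (H1.ptu_pc (PTF.comp hQ PTF.fst) (PTF.comp hs PTF.fst) PTF.snd))
    (H1.pt PTF.snd)

/-- `live` with a bounded range -/
theorem liveL (he : PTF e) :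
    PTF (fun c => decide (((List.range (min (e c) (P c).L)).filter
      (fun e' => decide ((P c).loc e' = (P c).loc (e c)))).length < (P c).m)) := by
  refine PTPred.toPTF (PTPred.natLt (PTU.toPTF (PTU.length (PTF.filter
    (l := fun c => List.range (min (e c) (P c).L))
    (p := fun c e' => decide ((P c).loc e' = (P c).loc (e c)))
    (PTF.range (PTF.natMinUn he H.ptu_L)) ?_))) (PTU.toPTF H.m))
  have H1 : PTFam (fun p : γ × ℕ => P p.1) := H.comp PTF.fst
  exact PTPred.toPTF (PTPred.natEq (H1.loc PTF.snd) (H1.loc (PTF.comp he PTF.fst)))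

theorem liveList : PTF (fun c => (List.range (P c).L).filter
    (fun x => (P c).live x && !(P c).isF ((P c).loc x))) := by
  refine PTF.of_eq (PTF.filter (l := fun c => List.range (P c).L)
    (p := fun c x => decide (((List.range (min x (P c).L)).filter
      (fun e' => decide ((P c).loc e' = (P c).loc x))).length < (P c).m)
        && !(P c).isF ((P c).loc x)) (PTF.range H.ptu_L) ?_) (fun c => ?_)
  · have H1 : PTFam (fun p : γ × ℕ => P p.1) := H.comp PTF.fst
    exact PTF.and (H1.liveL PTF.snd) (PTF.not (H1.isF (H1.loc PTF.snd)))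
  · refine List.filter_congr fun x hx => ?_
    have hx' : x < (P c).L := List.mem_range.1 hx
    rw [min_eq_left hx'.le]
    rfl

theorem partH {Q : γ → ℕ} {s : γ → ℕ × ℕ} (hQ : PTF Q) (hs : PTF s) :
    PTF (fun c => (P c).partH (Q c) (s c)) := by
  refine PTF.flatMap (l := fun c => (List.range (P c).L).filter
      (fun x => (P c).live x && !(P c).isF ((P c).loc x)))
    (f := fun c x => ((List.range ((P c).load x / (P c).K + 1)).filter
      (fun i => (P c).hit (Q c) (s c) x i)).map (fun _ => (P c).loc x)) H.liveList ?_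
  have H1 : PTFam (fun p : γ × ℕ => P p.1) := H.comp PTF.fst
  have hu : PTU (fun p : γ × ℕ => (P p.1).load p.2 / (P p.1).K + 1) := by
    refine PTU.succ ?_
    have h1 : PTU (fun p : γ × ℕ => (P p.1).load p.2) := H1.ptu_load PTF.snd
    refine PTU.of_eq (PTF.natMinUn (PTF.natDiv (PTU.toPTF h1) H1.K) h1) (fun p => ?_)
    exact min_eq_left (Nat.div_le_self _ _)
  refine PTF.map (l := fun p : γ × ℕ => (List.range ((P p.1).load p.2 / (P p.1).K + 1)).filter
      (fun i => (P p.1).hit (Q p.1) (s p.1) p.2 i)) (f := fun p _ => (P p.1).loc p.2) ?_ ?_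
  · refine PTF.filter (l := fun p : γ × ℕ => List.range ((P p.1).load p.2 / (P p.1).K + 1))
      (p := fun p i => (P p.1).hit (Q p.1) (s p.1) p.2 i) (PTF.range hu) ?_
    have h0 : PTF (fun z : (γ × ℕ) × ℕ => z.1.1) := PTF.comp PTF.fst PTF.fst
    exact (H1.comp PTF.fst).hit (PTF.comp hQ h0) (PTF.comp hs h0) (PTF.comp PTF.snd PTF.fst)
      PTF.snd
  · exact (H1.comp PTF.fst).loc (PTF.comp PTF.snd PTF.fst)

theorem granY {Q : γ → ℕ} {s : γ → ℕ × ℕ} (hQ : PTF Q) (hs : PTF s) :
    PTF (fun c => (P c).granY (Q c) (s c)) :=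
  PTF.append (H.partF hQ hs) (PTF.append (H.partH hQ hs) (H.partA hQ hs))

theorem ptu_X : PTU (fun c => (P c).X) := PTU.mul H.ptu_L (PTU.succ H.ptu_n)

/-- **the list of all coarse lists is poly-time** -/
theorem granL : PTF (fun c => (P c).granL) := by
  have hn : PTU (fun c => 2 * (P c).X + 1) := PTU.succ (PTU.mul (PTU.const 2) H.ptu_X)
  refine PTF.of_eq (f := fun c => (List.range (2 * (P c).X + 1)).flatMap (fun Q =>
    (List.range (min Q (2 * (P c).X + 1))).flatMap (fun a =>
      (List.range (min Q (2 * (P c).X + 1))).map (fun b => (P c).granY Q (a, b))))) ?_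
      (fun c => ?_)
  · refine PTF.flatMap (l := fun c => List.range (2 * (P c).X + 1)) (f := fun c Q =>
      (List.range (min Q (2 * (P c).X + 1))).flatMap (fun a =>
      (List.range (min Q (2 * (P c).X + 1))).map (fun b => (P c).granY Q (a, b))))
      (PTF.range hn) ?_
    have hu : PTU (fun p : γ × ℕ => min p.2 (2 * (P p.1).X + 1)) :=
      PTF.natMinUn PTF.snd (PTU.comp (n := fun c => 2 * (P c).X + 1) hn PTF.fst)
    refine PTF.flatMap (l := fun p : γ × ℕ => List.range (min p.2 (2 * (P p.1).X + 1)))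
      (f := fun p a => (List.range (min p.2 (2 * (P p.1).X + 1))).map
        (fun b => (P p.1).granY p.2 (a, b))) (PTF.range hu) ?_
    refine PTF.map (l := fun q : (γ × ℕ) × ℕ => List.range (min q.1.2 (2 * (P q.1.1).X + 1)))
      (f := fun q b => (P q.1.1).granY q.1.2 (q.2, b)) (PTF.range
        (PTU.comp (n := fun p : γ × ℕ => min p.2 (2 * (P p.1).X + 1)) hu PTF.fst)) ?_
    have h1 : PTF (fun z : ((γ × ℕ) × ℕ) × ℕ => z.1.1.1) :=
      PTF.comp PTF.fst (PTF.comp PTF.fst PTF.fst)
    have h2 : PTF (fun z : ((γ × ℕ) × ℕ) × ℕ => z.1.1.2) :=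
      PTF.comp PTF.snd (PTF.comp PTF.fst PTF.fst)
    have h3 : PTF (fun z : ((γ × ℕ) × ℕ) × ℕ => z.1.2) := PTF.comp PTF.snd PTF.fst
    exact (H.comp h1).granY h2 (PTF.prodMk h3 PTF.snd)
  · unfold Par.granL
    refine flatMap_congr_mem fun Q hQ => ?_
    have hQ' : Q < 2 * (P c).X + 1 := List.mem_range.1 hQ
    rw [min_eq_left hQ'.le]

end PTFam

/-- the form needed by `Assembly`: constants `T E M`, load bound `K = κ s` -/
theorem granPT_of (T E M κ : ℕ) :
    GranPT (fun r Y m Gt s => (⟨r, Y, m, Gt, T, E, M, κ * s⟩ : Par).granL) := by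
  intro r Y m Gt s hr hY hm hGt hs
  exact PTFam.granL (P := fun c => ⟨r c, Y c, m c, Gt c, T, E, M, κ * s c⟩)
    ⟨hr, hY, hm, hGt, PTF.const _, PTF.const _, PTU.const _, PTF.natMul (PTF.const _) hs⟩

end

end Crest.Agent.R310.Gran
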