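import Crest.Agent.R310.GranInst

/-!
# R310, block GRAN: the representatives `Par.reps`
-/

set_option linter.dupNamespace false
set_option autoImplicit false

namespace Crest.Agent.R310.Gran

namespace Par

variable (c : Par)

theorem mem_PL' {j e : ℕ} : e ∈ c.PL j ↔ e < c.L ∧ c.Pb j e = true := by
  simp [PL, List.mem_filter, List.mem_range]

theorem mem_PF' {j e : ℕ} : e ∈ c.PF j ↔ e < c.L ∧ c.Pb j e = true := by
  unfold PF; rw [Finset.mem_filter, Finset.mem_range]

theorem meets_iff {j j' : ℕ} :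
    c.meets j j' = true ↔ ∃ e, e < c.L ∧ c.Pb j e = true ∧ c.Pb j' e = true := by
  unfold meets
  rw [List.any_eq_true]
  constructor
  · rintro ⟨e, he, h⟩
    obtain ⟨h1, h2⟩ := (c.mem_PL').1 he
    exact ⟨e, h1, h2, h⟩
  · rintro ⟨e, h1, h2, h3⟩
    exact ⟨e, (c.mem_PL').2 ⟨h1, h2⟩, h3⟩

theorem meets_comm {j j' : ℕ} : c.meets j j' = true ↔ c.meets j' j = true := by
  rw [meets_iff, meets_iff]
  constructor
  · rintro ⟨e, h1, h2, h3⟩; exact ⟨e, h1, h3, h2⟩
  · rintro ⟨e, h1, h2, h3⟩; exact ⟨e, h1, h3, h2⟩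

theorem meets_self {j : ℕ} (hm : 0 < c.m) (hE : 3 ≤ c.E) (hj : c.isB j = true) :
    c.meets j j = true := by
  have h := of_decide_eq_true hj
  have hne : c.PL j ≠ [] := by
    intro h0
    rw [h0] at h
    simp only [List.length_nil, mul_zero, zero_add] at h
    have h3 : 3 * c.m ≤ c.E * c.m := Nat.mul_le_mul_right _ hE
    omega
  obtain ⟨e, he⟩ := List.exists_mem_of_ne_nil _ hne
  obtain ⟨h1, h2⟩ := (c.mem_PL').1 he
  exact (c.meets_iff).2 ⟨e, h1, h2, h2⟩

theorem before_iff {j' j : ℕ} :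
    c.before j' j = true ↔ c.nc j' < c.nc j ∨ (c.nc j' = c.nc j ∧ j' < j) := by
  simp [before]

theorem before_irrefl (j : ℕ) : ¬ c.before j j = true := by
  rw [before_iff]
  rintro (h | h)
  · exact lt_irrefl _ h
  · exact lt_irrefl _ h.2

theorem before_trans {a b d : ℕ} (h1 : c.before a b = true) (h2 : c.before b d = true) :
    c.before a d = true := by
  rw [before_iff] at *
  rcases h1 with h1 | ⟨h1, h1'⟩
  · rcases h2 with h2 | ⟨h2, h2'⟩
    · exact Or.inl (h1.trans h2)
    · exact Or.inl (h2 ▸ h1)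
  · rcases h2 with h2 | ⟨h2, h2'⟩
    · exact Or.inl (h1 ▸ h2)
    · exact Or.inr ⟨h1.trans h2, h1'.trans h2'⟩

theorem before_total {a b : ℕ} (h : a ≠ b) : c.before a b = true ∨ c.before b a = true := by
  rw [before_iff, before_iff]
  rcases lt_trichotomy (c.nc a) (c.nc b) with h1 | h1 | h1
  · exact Or.inl (Or.inl h1)
  · rcases lt_or_gt_of_ne h with h2 | h2
    · exact Or.inl (Or.inr ⟨h1, h2⟩)
    · exact Or.inr (Or.inr ⟨h1.symm, h2⟩)
  · exact Or.inr (Or.inl h1)

theorem pos_eq_card (j : ℕ) :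
    c.pos j = ((Finset.range c.n).filter (fun j' => c.before j' j = true)).card := by
  unfold pos
  rw [← List.toFinset_card_of_nodup (List.nodup_range.filter _)]
  congr 1
  ext x
  simp

theorem pos_lt_of_before {a b : ℕ} (ha : a < c.n) (h : c.before a b = true) :
    c.pos a < c.pos b := by
  rw [pos_eq_card, pos_eq_card]
  refine Finset.card_lt_card ?_
  rw [Finset.ssubset_iff_of_subset]
  · refine ⟨a, by simp [ha, h], ?_⟩
    intro h'
    exact c.before_irrefl a (Finset.mem_filter.1 h').2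
  · intro x hx
    rw [Finset.mem_filter] at hx ⊢
    exact ⟨hx.1, c.before_trans hx.2 h⟩

theorem pos_lt (j : ℕ) (hj : j < c.n) : c.pos j < c.n := by
  rw [pos_eq_card]
  calc _ < (Finset.range c.n).card := by
        refine Finset.card_lt_card ?_
        rw [Finset.ssubset_iff_of_subset (Finset.filter_subset _ _)]
        exact ⟨j, by simp [hj], fun h => c.before_irrefl j (Finset.mem_filter.1 h).2⟩
    _ = c.n := Finset.card_range _

theorem pos_inj {a b : ℕ} (ha : a < c.n) (hb : b < c.n) (h : c.pos a = c.pos b) : a = b := by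
  by_contra hne
  rcases c.before_total hne with h1 | h1
  · exact absurd h (c.pos_lt_of_before ha h1).ne
  · exact absurd h (c.pos_lt_of_before hb h1).ne'

theorem nc_le_of_pos_le {a b : ℕ} (hb : b < c.n) (h : c.pos a ≤ c.pos b) :
    c.nc a ≤ c.nc b := by
  by_contra hlt
  push Not at hlt
  have := c.pos_lt_of_before hb ((c.before_iff).2 (Or.inl hlt) : c.before b a = true)
  omega

/-- the representatives after `t` steps -/
def repsUpTo (t : ℕ) : List ℕ := (List.range t).foldl c.repStep []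

theorem repsUpTo_succ (t : ℕ) :
    c.repsUpTo (t + 1) = c.repStep (c.repsUpTo t) t := by
  unfold repsUpTo
  rw [List.range_succ, List.foldl_append]
  rfl

theorem reps_eq : c.reps = c.repsUpTo c.n := rfl

theorem mem_repStep {J : List ℕ} {t j : ℕ} :
    j ∈ c.repStep J t ↔ j ∈ J ∨
      (j < c.n ∧ c.isB j = true ∧ c.pos j = t ∧ ∀ j' ∈ J, ¬ c.meets j j' = true) := by
  unfold repStep
  rw [List.mem_append, List.mem_filter, List.mem_range]
  simp only [Bool.and_eq_true, decide_eq_true_eq, List.all_eq_true, Bool.not_eq_true',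
    Bool.not_eq_true]

theorem repsUpTo_mem (t : ℕ) : ∀ j ∈ c.repsUpTo t, j < c.n ∧ c.isB j = true ∧ c.pos j < t := by
  induction t with
  | zero => intro j hj; simp [repsUpTo] at hj
  | succ t ih =>
    intro j hj
    rw [repsUpTo_succ, mem_repStep] at hj
    rcases hj with hj | ⟨h1, h2, h3, _⟩
    · obtain ⟨h1, h2, h3⟩ := ih j hj
      exact ⟨h1, h2, by omega⟩
    · exact ⟨h1, h2, by omega⟩

theorem repsUpTo_nodup (t : ℕ) : (c.repsUpTo t).Nodup := by
  induction t with
  | zero => simp [repsUpTo]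
  | succ t ih =>
    rw [repsUpTo_succ]
    unfold repStep
    rw [List.nodup_append']
    refine ⟨ih, List.nodup_range.filter _, ?_⟩
    intro j hj hj'
    have h1 := c.repsUpTo_mem t j hj
    rw [List.mem_filter] at hj'
    have h2 := hj'.2
    simp only [Bool.and_eq_true, decide_eq_true_eq] at h2
    omega

theorem repsUpTo_disj (t : ℕ) :
    ∀ j ∈ c.repsUpTo t, ∀ j' ∈ c.repsUpTo t, j ≠ j' → ¬ c.meets j j' = true := by
  induction t with
  | zero => intro j hj; simp [repsUpTo] at hj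
  | succ t ih =>
    intro j hj j' hj' hne
    rw [repsUpTo_succ, mem_repStep] at hj hj'
    rcases hj with hj | ⟨h1, _, h3, h4⟩
    · rcases hj' with hj' | ⟨_, _, _, h4'⟩
      · exact ih j hj j' hj' hne
      · intro h
        exact h4' j hj ((c.meets_comm).1 h)
    · rcases hj' with hj' | ⟨h1', _, h3', _⟩
      · exact h4 j' hj'
      · exact absurd (c.pos_inj h1 h1' (h3.trans h3'.symm)) hne

theorem repsUpTo_cover (hm : 0 < c.m) (hE : 3 ≤ c.E) (t : ℕ) :
    ∀ j, j < c.n → c.isB j = true → c.pos j < t →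
      ∃ j0 ∈ c.repsUpTo t, c.pos j0 ≤ c.pos j ∧ c.meets j j0 = true := by
  induction t with
  | zero => intro j _ _ h; omega
  | succ t ih =>
    intro j hj hB hpos
    rw [repsUpTo_succ]
    rcases Nat.lt_succ_iff_lt_or_eq.1 hpos with h | h
    · obtain ⟨j0, h0, h1, h2⟩ := ih j hj hB h
      exact ⟨j0, (c.mem_repStep).2 (Or.inl h0), h1, h2⟩
    · by_cases hall : ∀ j' ∈ c.repsUpTo t, ¬ c.meets j j' = true
      · exact ⟨j, (c.mem_repStep).2 (Or.inr ⟨hj, hB, h, hall⟩), le_refl _,
          c.meets_self hm hE hB⟩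
      · push Not at hall
        obtain ⟨j', hj', hmt⟩ := hall
        have := c.repsUpTo_mem t j' hj'
        exact ⟨j', (c.mem_repStep).2 (Or.inl hj'), by omega, hmt⟩

/-- (i) the representatives are distinct -/
theorem reps_nodup : c.reps.Nodup := c.repsUpTo_nodup c.n

/-- (i) the representatives are candidate clients -/
theorem reps_mem {j : ℕ} (hj : j ∈ c.reps) : j < c.n ∧ c.isB j = true :=
  ⟨(c.repsUpTo_mem c.n j hj).1, (c.repsUpTo_mem c.n j hj).2.1⟩

/-- (ii) distinct representatives have disjoint sets of hub copies -/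
theorem reps_disj' {j j' : ℕ} (hj : j ∈ c.reps) (hj' : j' ∈ c.reps) (hne : j ≠ j') :
    ¬ ∃ e, e < c.L ∧ c.Pb j e = true ∧ c.Pb j' e = true := by
  rw [← meets_iff]
  exact c.repsUpTo_disj c.n j hj j' hj' hne

/-- (ii) distinct representatives have disjoint sets of hub copies -/
theorem reps_disj {j j' : ℕ} (hj : j ∈ c.reps) (hj' : j' ∈ c.reps) (hne : j ≠ j') :
    Disjoint (c.PF j) (c.PF j') := by
  rw [Finset.disjoint_left]
  intro e he he'
  exact c.reps_disj' hj hj' hne
    ⟨e, ((c.mem_PF').1 he).1, ((c.mem_PF').1 he).2, ((c.mem_PF').1 he').2⟩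

theorem reps_PL_disjoint {j j' : ℕ} (hj : j ∈ c.reps) (hj' : j' ∈ c.reps) (hne : j ≠ j') :
    (c.PL j).Disjoint (c.PL j') := by
  intro e he he'
  exact c.reps_disj' hj hj' hne
    ⟨e, ((c.mem_PL').1 he).1, ((c.mem_PL').1 he).2, ((c.mem_PL').1 he').2⟩

/-- (iii) every candidate client shares a hub copy with a cheaper representative -/
theorem reps_cover' (hm : 0 < c.m) (hE : 3 ≤ c.E) {j : ℕ} (hj : j < c.n)
    (hB : c.isB j = true) :
    ∃ j0 ∈ c.reps, c.nc j0 ≤ c.nc j ∧
      ∃ e, e < c.L ∧ c.Pb j e = true ∧ c.Pb j0 e = true := by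
  obtain ⟨j0, h0, h1, h2⟩ := c.repsUpTo_cover hm hE c.n j hj hB (c.pos_lt j hj)
  exact ⟨j0, h0, c.nc_le_of_pos_le hj h1, (c.meets_iff).1 h2⟩

/-- (iii) every candidate client shares a hub copy with a cheaper representative -/
theorem reps_cover {c : Par} (h : c.Ok) {j : ℕ} (hj : j < c.n) (hB : c.isB j = true) :
    ∃ j0 ∈ c.reps, c.nc j0 ≤ c.nc j ∧ ∃ e ∈ c.PF j, e ∈ c.PF j0 := by
  obtain ⟨j0, h0, h1, e, he, he1, he2⟩ :=
    c.reps_cover' h.m_pos (by have := h.E4; omega) hj hB
  exact ⟨j0, h0, h1, e, (c.mem_PF').2 ⟨he, he1⟩, (c.mem_PF').2 ⟨he, he2⟩⟩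

theorem PL_nodup (j : ℕ) : (c.PL j).Nodup := List.nodup_range.filter _

/-- a candidate has a nonempty list of hub copies -/
theorem PL_ne_nil {j : ℕ} (hm : 0 < c.m) (hE : 3 ≤ c.E) (hj : c.isB j = true) :
    c.PL j ≠ [] := by
  obtain ⟨e, h1, h2, _⟩ := (c.meets_iff).1 (c.meets_self hm hE hj)
  exact List.ne_nil_of_mem ((c.mem_PL').2 ⟨h1, h2⟩)

/-- the location of the added copies is the location of a hub copy of the representative -/
theorem pt_spec' {j : ℕ} (hm : 0 < c.m) (hE : 3 ≤ c.E) (hj : c.isB j = true) :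
    ∃ e, e < c.L ∧ c.Pb j e = true ∧ c.pt j = c.loc e := by
  have hne := c.PL_ne_nil hm hE hj
  refine ⟨(c.PL j).headD 0, ?_⟩
  have hmem : (c.PL j).headD 0 ∈ c.PL j := by
    cases h : c.PL j with
    | nil => exact absurd h hne
    | cons a l => simp
  obtain ⟨h1, h2⟩ := (c.mem_PL').1 hmem
  exact ⟨h1, h2, rfl⟩

end Par

end Crest.Agent.R310.Gran
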