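import Crest.Agent.R310.GranCli
import Crest.Agent.R310.GranLoad
import Crest.Agent.R310.GranBridge
import Crest.Agent.R310.GranReps
import Crest.Agent.R310.GranPTF
import Crest.Agent.R310.Res
import Crest.Agent.R310.Assembly

/-!
# R310, block GRAN, part 9: the block theorem
-/

set_option linter.dupNamespace false
set_option linter.unusedSectionVars false
set_option autoImplicit false

namespace Crest.Agent.R310.Gran

open Finset

/-- numeric conditions on the constants -/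
structure Num (e : ℚ) (C1 C2 T E M : ℕ) : Prop where
  he : 0 < e
  he1 : 8 * e ≤ 1
  C2_pos : 0 < C2
  T2 : 2 ≤ T
  E4 : 4 ≤ E
  M_pos : 0 < M
  M_even : 2 ∣ M
  T1 : 3 * (C2 : ℚ) ≤ e ^ 2 * T
  T8 : 8 ≤ e * T
  E72 : 72 * ((2 * T * C2 + C1 + C2 + 1 : ℕ) : ℚ) ≤ e ^ 2 * E
  ME : 2 * E + E ^ 2 ≤ M
  M1 : 4 * (((2 * T * C2 + C1 + C2 + 1 : ℕ) : ℚ) + C2 ^ 2) ≤ e ^ 3 * M
  M3 : 6 * (C2 : ℚ) ≤ e ^ 2 * M
  M8 : 8 ≤ e * M
  M81 : 81 * (E : ℚ) ^ 2 ≤ e ^ 2 * M
  M18 : 18 * (E : ℚ) ≤ e * M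

theorem exists_num {e : ℚ} (he : 0 < e) (he1 : 8 * e ≤ 1) (C1 C2 : ℕ) (hC2 : 0 < C2) :
    ∃ T E M : ℕ, Num e C1 C2 T E M := by
  obtain ⟨T, hT⟩ := exists_nat_ge (3 * (C2 : ℚ) / e ^ 2 + 8 / e + 2)
  have hT' : 3 * (C2 : ℚ) / e ^ 2 ≤ T ∧ 8 / e ≤ T ∧ (2 : ℚ) ≤ T := by
    have h1 : 0 ≤ 3 * (C2 : ℚ) / e ^ 2 := by positivity
    have h2 : 0 ≤ 8 / e := by positivity
    refine ⟨?_, ?_, ?_⟩ <;> linarith
  set CH : ℕ := 2 * T * C2 + C1 + C2 + 1 with hCH
  obtain ⟨E, hE⟩ := exists_nat_ge (72 * (CH : ℚ) / e ^ 2 + 4)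
  have hE' : 72 * (CH : ℚ) / e ^ 2 ≤ E ∧ (4 : ℚ) ≤ E := by
    have h1 : 0 ≤ 72 * (CH : ℚ) / e ^ 2 := by positivity
    refine ⟨?_, ?_⟩ <;> linarith
  obtain ⟨M', hM⟩ := exists_nat_ge ((2 * (E : ℚ) + E ^ 2) + 4 * ((CH : ℚ) + C2 ^ 2) / e ^ 3
    + 6 * (C2 : ℚ) / e ^ 2 + 8 / e + 81 * (E : ℚ) ^ 2 / e ^ 2 + 18 * (E : ℚ) / e + 1)
  have a1 : 0 ≤ 2 * (E : ℚ) + E ^ 2 := by positivity
  have a2 : 0 ≤ 4 * ((CH : ℚ) + C2 ^ 2) / e ^ 3 := by positivity
  have a3 : 0 ≤ 6 * (C2 : ℚ) / e ^ 2 := by positivity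
  have a4 : 0 ≤ 8 / e := by positivity
  have a5 : 0 ≤ 81 * (E : ℚ) ^ 2 / e ^ 2 := by positivity
  have a6 : 0 ≤ 18 * (E : ℚ) / e := by positivity
  have hM0 : (0 : ℚ) ≤ M' := by positivity
  have h2M : (M' : ℚ) ≤ ((2 * M' : ℕ) : ℚ) := by push_cast; linarith
  have hMpos : (1 : ℚ) ≤ M' := by linarith
  refine ⟨T, E, 2 * M', he, he1, hC2, by exact_mod_cast hT'.2.2, by exact_mod_cast hE'.2, ?_,
    Dvd.intro _ rfl, ?_, ?_, ?_, ?_, ?_, ?_, ?_, ?_, ?_⟩
  · have : 1 ≤ M' := by exact_mod_cast hMpos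
    omega
  · have := hT'.1
    rw [div_le_iff₀ (by positivity)] at this; linarith
  · have := hT'.2.1
    rw [div_le_iff₀ he] at this; linarith
  · have := hE'.1
    rw [div_le_iff₀ (by positivity)] at this; linarith
  · have : (2 * (E : ℚ) + E ^ 2) ≤ ((2 * M' : ℕ) : ℚ) := by linarith
    exact_mod_cast this
  · have : 4 * ((CH : ℚ) + C2 ^ 2) / e ^ 3 ≤ ((2 * M' : ℕ) : ℚ) := by linarith
    rw [div_le_iff₀ (by positivity)] at this; linarith
  · have : 6 * (C2 : ℚ) / e ^ 2 ≤ ((2 * M' : ℕ) : ℚ) := by linarith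
    rw [div_le_iff₀ (by positivity)] at this; linarith
  · have : 8 / e ≤ ((2 * M' : ℕ) : ℚ) := by linarith
    rw [div_le_iff₀ he] at this; linarith
  · have : 81 * (E : ℚ) ^ 2 / e ^ 2 ≤ ((2 * M' : ℕ) : ℚ) := by linarith
    rw [div_le_iff₀ (by positivity)] at this; linarith
  · have : 18 * (E : ℚ) / e ≤ ((2 * M' : ℕ) : ℚ) := by linarith
    rw [div_le_iff₀ he] at this; linarith

namespace Par

variable {c : Par}

theorem own_sum (h : c.Ok) : (c.liveF.filter (fun e => c.loc e ∉ c.Gf)).card + c.m * c.Gf.card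
    ≤ c.L + ∑ g ∈ c.Gf, (c.ZF g).card := by
  have h1 : (c.liveF.filter (fun e => c.loc e ∈ c.Gf)).card = ∑ g ∈ c.Gf, (c.own g).card := by
    have hm : ∀ e ∈ c.liveF.filter (fun e => c.loc e ∈ c.Gf), c.loc e ∈ c.Gf :=
      fun e he => (mem_filter.1 he).2
    rw [card_eq_sum_card_fiberwise hm]
    refine sum_congr rfl fun g hg => ?_
    congr 1
    ext e
    rw [mem_own, mem_filter, mem_filter]
    constructor
    · rintro ⟨⟨a, _⟩, b⟩; exact ⟨a, b⟩
    · rintro ⟨a, b⟩; exact ⟨⟨a, b ▸ hg⟩, b⟩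
  have h2 : (c.liveF.filter (fun e => c.loc e ∈ c.Gf)).card
      + (c.liveF.filter (fun e => c.loc e ∉ c.Gf)).card = c.liveF.card :=
    card_filter_add_card_filter_not _
  have h3 : c.liveF.card ≤ c.L := by
    have := card_le_card (filter_subset (fun e => c.live e = true) (range c.L))
    rw [card_range] at this
    exact this
  have h4 : ∑ g ∈ c.Gf, (c.ZF g).card + ∑ g ∈ c.Gf, (c.own g).card = c.m * c.Gf.card := by
    rw [← sum_add_distrib, sum_congr rfl fun g hg => card_ZF_own h (Gf_lt h hg), sum_const,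
      smul_eq_mul, mul_comm]
  omega

theorem sum_ZF_le (h : c.Ok) {D : ℕ} (hD : ∑ g ∈ c.Gt.toFinset, (c.m - c.cntL g) ≤ D) :
    ∑ g ∈ c.Gf, (c.ZF g).card ≤ D := by
  refine le_trans ?_ hD
  have hsub : c.Gf ⊆ c.Gt.toFinset := by
    intro g hg
    rw [mem_Gf, isF_iff] at hg
    exact List.mem_toFinset.2 hg.1
  exact (sum_le_sum fun g hg => card_ZF_le h (Gf_lt h hg)).trans
    (sum_le_sum_of_subset hsub)

theorem Gt_le (h : c.Ok) {C2 s : ℕ}
    (hD : ∑ g ∈ c.Gt.toFinset, (c.m - c.cntL g) ≤ C2 * s * c.m) :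
    c.Gt.length ≤ c.Gf.card + 2 * c.T * C2 * s := by
  have h1 : c.Gt.toFinset.card = c.Gt.length := List.toFinset_card_of_nodup h.Gt_nodup
  have h2 : c.Gf = c.Gt.toFinset.filter (fun g => c.isF g = true) := by
    unfold Gf GfL; ext g; simp
  have h3 : (c.Gt.toFinset.filter (fun g => c.isF g = true)).card
      + (c.Gt.toFinset.filter (fun g => ¬ c.isF g = true)).card = c.Gt.toFinset.card :=
    card_filter_add_card_filter_not _
  have h4 : (c.Gt.toFinset.filter (fun g => ¬ c.isF g = true)).card * c.m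
      ≤ 2 * c.T * C2 * s * c.m := by
    have h5 : ∀ g ∈ c.Gt.toFinset.filter (fun g => ¬ c.isF g = true),
        c.m ≤ 2 * c.T * (c.m - c.cntL g) := by
      intro g hg
      rw [mem_filter, List.mem_toFinset, isF_iff] at hg
      by_contra hcon
      push Not at hcon
      exact hg.2 ⟨hg.1, hcon.le⟩
    calc (c.Gt.toFinset.filter (fun g => ¬ c.isF g = true)).card * c.m
        = ∑ _g ∈ c.Gt.toFinset.filter (fun g => ¬ c.isF g = true), c.m := by
          rw [sum_const, smul_eq_mul]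
      _ ≤ ∑ g ∈ c.Gt.toFinset.filter (fun g => ¬ c.isF g = true),
          2 * c.T * (c.m - c.cntL g) := sum_le_sum h5
      _ ≤ ∑ g ∈ c.Gt.toFinset, 2 * c.T * (c.m - c.cntL g) :=
          sum_le_sum_of_subset (filter_subset _ _)
      _ = 2 * c.T * ∑ g ∈ c.Gt.toFinset, (c.m - c.cntL g) := by rw [mul_sum]
      _ ≤ 2 * c.T * (C2 * s * c.m) := Nat.mul_le_mul_left _ hD
      _ = 2 * c.T * C2 * s * c.m := by ring
  have h6 := Nat.le_of_mul_le_mul_right h4 h.m_pos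
  rw [h2]
  omega

theorem granY_mem_granL {P : ℕ} (hP : P ≤ 2 * c.X) {s : ℕ × ℕ} (hs : s ∈ seeds P) :
    c.granY P s ∈ c.granL := by
  unfold seeds at hs
  rw [mem_product, mem_range, mem_range] at hs
  unfold granL
  refine List.mem_flatMap.2 ⟨P, List.mem_range.2 (by omega), List.mem_flatMap.2
    ⟨s.1, List.mem_range.2 hs.1, List.mem_map.2 ⟨s.2, List.mem_range.2 hs.2, rfl⟩⟩⟩

/-- **the block theorem for one parameter set** -/
theorem main (h : c.Ok) {e : ℚ} {C1 C2 s : ℕ} (hN : Num e C1 C2 c.T c.E c.M) (hK : c.K = C2 * s)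
    (hs : 3 ≤ 8 * e * s) {D : Finset ℕ} (hDn : ∀ j ∈ D, j < c.n) {A : ℚ} (hA : 0 < A)
    (hcost : ∑ j ∈ D, c.nc j ≤ c.m * A)
    (hdef : ∑ g ∈ c.Gt.toFinset, (c.m - c.cntL g) ≤ C2 * s * c.m)
    (hlen : c.L ≤ c.m * (c.Gt.length + C1 * s)) {C3 : ℕ}
    (hC3 : 4 / e * (c.M * C2) ≤ C3) :
    ∃ Yc ∈ c.granL, (∀ y ∈ Yc, y ∈ c.Y) ∧ c.M ≤ Yc.length ∧
      ∑ j ∈ D, ∑ e ∈ (range Yc.length).filter (fun e => near c.r Yc c.M j e = true),
        riD c.r (Yc.getD e 0) j ≤ c.M * ((1 + 8 * e) * A) ∧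
      (Yc.length : ℚ) * c.m ≤ c.M * (c.L + 8 * e * s * c.m) ∧
      c.Gt.length ≤ (c.Gt.filter (fun g => decide (c.M ≤ Yc.count g))).length
        + (2 * c.T * C2 + C3) * s := by
  classical
  obtain ⟨P, hPp, hP1, hP2⟩ := exists_seed_prime h
  have hP0 : 0 < P := hPp.pos
  set p : ℚ := ((c.M * P / c.m : ℕ) : ℚ) / P with hp
  have hPW : PW (seeds P) (c.hitI P) p c.UF :=
    hash_pw hPp (thr_le h P) c.UF (fun q => c.code q.1 q.2)
      (fun q hq => (code_lt hq).trans hP1) (fun q hq q' hq' => code_inj hq hq')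
  have hpm : p * c.m ≤ c.M := rate_le (c := c) hP0
  have hpm1 : (c.M : ℚ) - 1 ≤ p * c.m := rate_ge h hP1
  have hpmn : ((c.M : ℚ) - p * c.m) * c.n ≤ 1 := rate_gap_n h hP1
  have hp0 := hPW.p_nonneg
  have hmq : (0 : ℚ) < c.m := by exact_mod_cast h.m_pos
  have hMq : (1 : ℚ) ≤ c.M := by exact_mod_cast h.M_pos
  have he := hN.he
  have hs1 : 1 ≤ s := by
    by_contra hcon
    have : s = 0 := by omega
    rw [this] at hs
    norm_num at hs
  have hsq : (1 : ℚ) ≤ s := by exact_mod_cast hs1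
  -- plans
  have hbd : ∀ j, ∃ bd : ℕ × ℕ → ℚ, j < c.n → ((∀ ω, ∃ n : ℕ → ℕ,
      (∀ v ∈ range c.n, n v ≤ (core h).mu (c.hitI P) ω v) ∧
      ∑ v ∈ range c.n, n v = c.M ∧ ∑ v ∈ range c.n, (n v : ℚ) * riD c.r v j ≤ bd ω) ∧
      avg (seeds P) bd ≤ c.M / c.m * c.nc j * (1 + e)) := by
    intro j
    by_cases hj : j < c.n
    · obtain ⟨bd, h1, h2⟩ := all_bd h (fun j hj hB => reps_cover h hj hB) hPW hpm hpm1 he
        hN.T8 hN.M8 hN.M81 hN.M18 hj
      exact ⟨bd, fun _ => ⟨h1, h2⟩⟩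
    · exact ⟨fun _ => 0, fun h => absurd h hj⟩
  choose bd hbd using hbd
  have hbd0 : ∀ j, j < c.n → ∀ ω, 0 ≤ bd j ω := by
    intro j hj ω
    obtain ⟨n, _, _, h3⟩ := (hbd j hj).1 ω
    refine le_trans ?_ h3
    exact sum_nonneg fun v _ => mul_nonneg (by positivity) (h.d_nonneg v j)
  -- masses
  have hZs := sum_ZF_le h hdef
  have hGt := Gt_le h hdef
  have hown := own_sum h
  set lh := (c.liveF.filter (fun e => c.loc e ∉ c.Gf)).card with hlh
  have hHl : (core h).H.card ≤ lh + c.m := by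
    have h1 := hub_items h
    rw [← hlh] at h1
    have h2 : ∑ g ∈ c.Gf, (c.ZF g).card ≤ c.K * c.m := by rw [hK]; exact hZs
    have h3 : c.K * ((core h).H.card) ≤ c.K * (lh + c.m) := by rw [mul_add]; omega
    exact Nat.le_of_mul_le_mul_left h3 h.K_pos
  have hHc : (core h).H.card ≤ (2 * c.T * C2 + C1 + C2 + 1) * s * c.m := by
    have h1 : c.L ≤ c.m * (c.Gf.card + 2 * c.T * C2 * s + C1 * s) :=
      hlen.trans (Nat.mul_le_mul_left _ (by omega))
    have h2 : lh + c.m * c.Gf.card ≤ c.m * c.Gf.card + c.m * (2 * c.T * C2 * s + C1 * s)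
        + C2 * s * c.m := by
      have e1 : c.m * (c.Gf.card + 2 * c.T * C2 * s + C1 * s)
          = c.m * c.Gf.card + c.m * (2 * c.T * C2 * s + C1 * s) := by ring
      omega
    have h3 : c.m ≤ s * c.m := Nat.le_mul_of_pos_left _ (by omega)
    have h4 : (2 * c.T * C2 + C1 + C2 + 1) * s * c.m
        = c.m * (2 * c.T * C2 * s + C1 * s) + C2 * s * c.m + s * c.m := by ring
    omega
  have hPd : ∑ j ∈ (core h).J0, ((core h).P j).card ≤ (core h).H.card := by
    have hdis : ∀ j ∈ (core h).J0, ∀ j' ∈ (core h).J0, j ≠ j' →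
        Disjoint ((core h).P j) ((core h).P j') := by
      intro j hj j' hj' hne
      have h1 := reps_disj (c := c) (List.mem_toFinset.1 hj) (List.mem_toFinset.1 hj') hne
      change Disjoint (c.PI j) (c.PI j')
      rw [disjoint_left] at h1 ⊢
      intro q hq hq'
      exact h1 (mem_PI.1 hq).1 (mem_PI.1 hq').1
    rw [← card_biUnion hdis]
    apply card_le_card
    intro q hq
    obtain ⟨j, hj, hqj⟩ := mem_biUnion.1 hq
    exact mem_filter.2 ⟨(core h).P_sub j hj hqj, (core h).P_hub j hj q hqj⟩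
  -- choice of the seed
  have hB1 : (0 : ℚ) < c.M * ((1 + e) * A) := by positivity
  have ha1 : avg (seeds P) (fun ω => ∑ j ∈ D, bd j ω) ≤ c.M * ((1 + e) * A) := by
    rw [avg_sum]
    refine (sum_le_sum fun j hj => (hbd j (hDn j hj)).2).trans ?_
    have e1 : ∑ j ∈ D, (c.M : ℚ) / c.m * c.nc j * (1 + e)
        = (c.M / c.m * (1 + e)) * ∑ j ∈ D, c.nc j := by
      rw [mul_sum]; exact sum_congr rfl fun j _ => by ring
    rw [e1]
    have h1 := mul_le_mul_of_nonneg_left hcost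
      (show (0 : ℚ) ≤ c.M / c.m * (1 + e) by positivity)
    refine h1.trans (le_of_eq ?_)
    field_simp
  obtain ⟨ω, hω, r1, r2, r3⟩ := (core h).exists_good hPW h.m_pos hpm hpm1 (T := c.T) (E := c.E)
    (K := c.K) (C2 := C2) (CH := 2 * c.T * C2 + C1 + C2 + 1) (s := s)
    (by have := h.T2; omega) h.E4 (by omega) hN.C2_pos (by rw [hK])
    (fun g hg => by
      change 2 * c.T * (c.ZI g).card ≤ c.m
      rw [card_ZI]; exact own_large h hg)
    (by
      change ∑ g ∈ c.Gf, (c.ZI g).card ≤ C2 * s * c.m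
      rw [sum_congr rfl fun g _ => card_ZI g]; exact hZs)
    hHc (fun q hq => load_bound h q hq)
    (fun j hj => by
      change c.E * c.m ≤ c.E * (c.PI j).card + 2 * c.m
      rw [card_PI, ← length_PL]
      have := (reps_prop (List.mem_toFinset.1 hj)).2
      unfold isB at this
      exact of_decide_eq_true this)
    (fun j _ => by
      change (c.PI j).card ≤ c.m
      rw [card_PI, ← card_NF h j]
      exact card_le_card fun e he => (mem_PF.1 he).1)
    hPd hN.ME he (by linarith [hN.he1]) hN.M1 hN.T1 hN.M3 hN.E72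
    (f1 := fun ω => ∑ j ∈ D, bd j ω)
    (fun ω _ => sum_nonneg fun j hj => hbd0 j (hDn j hj) ω) hB1 ha1
  have hnd : c.reps.Nodup := reps_nodup (c := c)
  have hcount : ∀ v < c.n, (c.granY P ω).count v = (core h).mu (c.hitI P) ω v :=
    fun v hv => count_granY h hnd P ω hv
  have hplan : ∀ j < c.n, c.M ≤ (c.granY P ω).length ∧
      ∑ e ∈ (range (c.granY P ω).length).filter
        (fun e => near c.r (c.granY P ω) c.M j e = true), riD c.r ((c.granY P ω).getD e 0) j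
        ≤ bd j ω := by
    intro j hj
    obtain ⟨n, n1, n2, n3⟩ := (hbd j hj).1 ω
    obtain ⟨k1, k2⟩ := near_le_plan (r := c.r) (Yc := c.granY P ω) (N := c.n) (M := c.M) (j := j)
      (n := n) (fun v hv => by rw [hcount v hv]; exact n1 v (mem_range.2 hv)) n2
      (fun v => h.d_nonneg v j)
    exact ⟨k1, k2.trans n3⟩
  refine ⟨c.granY P ω, granY_mem_granL hP2 hω, granY_mem h P ω, ?_, ?_, ?_, ?_⟩
  · have h0 : 0 < c.n := lt_of_le_of_lt (Nat.zero_le _) (h.loc_lt 0 (by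
      have := h.m_pos; have := h.m_le; omega))
    exact (hplan 0 h0).1
  · refine (sum_le_sum fun j hj => (hplan j (hDn j hj)).2).trans (r1.trans ?_)
    have h1 : (1 + 3 * e) * (c.M * ((1 + e) * A)) = c.M * ((1 + 3 * e) * (1 + e) * A) := by ring
    rw [h1]
    refine mul_le_mul_of_nonneg_left ?_ (by linarith)
    refine mul_le_mul_of_nonneg_right ?_ hA.le
    have := hN.he1
    nlinarith
  · rw [length_granY h hnd P ω]
    have h1 : ((core h).H.card : ℚ) + c.m * c.Gf.card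
        ≤ c.L + ∑ g ∈ c.Gf, ((c.ZI g).card : ℚ) + c.m := by
      have h2 : (core h).H.card + c.m * c.Gf.card ≤ c.L + ∑ g ∈ c.Gf, (c.ZI g).card + c.m := by
        rw [sum_congr rfl fun g _ => card_ZI g]; omega
      exact_mod_cast h2
    have hGn : (c.Gf.card : ℚ) ≤ c.n := by
      have : c.Gf ⊆ range c.n := fun g hg => mem_range.2 (Gf_lt h hg)
      have := card_le_card this
      rw [card_range] at this
      exact_mod_cast this
    have h3 : p * ((core h).H.card - ∑ g ∈ c.Gf, ((c.ZI g).card : ℚ))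
        ≤ p * (c.L + c.m - c.m * c.Gf.card) := mul_le_mul_of_nonneg_left (by linarith) hp0
    have h4 : ((c.M : ℚ) - p * c.m) * c.Gf.card ≤ 1 :=
      (mul_le_mul_of_nonneg_left hGn (by linarith)).trans hpmn
    have r2' : ((∑ v ∈ range c.n, (core h).mu (c.hitI P) ω v : ℕ) : ℚ)
        ≤ c.M * c.Gf.card + p * ((core h).H.card - ∑ g ∈ c.Gf, ((c.ZI g).card : ℚ))
          + 2 * e * c.M * s := r2
    have h5 : ((∑ v ∈ range c.n, (core h).mu (c.hitI P) ω v : ℕ) : ℚ)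
        ≤ p * c.L + p * c.m + 1 + 2 * e * c.M * s := by nlinarith
    have h6 : p * c.L * c.m ≤ c.M * c.L := by
      have := mul_le_mul_of_nonneg_right hpm (show (0 : ℚ) ≤ c.L by positivity)
      nlinarith
    have h7 := mul_le_mul_of_nonneg_right h5 hmq.le
    refine h7.trans ?_
    have h8 : (p * c.m + 1 + 2 * e * c.M * s) ≤ c.M * (8 * e * s) := by
      have : (c.M : ℚ) * 3 ≤ c.M * (8 * e * s) := mul_le_mul_of_nonneg_left hs (by linarith)
      nlinarith
    have h9 := mul_le_mul_of_nonneg_right h8 hmq.le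
    nlinarith
  · have h1 : ((c.Gt.filter (fun g => decide (c.M ≤ (c.granY P ω).count g))).length)
        = (c.Gt.toFinset.filter (fun g => c.M ≤ (c.granY P ω).count g)).card := by
      rw [len_filter h.Gt_nodup]; simp
    rw [h1]
    have h2 : (c.Gf.filter (fun g => (core h).mu (c.hitI P) ω g < c.M)).card
        + (c.Gf.filter (fun g => ¬ (core h).mu (c.hitI P) ω g < c.M)).card = c.Gf.card :=
      card_filter_add_card_filter_not _
    have h3 : (c.Gf.filter (fun g => ¬ (core h).mu (c.hitI P) ω g < c.M)).card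
        ≤ (c.Gt.toFinset.filter (fun g => c.M ≤ (c.granY P ω).count g)).card := by
      apply card_le_card
      intro g hg
      rw [mem_filter] at hg ⊢
      have hg' := hg.1
      rw [mem_Gf, isF_iff] at hg'
      refine ⟨List.mem_toFinset.2 hg'.1, ?_⟩
      rw [hcount g (Gf_lt h hg.1)]
      exact not_lt.1 hg.2
    have h4 : (c.Gf.filter (fun g => (core h).mu (c.hitI P) ω g < c.M)).card ≤ C3 * s := by
      have h5 : ((c.Gf.filter (fun g => (core h).mu (c.hitI P) ω g < c.M)).card : ℚ)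
          ≤ 4 / e * (c.M * C2 * s) := r3
      have h6 : 4 / e * (c.M * C2 * s) ≤ C3 * s := by
        have := mul_le_mul_of_nonneg_right hC3 (show (0 : ℚ) ≤ s by linarith)
        linarith
      exact_mod_cast h5.trans h6
    have h7 : (2 * c.T * C2 + C3) * s = 2 * c.T * C2 * s + C3 * s := by ring
    omega

end Par

end Crest.Agent.R310.Gran
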