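import Crest.Agent.R310.GranInst

/-!
# R310, block GRAN, part 7: geometry of the nearest copies
-/

set_option linter.dupNamespace false
set_option linter.unusedSectionVars false
set_option autoImplicit false

namespace Crest.Agent.R310.Gran

open Finset

namespace Par

variable {c : Par}

theorem key_lt {j e' e : ℕ} : copyKey c.r c.Y j e' < copyKey c.r c.Y j e ↔
    (riD c.r (c.loc e') j < riD c.r (c.loc e) j ∨
        (riD c.r (c.loc e') j = riD c.r (c.loc e) j ∧
          (c.loc e' < c.loc e ∨ (c.loc e' = c.loc e ∧ e' < e)))) := copyKey_lt _ _ _ _ _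

theorem card_NF (h : c.Ok) (j : ℕ) : (c.NF j).card = c.m := near_card c.r c.Y h.m_le j

theorem NF_lt {j e : ℕ} (he : e ∈ c.NF j) : e < c.L := (mem_NF.1 he).1

theorem NF_before {j e e' : ℕ} (he : e ∈ c.NF j) (he' : e' < c.L)
    (h : copyKey c.r c.Y j e' < copyKey c.r c.Y j e) : e' ∈ c.NF j := by
  rw [mem_NF] at he ⊢
  refine ⟨he', ?_⟩
  rw [near_iff] at he ⊢
  exact (rk_lt_rk (copyKey c.r c.Y j) c.Y.length (show e' < c.Y.length from he') h).trans he.2

theorem own_near (h : c.Ok) {g e : ℕ} (hg : g < c.n) (he : e ∈ c.own g) : e ∈ c.NF g := by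
  rw [mem_own, mem_liveF] at he
  obtain ⟨⟨he1, he2⟩, he3⟩ := he
  rw [mem_NF, near_iff]
  refine ⟨he1, ?_⟩
  unfold live at he2
  rw [decide_eq_true_eq, len_filter_range] at he2
  refine lt_of_le_of_lt (card_le_card ?_) he2
  intro e' he'
  rw [mem_filter, mem_range] at he'
  obtain ⟨hlt, hk⟩ := he'
  rw [key_lt, he3, h.d_self g hg] at hk
  rw [mem_filter, mem_range, decide_eq_true_eq]
  rcases hk with hk | ⟨hk1, hk2⟩
  · exact absurd hk (not_lt.2 (h.d_nonneg _ _))
  · have hl : c.loc e' = g := by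
      by_contra hne
      have := h.d_pos (c.loc e') (h.loc_lt e' hlt) g hg hne
      linarith
    rw [hl] at hk2
    rcases hk2 with hk2 | ⟨_, hk2⟩
    · exact absurd hk2 (lt_irrefl _)
    · exact ⟨hk2, by rw [hl, he3]⟩

theorem NF_filter_own (h : c.Ok) {g : ℕ} (hg : g < c.n) :
    (c.NF g).filter (fun e => c.loc e = g) = c.own g := by
  ext e
  rw [mem_filter]
  constructor
  · rintro ⟨h1, h2⟩; exact mem_own.2 ⟨NF_live h1, h2⟩
  · intro h1; exact ⟨own_near h hg h1, (mem_own.1 h1).2⟩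

theorem NF_filter_ne {g j : ℕ} :
    (c.NF g).filter (fun e => ¬ c.loc e = j) = (c.NF g).filter (fun e => c.loc e ≠ j) := rfl

theorem ZF_eq (g : ℕ) : c.ZF g = (c.NF g).filter (fun e => ¬ c.loc e = g) := by
  ext e; rw [mem_ZF, mem_filter]

theorem card_ZF_own (h : c.Ok) {g : ℕ} (hg : g < c.n) : (c.ZF g).card + (c.own g).card = c.m := by
  rw [← NF_filter_own h hg, ZF_eq, ← card_NF h g, add_comm]
  exact card_filter_add_card_filter_not _

theorem card_ZF_le (h : c.Ok) {g : ℕ} (hg : g < c.n) : (c.ZF g).card ≤ c.m - c.cntL g := by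
  rcases (c.ZF g).eq_empty_or_nonempty with h0 | ⟨e0, he0⟩
  · rw [h0]; simp
  · have h1 : (range c.L).filter (fun e => c.loc e = g) ⊆ c.own g := by
      intro e he
      rw [mem_filter, mem_range] at he
      rw [← NF_filter_own h hg, mem_filter]
      refine ⟨NF_before (mem_ZF.1 he0).1 he.1 ?_, he.2⟩
      rw [key_lt]
      left
      rw [he.2, h.d_self g hg]
      exact h.d_pos _ (h.loc_lt _ (NF_lt (mem_ZF.1 he0).1)) g hg (mem_ZF.1 he0).2
    have h2 := card_le_card h1
    rw [← cntL_eq] at h2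
    have h3 := card_ZF_own h hg
    omega

theorem nc_eq (j : ℕ) : c.nc j = ∑ e ∈ c.NF j, riD c.r (c.loc e) j := by
  unfold nc NF
  rw [sum_filter]

theorem nc_nonneg (h : c.Ok) (j : ℕ) : 0 ≤ c.nc j := by
  rw [nc_eq]; exact sum_nonneg fun _ _ => h.d_nonneg _ _

/-- number of near copies of `j` at `g` -/
def aa (c : Par) (j g : ℕ) : ℕ := ((c.NF j).filter (fun e => c.loc e = g)).card

theorem aa_add (h : c.Ok) (j g : ℕ) :
    c.aa j g + ((c.NF j).filter (fun e => ¬ c.loc e = g)).card = c.m := by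
  unfold aa
  rw [card_filter_add_card_filter_not, card_NF h]

theorem aa_le_own (j g : ℕ) : c.aa j g ≤ (c.own g).card := by
  unfold aa
  apply card_le_card
  intro e he
  rw [mem_filter] at he
  exact mem_own.2 ⟨NF_live he.1, he.2⟩

theorem sum_own_j (j g : ℕ) : ∑ e ∈ (c.NF j).filter (fun e => c.loc e = g), riD c.r (c.loc e) j
    = c.aa j g * riD c.r g j := by
  rw [sum_congr rfl (g := fun _ => riD c.r g j) (fun e he => by rw [(mem_filter.1 he).2]),
    sum_const, nsmul_eq_mul]
  rfl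

theorem nc_split (j g : ℕ) : c.nc j = c.aa j g * riD c.r g j
    + ∑ e ∈ (c.NF j).filter (fun e => ¬ c.loc e = g), riD c.r (c.loc e) j := by
  rw [nc_eq, ← sum_own_j, sum_filter_add_sum_filter_not]

theorem aa_mul_le (h : c.Ok) (j g : ℕ) : c.aa j g * riD c.r g j ≤ c.nc j := by
  rw [nc_split j g]
  have : 0 ≤ ∑ e ∈ (c.NF j).filter (fun e => ¬ c.loc e = g), riD c.r (c.loc e) j :=
    sum_nonneg fun _ _ => h.d_nonneg _ _
  linarith

/-- the key inequality for attached clients -/
theorem att_ineq (h : c.Ok) {j g : ℕ} (hj : j < c.n) (hg : g < c.n) :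
    ∑ x ∈ c.ZF g, riD c.r (c.loc x) j + c.aa j g * riD c.r g j
      ≤ 2 * (c.ZF g).card * riD c.r g j + c.nc j := by
  classical
  have h1 := aa_add h j g
  have h2 := aa_le_own (c := c) j g
  have h3 := card_ZF_own h hg
  obtain ⟨W, hW, hWc⟩ := exists_subset_card_eq
    (s := (c.NF j).filter (fun e => ¬ c.loc e = g)) (n := (c.ZF g).card) (by omega)
  have hWL : ∀ e ∈ W, e < c.L := fun e he => NF_lt (mem_filter.1 (hW he)).1
  have hdis : Disjoint (c.own g) W := by
    rw [disjoint_left]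
    intro e he he'
    exact (mem_filter.1 (hW he')).2 (mem_own.1 he).2
  have hX : c.own g ∪ W ⊆ range c.Y.length := by
    intro e he
    rcases mem_union.1 he with he | he
    · exact mem_range.2 (mem_liveF.1 (mem_own.1 he).1).1
    · exact mem_range.2 (hWL e he)
  have hXc : c.m ≤ (c.own g ∪ W).card := by
    rw [card_union_of_disjoint hdis, hWc]; omega
  have hmin := near_min c.r c.Y h.m_le g hX hXc (fun e _ => h.d_nonneg _ _)
  have e1 : ∑ e ∈ (range c.Y.length).filter (fun e => near c.r c.Y c.m g e = true),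
      riD c.r (c.Y.getD e 0) g = ∑ e ∈ c.ZF g, riD c.r (c.loc e) g := by
    have : ∑ e ∈ c.NF g, riD c.r (c.loc e) g = ∑ e ∈ c.ZF g, riD c.r (c.loc e) g := by
      rw [ZF_eq, ← sum_filter_add_sum_filter_not (c.NF g) (fun e => c.loc e = g)]
      have : ∑ e ∈ (c.NF g).filter (fun e => c.loc e = g), riD c.r (c.loc e) g = 0 :=
        sum_eq_zero fun e he => by rw [(mem_filter.1 he).2, h.d_self g hg]
      rw [this, zero_add]
    exact this
  have e2 : ∑ e ∈ c.own g ∪ W, riD c.r (c.Y.getD e 0) g = ∑ e ∈ W, riD c.r (c.loc e) g := by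
    rw [sum_union hdis]
    have : ∑ e ∈ c.own g, riD c.r (c.Y.getD e 0) g = 0 :=
      sum_eq_zero fun e he => by
        have : c.Y.getD e 0 = g := (mem_own.1 he).2
        rw [this, h.d_self g hg]
    rw [this, zero_add]
    rfl
  rw [e1, e2] at hmin
  have hjg : riD c.r j g = riD c.r g j := h.d_symm j hj g hg
  have s1 : ∑ x ∈ c.ZF g, riD c.r (c.loc x) j
      ≤ ∑ x ∈ c.ZF g, riD c.r (c.loc x) g + (c.ZF g).card * riD c.r g j := by
    rw [← nsmul_eq_mul, ← sum_const, ← sum_add_distrib]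
    exact sum_le_sum fun x hx =>
      h.d_tri _ (h.loc_lt _ (NF_lt (mem_ZF.1 hx).1)) _ hg _ hj
  have s2 : ∑ e ∈ W, riD c.r (c.loc e) g
      ≤ ∑ e ∈ W, riD c.r (c.loc e) j + (c.ZF g).card * riD c.r g j := by
    rw [← hWc, ← nsmul_eq_mul, ← sum_const, ← sum_add_distrib]
    refine sum_le_sum fun x hx => ?_
    rw [← hjg]
    exact h.d_tri _ (h.loc_lt _ (hWL x hx)) _ hj _ hg
  have s3 : ∑ e ∈ W, riD c.r (c.loc e) j
      ≤ ∑ e ∈ (c.NF j).filter (fun e => ¬ c.loc e = g), riD c.r (c.loc e) j :=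
    sum_le_sum_of_subset_of_nonneg hW fun _ _ _ => h.d_nonneg _ _
  rw [nc_split j g]
  linarith

/-! ### ordinary clients -/

/-- at most one nearly full location meets the near copies of an ordinary client -/
theorem ord_unique (h : c.Ok) {j : ℕ} (hna : ∀ g ∈ c.Gf, c.T * c.aa j g + c.m < c.T * c.m)
    {e1 e2 : ℕ} (h1 : e1 ∈ c.NF j) (h2 : e2 ∈ c.NF j) (g1 : c.loc e1 ∈ c.Gf)
    (g2 : c.loc e2 ∈ c.Gf) : c.loc e1 = c.loc e2 := by
  have aux : ∀ a b : ℕ, a ∈ c.NF j → b ∈ c.NF j → c.loc a ∈ c.Gf → c.loc b ∈ c.Gf →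
      c.loc a ≠ c.loc b → copyKey c.r c.Y j a < copyKey c.r c.Y j b → False := by
    intro a b ha hb ga gb hne hk
    have hsub : (range c.L).filter (fun e => c.loc e = c.loc a)
        ⊆ (c.NF j).filter (fun e => c.loc e = c.loc a) := by
      intro e he
      rw [mem_filter, mem_range] at he
      rw [mem_filter]
      refine ⟨NF_before hb he.1 ?_, he.2⟩
      rw [key_lt] at hk ⊢
      rw [he.2]
      rcases hk with hk | ⟨hk1, hk2⟩
      · exact Or.inl hk
      · refine Or.inr ⟨hk1, ?_⟩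
        rcases hk2 with hk2 | ⟨hk2, _⟩
        · exact Or.inl hk2
        · exact absurd hk2 hne
    have h3 := card_le_card hsub
    rw [← cntL_eq] at h3
    have h4 : c.cntL (c.loc a) ≤ c.aa j (c.loc a) := h3
    have h5 := hna _ ga
    have h6 := (isF_iff.1 (mem_Gf.1 ga)).2
    have h7 := h.m_pos
    have h8 : c.aa j (c.loc a) ≤ c.m := by have := aa_add h j (c.loc a); omega
    have h9 : c.T * c.cntL (c.loc a) ≤ c.T * c.aa j (c.loc a) := Nat.mul_le_mul_left _ h4
    have h10 : c.T * (c.m - c.cntL (c.loc a)) = c.T * c.m - c.T * c.cntL (c.loc a) :=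
      Nat.mul_sub _ _ _
    have h11 : 2 * c.T * (c.m - c.cntL (c.loc a)) = 2 * (c.T * (c.m - c.cntL (c.loc a))) := by
      ring
    omega
  by_contra hne
  rcases lt_trichotomy (copyKey c.r c.Y j e1) (copyKey c.r c.Y j e2) with hk | hk | hk
  · exact aux e1 e2 h1 h2 g1 g2 hne hk
  · have := copyKey_inj hk
    exact hne (by rw [this])
  · exact aux e2 e1 h2 h1 g2 g1 (Ne.symm hne) hk

/-- the own copies of a nearly full location -/
theorem own_large (h : c.Ok) {g : ℕ} (hg : g ∈ c.Gf) : 2 * c.T * (c.ZF g).card ≤ c.m :=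
  (Nat.mul_le_mul_left _ (card_ZF_le h (Gf_lt h hg))).trans (isF_iff.1 (mem_Gf.1 hg)).2

/-- near copies of an ordinary client are not farther than the tight location they miss -/
theorem ord_near_le (h : c.Ok) {j g : ℕ} (hg : g ∈ c.Gf)
    (hna : c.T * c.aa j g + c.m < c.T * c.m) {e : ℕ} (he : e ∈ c.NF j) :
    riD c.r (c.loc e) j ≤ riD c.r g j := by
  have h1 := own_large h hg
  have h2 := card_ZF_own h (Gf_lt h hg)
  have h3 : c.aa j g < (c.own g).card := by
    by_contra hcon
    push Not at hcon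
    have h4 : c.T * (c.own g).card ≤ c.T * c.aa j g := Nat.mul_le_mul_left _ hcon
    have h5 : c.T * ((c.ZF g).card + (c.own g).card) = c.T * c.m := by rw [h2]
    have h6 : 2 * c.T * (c.ZF g).card = 2 * (c.T * (c.ZF g).card) := by ring
    rw [mul_add] at h5
    omega
  obtain ⟨e1, he1, he1'⟩ : ∃ e1 ∈ c.own g, e1 ∉ (c.NF j).filter (fun e => c.loc e = g) := by
    by_contra hcon
    push Not at hcon
    have := card_le_card (show c.own g ⊆ (c.NF j).filter (fun e => c.loc e = g) from hcon)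
    unfold aa at h3
    omega
  have hloc : c.loc e1 = g := (mem_own.1 he1).2
  have hn : e1 ∉ c.NF j := fun hcon => he1' (mem_filter.2 ⟨hcon, hloc⟩)
  by_contra hlt
  push Not at hlt
  refine hn (NF_before he (mem_liveF.1 (mem_own.1 he1).1).1 ?_)
  rw [key_lt, hloc]
  exact Or.inl hlt

/-- the foreign copies of `g` are near an ordinary client of `g` -/
theorem ord_Z_le (h : c.Ok) {j g : ℕ} (hj : j < c.n) (hg : g ∈ c.Gf)
    (hna : c.T * c.aa j g + c.m < c.T * c.m) {x : ℕ} (hx : x ∈ c.ZF g) :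
    riD c.r (c.loc x) j ≤ 3 * riD c.r g j := by
  have hgn := Gf_lt h hg
  have hjg : riD c.r j g = riD c.r g j := h.d_symm j hj g hgn
  have hxn := h.loc_lt _ (NF_lt (mem_ZF.1 hx).1)
  have h0 : riD c.r (c.loc x) g ≤ 2 * riD c.r g j := by
    by_contra hlt
    push Not at hlt
    have hsub : (c.NF j).filter (fun e => ¬ c.loc e = g) ⊆ (c.ZF g).erase x := by
      intro e he
      rw [mem_filter] at he
      have hen := h.loc_lt _ (NF_lt he.1)
      have h1 : riD c.r (c.loc e) g ≤ 2 * riD c.r g j := by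
        have h2 := h.d_tri (c.loc e) hen j hj g hgn
        have h3 := ord_near_le h hg hna he.1
        linarith
      have h4 : riD c.r (c.loc e) g < riD c.r (c.loc x) g := lt_of_le_of_lt h1 hlt
      rw [mem_erase, mem_ZF]
      refine ⟨?_, NF_before (mem_ZF.1 hx).1 (NF_lt he.1) (key_lt.2 (Or.inl h4)), he.2⟩
      intro hex
      rw [hex] at h4
      exact lt_irrefl _ h4
    have h5 := card_le_card hsub
    rw [card_erase_of_mem hx] at h5
    have h6 := aa_add h j g
    have h7 := card_ZF_own h hgn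
    have h8 := aa_le_own (c := c) j g
    have h9 : 0 < (c.ZF g).card := card_pos.2 ⟨x, hx⟩
    omega
  have := h.d_tri (c.loc x) hxn g hgn j hj
  linarith

/-- Markov: few near copies are farther than `E` times the average -/
theorem far_card (h : c.Ok) (j : ℕ) :
    c.E * ((c.NF j).filter (fun e => ¬ (c.m * riD c.r (c.loc e) j ≤ c.E * c.nc j))).card
      ≤ c.m := by
  set F := (c.NF j).filter (fun e => ¬ (c.m * riD c.r (c.loc e) j ≤ c.E * c.nc j)) with hF
  rcases F.eq_empty_or_nonempty with h0 | h0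
  · rw [h0]; simp
  · have hmq : (0 : ℚ) < c.m := by exact_mod_cast h.m_pos
    have h1 : F.card • (c.E * c.nc j) ≤ ∑ e ∈ F, c.m * riD c.r (c.loc e) j :=
      card_nsmul_le_sum _ _ _ fun e he => (not_le.1 (mem_filter.1 he).2).le
    have h2 : ∑ e ∈ F, c.m * riD c.r (c.loc e) j ≤ c.m * c.nc j := by
      rw [← mul_sum, nc_eq]
      exact mul_le_mul_of_nonneg_left
        (sum_le_sum_of_subset_of_nonneg (filter_subset _ _) fun _ _ _ => h.d_nonneg _ _) hmq.le
    have h3 : 0 < c.nc j := by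
      rcases (nc_nonneg h j).eq_or_lt with h4 | h4
      · exfalso
        obtain ⟨e, he⟩ := h0
        have h5 := not_le.1 (mem_filter.1 he).2
        rw [← h4, mul_zero] at h5
        have h6 : riD c.r (c.loc e) j ≤ c.nc j := by
          rw [nc_eq]
          exact single_le_sum (f := fun e => riD c.r (c.loc e) j) (fun _ _ => h.d_nonneg _ _)
            (mem_filter.1 he).1
        rw [← h4] at h6
        have := mul_le_mul_of_nonneg_left h6 hmq.le
        rw [mul_zero] at this
        linarith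
      · exact h4
    rw [nsmul_eq_mul] at h1
    have h4 : ((c.E : ℚ) * F.card) * c.nc j ≤ c.m * c.nc j := by
      calc ((c.E : ℚ) * F.card) * c.nc j = F.card * (c.E * c.nc j) := by ring
        _ ≤ _ := h1.trans h2
    have h5 := le_of_mul_le_mul_right h4 h3
    exact_mod_cast h5

/-- hub copies of an ordinary client with few tight copies -/
theorem ord_isB (h : c.Ok) {j : ℕ} {a : ℕ}
    (ha : ((c.NF j).filter (fun e => c.loc e ∈ c.Gf)).card ≤ a) (haE : c.E * a ≤ c.m) :
    c.isB j = true := by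
  classical
  unfold isB
  rw [decide_eq_true_eq, length_PL]
  have h1 : c.NF j ⊆ c.PF j ∪ ((c.NF j).filter (fun e => c.loc e ∈ c.Gf)
      ∪ (c.NF j).filter (fun e => ¬ (c.m * riD c.r (c.loc e) j ≤ c.E * c.nc j))) := by
    intro e he
    rw [mem_union, mem_union, mem_PF, mem_filter, mem_filter]
    tauto
  have h2 := card_le_card h1
  have h3 := card_union_le (c.PF j) ((c.NF j).filter (fun e => c.loc e ∈ c.Gf)
      ∪ (c.NF j).filter (fun e => ¬ (c.m * riD c.r (c.loc e) j ≤ c.E * c.nc j)))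
  have h4 := card_union_le ((c.NF j).filter (fun e => c.loc e ∈ c.Gf))
    ((c.NF j).filter (fun e => ¬ (c.m * riD c.r (c.loc e) j ≤ c.E * c.nc j)))
  have h5 := far_card h j
  rw [card_NF h] at h2
  set f := ((c.NF j).filter (fun e => ¬ (c.m * riD c.r (c.loc e) j ≤ c.E * c.nc j))).card
  have h6 : c.m ≤ (c.PF j).card + (a + f) := by omega
  have h7 := Nat.mul_le_mul_left c.E h6
  rw [mul_add, mul_add] at h7
  omega

/-- radius of the ball of an ordinary client -/
def U0 (c : Par) (j : ℕ) : ℚ := 3 * (c.E * c.nc j / c.m)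

/-- ball of an ordinary client -/
def ball (c : Par) (j : ℕ) : Finset ℕ := (range c.n).filter (fun v => riD c.r v j ≤ c.U0 j)

theorem U0_nonneg (h : c.Ok) (j : ℕ) : 0 ≤ c.U0 j := by
  unfold U0
  have := nc_nonneg h j
  positivity

/-- the ball of an ordinary client is rich -/
theorem ord_cap (h : c.Ok)
    (hcov : ∀ j, j < c.n → c.isB j = true → ∃ j0 ∈ c.reps, c.nc j0 ≤ c.nc j ∧
      ∃ e ∈ c.PF j, e ∈ c.PF j0)
    {j : ℕ} (hj : j < c.n) (hna : ∀ g ∈ c.Gf, c.T * c.aa j g + c.m < c.T * c.m)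
    (P : ℕ) (s : ℕ × ℕ) : c.M ≤ ∑ v ∈ c.ball j, (core h).mu (c.hitI P) s v := by
  classical
  have hmq : (0 : ℚ) < c.m := by exact_mod_cast h.m_pos
  by_cases hA : ∃ g ∈ c.Gf, c.m ≤ c.E * c.aa j g
  · obtain ⟨g, hg, hga⟩ := hA
    have hgn := Gf_lt h hg
    have h1 : 3 * riD c.r g j ≤ c.U0 j := by
      unfold U0
      have h2 := aa_mul_le h j g
      have h3 : (c.m : ℚ) ≤ c.E * c.aa j g := by exact_mod_cast hga
      have h4 : riD c.r g j ≤ c.E * c.nc j / c.m := by
        rw [le_div_iff₀ hmq]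
        have h5 := mul_le_mul_of_nonneg_right h3 (h.d_nonneg g j)
        have h6 := mul_le_mul_of_nonneg_left h2 (show (0 : ℚ) ≤ c.E by positivity)
        nlinarith
      linarith
    have h0 := h.d_nonneg g j
    have hgb : g ∈ c.ball j := by
      unfold ball
      rw [mem_filter, mem_range]
      exact ⟨hgn, by linarith⟩
    refine (core h).cap_tight hg hgb (fun q hq => ?_)
    have hq' : q.1 ∈ c.ZF g := (mem_ZI.1 hq).1
    have h5 := ord_Z_le h hj hg (hna g hg) hq'
    change c.loc q.1 ∈ c.ball j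
    unfold ball
    rw [mem_filter, mem_range]
    exact ⟨h.loc_lt _ (NF_lt (mem_ZF.1 hq').1), h5.trans h1⟩
  · push Not at hA
    have hB : c.isB j = true := by
      rcases ((c.NF j).filter (fun e => c.loc e ∈ c.Gf)).eq_empty_or_nonempty with h0 | ⟨e0, he0⟩
      · refine ord_isB h (a := 0) (by rw [h0]; simp) (by simp)
      · rw [mem_filter] at he0
        refine ord_isB h (a := c.aa j (c.loc e0)) ?_ (hA _ he0.2).le
        unfold aa
        apply card_le_card
        intro e he
        rw [mem_filter] at he ⊢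
        exact ⟨he.1, ord_unique h hna he.1 he0.1 he.2 he0.2⟩
    obtain ⟨j0, hj0, hnc, e, he1, he2⟩ := hcov j hj hB
    have hj0n := (reps_prop hj0).1
    have hdj : ∀ x ∈ c.PF j0, riD c.r (c.loc x) j ≤ c.U0 j := by
      intro x hx
      have hxn := h.loc_lt _ (NF_lt (mem_PF.1 hx).1)
      have hen := h.loc_lt _ (NF_lt (mem_PF.1 he1).1)
      have k1 := (mem_PF.1 hx).2.2
      have k2 := (mem_PF.1 he2).2.2
      have k3 := (mem_PF.1 he1).2.2
      have k4 := h.d_tri (c.loc x) hxn j0 hj0n j hj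
      have k5 := h.d_tri j0 hj0n (c.loc e) hen j hj
      have k6 := h.d_symm j0 hj0n (c.loc e) hen
      have k7 := mul_le_mul_of_nonneg_left hnc (show (0 : ℚ) ≤ c.E by positivity)
      unfold U0
      rw [← mul_div_assoc, le_div_iff₀ hmq]
      have k8 : riD c.r (c.loc x) j ≤ riD c.r (c.loc x) j0 + riD c.r (c.loc e) j0
          + riD c.r (c.loc e) j := by rw [k6] at k5; linarith
      have k9 := mul_le_mul_of_nonneg_right k8 hmq.le
      nlinarith
    have hmem : ∀ x ∈ c.PF j0, c.loc x ∈ c.ball j := by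
      intro x hx
      unfold ball
      rw [mem_filter, mem_range]
      exact ⟨h.loc_lt _ (NF_lt (mem_PF.1 hx).1), hdj x hx⟩
    refine (core h).cap_rep (List.mem_toFinset.2 hj0) (fun q hq => hmem _ (mem_PI.1 hq).1) ?_
    obtain ⟨e', he', hpt⟩ := pt_spec h (reps_prop hj0).2
    change c.pt j0 ∈ c.ball j
    rw [hpt]
    exact hmem e' he'

end Par

end Crest.Agent.R310.Gran
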