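import Mathlib

/-!
# R310, block GRAN, part 1: averages over seeds, pairwise independent sampling, the hash family
-/

set_option linter.dupNamespace false
set_option autoImplicit false

namespace Crest.Agent.R310.Gran

open Finset

/-! ### averages -/

section avg

variable {Ω : Type*}

/-- average over a finite set of seeds -/
def avg (S : Finset Ω) (f : Ω → ℚ) : ℚ := (∑ ω ∈ S, f ω) / S.card

variable {S : Finset Ω}

theorem avg_add (f g : Ω → ℚ) : avg S (fun ω => f ω + g ω) = avg S f + avg S g := by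
  unfold avg; rw [sum_add_distrib, add_div]

theorem avg_sub (f g : Ω → ℚ) : avg S (fun ω => f ω - g ω) = avg S f - avg S g := by
  unfold avg; rw [sum_sub_distrib, sub_div]

theorem avg_smul (c : ℚ) (f : Ω → ℚ) : avg S (fun ω => c * f ω) = c * avg S f := by
  unfold avg; rw [← mul_sum, mul_div_assoc]

theorem avg_div (c : ℚ) (f : Ω → ℚ) : avg S (fun ω => f ω / c) = avg S f / c := by
  unfold avg; rw [← sum_div, div_right_comm]

theorem avg_sum {ι : Type*} (s : Finset ι) (f : ι → Ω → ℚ) :
    avg S (fun ω => ∑ i ∈ s, f i ω) = ∑ i ∈ s, avg S (f i) := by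
  unfold avg; rw [sum_comm, sum_div]

theorem avg_const (hS : S.Nonempty) (c : ℚ) : avg S (fun _ => c) = c := by
  unfold avg
  have : (S.card : ℚ) ≠ 0 := by exact_mod_cast (card_pos.2 hS).ne'
  rw [sum_const, nsmul_eq_mul]; field_simp

theorem avg_mono {f g : Ω → ℚ} (h : ∀ ω ∈ S, f ω ≤ g ω) : avg S f ≤ avg S g := by
  unfold avg
  exact div_le_div_of_nonneg_right (sum_le_sum h) (by positivity)

theorem avg_nonneg {f : Ω → ℚ} (h : ∀ ω ∈ S, 0 ≤ f ω) : 0 ≤ avg S f := by
  unfold avg
  exact div_nonneg (sum_nonneg h) (by positivity)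

theorem exists_le_avg (hS : S.Nonempty) {f : Ω → ℚ} {B : ℚ} (h : avg S f ≤ B) :
    ∃ ω ∈ S, f ω ≤ B := by
  by_contra hcon
  push Not at hcon
  have h1 : ∑ ω ∈ S, B < ∑ ω ∈ S, f ω := sum_lt_sum_of_nonempty hS hcon
  have h2 : (0 : ℚ) < S.card := by exact_mod_cast card_pos.2 hS
  unfold avg at h
  rw [div_le_iff₀ h2] at h
  rw [sum_const, nsmul_eq_mul] at h1
  linarith

end avg

/-! ### pairwise independent sampling -/

section pw

variable {Ω X : Type*}

/-- indicator of `x ∈ R ω` -/
def ind (R : Ω → X → Bool) (ω : Ω) (x : X) : ℚ := if R ω x = true then 1 else 0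

/-- pairwise independence with probability `p` on the items `U` -/
structure PW (S : Finset Ω) (R : Ω → X → Bool) (p : ℚ) (U : Finset X) : Prop where
  ne : S.Nonempty
  p_nonneg : 0 ≤ p
  one : ∀ x ∈ U, avg S (fun ω => ind R ω x) = p
  two : ∀ x ∈ U, ∀ y ∈ U, x ≠ y → avg S (fun ω => ind R ω x * ind R ω y) = p ^ 2

variable {S : Finset Ω} {R : Ω → X → Bool} {p : ℚ} {U : Finset X}

theorem ind_sq (ω : Ω) (x : X) : ind R ω x * ind R ω x = ind R ω x := by
  unfold ind; split_ifs <;> simp

theorem ind_nonneg (ω : Ω) (x : X) : 0 ≤ ind R ω x := by unfold ind; split_ifs <;> simp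

theorem PW.mean (h : PW S R p U) {V : Finset X} (hV : V ⊆ U) (c : X → ℚ) :
    avg S (fun ω => ∑ x ∈ V, c x * ind R ω x) = p * ∑ x ∈ V, c x := by
  rw [avg_sum, mul_sum]
  refine sum_congr rfl fun x hx => ?_
  rw [avg_smul, h.one x (hV hx), mul_comm]

theorem PW.sq [DecidableEq X] (h : PW S R p U) {V : Finset X} (hV : V ⊆ U) (c : X → ℚ) :
    avg S (fun ω => (∑ x ∈ V, c x * ind R ω x) ^ 2)
      = (p * ∑ x ∈ V, c x) ^ 2 + (p - p ^ 2) * ∑ x ∈ V, c x ^ 2 := by
  have e1 : ∀ ω, (∑ x ∈ V, c x * ind R ω x) ^ 2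
      = ∑ x ∈ V, ∑ y ∈ V, (c x * c y) * (ind R ω x * ind R ω y) := by
    intro ω
    rw [pow_two, sum_mul_sum]
    refine sum_congr rfl fun x _ => sum_congr rfl fun y _ => ?_
    ring
  have e2 : avg S (fun ω => (∑ x ∈ V, c x * ind R ω x) ^ 2)
      = ∑ x ∈ V, ∑ y ∈ V, (c x * c y) * (if x = y then p else p ^ 2) := by
    rw [show (fun ω => (∑ x ∈ V, c x * ind R ω x) ^ 2)
      = fun ω => ∑ x ∈ V, ∑ y ∈ V, (c x * c y) * (ind R ω x * ind R ω y) from funext e1]
    rw [avg_sum]
    refine sum_congr rfl fun x hx => ?_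
    rw [avg_sum]
    refine sum_congr rfl fun y hy => ?_
    rw [avg_smul]
    congr 1
    split_ifs with hxy
    · subst hxy
      rw [show (fun ω => ind R ω x * ind R ω x) = fun ω => ind R ω x from
        funext fun ω => ind_sq ω x]
      exact h.one x (hV hx)
    · exact h.two x (hV hx) y (hV hy) hxy
  rw [e2]
  have e3 : ∀ x ∈ V, ∑ y ∈ V, (c x * c y) * (if x = y then p else p ^ 2)
      = p ^ 2 * (c x * ∑ y ∈ V, c y) + (p - p ^ 2) * c x ^ 2 := by
    intro x hx
    have : ∀ y ∈ V, (c x * c y) * (if x = y then p else p ^ 2)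
        = p ^ 2 * (c x * c y) + (if x = y then (p - p ^ 2) * (c x * c y) else 0) := by
      intro y _
      split_ifs <;> ring
    rw [sum_congr rfl this, sum_add_distrib, sum_ite_eq, if_pos hx, ← mul_sum, ← mul_sum]
    ring
  rw [sum_congr rfl e3, sum_add_distrib, ← mul_sum, ← mul_sum, ← sum_mul]
  ring

theorem PW.var [DecidableEq X] (h : PW S R p U) {V : Finset X} (hV : V ⊆ U) (c : X → ℚ) :
    avg S (fun ω => (∑ x ∈ V, c x * ind R ω x - p * ∑ x ∈ V, c x) ^ 2)
      ≤ p * ∑ x ∈ V, c x ^ 2 := by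
  set m := p * ∑ x ∈ V, c x with hm
  have e1 : (fun ω => (∑ x ∈ V, c x * ind R ω x - m) ^ 2)
      = fun ω => ((∑ x ∈ V, c x * ind R ω x) ^ 2 + (-(2 * m)) * (∑ x ∈ V, c x * ind R ω x))
        + m ^ 2 := by
    funext ω; ring
  rw [e1, avg_add, avg_add, avg_smul, avg_const h.ne, h.sq hV c, h.mean hV c, ← hm]
  have h1 : 0 ≤ ∑ x ∈ V, c x ^ 2 := sum_nonneg fun x _ => sq_nonneg _
  nlinarith [mul_nonneg (sq_nonneg p) h1]

/-- number of sampled items in `V` -/
def cnt (R : Ω → X → Bool) (ω : Ω) (V : Finset X) : ℕ := (V.filter (fun x => R ω x = true)).card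

theorem cnt_eq (ω : Ω) (V : Finset X) : (cnt R ω V : ℚ) = ∑ x ∈ V, 1 * ind R ω x := by
  unfold cnt ind
  rw [card_filter]
  push_cast
  refine sum_congr rfl fun x _ => ?_
  split_ifs <;> simp

theorem PW.mean_cnt (h : PW S R p U) {V : Finset X} (hV : V ⊆ U) :
    avg S (fun ω => (cnt R ω V : ℚ)) = p * V.card := by
  have := h.mean hV (fun _ => 1)
  simp only [sum_const, nsmul_eq_mul, mul_one] at this
  rw [← this]
  congr 1
  funext ω
  exact cnt_eq ω V

theorem PW.sq_cnt [DecidableEq X] (h : PW S R p U) {V : Finset X} (hV : V ⊆ U) :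
    avg S (fun ω => (cnt R ω V : ℚ) ^ 2) ≤ (p * V.card) ^ 2 + p * V.card := by
  have := h.sq hV (fun _ => 1)
  simp only [sum_const, nsmul_eq_mul, mul_one, one_pow] at this
  have e : (fun ω => (cnt R ω V : ℚ) ^ 2) = fun ω => (∑ x ∈ V, 1 * ind R ω x) ^ 2 := by
    funext ω; rw [cnt_eq]
  rw [e, this]
  have : 0 ≤ p ^ 2 * (V.card : ℚ) := by positivity
  linarith

theorem PW.var_cnt [DecidableEq X] (h : PW S R p U) {V : Finset X} (hV : V ⊆ U) :
    avg S (fun ω => ((cnt R ω V : ℚ) - p * V.card) ^ 2) ≤ p * V.card := by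
  have := h.var hV (fun _ => 1)
  simp only [sum_const, nsmul_eq_mul, mul_one, one_pow] at this
  have e : (fun ω => ((cnt R ω V : ℚ) - p * V.card) ^ 2)
      = fun ω => (∑ x ∈ V, 1 * ind R ω x - p * V.card) ^ 2 := by
    funext ω; rw [cnt_eq]
  rw [e]
  exact this

/-- expected absolute deviation -/
theorem PW.dev_cnt [DecidableEq X] (h : PW S R p U) {V : Finset X} (hV : V ⊆ U) {c : ℚ}
    (hc : 0 < c) :
    avg S (fun ω => |(cnt R ω V : ℚ) - p * V.card|) ≤ p * V.card / (2 * c) + c / 2 := by
  have h1 : ∀ ω ∈ S, |(cnt R ω V : ℚ) - p * V.card|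
      ≤ (1 / (2 * c)) * ((cnt R ω V : ℚ) - p * V.card) ^ 2 + c / 2 := by
    intro ω _
    set a := (cnt R ω V : ℚ) - p * V.card
    have h2 : 0 ≤ (|a| - c) ^ 2 := sq_nonneg _
    have h3 : |a| ^ 2 = a ^ 2 := sq_abs a
    have h4 : |a| * (2 * c) ≤ a ^ 2 + c ^ 2 := by nlinarith
    rw [show (1 / (2 * c)) * a ^ 2 + c / 2 = (a ^ 2 + c ^ 2) / (2 * c) by field_simp]
    rw [le_div_iff₀ (by positivity)]
    exact h4
  refine (avg_mono h1).trans ?_
  rw [avg_add, avg_smul, avg_const h.ne]
  have h5 := h.var_cnt hV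
  have h6 := mul_le_mul_of_nonneg_left h5 (show 0 ≤ 1 / (2 * c) by positivity)
  rw [show (1 / (2 * c)) * (p * (V.card : ℚ)) = p * V.card / (2 * c) by field_simp] at h6
  linarith

end pw

/-! ### the hash family -/

/-- seeds -/
def seeds (P : ℕ) : Finset (ℕ × ℕ) := range P ×ˢ range P

/-- membership of the item with code `x` -/
def hashB (P t : ℕ) (s : ℕ × ℕ) (x : ℕ) : Bool := decide ((s.1 * x + s.2) % P < t)

theorem hash_one {P t x : ℕ} (hP : 0 < P) (ht : t ≤ P) :
    ((seeds P).filter (fun s => hashB P t s x = true)).card = P * t := by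
  have h1 : (seeds P).filter (fun s => hashB P t s x = true)
      = (range P).biUnion (fun a => ((range P).filter (fun b => (a * x + b) % P < t)).image
          (fun b => (a, b))) := by
    ext ⟨a, b⟩
    simp only [seeds, hashB, mem_filter, mem_product, mem_range, decide_eq_true_eq, mem_biUnion,
      mem_image, Prod.mk.injEq]
    constructor
    · rintro ⟨⟨ha, hb⟩, h⟩
      exact ⟨a, ha, b, ⟨hb, h⟩, rfl, rfl⟩
    · rintro ⟨a', ha, b', ⟨hb, h⟩, rfl, rfl⟩
      exact ⟨⟨ha, hb⟩, h⟩
  rw [h1, card_biUnion]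
  · have h2 : ∀ a ∈ range P, (((range P).filter (fun b => (a * x + b) % P < t)).image
          (fun b => (a, b))).card = t := by
      intro a _
      rw [card_image_of_injective _ (by intro b b' h; simpa using h)]
      have h3 : ((range P).filter (fun b => (a * x + b) % P < t)).image
          (fun b => (a * x + b) % P) = range t := by
        ext u
        simp only [mem_image, mem_filter, mem_range]
        constructor
        · rintro ⟨b, ⟨_, h⟩, rfl⟩; exact h
        · intro hu
          have hlt : (a * x) % P < P := Nat.mod_lt _ hP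
          have e : (a * x + (u + (P - (a * x) % P)) % P) % P = u := by
            rw [Nat.add_mod_mod, ← Nat.mod_add_mod,
              show (a * x) % P + (u + (P - (a * x) % P)) = u + P by omega,
              Nat.add_mod_right, Nat.mod_eq_of_lt (by omega)]
          exact ⟨(u + (P - (a * x) % P)) % P, ⟨Nat.mod_lt _ hP, by rw [e]; exact hu⟩, e⟩
      have hinj : Set.InjOn (fun b => (a * x + b) % P)
          ((range P).filter (fun b => (a * x + b) % P < t) : Finset ℕ) := by
        intro b hb b' hb' h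
        simp only [coe_filter, mem_range, Set.mem_ofPred_eq] at hb hb'
        have h4 : a * x + b ≡ a * x + b' [MOD P] := h
        have h5 : b ≡ b' [MOD P] := Nat.ModEq.add_left_cancel' _ h4
        exact Nat.ModEq.eq_of_lt_of_lt h5 hb.1 hb'.1
      rw [← card_image_of_injOn hinj, h3, card_range]
    rw [sum_congr rfl h2, sum_const, card_range, smul_eq_mul]
  · intro a _ a' _ haa
    rw [Function.onFun, disjoint_left]
    intro s hs hs'
    simp only [mem_image] at hs hs'
    obtain ⟨b, _, rfl⟩ := hs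
    obtain ⟨b', _, h⟩ := hs'
    exact haa (by simpa using (congrArg Prod.fst h).symm)

theorem hash_two {P t x y : ℕ} (hP : P.Prime) (ht : t ≤ P) (hx : x < P) (hy : y < P)
    (hxy : x ≠ y) :
    ((seeds P).filter (fun s => hashB P t s x = true ∧ hashB P t s y = true)).card = t * t := by
  have hP0 : 0 < P := hP.pos
  let f : ℕ × ℕ → ℕ × ℕ := fun s => ((s.1 * x + s.2) % P, (s.1 * y + s.2) % P)
  have hinj : Set.InjOn f (seeds P : Finset (ℕ × ℕ)) := by
    rintro ⟨a, b⟩ h1 ⟨a', b'⟩ h2 h
    simp only [seeds, coe_product, coe_range, Set.mem_prod, Set.mem_Iio] at h1 h2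
    simp only [f, Prod.mk.injEq] at h
    obtain ⟨hu, hv⟩ := h
    have cu : (a : ZMod P) * x + b = a' * x + b' := by
      have := (ZMod.natCast_eq_natCast_iff' (a * x + b) (a' * x + b') P).2 hu
      push_cast at this; exact this
    have cv : (a : ZMod P) * y + b = a' * y + b' := by
      have := (ZMod.natCast_eq_natCast_iff' (a * y + b) (a' * y + b') P).2 hv
      push_cast at this; exact this
    have : Fact P.Prime := ⟨hP⟩
    have h3 : ((a : ZMod P) - a') * ((x : ZMod P) - y) = 0 := by linear_combination cu - cv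
    have hxy' : (x : ZMod P) - y ≠ 0 := by
      intro h0
      have h4 : (x : ZMod P) = y := sub_eq_zero.1 h0
      rw [ZMod.natCast_eq_natCast_iff'] at h4
      rw [Nat.mod_eq_of_lt hx, Nat.mod_eq_of_lt hy] at h4
      exact hxy h4
    have h5 : (a : ZMod P) = a' := by
      rcases mul_eq_zero.1 h3 with h6 | h6
      · exact sub_eq_zero.1 h6
      · exact absurd h6 hxy'
    have ha : a = a' := by
      rw [ZMod.natCast_eq_natCast_iff', Nat.mod_eq_of_lt h1.1, Nat.mod_eq_of_lt h2.1] at h5
      exact h5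
    subst ha
    have hb : (b : ZMod P) = b' := by linear_combination cu
    rw [ZMod.natCast_eq_natCast_iff', Nat.mod_eq_of_lt h1.2, Nat.mod_eq_of_lt h2.2] at hb
    rw [hb]
  have himg : (seeds P).image f = seeds P := by
    apply eq_of_subset_of_card_le
    · intro u hu
      obtain ⟨s, _, rfl⟩ := mem_image.1 hu
      simp only [f, seeds, mem_product, mem_range]
      exact ⟨Nat.mod_lt _ hP0, Nat.mod_lt _ hP0⟩
    · rw [card_image_of_injOn hinj]
  have h6 : ((seeds P).filter (fun s => hashB P t s x = true ∧ hashB P t s y = true)).image f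
      = range t ×ˢ range t := by
    ext ⟨u, v⟩
    simp only [mem_image, mem_filter, hashB, decide_eq_true_eq, mem_product, mem_range]
    constructor
    · rintro ⟨s, ⟨_, h⟩, he⟩
      simp only [f, Prod.mk.injEq] at he
      rw [← he.1, ← he.2]; exact h
    · rintro ⟨hu, hv⟩
      have : (u, v) ∈ (seeds P).image f := by
        rw [himg]; simp only [seeds, mem_product, mem_range]; omega
      obtain ⟨s, hs, he⟩ := mem_image.1 this
      refine ⟨s, ⟨hs, ?_⟩, he⟩
      simp only [f, Prod.mk.injEq] at he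
      rw [he.1, he.2]; exact ⟨hu, hv⟩
  rw [← card_image_of_injOn (hinj.mono (by
    intro s hs; simp only [coe_filter, Set.mem_ofPred_eq] at hs; exact hs.1)), h6, card_product,
    card_range]

/-- **The hash family is pairwise independent.** -/
theorem hash_pw {X : Type*} {P t : ℕ} (hP : P.Prime) (ht : t ≤ P) (U : Finset X) (code : X → ℕ)
    (hlt : ∀ x ∈ U, code x < P) (hinj : ∀ x ∈ U, ∀ y ∈ U, code x = code y → x = y) :
    PW (seeds P) (fun s x => hashB P t s (code x)) ((t : ℚ) / P) U := by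
  have hP0 : 0 < P := hP.pos
  have hPq : (0 : ℚ) < P := by exact_mod_cast hP0
  have hcard : (seeds P).card = P * P := by simp [seeds]
  refine ⟨?_, by positivity, ?_, ?_⟩
  · rw [← card_pos, hcard]; positivity
  · intro x hx
    unfold avg ind
    rw [← sum_filter, sum_const, nsmul_eq_mul, mul_one, hash_one hP0 ht, hcard]
    push_cast
    field_simp
  · intro x hx y hy hxy
    unfold avg
    have e : ∀ s : ℕ × ℕ, ind (fun s x => hashB P t s (code x)) s x
        * ind (fun s x => hashB P t s (code x)) s y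
        = if (hashB P t s (code x) = true ∧ hashB P t s (code y) = true) then 1 else 0 := by
      intro s
      unfold ind
      by_cases h1 : hashB P t s (code x) = true <;> by_cases h2 : hashB P t s (code y) = true <;>
        simp [h1, h2]
    rw [sum_congr rfl fun s _ => e s, ← sum_filter, sum_const, nsmul_eq_mul, mul_one,
      hash_two hP ht (hlt x hx) (hlt y hy) (fun h => hxy (hinj x hx y hy h)), hcard]
    push_cast
    field_simp

end Crest.Agent.R310.Gran
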