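import Mathlib.Data.Finset.Card
import Mathlib.Analysis.Real.Sqrt
import Mathlib.Algebra.Order.Chebyshev
import Mathlib.Algebra.BigOperators.Field
import Mathlib.Tactic

/-!
# R310, block GRAN: representatives and the pairwise independent shortfall

* `exists_reps`   : greedy disjoint representatives in order of radius;
* `card_reps_mul` : counting them;
* `reps_dist`     : everything of the representative's ball is within `3 R`;
* `shortfall`     : pairwise independent sampling covers a set almost fully.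
-/

namespace Crest.Agent.R310.GranRep

open Finset

variable {J X : Type*}

/-- Greedy disjoint representatives, chosen in order of the radius. -/
theorem exists_reps [DecidableEq J] [DecidableEq X] {α : Type*} [LinearOrder α]
    (A : Finset J) (P : J → Finset X) (R : J → α) (hne : ∀ j ∈ A, (P j).Nonempty) :
    ∃ J0 ⊆ A, (∀ i ∈ J0, ∀ j ∈ J0, i ≠ j → Disjoint (P i) (P j)) ∧
      ∀ j ∈ A, ∃ i ∈ J0, R i ≤ R j ∧ ¬ Disjoint (P j) (P i) := by
  classical
  induction A using Finset.strongInduction with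
  | H A ih =>
    rcases A.eq_empty_or_nonempty with rfl | hA
    · exact ⟨∅, by simp, by simp, by simp⟩
    · obtain ⟨a, haA, hamin⟩ := A.exists_min_image R hA
      set B := A.filter (fun j => Disjoint (P j) (P a)) with hB
      have haB : a ∉ B := by
        intro h
        rw [hB, mem_filter] at h
        have := h.2
        rw [disjoint_self_iff_empty] at this
        exact (hne a haA).ne_empty this
      have hBA : B ⊂ A := by
        refine (Finset.filter_subset _ _).ssubset_of_ne ?_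
        intro h
        exact haB (by rw [hB, h]; exact haA)
      obtain ⟨J1, hJ1, hdis, hcov⟩ := ih B hBA (fun j hj => hne j (hBA.1 hj))
      refine ⟨insert a J1, ?_, ?_, ?_⟩
      · intro x hx
        rcases mem_insert.1 hx with rfl | hx
        · exact haA
        · exact hBA.1 (hJ1 hx)
      · intro i hi j hj hij
        rcases mem_insert.1 hi with hia | hi'
        · rcases mem_insert.1 hj with hja | hj'
          · exact absurd (hia.trans hja.symm) hij
          · subst hia; exact ((mem_filter.1 (hJ1 hj')).2).symm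
        · rcases mem_insert.1 hj with hja | hj'
          · subst hja; exact (mem_filter.1 (hJ1 hi')).2
          · exact hdis i hi' j hj' hij
      · intro j hj
        by_cases hjB : j ∈ B
        · obtain ⟨i, hi, h1, h2⟩ := hcov j hjB
          exact ⟨i, mem_insert_of_mem hi, h1, h2⟩
        · refine ⟨a, mem_insert_self _ _, hamin j hj, ?_⟩
          intro hd
          exact hjB (mem_filter.2 ⟨hj, hd⟩)

/-- Pairwise disjoint sets of size at least `c` inside `H`. -/
theorem card_reps_mul [DecidableEq X] (J0 : Finset J) (P : J → Finset X) (H : Finset X) (c : ℕ)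
    (hdis : ∀ i ∈ J0, ∀ j ∈ J0, i ≠ j → Disjoint (P i) (P j))
    (hsub : ∀ j ∈ J0, P j ⊆ H) (hc : ∀ j ∈ J0, c ≤ (P j).card) :
    J0.card * c ≤ H.card := by
  classical
  calc J0.card * c = ∑ _j ∈ J0, c := by simp
    _ ≤ ∑ j ∈ J0, (P j).card := Finset.sum_le_sum hc
    _ = (J0.biUnion P).card := by
        rw [Finset.card_biUnion]
        intro i hi j hj hij
        exact hdis i hi j hj hij
    _ ≤ H.card := Finset.card_le_card (Finset.biUnion_subset.2 hsub)

/-- Real weights version of `card_reps_mul`. -/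
theorem card_reps_mul_real [DecidableEq X] (J0 : Finset J) (P : J → Finset X) (H : Finset X)
    (c : ℝ) (hdis : ∀ i ∈ J0, ∀ j ∈ J0, i ≠ j → Disjoint (P i) (P j))
    (hsub : ∀ j ∈ J0, P j ⊆ H) (hc : ∀ j ∈ J0, c ≤ ((P j).card : ℝ)) :
    (J0.card : ℝ) * c ≤ (H.card : ℝ) := by
  classical
  calc (J0.card : ℝ) * c = ∑ _j ∈ J0, c := by simp
    _ ≤ ∑ j ∈ J0, ((P j).card : ℝ) := Finset.sum_le_sum hc
    _ = ((J0.biUnion P).card : ℝ) := by
        rw [Finset.card_biUnion]
        · push_cast; rfl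
        · intro i hi j hj hij
          exact hdis i hi j hj hij
    _ ≤ (H.card : ℝ) := by
        exact_mod_cast Finset.card_le_card (Finset.biUnion_subset.2 hsub)

/-- Second moment of a pairwise independent sum: with `∑_w X_e = p |Ω|` and
`∑_w X_e X_f ≤ p² |Ω|` for `e ≠ f`, `∑_w (∑_{e ∈ P} X_e - p |P|)² ≤ p |P| |Ω|`. -/
theorem second_moment {Ω : Type*} [DecidableEq X] (W : Finset Ω) (P : Finset X)
    (Z : X → Ω → ℝ) (p : ℝ)
    (h01 : ∀ e ∈ P, ∀ w ∈ W, Z e w = 0 ∨ Z e w = 1)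
    (h1 : ∀ e ∈ P, ∑ w ∈ W, Z e w = p * W.card)
    (h2 : ∀ e ∈ P, ∀ f ∈ P, e ≠ f → ∑ w ∈ W, Z e w * Z f w ≤ p ^ 2 * W.card) :
    ∑ w ∈ W, (∑ e ∈ P, Z e w - p * P.card) ^ 2 ≤ p * P.card * W.card := by
  have hexp : ∀ w, (∑ e ∈ P, Z e w - p * P.card) ^ 2 =
      (∑ e ∈ P, ∑ f ∈ P, Z e w * Z f w) - 2 * (p * P.card) * (∑ e ∈ P, Z e w)
        + (p * P.card) ^ 2 := by
    intro w
    rw [sub_sq, sq (∑ e ∈ P, Z e w), Finset.sum_mul_sum]
    ring
  have hS1 : ∑ w ∈ W, ∑ e ∈ P, Z e w = p * P.card * W.card := by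
    rw [Finset.sum_comm, Finset.sum_congr rfl h1]
    simp only [Finset.sum_const, nsmul_eq_mul]
    ring
  have hS2 : ∑ w ∈ W, ∑ e ∈ P, ∑ f ∈ P, Z e w * Z f w ≤
      p * P.card * W.card + (p * P.card) ^ 2 * W.card := by
    have hsw : ∑ w ∈ W, ∑ e ∈ P, ∑ f ∈ P, Z e w * Z f w =
        ∑ e ∈ P, ∑ f ∈ P, ∑ w ∈ W, Z e w * Z f w := by
      rw [Finset.sum_comm]
      refine Finset.sum_congr rfl fun e _ => ?_
      rw [Finset.sum_comm]
    rw [hsw]
    have hrow : ∀ e ∈ P, ∑ f ∈ P, ∑ w ∈ W, Z e w * Z f w ≤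
        p * W.card + p ^ 2 * W.card * P.card := by
      intro e he
      have hd : ∀ f ∈ P, ∑ w ∈ W, Z e w * Z f w ≤
          (if f = e then p * W.card else 0) + p ^ 2 * W.card := by
        intro f hf
        by_cases hfe : f = e
        · subst hfe
          have : ∑ w ∈ W, Z f w * Z f w = ∑ w ∈ W, Z f w := by
            refine Finset.sum_congr rfl fun w hw => ?_
            rcases h01 f hf w hw with h | h <;> rw [h] <;> norm_num
          rw [this, h1 f hf, if_pos rfl]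
          have : (0 : ℝ) ≤ p ^ 2 * W.card := by positivity
          linarith
        · rw [if_neg hfe, zero_add]
          exact h2 e he f hf (fun h => hfe h.symm)
      calc ∑ f ∈ P, ∑ w ∈ W, Z e w * Z f w ≤
          ∑ f ∈ P, ((if f = e then p * W.card else 0) + p ^ 2 * W.card) :=
            Finset.sum_le_sum hd
        _ = p * W.card + p ^ 2 * W.card * P.card := by
            rw [Finset.sum_add_distrib, Finset.sum_ite_eq' P e, if_pos he]
            simp only [Finset.sum_const, nsmul_eq_mul]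
            ring
    calc ∑ e ∈ P, ∑ f ∈ P, ∑ w ∈ W, Z e w * Z f w ≤
        ∑ _e ∈ P, (p * W.card + p ^ 2 * W.card * P.card) := Finset.sum_le_sum hrow
      _ = p * P.card * W.card + (p * P.card) ^ 2 * W.card := by
          simp only [Finset.sum_const, nsmul_eq_mul]
          ring
  calc ∑ w ∈ W, (∑ e ∈ P, Z e w - p * P.card) ^ 2
      = ∑ w ∈ W, ((∑ e ∈ P, ∑ f ∈ P, Z e w * Z f w) - 2 * (p * P.card) * (∑ e ∈ P, Z e w)
        + (p * P.card) ^ 2) := Finset.sum_congr rfl fun w _ => hexp w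
    _ = (∑ w ∈ W, ∑ e ∈ P, ∑ f ∈ P, Z e w * Z f w)
        - 2 * (p * P.card) * (∑ w ∈ W, ∑ e ∈ P, Z e w) + (p * P.card) ^ 2 * W.card := by
        rw [Finset.sum_add_distrib, Finset.sum_sub_distrib, ← Finset.mul_sum]
        simp only [Finset.sum_const, nsmul_eq_mul]
        ring
    _ ≤ p * P.card * W.card := by
        rw [hS1]
        nlinarith [hS2]

/-- First absolute moment, squared form. -/
theorem abs_moment_sq {Ω : Type*} [DecidableEq X] (W : Finset Ω) (P : Finset X)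
    (Z : X → Ω → ℝ) (p : ℝ)
    (h01 : ∀ e ∈ P, ∀ w ∈ W, Z e w = 0 ∨ Z e w = 1)
    (h1 : ∀ e ∈ P, ∑ w ∈ W, Z e w = p * W.card)
    (h2 : ∀ e ∈ P, ∀ f ∈ P, e ≠ f → ∑ w ∈ W, Z e w * Z f w ≤ p ^ 2 * W.card) :
    (∑ w ∈ W, |∑ e ∈ P, Z e w - p * P.card|) ^ 2 ≤ p * P.card * (W.card : ℝ) ^ 2 := by
  have h := second_moment W P Z p h01 h1 h2
  have hcs : (∑ w ∈ W, |∑ e ∈ P, Z e w - p * P.card|) ^ 2 ≤
      W.card * ∑ w ∈ W, |∑ e ∈ P, Z e w - p * P.card| ^ 2 := sq_sum_le_card_mul_sum_sq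
  simp only [sq_abs] at hcs
  calc _ ≤ W.card * ∑ w ∈ W, (∑ e ∈ P, Z e w - p * P.card) ^ 2 := hcs
    _ ≤ W.card * (p * P.card * W.card) := by
        exact mul_le_mul_of_nonneg_left h (by positivity)
    _ = p * P.card * (W.card : ℝ) ^ 2 := by ring

/-- First absolute moment. -/
theorem abs_moment {Ω : Type*} [DecidableEq X] (W : Finset Ω) (P : Finset X)
    (Z : X → Ω → ℝ) (p : ℝ) (hp : 0 ≤ p)
    (h01 : ∀ e ∈ P, ∀ w ∈ W, Z e w = 0 ∨ Z e w = 1)
    (h1 : ∀ e ∈ P, ∑ w ∈ W, Z e w = p * W.card)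
    (h2 : ∀ e ∈ P, ∀ f ∈ P, e ≠ f → ∑ w ∈ W, Z e w * Z f w ≤ p ^ 2 * W.card) :
    ∑ w ∈ W, |∑ e ∈ P, Z e w - p * P.card| ≤ Real.sqrt (p * P.card) * W.card := by
  have h := abs_moment_sq W P Z p h01 h1 h2
  have hr : (0 : ℝ) ≤ Real.sqrt (p * P.card) * W.card := by positivity
  refine le_of_sq_le_sq ?_ hr
  rw [mul_pow, Real.sq_sqrt (by positivity)]
  exact h

/-- Shortfall: `P` has size between `(1-θ) m` and `m`, rate `p = M / m`. -/
theorem shortfall {Ω : Type*} [DecidableEq X] (W : Finset Ω) (P : Finset X)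
    (Z : X → Ω → ℝ) (M m θ : ℝ) (hm : 0 < m) (hM : 0 ≤ M)
    (hlo : (1 - θ) * m ≤ P.card) (hhi : (P.card : ℝ) ≤ m) (hθ : 0 ≤ θ)
    (h01 : ∀ e ∈ P, ∀ w ∈ W, Z e w = 0 ∨ Z e w = 1)
    (h1 : ∀ e ∈ P, ∑ w ∈ W, Z e w = M / m * W.card)
    (h2 : ∀ e ∈ P, ∀ f ∈ P, e ≠ f → ∑ w ∈ W, Z e w * Z f w ≤ (M / m) ^ 2 * W.card) :
    ∑ w ∈ W, max 0 (M - ∑ e ∈ P, Z e w) ≤ (θ * M + Real.sqrt M) * W.card := by
  have hp : 0 ≤ M / m := by positivity
  have habs := abs_moment W P Z (M / m) hp h01 h1 h2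
  have hpc : M / m * P.card ≤ M := by
    rw [div_mul_eq_mul_div, div_le_iff₀ hm]
    exact mul_le_mul_of_nonneg_left hhi hM
  have hlo' : (1 - θ) * M ≤ M / m * P.card := by
    rw [div_mul_eq_mul_div, le_div_iff₀ hm]
    nlinarith [mul_le_mul_of_nonneg_left hlo hM]
  have hpt : ∀ w ∈ W, max 0 (M - ∑ e ∈ P, Z e w) ≤
      θ * M + |∑ e ∈ P, Z e w - M / m * P.card| := by
    intro w _
    have h3 := neg_abs_le (∑ e ∈ P, Z e w - M / m * P.card)
    have h4 := abs_nonneg (∑ e ∈ P, Z e w - M / m * P.card)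
    refine max_le (by positivity) ?_
    nlinarith
  calc ∑ w ∈ W, max 0 (M - ∑ e ∈ P, Z e w)
      ≤ ∑ w ∈ W, (θ * M + |∑ e ∈ P, Z e w - M / m * P.card|) := Finset.sum_le_sum hpt
    _ = θ * M * W.card + ∑ w ∈ W, |∑ e ∈ P, Z e w - M / m * P.card| := by
        rw [Finset.sum_add_distrib]
        simp only [Finset.sum_const, nsmul_eq_mul]
        ring
    _ ≤ θ * M * W.card + Real.sqrt (M / m * P.card) * W.card := by linarith
    _ ≤ (θ * M + Real.sqrt M) * W.card := by
        have := Real.sqrt_le_sqrt hpc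
        have hW : (0 : ℝ) ≤ W.card := by positivity
        nlinarith [mul_le_mul_of_nonneg_right this hW]

/-- Triangle inequality for the representative's ball. -/
theorem reps_dist {V : Type*} (d : V → V → ℝ)
    (tri : ∀ a b c, d a c ≤ d a b + d b c) (sym : ∀ a b, d a b = d b a)
    (loc : X → V) (pt : J → V) (P : J → Finset X) (R : J → ℝ) [DecidableEq X]
    {j i : J} (hR : R i ≤ R j) (hnd : ¬ Disjoint (P j) (P i))
    (hj : ∀ e ∈ P j, d (loc e) (pt j) ≤ R j) (hi : ∀ e ∈ P i, d (loc e) (pt i) ≤ R i) :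
    ∀ e ∈ P i, d (loc e) (pt j) ≤ 3 * R j := by
  intro e he
  obtain ⟨x, hxj, hxi⟩ := Finset.not_disjoint_iff.1 hnd
  have h1 := tri (loc e) (pt i) (pt j)
  have h2 := tri (pt i) (loc x) (pt j)
  have h3 := hi e he
  have h4 := hi x hxi
  have h5 := hj x hxj
  have h6 := sym (pt i) (loc x)
  linarith

end Crest.Agent.R310.GranRep
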