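import Crest.Agent.R310.GranInst

/-!
# R310, block GRAN: codes of the items, the prime, and the sampling rate (helper670)
-/

set_option linter.dupNamespace false
set_option autoImplicit false

namespace Crest.Agent.R310.Gran.Par

open Finset

variable {c : Par}

theorem code_lt {q : ℕ × ℕ} (hq : q ∈ c.UF) : c.code q.1 q.2 < c.X := by
  obtain ⟨h1, h2, _⟩ := mem_UF.1 hq
  have h3 : q.1 < c.L := (mem_liveF.1 h1).1
  unfold code X
  calc q.1 * (c.n + 1) + q.2 < q.1 * (c.n + 1) + (c.n + 1) := by omega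
    _ = (q.1 + 1) * (c.n + 1) := by ring
    _ ≤ c.L * (c.n + 1) := Nat.mul_le_mul_right _ h3

theorem code_inj {q q' : ℕ × ℕ} (hq : q ∈ c.UF) (hq' : q' ∈ c.UF)
    (h : c.code q.1 q.2 = c.code q'.1 q'.2) : q = q' := by
  obtain ⟨_, h2, _⟩ := mem_UF.1 hq
  obtain ⟨_, h2', _⟩ := mem_UF.1 hq'
  unfold code at h
  have e1 : ∀ x i : ℕ, i ≤ c.n → (x * (c.n + 1) + i) / (c.n + 1) = x := by
    intro x i hi
    rw [Nat.add_comm, Nat.add_mul_div_right _ _ (Nat.succ_pos _), Nat.div_eq_of_lt (by omega),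
      Nat.zero_add]
  have h3 : q.1 = q'.1 := by rw [← e1 q.1 q.2 h2, ← e1 q'.1 q'.2 h2', h]
  have h4 : q.2 = q'.2 := by rw [h3] at h; omega
  exact Prod.ext h3 h4

theorem L_pos (h : c.Ok) : 0 < c.L := lt_of_lt_of_le h.m_pos h.m_le

theorem X_pos (h : c.Ok) : 0 < c.X := Nat.mul_pos (L_pos h) (Nat.succ_pos _)

theorem m_mul_le_X (h : c.Ok) : c.m * (c.n + 1) ≤ c.X := Nat.mul_le_mul_right _ h.m_le

theorem exists_seed_prime (h : c.Ok) : ∃ P, P.Prime ∧ c.X < P ∧ P ≤ 2 * c.X := by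
  obtain ⟨P, h1, h2, h3⟩ := Nat.exists_prime_lt_and_le_two_mul c.X (X_pos h).ne'
  exact ⟨P, h1, h2, h3⟩

/-- threshold of the hash -/
theorem thr_le (h : c.Ok) (P : ℕ) : c.M * P / c.m ≤ P := by
  have h1 : c.M * P ≤ P * c.m := by rw [mul_comm]; exact Nat.mul_le_mul_left _ h.M_le
  exact Nat.div_le_of_le_mul (by rw [mul_comm c.m P]; exact h1)

/-- `p m ≤ M` -/
theorem rate_le {P : ℕ} (hP : 0 < P) :
    (((c.M * P / c.m : ℕ) : ℚ) / P) * c.m ≤ c.M := by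
  have h1 : c.M * P / c.m * c.m ≤ c.M * P := Nat.div_mul_le_self _ _
  have h2 : (((c.M * P / c.m : ℕ) : ℚ)) * c.m ≤ c.M * P := by exact_mod_cast h1
  have hP' : (0 : ℚ) < P := by exact_mod_cast hP
  rw [div_mul_eq_mul_div, div_le_iff₀ hP']
  exact h2

/-- `(M - p m) P ≤ m` -/
theorem rate_gap (h : c.Ok) {P : ℕ} (hP : 0 < P) :
    ((c.M : ℚ) - (((c.M * P / c.m : ℕ) : ℚ) / P) * c.m) * P ≤ c.m := by
  have h1 : c.M * P < c.M * P / c.m * c.m + c.m := Nat.lt_div_mul_add h.m_pos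
  have h2 : (c.M : ℚ) * P ≤ (((c.M * P / c.m : ℕ) : ℚ)) * c.m + c.m := by exact_mod_cast h1.le
  have hP' : (0 : ℚ) < P := by exact_mod_cast hP
  have h3 : (((c.M : ℚ) - (((c.M * P / c.m : ℕ) : ℚ) / P) * c.m)) * P
      = (c.M : ℚ) * P - (((c.M * P / c.m : ℕ) : ℚ)) * c.m := by
    field_simp
  rw [h3]
  linarith

/-- `M - 1 ≤ p m` -/
theorem rate_ge (h : c.Ok) {P : ℕ} (hP : c.X < P) :
    (c.M : ℚ) - 1 ≤ (((c.M * P / c.m : ℕ) : ℚ) / P) * c.m := by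
  have hP0 : 0 < P := by omega
  have h1 := rate_gap h hP0
  have h2 : c.m ≤ P := by
    have := m_mul_le_X h
    have h3 : c.m * 1 ≤ c.m * (c.n + 1) := Nat.mul_le_mul_left _ (by omega)
    omega
  have h2' : (c.m : ℚ) ≤ P := by exact_mod_cast h2
  have hP' : (0 : ℚ) < P := by exact_mod_cast hP0
  have h4 : ((c.M : ℚ) - (((c.M * P / c.m : ℕ) : ℚ) / P) * c.m) * P ≤ 1 * P := by linarith
  have h5 := le_of_mul_le_mul_right h4 hP'
  linarith

/-- `(M - p m) n ≤ 1` -/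
theorem rate_gap_n (h : c.Ok) {P : ℕ} (hP : c.X < P) :
    ((c.M : ℚ) - (((c.M * P / c.m : ℕ) : ℚ) / P) * c.m) * c.n ≤ 1 := by
  have hP0 : 0 < P := by omega
  have h1 := rate_gap h hP0
  have h0 := rate_le (c := c) hP0
  set g := (c.M : ℚ) - (((c.M * P / c.m : ℕ) : ℚ) / P) * c.m with hg
  have hg0 : 0 ≤ g := by rw [hg]; linarith
  have h2 : c.m * (c.n + 1) ≤ P := (m_mul_le_X h).trans hP.le
  have h2' : (c.m : ℚ) * (c.n + 1) ≤ P := by exact_mod_cast h2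
  have hm : (0 : ℚ) < c.m := by exact_mod_cast h.m_pos
  have h3 : g * ((c.m : ℚ) * (c.n + 1)) ≤ c.m :=
    (mul_le_mul_of_nonneg_left h2' hg0).trans h1
  have h4 : (g * (c.n + 1)) * c.m ≤ 1 * c.m := by linarith
  have h5 := le_of_mul_le_mul_right h4 hm
  have h6 : g * c.n ≤ g * (c.n + 1) := by nlinarith
  linarith

end Crest.Agent.R310.Gran.Par
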