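/-
R310 (S0482), exact-k step with LAZY CENTRES ("Theorem E''"), abstract form.

`T` = set of opened non-lazy copies, `U` = finite type of lazy centres.  A lazy centre `t` can be
kept (one centre) or closed at cost `v t T`.  `S m T` = potential at the grid price `lam m` minus
`lam m * (|T| + |U|)`.  Alive sets need not be monotone in the price: only the windowed descent
inequality `mixed` (three consecutive grid prices) is used.  Everything holds up to an additive
evaluation error `e1`.
-/
import Mathlib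

set_option autoImplicit false

namespace Crest.Agent.R310.LazyK

open Finset

/-- The abstract data of the exact-`k` step with lazy centres. -/
structure Data (σ : Type*) [Fintype σ] [DecidableEq σ] where
  /-- number of grid prices -/
  M : ℕ
  hM : 0 < M
  /-- lowest price -/
  lam0 : ℝ
  hlam0 : 0 < lam0
  /-- grid ratio -/
  q : ℝ
  hq : 1 < q
  /-- penalty -/
  r : ℕ → ℝ
  /-- potential at price `lam m` minus `lam m * (|T| + number of lazy centres)` -/
  S : ℕ → Finset σ → ℝ
  /-- union of the alive sets of the grid prices `l, l+1, l+2` -/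
  A : ℕ → Finset σ → Finset σ
  /-- masses -/
  y : σ → ℝ
  /-- total mass minus number of lazy centres (may be negative) -/
  n1 : ℝ
  G : ℝ
  B : ℝ
  hB : 0 < B
  X : ℝ
  hX : 0 ≤ X
  err : ℝ
  /-- evaluation error allowance -/
  e1 : ℝ
  he1 : 0 ≤ e1
  S_anti : ∀ m T i, m < M → S m (insert i T) ≤ S m T + e1
  S_conc : ∀ m T, m + 2 < M → S (m + 2) T - S (m + 1) T ≤ q * (S (m + 1) T - S m T) + e1
  /-- at the lowest price no lazy centre is ever closed -/
  S_bot : ∀ T, - e1 ≤ S 0 T
  y_pos : ∀ l T, ∀ i ∈ A l T, 0 < y i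
  A_out : ∀ l T, ∀ i ∈ A l T, i ∉ T
  mixed : ∀ l m T, l ≤ m → m ≤ l + 2 → m < M →
    ∑ i ∈ A l T, y i * (lam0 * q ^ m + S m (insert i T) - S m T) ≤ err * ∑ i ∈ A l T, y i
  start : ∀ m, m < M → S m ∅ ≤ lam0 * q ^ m * n1 + G + e1
  r_nonneg : ∀ m, e1 ≤ r m
  r_mono : ∀ m, r m + 2 * e1 ≤ r (m + 1)
  r_conv : ∀ m, m + 2 < M → q * (r (m + 1) - r m) + q * X + e1 ≤ r (m + 2) - r (m + 1)
  err_nonneg : 0 ≤ err
  err_le : err ≤ lam0 * q ^ (M - 1)

namespace Data

variable {σ : Type*} [Fintype σ] [DecidableEq σ] (d : Data σ)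

/-- grid prices -/
def lam (m : ℕ) : ℝ := d.lam0 * d.q ^ m

/-- top price -/
def lamM : ℝ := d.lam (d.M - 1)

/-- change of the potential (at grid price `m`) when opening `i` -/
def D (m : ℕ) (T : Finset σ) (i : σ) : ℝ := d.lam m + d.S m (insert i T) - d.S m T

/-- the penalised normalised potential -/
def g (m : ℕ) (T : Finset σ) : ℝ := d.S m T + d.lam m * ((T.card : ℝ) - d.n1) - d.r m

/-- weights of the free step -/
def p (m : ℕ) (T : Finset σ) (θ : ℝ) : ℝ := max (d.g m T - θ) 0

/-- quadratic potential -/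
def Psi (T : Finset σ) (θ : ℝ) : ℝ := ∑ m ∈ range d.M, (d.p m T θ) ^ 2

/-- forced step: some relevant grid price (`θ < g m T`) sees a large drop -/
def Forced (T : Finset σ) (θ : ℝ) (T' : Finset σ) (θ' : ℝ) : Prop :=
  ∃ i, i ∉ T ∧ T' = insert i T ∧ θ' = θ + d.lamM + d.e1 ∧
    ∃ m, m < d.M ∧ θ < d.g m T ∧ d.D m T i ≤ - (d.B * d.lamM)

/-- free step -/
def Free (T : Finset σ) (θ : ℝ) (T' : Finset σ) (θ' : ℝ) : Prop :=
  ∃ i, i ∉ T ∧ T' = insert i T ∧ θ' = θ + d.err ∧
    (∀ m, m < d.M → θ < d.g m T → - (d.B * d.lamM) < d.D m T i) ∧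
    (∀ j, j ∉ T → ∑ m ∈ range d.M, d.p m T θ * d.D m T i ≤ ∑ m ∈ range d.M, d.p m T θ * d.D m T j)

lemma lam_pos (m : ℕ) : 0 < d.lam m :=
  mul_pos d.hlam0 (pow_pos (lt_trans one_pos d.hq) _)

lemma lam_mono {l m : ℕ} (h : l ≤ m) : d.lam l ≤ d.lam m := by
  unfold lam
  exact mul_le_mul_of_nonneg_left (pow_le_pow_right₀ d.hq.le h) d.hlam0.le

lemma lam_le_lamM {m : ℕ} (h : m < d.M) : d.lam m ≤ d.lamM :=
  d.lam_mono (by omega)

lemma lamM_pos : 0 < d.lamM := d.lam_pos _

lemma lam_succ (m : ℕ) : d.lam (m + 1) = d.q * d.lam m := by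
  unfold lam; ring

lemma lam_zero : d.lam 0 = d.lam0 := by unfold lam; simp

lemma D_le {m : ℕ} (hm : m < d.M) (T : Finset σ) (i : σ) : d.D m T i ≤ d.lam m + d.e1 := by
  unfold D
  have := d.S_anti m T i hm
  linarith

lemma g_insert (m : ℕ) (T : Finset σ) (i : σ) (hi : i ∉ T) :
    d.g m (insert i T) = d.g m T + d.D m T i := by
  unfold g D
  rw [card_insert_of_notMem hi]
  push_cast
  ring

lemma p_nonneg (m : ℕ) (T : Finset σ) (θ : ℝ) : 0 ≤ d.p m T θ := le_max_right _ _

lemma g_le_of_Psi {m : ℕ} (hm : m < d.M) {T : Finset σ} {θ : ℝ} (h : d.Psi T θ ≤ d.X ^ 2) :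
    d.g m T ≤ θ + d.X := by
  have h1 : (d.p m T θ) ^ 2 ≤ d.X ^ 2 := by
    refine le_trans ?_ h
    unfold Psi
    exact single_le_sum (f := fun m => (d.p m T θ) ^ 2) (fun _ _ => sq_nonneg _) (mem_range.2 hm)
  have h2 : d.p m T θ ≤ d.X := by
    have := abs_le_of_sq_le_sq h1 d.hX
    exact le_trans (le_abs_self _) this
  have h3 : d.g m T - θ ≤ d.p m T θ := le_max_left _ _
  linarith

/-- slope differences of `g` along the grid -/
lemma g_conc {m : ℕ} (hm : m + 2 < d.M) (T : Finset σ) :
    d.g (m + 2) T - d.g (m + 1) T ≤ d.q * (d.g (m + 1) T - d.g m T) - d.q * d.X := by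
  unfold g
  have h1 := d.S_conc m T hm
  have h2 := d.r_conv m hm
  have e1 : d.lam (m + 1) = d.q * d.lam m := d.lam_succ m
  have e2 : d.lam (m + 2) = d.q * (d.q * d.lam m) := by
    rw [show m + 2 = (m + 1) + 1 by ring, d.lam_succ, d.lam_succ]
  rw [e2, e1]
  nlinarith [h1, h2]

/-- to the left of an index with nonnegative slope the slopes are at least `X` -/
lemma slope_left {T : Finset σ} {n : ℕ} (hn : n + 1 < d.M) (h : 0 ≤ d.g (n + 1) T - d.g n T) :
    ∀ k, k + 1 ≤ n → d.X ≤ d.g (n - k) T - d.g (n - (k + 1)) T := by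
  have hq0 : (0 : ℝ) < d.q := lt_trans one_pos d.hq
  intro k
  induction k with
  | zero =>
    intro hk
    obtain ⟨a, rfl⟩ : ∃ a, n = a + 1 := ⟨n - 1, by omega⟩
    have h1 := d.g_conc (m := a) (by omega) T
    have : 0 ≤ d.q * (d.g (a + 1) T - d.g a T - d.X) := by
      have : d.g (a + 2) T = d.g (a + 1 + 1) T := rfl
      nlinarith [h1, h]
    have := nonneg_of_mul_nonneg_right this hq0
    simpa using by linarith
  | succ k ih =>
    intro hk
    have ih' := ih (by omega)
    obtain ⟨a, ha⟩ : ∃ a, n - (k + 1) = a + 1 := ⟨n - (k + 1) - 1, by omega⟩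
    have hb : n - k = a + 2 := by omega
    have hc : n - (k + 1 + 1) = a := by omega
    rw [ha, hb] at ih'
    rw [ha, hc]
    have h1 := d.g_conc (m := a) (by omega) T
    have hX := d.hX
    have : 0 ≤ d.q * (d.g (a + 1) T - d.g a T - d.X) := by
      nlinarith [h1, ih']
    have := nonneg_of_mul_nonneg_right this hq0
    linarith

/-- to the right of an index with nonpositive slope the slopes are at most `-X` -/
lemma slope_right {T : Finset σ} {n : ℕ} (h : d.g (n + 1) T - d.g n T ≤ 0) :
    ∀ k, n + k + 2 < d.M → d.g (n + k + 2) T - d.g (n + k + 1) T ≤ - d.X := by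
  have hq1 := d.hq
  have hX := d.hX
  intro k
  induction k with
  | zero =>
    intro hk
    have h1 := d.g_conc (m := n) (by omega) T
    have : d.g (n + 0 + 2) T = d.g (n + 2) T := rfl
    have : d.g (n + 0 + 1) T = d.g (n + 1) T := rfl
    nlinarith [h1, h]
  | succ k ih =>
    intro hk
    have ih' := ih (by omega)
    have h1 := d.g_conc (m := n + k + 1) (by omega) T
    have e1 : d.g (n + k + 1 + 2) T = d.g (n + (k + 1) + 2) T := by congr 1
    have e2 : d.g (n + k + 1 + 1) T = d.g (n + k + 2) T := by congr 1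
    have e3 : d.g (n + (k + 1) + 1) T = d.g (n + k + 2) T := by congr 1
    rw [e1, e2] at h1
    rw [e3]
    nlinarith [h1, ih']

/-- Existence of a maximising index together with the gap property. -/
lemma exists_argmax (T : Finset σ) :
    ∃ m, m < d.M ∧ (∀ j, j < d.M → d.g j T ≤ d.g m T) ∧
      (∀ j, j < d.M → (j + 2 ≤ m ∨ m + 2 ≤ j) → d.g j T ≤ d.g m T - d.X) := by
  obtain ⟨m, hm, hmax⟩ := exists_max_image (range d.M) (fun m => d.g m T)
    ⟨0, mem_range.2 d.hM⟩
  have hm' := mem_range.1 hm
  have hmax' : ∀ j, j < d.M → d.g j T ≤ d.g m T := fun j hj => hmax j (mem_range.2 hj)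
  refine ⟨m, hm', hmax', ?_⟩
  intro j hj hcase
  rcases hcase with h | h
  · obtain ⟨n, rfl⟩ : ∃ n, m = n + 1 := ⟨m - 1, by omega⟩
    have h0 : 0 ≤ d.g (n + 1) T - d.g n T := by
      have := hmax' n (by omega); linarith
    have h1 := d.slope_left (n := n) (by omega) h0 (n - j - 1) (by omega)
    have e1 : n - (n - j - 1) = j + 1 := by omega
    have e2 : n - (n - j - 1 + 1) = j := by omega
    rw [e1, e2] at h1
    have h2 := hmax' (j + 1) (by omega)
    linarith
  · have h0 : d.g (m + 1) T - d.g m T ≤ 0 := by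
      have := hmax' (m + 1) (by omega); linarith
    obtain ⟨k, rfl⟩ : ∃ k, j = m + k + 2 := ⟨j - m - 2, by omega⟩
    have h1 := d.slope_right h0 k hj
    have h2 := hmax' (m + k + 1) (by omega)
    linarith

/-- The key step: if the alive set of the window starting just below the maximiser is nonempty
then some alive star is good for the quadratic potential. -/
lemma exists_good {T : Finset σ} {θ : ℝ} {m : ℕ} (hm : m < d.M)
    (hgap : ∀ j, j < d.M → (j + 2 ≤ m ∨ m + 2 ≤ j) → d.g j T ≤ d.g m T - d.X)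
    (hΨ : d.Psi T θ ≤ d.X ^ 2) (hA : (d.A (m - 1) T).Nonempty) :
    ∃ j, j ∉ T ∧ ∑ n ∈ range d.M, d.p n T θ * (d.D n T j - d.err) ≤ 0 := by
  by_contra hcon
  push Not at hcon
  have hpos : ∀ j ∈ d.A (m - 1) T,
      0 < d.y j * ∑ n ∈ range d.M, d.p n T θ * (d.D n T j - d.err) := by
    intro j hj
    exact mul_pos (d.y_pos _ _ j hj) (hcon j (d.A_out _ _ j hj))
  have hsum : 0 < ∑ j ∈ d.A (m - 1) T,
      d.y j * ∑ n ∈ range d.M, d.p n T θ * (d.D n T j - d.err) := sum_pos hpos hA
  have hswap : ∑ j ∈ d.A (m - 1) T,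
      d.y j * ∑ n ∈ range d.M, d.p n T θ * (d.D n T j - d.err)
      = ∑ n ∈ range d.M, d.p n T θ *
        (∑ j ∈ d.A (m - 1) T, d.y j * d.D n T j - d.err * ∑ j ∈ d.A (m - 1) T, d.y j) := by
    simp_rw [mul_sum]
    rw [sum_comm]
    refine sum_congr rfl fun n _ => ?_
    rw [mul_sub, mul_sum, mul_sum, ← sum_sub_distrib]
    refine sum_congr rfl fun j _ => ?_
    ring
  have hle : ∑ n ∈ range d.M, d.p n T θ *
        (∑ j ∈ d.A (m - 1) T, d.y j * d.D n T j - d.err * ∑ j ∈ d.A (m - 1) T, d.y j) ≤ 0 := by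
    refine sum_nonpos fun n hn => ?_
    have hn' := mem_range.1 hn
    by_cases hcase : n + 2 ≤ m ∨ m + 2 ≤ n
    · have h1 := hgap n hn' hcase
      have h2 := d.g_le_of_Psi hm hΨ
      have h3 : d.p n T θ = 0 := by
        unfold p
        exact max_eq_right (by linarith)
      rw [h3, zero_mul]
    · push Not at hcase
      have hmn : m - 1 ≤ n := by omega
      have h3 := d.mixed (m - 1) n T hmn (by omega) hn'
      refine mul_nonpos_of_nonneg_of_nonpos (d.p_nonneg _ _ _) ?_
      have : ∑ j ∈ d.A (m - 1) T, d.y j * d.D n T j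
        = ∑ i ∈ d.A (m - 1) T, d.y i * (d.lam0 * d.q ^ n + d.S n (insert i T) - d.S n T) := rfl
      linarith
  rw [hswap] at hsum
  linarith

lemma sq_max_le (a b : ℝ) : (max (a + b) 0) ^ 2 ≤ (max a 0) ^ 2 + 2 * (max a 0 * b) + b ^ 2 := by
  rcases le_total 0 a with ha | ha
  · rw [max_eq_left ha]
    rcases le_total 0 (a + b) with h | h
    · rw [max_eq_left h]; nlinarith
    · rw [max_eq_right h]; nlinarith [sq_nonneg (a + b)]
  · rw [max_eq_right ha]
    rcases le_total 0 (a + b) with h | h
    · rw [max_eq_left h]; nlinarith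
    · rw [max_eq_right h]; nlinarith [sq_nonneg b]

/-- variant with an upper bound of `b` only, for `a ≤ 0` -/
lemma sq_max_le' {a b L : ℝ} (ha : a ≤ 0) (hb : b ≤ L) (hL : 0 ≤ L) :
    (max (a + b) 0) ^ 2 ≤ L ^ 2 := by
  refine pow_le_pow_left₀ (le_max_right _ _) (max_le (by linarith) hL) 2

/-- Change of `Psi` in a free step. -/
lemma Psi_free {T T' : Finset σ} {θ θ' : ℝ} (h : d.Free T θ T' θ') {m : ℕ} (hm : m < d.M)
    (hgap : ∀ j, j < d.M → (j + 2 ≤ m ∨ m + 2 ≤ j) → d.g j T ≤ d.g m T - d.X)
    (hΨ : d.Psi T θ ≤ d.X ^ 2) (hA : (d.A (m - 1) T).Nonempty)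
    (he : d.e1 ≤ d.lamM) :
    d.Psi T' θ' ≤ d.Psi T θ + d.M * ((d.B + 2) * d.lamM) ^ 2 := by
  obtain ⟨i, hi, rfl, rfl, hbd, hmin⟩ := h
  obtain ⟨j, hj, hjle⟩ := d.exists_good hm hgap hΨ hA
  have h1 : ∑ n ∈ range d.M, d.p n T θ * (d.D n T i - d.err) ≤ 0 := by
    have := hmin j hj
    simp_rw [mul_sub, sum_sub_distrib] at hjle ⊢
    linarith
  unfold Psi
  have hterm : ∀ n ∈ range d.M, (d.p n (insert i T) (θ + d.err)) ^ 2
      ≤ (d.p n T θ) ^ 2 + 2 * (d.p n T θ * (d.D n T i - d.err)) + ((d.B + 2) * d.lamM) ^ 2 := by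
    intro n hn
    have hn' := mem_range.1 hn
    have hup := d.D_le hn' T i
    have hup2 := d.lam_le_lamM hn'
    have he0 := d.err_nonneg
    have he2 := d.he1
    have he1 : d.err ≤ d.lamM := d.err_le
    have hL := d.lamM_pos
    have hB := d.hB
    unfold p
    rw [d.g_insert n T i hi, show d.g n T + d.D n T i - (θ + d.err)
      = (d.g n T - θ) + (d.D n T i - d.err) by ring]
    rcases le_or_gt (d.g n T) θ with hcase | hcase
    · have h2 : max (d.g n T - θ) 0 = 0 := max_eq_right (by linarith)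
      rw [h2]
      have h3 := sq_max_le' (a := d.g n T - θ) (b := d.D n T i - d.err)
        (L := (d.B + 2) * d.lamM) (by linarith) (by nlinarith) (by positivity)
      linarith
    · refine le_trans (sq_max_le _ _) ?_
      have hlow := hbd n hn' hcase
      have habs : |d.D n T i - d.err| ≤ (d.B + 2) * d.lamM := by
        rw [abs_le]
        constructor
        · nlinarith
        · nlinarith [mul_pos hB hL]
      have hsq : (d.D n T i - d.err) ^ 2 ≤ ((d.B + 2) * d.lamM) ^ 2 := by
        rw [← sq_abs]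
        exact pow_le_pow_left₀ (abs_nonneg _) habs 2
      linarith
  refine le_trans (sum_le_sum hterm) ?_
  rw [sum_add_distrib, sum_add_distrib, ← mul_sum, sum_const, card_range, nsmul_eq_mul]
  linarith

/-- Change of `Psi` in a forced step. -/
lemma Psi_forced {T T' : Finset σ} {θ θ' : ℝ} (h : d.Forced T θ T' θ') :
    d.Psi T' θ' ≤ d.Psi T θ := by
  obtain ⟨i, hi, rfl, rfl, -⟩ := h
  unfold Psi
  refine sum_le_sum fun n hn => ?_
  have hn' := mem_range.1 hn
  unfold p
  rw [d.g_insert n T i hi]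
  have h1 := d.D_le hn' T i
  have h2 := d.lam_le_lamM hn'
  refine pow_le_pow_left₀ (le_max_right _ _) (max_le_max (by linarith) le_rfl) 2

lemma g_start {m : ℕ} (hm : m < d.M) : d.g m ∅ ≤ d.G := by
  unfold g
  have h1 := d.start m hm
  have h2 := d.r_nonneg m
  unfold lam
  simp only [card_empty, Nat.cast_zero, zero_sub]
  linarith

lemma g_step_le {T T' : Finset σ} {θ θ' : ℝ}
    (h : d.Forced T θ T' θ' ∨ d.Free T θ T' θ') {m : ℕ} (hm : m < d.M) :
    d.g m T' ≤ d.g m T + (d.lamM + d.e1) := by
  have key : ∀ i, i ∉ T → d.g m (insert i T) ≤ d.g m T + (d.lamM + d.e1) := by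
    intro i hi
    rw [d.g_insert m T i hi]
    have h1 := d.D_le hm T i
    have h2 := d.lam_le_lamM hm
    linarith
  rcases h with ⟨i, hi, rfl, -⟩ | ⟨i, hi, rfl, -⟩
  · exact key i hi
  · exact key i hi

/-- the invariant part about the forced steps: `F m` = number of forced steps seen at price `m` -/
def Inv (t : ℕ) (T : Finset σ) (θ : ℝ) (F : ℕ → ℕ) : Prop :=
  (∀ m, m < d.M → d.g m T ≤ d.g m ∅ + t * (d.lamM + d.e1) - F m * (d.B * d.lamM)) ∧
  (∀ m, m < d.M → F m * (d.B * d.lamM) ≤ d.B * d.lamM + t * (d.lamM + d.e1)) ∧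
  d.G ≤ θ ∧
  θ ≤ d.G + t * d.err + (∑ m ∈ range d.M, (F m : ℝ)) * (d.lamM + d.e1)

/-- The invariant along a run in which the critical alive set is never empty. -/
lemma invariant (K : ℕ) (run : ℕ → Finset σ) (θ : ℕ → ℝ) (h0 : run 0 = ∅) (hθ0 : θ 0 = d.G)
    (hstep : ∀ t < K, d.Forced (run t) (θ t) (run (t + 1)) (θ (t + 1)) ∨
      d.Free (run t) (θ t) (run (t + 1)) (θ (t + 1)))
    (halive : ∀ t < K, ∀ m, m < d.M → (∀ j, j < d.M → d.g j (run t) ≤ d.g m (run t)) →
      (d.A (m - 1) (run t)).Nonempty)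
    (hX : (K : ℝ) * (d.M * ((d.B + 2) * d.lamM) ^ 2) ≤ d.X ^ 2) (he : d.e1 ≤ d.lamM) :
    ∀ t ≤ K, (run t).card = t ∧
      d.Psi (run t) (θ t) ≤ t * (d.M * ((d.B + 2) * d.lamM) ^ 2) ∧
      ∃ F : ℕ → ℕ, d.Inv t (run t) (θ t) F := by
  intro t
  induction t with
  | zero =>
    intro _
    refine ⟨by rw [h0]; simp, ?_, fun _ => 0, ?_, ?_, ?_, ?_⟩
    · rw [h0, hθ0]
      unfold Psi
      rw [Nat.cast_zero, zero_mul]
      refine le_of_eq (sum_eq_zero fun m hm => ?_)
      have hm' := mem_range.1 hm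
      have : d.p m ∅ d.G = 0 := by
        unfold p
        exact max_eq_right (by linarith [d.g_start hm'])
      rw [this]; ring
    · intro m hm
      rw [h0]
      simp
    · intro m hm
      have := mul_pos d.hB d.lamM_pos
      simpa using this.le
    · rw [hθ0]
    · rw [hθ0]; simp
  | succ t ih =>
    intro ht
    obtain ⟨ih1, ih2, F, f1, f2, f3, f4⟩ := ih (by omega)
    have htK : t < K := by omega
    have hC : (0 : ℝ) ≤ d.M * ((d.B + 2) * d.lamM) ^ 2 :=
      mul_nonneg (Nat.cast_nonneg _) (sq_nonneg _)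
    have hΨX : d.Psi (run t) (θ t) ≤ d.X ^ 2 := by
      refine le_trans ih2 (le_trans ?_ hX)
      exact mul_le_mul_of_nonneg_right (by exact_mod_cast htK.le) hC
    have hL := d.lamM_pos
    have he1 := d.he1
    have herr := d.err_nonneg
    have hBL := mul_pos d.hB d.lamM_pos
    have hst := hstep t htK
    rcases hstep t htK with h | h
    · have hΨ := d.Psi_forced h
      obtain ⟨i, hi, hT, hθ, m0, hm0, hrel, hD⟩ := id h
      refine ⟨?_, ?_, Function.update F m0 (F m0 + 1), ?_, ?_, ?_, ?_⟩
      · rw [hT, card_insert_of_notMem hi, ih1]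
      · refine le_trans hΨ (le_trans ih2 ?_)
        exact mul_le_mul_of_nonneg_right (by push_cast; linarith) hC
      · intro m hm
        by_cases hmm : m = m0
        · subst hmm
          rw [Function.update_self]
          have h1 := f1 m hm
          rw [hT, d.g_insert m _ i hi]
          push_cast
          nlinarith
        · rw [Function.update_of_ne hmm]
          have h1 := f1 m hm
          have h2 := d.g_step_le hst hm
          push_cast
          linarith
      · intro m hm
        by_cases hmm : m = m0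
        · subst hmm
          rw [Function.update_self]
          have h1 := f1 m hm
          have h2 := d.g_start hm
          push_cast
          nlinarith
        · rw [Function.update_of_ne hmm]
          have h1 := f2 m hm
          push_cast
          linarith
      · rw [hθ]; linarith
      · rw [hθ]
        have hsum : (∑ m ∈ range d.M, ((Function.update F m0 (F m0 + 1)) m : ℝ))
            = (∑ m ∈ range d.M, (F m : ℝ)) + 1 := by
          rw [← add_sum_erase _ _ (mem_range.2 hm0),
            ← add_sum_erase (range d.M) (fun m => (F m : ℝ)) (mem_range.2 hm0),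
            Function.update_self]
          have : ∑ x ∈ (range d.M).erase m0, ((Function.update F m0 (F m0 + 1)) x : ℝ)
              = ∑ x ∈ (range d.M).erase m0, (F x : ℝ) := by
            refine sum_congr rfl fun x hx => ?_
            rw [Function.update_of_ne (ne_of_mem_erase hx)]
          rw [this]
          push_cast
          ring
        rw [hsum]
        push_cast
        linarith
    · obtain ⟨m, hm, hmax, hgap⟩ := d.exists_argmax (run t)
      have hΨ := d.Psi_free h hm hgap hΨX (halive t htK m hm hmax) he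
      obtain ⟨i, hi, hT, hθ, -⟩ := id h
      refine ⟨?_, ?_, F, ?_, ?_, ?_, ?_⟩
      · rw [hT, card_insert_of_notMem hi, ih1]
      · refine le_trans hΨ ?_
        push_cast
        linarith
      · intro m hm
        have h1 := f1 m hm
        have h2 := d.g_step_le hst hm
        push_cast
        linarith
      · intro m hm
        have h1 := f2 m hm
        push_cast
        linarith
      · rw [hθ]; linarith
      · rw [hθ]
        push_cast
        linarith

/-- bound of the threshold after `K` steps -/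
noncomputable def thetaBound (K : ℕ) : ℝ :=
  d.G + K * d.err + d.M * (1 + K * (d.lamM + d.e1) / (d.B * d.lamM)) * (d.lamM + d.e1)

lemma theta_le {K t : ℕ} (ht : t ≤ K) {T : Finset σ} {θ : ℝ} {F : ℕ → ℕ}
    (h : d.Inv t T θ F) : θ ≤ d.thetaBound K := by
  obtain ⟨-, h2, -, h4⟩ := h
  have hL := d.lamM_pos
  have he1 := d.he1
  have hBL := mul_pos d.hB d.lamM_pos
  have htK : (t : ℝ) ≤ K := by exact_mod_cast ht
  have h5 : ∀ m ∈ range d.M, (F m : ℝ) ≤ 1 + K * (d.lamM + d.e1) / (d.B * d.lamM) := by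
    intro m hm
    have h6 := h2 m (mem_range.1 hm)
    rw [← sub_le_iff_le_add', le_div_iff₀ hBL]
    have : (t : ℝ) * (d.lamM + d.e1) ≤ K * (d.lamM + d.e1) :=
      mul_le_mul_of_nonneg_right htK (by linarith)
    nlinarith
  have h7 := sum_le_sum h5
  rw [sum_const, card_range, nsmul_eq_mul] at h7
  have h8 : (t : ℝ) * d.err ≤ K * d.err := mul_le_mul_of_nonneg_right htK d.err_nonneg
  have h9 := mul_le_mul_of_nonneg_right h7 (by linarith : (0:ℝ) ≤ d.lamM + d.e1)
  unfold thetaBound
  linarith

lemma r_le {m : ℕ} (hm : m < d.M) : d.r m ≤ d.r (d.M - 1) := by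
  have : ∀ k, d.r m ≤ d.r (m + k) := by
    intro k
    induction k with
    | zero => simp
    | succ k ih =>
      have h1 := d.r_mono (m + k)
      have h2 := d.he1
      have h3 : d.r (m + (k + 1)) = d.r (m + k + 1) := rfl
      linarith
  have h := this (d.M - 1 - m)
  rwa [show m + (d.M - 1 - m) = d.M - 1 by omega] at h

/-- **Theorem E''** (run part).  Along every run of `K` forced/free steps there is a time `t < K`
at which the critical window is dead and all normalised potentials are bounded. -/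
theorem exists_dead (K : ℕ) (run : ℕ → Finset σ) (θ : ℕ → ℝ)
    (h0 : run 0 = ∅) (hθ0 : θ 0 = d.G)
    (hstep : ∀ t < K, (run t = univ) ∨ d.Forced (run t) (θ t) (run (t + 1)) (θ (t + 1)) ∨
      d.Free (run t) (θ t) (run (t + 1)) (θ (t + 1)))
    (hX : (K : ℝ) * (d.M * ((d.B + 2) * d.lamM) ^ 2) ≤ d.X ^ 2) (he : d.e1 ≤ d.lamM)
    (hK : d.thetaBound K + d.X + d.r 0 + d.e1 < d.lam0 * ((K : ℝ) - d.n1)) :
    ∃ t < K, (run t).card = t ∧
      (∀ m, m < d.M → d.g m (run t) ≤ d.g m ∅ + t * (d.lamM + d.e1)) ∧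
      (∀ m, m < d.M → d.g m (run t) ≤ d.thetaBound K + d.X) ∧
      ∃ m, m < d.M ∧ (∀ j, j < d.M → d.g j (run t) ≤ d.g m (run t)) ∧
        d.A (m - 1) (run t) = ∅ := by
  classical
  let P : ℕ → Prop := fun t => ∃ m, m < d.M ∧ (∀ j, j < d.M → d.g j (run t) ≤ d.g m (run t)) ∧
      d.A (m - 1) (run t) = ∅
  have hC : (0 : ℝ) ≤ d.M * ((d.B + 2) * d.lamM) ^ 2 :=
    mul_nonneg (Nat.cast_nonneg _) (sq_nonneg _)
  have hBL := mul_pos d.hB d.lamM_pos
  by_cases hex : ∃ t, t < K ∧ P t
  · let t := Nat.find hex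
    have ht : t < K ∧ P t := Nat.find_spec hex
    have hmin : ∀ s < t, ¬ P s := fun s hs hPs =>
      Nat.find_min hex hs ⟨by omega, hPs⟩
    have halive : ∀ s < t, ∀ m, m < d.M → (∀ j, j < d.M → d.g j (run s) ≤ d.g m (run s)) →
        (d.A (m - 1) (run s)).Nonempty := by
      intro s hs m hm hmax
      by_contra hne
      exact hmin s hs ⟨m, hm, hmax, not_nonempty_iff_eq_empty.1 hne⟩
    have hstep' : ∀ s < t, d.Forced (run s) (θ s) (run (s + 1)) (θ (s + 1)) ∨
        d.Free (run s) (θ s) (run (s + 1)) (θ (s + 1)) := by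
      intro s hs
      rcases hstep s (by omega) with h | h
      · exfalso
        obtain ⟨m, hm, hmax, -⟩ := d.exists_argmax (run s)
        obtain ⟨i, hi⟩ := halive s hs m hm hmax
        have := d.A_out _ _ i hi
        rw [h] at this
        exact this (mem_univ _)
      · exact h
    have hX' : (t : ℝ) * (d.M * ((d.B + 2) * d.lamM) ^ 2) ≤ d.X ^ 2 :=
      le_trans (mul_le_mul_of_nonneg_right (by exact_mod_cast ht.1.le) hC) hX
    obtain ⟨i1, i2, F, i3⟩ := d.invariant t run θ h0 hθ0 hstep' halive hX' he t le_rfl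
    have hθ := d.theta_le ht.1.le i3
    refine ⟨t, ht.1, i1, ?_, ?_, ht.2⟩
    · intro m hm
      have := i3.1 m hm
      have h2 : (0 : ℝ) ≤ F m * (d.B * d.lamM) := mul_nonneg (Nat.cast_nonneg _) hBL.le
      linarith
    · intro m hm
      have := d.g_le_of_Psi hm (le_trans i2 hX')
      linarith
  · exfalso
    push Not at hex
    have halive : ∀ s < K, ∀ m, m < d.M → (∀ j, j < d.M → d.g j (run s) ≤ d.g m (run s)) →
        (d.A (m - 1) (run s)).Nonempty := by
      intro s hs m hm hmax
      by_contra hne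
      exact hex s hs ⟨m, hm, hmax, not_nonempty_iff_eq_empty.1 hne⟩
    have hstep' : ∀ s < K, d.Forced (run s) (θ s) (run (s + 1)) (θ (s + 1)) ∨
        d.Free (run s) (θ s) (run (s + 1)) (θ (s + 1)) := by
      intro s hs
      rcases hstep s hs with h | h
      · exfalso
        obtain ⟨m, hm, hmax, -⟩ := d.exists_argmax (run s)
        obtain ⟨i, hi⟩ := halive s hs m hm hmax
        have := d.A_out _ _ i hi
        rw [h] at this
        exact this (mem_univ _)
      · exact h
    obtain ⟨i1, i2, F, i3⟩ := d.invariant K run θ h0 hθ0 hstep' halive hX he K le_rfl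
    have hθ := d.theta_le le_rfl i3
    have hg := d.g_le_of_Psi d.hM (le_trans i2 hX)
    have hS := d.S_bot (run K)
    unfold g at hg
    rw [i1, d.lam_zero] at hg
    linarith

end Data

/-! ### Choice of the lazy centres that stay open -/

section Select

variable {τ : Type*} [Fintype τ] [DecidableEq τ]

/-- a set of `b` indices with the largest values -/
lemma exists_top (v : τ → ℝ) : ∀ b : ℕ, b ≤ Fintype.card τ →
    ∃ K : Finset τ, K.card = b ∧ ∀ t ∈ K, ∀ s, s ∉ K → v s ≤ v t := by
  intro b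
  induction b with
  | zero => intro _; exact ⟨∅, rfl, by simp⟩
  | succ b ih =>
    intro hb
    obtain ⟨K, hK, hK2⟩ := ih (by omega)
    have hne : (univ \ K).Nonempty := by
      rw [← card_pos, card_sdiff_of_subset (subset_univ _), card_univ]
      omega
    obtain ⟨s0, hs0, hmax⟩ := exists_max_image _ v hne
    have hs0' : s0 ∉ K := (mem_sdiff.1 hs0).2
    refine ⟨insert s0 K, by rw [card_insert_of_notMem hs0', hK], ?_⟩
    intro t ht s hs
    rw [mem_insert, not_or] at hs
    rcases mem_insert.1 ht with rfl | ht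
    · exact hmax s (mem_sdiff.2 ⟨mem_univ _, hs.2⟩)
    · exact hK2 t ht s hs.2

/-- `H`: cost at price `x` (normalised) -/
noncomputable def H (v : τ → ℝ) (c0 a n1 x : ℝ) : ℝ := c0 - ∑ t, max (x - v t) 0 + x * (a - n1)

lemma H_up (v : τ → ℝ) (c0 a n1 : ℝ) {x x' : ℝ} (h : x ≤ x') :
    H v c0 a n1 x' - H v c0 a n1 x
      ≤ (x' - x) * (a - n1 - ((univ.filter fun t => v t ≤ x).card : ℝ)) := by
  unfold H
  have h1 : (x' - x) * ((univ.filter fun t => v t ≤ x).card : ℝ)
      ≤ ∑ t, max (x' - v t) 0 - ∑ t, max (x - v t) 0 := by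
    rw [← sum_sub_distrib, card_filter, Nat.cast_sum, mul_sum]
    refine sum_le_sum fun t _ => ?_
    by_cases ht : v t ≤ x
    · rw [if_pos ht, max_eq_left (by linarith), max_eq_left (by linarith)]
      push_cast; linarith
    · rw [if_neg ht]
      have : max (x - v t) 0 ≤ max (x' - v t) 0 := max_le_max (by linarith) le_rfl
      push_cast; linarith
  nlinarith

lemma H_up' (v : τ → ℝ) (c0 a n1 : ℝ) {x x' : ℝ} (h : x ≤ x') :
    H v c0 a n1 x' ≤ H v c0 a n1 x + (x' - x) * max (a - n1) 0 := by
  have h1 := H_up v c0 a n1 h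
  have h2 : (0 : ℝ) ≤ ((univ.filter fun t => v t ≤ x).card : ℝ) := Nat.cast_nonneg _
  have h3 := le_max_left (a - n1) 0
  nlinarith

lemma H_down (v : τ → ℝ) (c0 a n1 : ℝ) {x x' : ℝ} (h : x ≤ x') :
    (x' - x) * (a - n1 - ((univ.filter fun t => v t < x').card : ℝ))
      ≤ H v c0 a n1 x' - H v c0 a n1 x := by
  unfold H
  have h1 : ∑ t, max (x' - v t) 0 - ∑ t, max (x - v t) 0
      ≤ (x' - x) * ((univ.filter fun t => v t < x').card : ℝ) := by
    rw [← sum_sub_distrib, card_filter, Nat.cast_sum, mul_sum]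
    refine sum_le_sum fun t _ => ?_
    by_cases ht : v t < x'
    · rw [if_pos ht, max_eq_left (by linarith : (0:ℝ) ≤ x' - v t)]
      have : x - v t ≤ max (x - v t) 0 := le_max_left _ _
      push_cast; linarith
    · rw [if_neg ht, max_eq_right (by linarith : x' - v t ≤ (0:ℝ))]
      have : 0 ≤ max (x - v t) 0 := le_max_right _ _
      push_cast; linarith
  nlinarith

/-- lower bound of `H` at a price -/
lemma H_ge (v : τ → ℝ) (hv : ∀ t, 0 ≤ v t) (c0 a n1 : ℝ) {x : ℝ} (hx : 0 ≤ x) :
    c0 + x * (a - n1 - ((univ.filter fun t => v t < x).card : ℝ)) ≤ H v c0 a n1 x := by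
  have h := H_down v c0 a n1 hx
  have h0 : H v c0 a n1 0 = c0 := by
    unfold H
    have : ∑ t, max (0 - v t) 0 = 0 := by
      refine sum_eq_zero fun t _ => max_eq_right (by linarith [hv t])
    rw [this]; ring
  rw [h0] at h
  linarith

/-- cost of keeping a top set -/
lemma cost_top (v : τ → ℝ) (c0 a n1 : ℝ) (K : Finset τ) {s0 : τ} (hs0 : s0 ∉ K)
    (hK : ∀ t ∈ K, ∀ s, s ∉ K → v s ≤ v t) (hmax : ∀ s, s ∉ K → v s ≤ v s0) :
    c0 + ∑ s ∈ univ \ K, v s
      = H v c0 a n1 (v s0) - v s0 * (a + K.card - (n1 + Fintype.card τ)) := by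
  unfold H
  have h1 : ∑ t, max (v s0 - v t) 0 = ∑ s ∈ univ \ K, (v s0 - v s) := by
    rw [← sum_sdiff (subset_univ K)]
    have h2 : ∑ x ∈ K, max (v s0 - v x) 0 = 0 := by
      refine sum_eq_zero fun t ht => max_eq_right ?_
      linarith [hK t ht s0 hs0]
    rw [h2, add_zero]
    refine sum_congr rfl fun s hs => ?_
    exact max_eq_left (by linarith [hmax s (mem_sdiff.1 hs).2])
  rw [h1, sum_sub_distrib, sum_const, card_sdiff_of_subset (subset_univ _), card_univ, nsmul_eq_mul,
    Nat.cast_sub (card_le_univ K)]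
  ring

lemma cost_gt (v : τ → ℝ) (c0 a n1 x : ℝ) :
    c0 + ∑ s ∈ univ \ (univ.filter fun t => x < v t), v s
      = H v c0 a n1 x - x * (a + (univ.filter fun t => x < v t).card - (n1 + Fintype.card τ)) := by
  unfold H
  set K := univ.filter fun t => x < v t with hKdef
  have h1 : ∑ t, max (x - v t) 0 = ∑ s ∈ univ \ K, (x - v s) := by
    rw [← sum_sdiff (subset_univ K)]
    have h2 : ∑ y ∈ K, max (x - v y) 0 = 0 := by
      refine sum_eq_zero fun t ht => max_eq_right ?_
      have := (mem_filter.1 ht).2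
      linarith
    rw [h2, add_zero]
    refine sum_congr rfl fun s hs => ?_
    have h3 : ¬ x < v s := fun h => (mem_sdiff.1 hs).2 (mem_filter.2 ⟨mem_univ _, h⟩)
    exact max_eq_left (by linarith)
  rw [h1, sum_sub_distrib, sum_const, card_sdiff_of_subset (subset_univ _), card_univ, nsmul_eq_mul,
    Nat.cast_sub (card_le_univ K)]
  ring

end Select

namespace Data

variable {σ : Type*} [Fintype σ] [DecidableEq σ] (d : Data σ)
variable {τ : Type*} [Fintype τ] [DecidableEq τ]

/-- additional error of the final choice -/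
noncomputable def slackErr (K : ℕ) : ℝ := d.lam0 * |d.n1| + (d.q - 1) * d.lamM * (K + |d.n1|)

/-- final choice of the lazy centres that stay open -/
lemma select (T : Finset σ) (v : τ → ℝ) (c0 : ℝ) (n K : ℕ) (Bd : ℝ) (m : ℕ) (hm : m < d.M)
    (hTK : T.card ≤ K)
    (hc0 : 0 ≤ c0) (hv : ∀ t, d.lam0 < v t)
    (hn : d.n1 + Fintype.card τ ≤ n)
    (hg : ∀ j, j < d.M → d.g j T ≤ Bd)
    (hmax : ∀ j, j < d.M → d.g j T ≤ d.g m T)
    (hfin : ∀ j, m - 1 ≤ j → j ≤ m - 1 + 2 → j < d.M →
      |d.S j T - (c0 - ∑ t, max (d.lam j - v t) 0)| ≤ d.e1)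
    (hr : ∀ j, j + 1 < d.M →
      d.r (j + 1) - d.r j + 2 * d.e1 < (d.lam (j + 1) - d.lam j) * (n - (d.n1 + Fintype.card τ)))
    (htop : m = d.M - 1 → Bd < d.lamM * (n - (d.n1 + Fintype.card τ)) - d.r (d.M - 1) - d.e1) :
    ∃ Kp : Finset τ, T.card + Kp.card ≤ n ∧
      c0 + ∑ s ∈ univ \ Kp, v s ≤ Bd + d.r (d.M - 1) + d.e1 + d.slackErr K := by
  classical
  set a : ℝ := (T.card : ℝ) with ha
  have ha0 : 0 ≤ a := Nat.cast_nonneg _
  have haK : a ≤ K := by rw [ha]; exact_mod_cast hTK
  set n0 : ℝ := d.n1 + Fintype.card τ with hn0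
  set Hf := H v c0 a d.n1 with hHf
  have hv0 : ∀ t, 0 ≤ v t := fun t => le_trans d.hlam0.le (hv t).le
  have habs0 := abs_nonneg d.n1
  have hq := d.hq
  have hL := d.lamM_pos
  have hslack0 : 0 ≤ d.slackErr K := by
    unfold slackErr
    have h1 : 0 ≤ d.lam0 * |d.n1| := mul_nonneg d.hlam0.le habs0
    have h2 : 0 ≤ (d.q - 1) * d.lamM * (K + |d.n1|) :=
      mul_nonneg (mul_nonneg (by linarith) hL.le) (by positivity)
    linarith
  -- `g` versus `H` in the window
  have hgH : ∀ j, m - 1 ≤ j → j ≤ m - 1 + 2 → j < d.M →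
      |d.g j T - (Hf (d.lam j) - d.r j)| ≤ d.e1 := by
    intro j h1 h2 h3
    have h4 := hfin j h1 h2 h3
    have : d.g j T - (Hf (d.lam j) - d.r j) = d.S j T - (c0 - ∑ t, max (d.lam j - v t) 0) := by
      rw [hHf]; unfold g H; ring
    rw [this]; exact h4
  have hHle : ∀ j, m - 1 ≤ j → j ≤ m - 1 + 2 → j < d.M →
      Hf (d.lam j) ≤ Bd + d.r (d.M - 1) + d.e1 := by
    intro j h1 h2 h3
    have h4 := (abs_le.1 (hgH j h1 h2 h3)).1
    have h5 := hg j h3
    have h6 := d.r_le h3
    linarith
  have hm1 : m - 1 < d.M := by omega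
  -- spacing
  have hsp : ∀ j, j + 1 < d.M → d.lam (j + 1) - d.lam j ≤ (d.q - 1) * d.lamM := by
    intro j hj
    rw [d.lam_succ]
    have := d.lam_le_lamM (m := j) (by omega)
    nlinarith
  have hbetween : ∀ j, m - 1 ≤ j → j ≤ m - 1 + 2 → j + 1 < d.M → ∀ x, d.lam j ≤ x →
      x ≤ d.lam (j + 1) → Hf x ≤ Bd + d.r (d.M - 1) + d.e1 + d.slackErr K := by
    intro j h1 h2 h3 x hx1 hx2
    have h4 := H_up' v c0 a d.n1 hx1
    have h5 := hHle j h1 h2 (by omega)
    have h6 : max (a - d.n1) 0 ≤ K + |d.n1| := by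
      apply max_le _ (by positivity)
      have := neg_abs_le d.n1
      linarith
    have h7 : (x - d.lam j) * max (a - d.n1) 0 ≤ (d.q - 1) * d.lamM * (K + |d.n1|) := by
      have h8 : x - d.lam j ≤ (d.q - 1) * d.lamM := by linarith [hsp j h3]
      exact mul_le_mul h8 h6 (le_max_right _ _) (mul_nonneg (by linarith) hL.le)
    have h8 : 0 ≤ d.lam0 * |d.n1| := mul_nonneg d.hlam0.le habs0
    unfold slackErr
    linarith
  -- a contradiction as soon as all prices up to `lam (m+1)` (resp. the top) keep too many centres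
  have hcontra : ∀ z : ℕ, (n : ℝ) ≤ a + z → (z : ℝ) ≤ Fintype.card τ →
      (∀ j, j < d.M → j ≤ m + 1 → ((univ.filter fun t => v t < d.lam j).card : ℝ)
        ≤ Fintype.card τ - z) → False := by
    intro z hz1 hz2 hcount
    rcases Nat.lt_or_ge (m + 1) d.M with hcase | hcase
    · have h1 := H_down v c0 a d.n1 (d.lam_mono (Nat.le_succ m))
      have h2 := hcount (m + 1) hcase le_rfl
      have h3 := hr m hcase
      have h4 := (abs_le.1 (hgH m (by omega) (by omega) hm)).2
      have h5 := (abs_le.1 (hgH (m + 1) (by omega) (by omega) hcase)).1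
      have h6 := hmax (m + 1) hcase
      have h7 : 0 ≤ d.lam (m + 1) - d.lam m := by linarith [d.lam_mono (Nat.le_succ m)]
      have h8 : (d.lam (m + 1) - d.lam m) * (n - n0)
          ≤ (d.lam (m + 1) - d.lam m) *
            (a - d.n1 - ((univ.filter fun t => v t < d.lam (m + 1)).card : ℝ)) := by
        apply mul_le_mul_of_nonneg_left _ h7
        rw [hn0]; linarith
      have h9 : Hf (d.lam (m + 1)) - Hf (d.lam m) = H v c0 a d.n1 (d.lam (m + 1))
        - H v c0 a d.n1 (d.lam m) := rfl
      have h10 : d.lam (Nat.succ m) = d.lam (m + 1) := rfl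
      rw [h10] at h1
      linarith
    · have hmM : m = d.M - 1 := by omega
      have h1 := H_ge v hv0 c0 a d.n1 (d.lam_pos m).le
      have h2 := hcount m hm (by omega)
      have h4 := (abs_le.1 (hgH m (by omega) (by omega) hm)).1
      have h5 := htop hmM
      have h6 := hg m hm
      have hlm : d.lam m = d.lamM := by rw [hmM]; rfl
      have h8 : d.lam m * (n - n0)
          ≤ d.lam m * (a - d.n1 - ((univ.filter fun t => v t < d.lam m).card : ℝ)) := by
        apply mul_le_mul_of_nonneg_left _ (d.lam_pos m).le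
        rw [hn0]; linarith
      have h9 : Hf (d.lam m) = H v c0 a d.n1 (d.lam m) := rfl
      have h10 : d.r m = d.r (d.M - 1) := by rw [hmM]
      rw [hlm] at h8 h9 h1 h4
      rw [h10] at h4
      linarith
  rcases Nat.lt_or_ge n (T.card + (univ.filter fun t => d.lam (m - 1) < v t).card) with hcase | hcase
  · -- too many centres at the lower price
    rcases Nat.lt_or_ge n T.card with han | han
    · exfalso
      refine hcontra 0 ?_ ?_ ?_
      · have : (n : ℝ) ≤ a := by rw [ha]; exact_mod_cast han.le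
        simpa using this
      · simp
      · intro j _ _
        have := card_filter_le (univ : Finset τ) (fun t => v t < d.lam j)
        rw [card_univ] at this
        have h2 : ((univ.filter fun t => v t < d.lam j).card : ℝ) ≤ Fintype.card τ := by
          exact_mod_cast this
        simpa using h2
    · have hb : n - T.card < (univ.filter fun t => d.lam (m - 1) < v t).card := by omega
      have hb2 : n - T.card < Fintype.card τ := by
        have := card_filter_le (univ : Finset τ) (fun t => d.lam (m - 1) < v t)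
        rw [card_univ] at this
        omega
      obtain ⟨Kp, hKc, hKtop⟩ := exists_top v (n - T.card) hb2.le
      have hne : (univ \ Kp).Nonempty := by
        rw [← card_pos, card_sdiff_of_subset (subset_univ _), card_univ]
        omega
      obtain ⟨s0, hs0, hmx⟩ := exists_max_image _ v hne
      have hs0' : s0 ∉ Kp := (mem_sdiff.1 hs0).2
      have hmx' : ∀ s, s ∉ Kp → v s ≤ v s0 := fun s hs => hmx s (mem_sdiff.2 ⟨mem_univ _, hs⟩)
      -- `v s0` is above the lower price
      have hvl : d.lam (m - 1) < v s0 := by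
        by_contra hcon
        push Not at hcon
        have : (univ.filter fun t => d.lam (m - 1) < v t) ⊆ Kp := by
          intro t ht
          by_contra htK
          have h1 := hmx' t htK
          have h2 := (mem_filter.1 ht).2
          linarith
        have := card_le_card this
        omega
      have hcost := cost_top v c0 a d.n1 Kp hs0' hKtop hmx'
      have haKc : a + (Kp.card : ℝ) = n := by
        rw [ha, hKc, ← Nat.cast_add]
        congr 1
        omega
      have hfin' : c0 + ∑ s ∈ univ \ Kp, v s ≤ Hf (v s0) := by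
        rw [hcost, haKc]
        have : 0 ≤ v s0 * ((n : ℝ) - (d.n1 + Fintype.card τ)) :=
          mul_nonneg (hv0 s0) (by linarith)
        have h9 : Hf (v s0) = H v c0 a d.n1 (v s0) := rfl
        linarith
      refine ⟨Kp, by omega, le_trans hfin' ?_⟩
      rcases le_or_gt (v s0) (d.lam m) with h1 | h1
      · rcases Nat.eq_zero_or_pos m with h2 | h2
        · exfalso
          subst h2
          have : d.lam (0 - 1) = d.lam 0 := rfl
          rw [this] at hvl
          linarith
        · obtain ⟨l, rfl⟩ : ∃ l, m = l + 1 := ⟨m - 1, by omega⟩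
          have e : l + 1 - 1 = l := by omega
          rw [e] at hvl
          exact hbetween l (by omega) (by omega) hm (v s0) hvl.le h1
      · rcases Nat.lt_or_ge (m + 1) d.M with h2 | h2
        · rcases le_or_gt (v s0) (d.lam (m + 1)) with h3 | h3
          · exact hbetween m (by omega) (by omega) h2 (v s0) h1.le h3
          · exfalso
            refine hcontra Kp.card (by rw [haKc]) ?_ ?_
            · exact_mod_cast card_le_univ Kp
            · intro j hj hj2
              have h4 : (univ.filter fun t => v t < d.lam j) ⊆ univ \ Kp := by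
                intro t ht
                refine mem_sdiff.2 ⟨mem_univ _, fun htK => ?_⟩
                have h5 := hKtop t htK s0 hs0'
                have h6 := (mem_filter.1 ht).2
                have h7 := d.lam_mono hj2
                linarith
              have h5 := card_le_card h4
              rw [card_sdiff_of_subset (subset_univ _), card_univ] at h5
              have h6 : ((univ.filter fun t => v t < d.lam j).card : ℝ)
                  ≤ ((Fintype.card τ - Kp.card : ℕ) : ℝ) := by exact_mod_cast h5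
              rwa [Nat.cast_sub (card_le_univ Kp)] at h6
        · exfalso
          refine hcontra Kp.card (by rw [haKc]) ?_ ?_
          · exact_mod_cast card_le_univ Kp
          · intro j hj hj2
            have h4 : (univ.filter fun t => v t < d.lam j) ⊆ univ \ Kp := by
              intro t ht
              refine mem_sdiff.2 ⟨mem_univ _, fun htK => ?_⟩
              have h5 := hKtop t htK s0 hs0'
              have h6 := (mem_filter.1 ht).2
              have h7 := d.lam_mono (show j ≤ m by omega)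
              linarith
            have h5 := card_le_card h4
            rw [card_sdiff_of_subset (subset_univ _), card_univ] at h5
            have h6 : ((univ.filter fun t => v t < d.lam j).card : ℝ)
                ≤ ((Fintype.card τ - Kp.card : ℕ) : ℝ) := by exact_mod_cast h5
            rwa [Nat.cast_sub (card_le_univ Kp)] at h6
  · -- keep exactly the centres above the lower price
    refine ⟨univ.filter fun t => d.lam (m - 1) < v t, hcase, ?_⟩
    rw [cost_gt v c0 a d.n1 (d.lam (m - 1))]
    have hH := hHle (m - 1) le_rfl (by omega) hm1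
    have h9 : Hf (d.lam (m - 1)) = H v c0 a d.n1 (d.lam (m - 1)) := rfl
    set z : ℝ := ((univ.filter fun t => d.lam (m - 1) < v t).card : ℝ) with hz
    rcases le_or_gt n0 (a + z) with h1 | h1
    · have : 0 ≤ d.lam (m - 1) * (a + z - n0) := mul_nonneg (d.lam_pos _).le (by linarith)
      linarith
    · rcases Nat.eq_zero_or_pos m with h2 | h2
      · subst h2
        have hall : (univ.filter fun t => d.lam (0 - 1) < v t) = univ := by
          refine filter_true_of_mem fun t _ => ?_
          have : d.lam (0 - 1) = d.lam0 := by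
            have : d.lam (0 - 1) = d.lam 0 := rfl
            rw [this, d.lam_zero]
          rw [this]; exact hv t
        have hz' : z = Fintype.card τ := by rw [hz, hall, card_univ]
        have hl0 : d.lam (0 - 1) = d.lam0 := by
          have : d.lam (0 - 1) = d.lam 0 := rfl
          rw [this, d.lam_zero]
        have h3 : - (d.lam (0 - 1) * (a + z - n0)) ≤ d.lam0 * |d.n1| := by
          rw [hl0, hz', hn0]
          have h4 := le_abs_self d.n1
          have h5 := d.hlam0
          nlinarith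
        have h6 : 0 ≤ (d.q - 1) * d.lamM * (K + |d.n1|) :=
          mul_nonneg (mul_nonneg (by linarith) hL.le) (by positivity)
        unfold slackErr
        linarith
      · exfalso
        obtain ⟨l, rfl⟩ : ∃ l, m = l + 1 := ⟨m - 1, by omega⟩
        have e : l + 1 - 1 = l := by omega
        rw [e] at hz
        have h3 := H_up v c0 a d.n1 (d.lam_mono (Nat.le_succ l))
        have h4 := (abs_le.1 (hgH l (by omega) (by omega) (by omega))).1
        have h5 := (abs_le.1 (hgH (l + 1) (by omega) (by omega) hm)).2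
        have h6 := hmax l (by omega)
        have h7 := d.r_mono l
        have hcomp : ((univ.filter fun t => v t ≤ d.lam l).card : ℝ) = Fintype.card τ - z := by
          have h8 := card_filter_add_card_filter_not (s := (univ : Finset τ)) (fun t => v t ≤ d.lam l)
          rw [card_univ] at h8
          have h10 : (univ.filter fun t => ¬ v t ≤ d.lam l) = univ.filter fun t => d.lam l < v t := by
            ext t; simp
          rw [h10] at h8
          have h11 : ((univ.filter fun t => v t ≤ d.lam l).card : ℝ)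
              + ((univ.filter fun t => d.lam l < v t).card : ℝ) = Fintype.card τ := by
            exact_mod_cast h8
          rw [hz]; linarith
        rw [hcomp] at h3
        have h8 : 0 < d.lam (l + 1) - d.lam l := by
          rw [d.lam_succ]
          have := d.lam_pos l
          nlinarith
        have h10 : (d.lam (l + 1) - d.lam l) * (a - d.n1 - (Fintype.card τ - z)) < 0 := by
          apply mul_neg_of_pos_of_neg h8
          linarith
        have h11 : d.lam (Nat.succ l) = d.lam (l + 1) := rfl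
        rw [h11] at h3
        have h12 : Hf (d.lam (l + 1)) - Hf (d.lam l) = H v c0 a d.n1 (d.lam (l + 1))
          - H v c0 a d.n1 (d.lam l) := rfl
        linarith

/-- **Theorem E''** (abstract form). -/
theorem lazy_main (v : Finset σ → τ → ℝ) (c0 : Finset σ → ℝ) (n K : ℕ)
    (run : ℕ → Finset σ) (θ : ℕ → ℝ) (h0 : run 0 = ∅) (hθ0 : θ 0 = d.G)
    (hstep : ∀ t < K, (run t = univ) ∨ d.Forced (run t) (θ t) (run (t + 1)) (θ (t + 1)) ∨
      d.Free (run t) (θ t) (run (t + 1)) (θ (t + 1)))
    (hX : (K : ℝ) * (d.M * ((d.B + 2) * d.lamM) ^ 2) ≤ d.X ^ 2) (he : d.e1 ≤ d.lamM)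
    (hK : d.thetaBound K + d.X + d.r 0 + d.e1 < d.lam0 * ((K : ℝ) - d.n1))
    (hc0 : ∀ T, 0 ≤ c0 T) (hv : ∀ T t, d.lam0 < v T t)
    (hn : d.n1 + Fintype.card τ ≤ n)
    (hfin : ∀ l j T, d.A l T = ∅ → l ≤ j → j ≤ l + 2 → j < d.M →
      |d.S j T - (c0 T - ∑ t, max (d.lam j - v T t) 0)| ≤ d.e1)
    (hr : ∀ j, j + 1 < d.M →
      d.r (j + 1) - d.r j + 2 * d.e1 < (d.lam (j + 1) - d.lam j) * (n - (d.n1 + Fintype.card τ)))
    (htop : (d.thetaBound K + d.X
        < d.lamM * (n - (d.n1 + Fintype.card τ)) - d.r (d.M - 1) - d.e1) ∨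
      (d.g (d.M - 1) ∅ + K * (d.lamM + d.e1) < - (d.lam0 * d.n1) - d.r 0 - d.e1)) :
    ∃ t < K, (run t).card = t ∧ ∃ Kp : Finset τ, (run t).card + Kp.card ≤ n ∧
      c0 (run t) + ∑ s ∈ univ \ Kp, v (run t) s
        ≤ d.thetaBound K + d.X + d.r (d.M - 1) + d.e1 + d.slackErr K := by
  obtain ⟨t, ht, hcard, hgt, hgb, m, hm, hmax, hA⟩ :=
    d.exists_dead K run θ h0 hθ0 hstep hX he hK
  refine ⟨t, ht, hcard, ?_⟩
  refine d.select (run t) (v (run t)) (c0 (run t)) n K (d.thetaBound K + d.X) m hm
    (by omega) (hc0 _) (hv _) hn hgb hmax (fun j h1 h2 h3 => hfin _ j _ hA h1 h2 h3) hr ?_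
  intro hmM
  rcases htop with h | h
  · exact h
  · exfalso
    have h1 := hgt (d.M - 1) (by have := d.hM; omega)
    have h2 := hmax 0 d.hM
    have h3 := d.S_bot (run t)
    have h4 : d.g 0 (run t) = d.S 0 (run t) + d.lam0 * ((t : ℝ) - d.n1) - d.r 0 := by
      unfold g; rw [hcard, d.lam_zero]
    have h5 : (t : ℝ) ≤ K := by exact_mod_cast ht.le
    have h6 : 0 ≤ d.lam0 * (t : ℝ) := mul_nonneg d.hlam0.le (Nat.cast_nonneg _)
    have h7 : (t : ℝ) * (d.lamM + d.e1) ≤ K * (d.lamM + d.e1) := by
      apply mul_le_mul_of_nonneg_right h5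
      have := d.lamM_pos
      have := d.he1
      linarith
    rw [hmM] at h2
    rw [h4] at h2
    nlinarith

end Data

end Crest.Agent.R310.LazyK
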