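import Mathlib

/-!
# R310: single-swap local search for k-median

`exists_swap`: for an indexed family `S : ι → V` of open centres and a comparison family
`O : κ → V` with `card κ ≤ card ι` there is a swap `S i := O o` with
`card κ * (cost (update S i (O o)) - cost S) ≤ 5 * cost O - cost S`.
-/

set_option autoImplicit false
set_option linter.unusedVariables false
set_option linter.unusedSectionVars false

namespace Crest.Agent.R310.LS

open Finset

/-- pairing of optimal centres with local centres: `p o` captures nobody but possibly `o`, and every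
local centre is used at most twice. -/
theorem exists_pairing {ι κ : Type*} [Fintype ι] [Fintype κ] [DecidableEq ι] [DecidableEq κ]
    (h : Fintype.card κ ≤ Fintype.card ι) (η : κ → ι) :
    ∃ p : κ → ι, (∀ o o', o' ≠ o → η o' ≠ p o) ∧
      ∀ i, (univ.filter (fun o => p o = i)).card ≤ 2 := by
  classical
  set bad : Finset κ := univ.filter (fun o => ∃ o', o' ≠ o ∧ η o' = η o) with hbad
  set good : Finset κ := univ.filter (fun o => ¬ ∃ o', o' ≠ o ∧ η o' = η o) with hgood
  set free : Finset ι := univ.filter (fun i => ∀ o, η o ≠ i) with hfree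
  have hcard : bad.card + good.card = Fintype.card κ := by
    rw [hbad, hgood, Finset.card_filter_add_card_filter_not, Finset.card_univ]
  -- image of bad has at most half the size
  have h1 : 2 * (bad.image η).card ≤ bad.card := by
    rw [Finset.card_eq_sum_card_image η bad]
    have : ∀ i ∈ bad.image η, 2 ≤ (bad.filter (fun o => η o = i)).card := by
      intro i hi
      obtain ⟨o, ho, rfl⟩ := Finset.mem_image.1 hi
      obtain ⟨o', ho', he⟩ := (Finset.mem_filter.1 ho).2
      have hsub : ({o, o'} : Finset κ) ⊆ bad.filter (fun x => η x = η o) := by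
        intro x hx
        rcases Finset.mem_insert.1 hx with rfl | hx
        · exact Finset.mem_filter.2 ⟨ho, rfl⟩
        · rw [Finset.mem_singleton] at hx
          subst hx
          refine Finset.mem_filter.2 ⟨Finset.mem_filter.2 ⟨Finset.mem_univ _, o, ho'.symm, he.symm⟩, he⟩
      calc 2 = ({o, o'} : Finset κ).card := by rw [Finset.card_pair ho'.symm]
        _ ≤ _ := Finset.card_le_card hsub
    calc 2 * (bad.image η).card = ∑ i ∈ bad.image η, 2 := by simp [mul_comm]
      _ ≤ _ := Finset.sum_le_sum this
  have h2 : (univ : Finset ι).card ≤ free.card + ((bad.image η).card + (good.image η).card) := by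
    have hsub : (univ : Finset ι) ⊆ free ∪ (bad.image η ∪ good.image η) := by
      intro i _
      by_cases hi : ∀ o, η o ≠ i
      · exact Finset.mem_union_left _ (Finset.mem_filter.2 ⟨Finset.mem_univ _, hi⟩)
      · push Not at hi
        obtain ⟨o, rfl⟩ := hi
        apply Finset.mem_union_right
        by_cases hb : ∃ o', o' ≠ o ∧ η o' = η o
        · exact Finset.mem_union_left _ (Finset.mem_image_of_mem _ (Finset.mem_filter.2 ⟨Finset.mem_univ _, hb⟩))
        · exact Finset.mem_union_right _ (Finset.mem_image_of_mem _ (Finset.mem_filter.2 ⟨Finset.mem_univ _, hb⟩))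
    refine (Finset.card_le_card hsub).trans ((Finset.card_union_le _ _).trans ?_)
    exact Nat.add_le_add_left (Finset.card_union_le _ _) _
  have h3 : (good.image η).card ≤ good.card := Finset.card_image_le
  have h4 : bad.card ≤ 2 * free.card := by
    rw [Finset.card_univ] at h2
    omega
  -- injection of bad into free × Fin 2
  have h5 : Fintype.card bad ≤ Fintype.card (free × Fin 2) := by
    rw [Fintype.card_prod, Fintype.card_coe, Fintype.card_coe, Fintype.card_fin]
    omega
  obtain ⟨g⟩ : Nonempty (bad ↪ free × Fin 2) := Function.Embedding.nonempty_of_card_le h5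
  refine ⟨fun o => if ho : o ∈ bad then ((g ⟨o, ho⟩).1 : ι) else η o, ?_, ?_⟩
  · intro o o' hne
    by_cases ho : o ∈ bad
    · simp only [dif_pos ho]
      exact (Finset.mem_filter.1 (g ⟨o, ho⟩).1.2).2 o'
    · simp only [dif_neg ho]
      intro he
      exact ho (Finset.mem_filter.2 ⟨Finset.mem_univ _, o', hne, he⟩)
  · intro i
    by_cases hi : i ∈ free
    · -- only bad ones
      have hsub : univ.filter (fun o => (if ho : o ∈ bad then ((g ⟨o, ho⟩).1 : ι) else η o) = i)
          ⊆ (bad.attach.filter (fun o => ((g o).1 : ι) = i)).image Subtype.val := by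
        intro o ho
        have ho' := (Finset.mem_filter.1 ho).2
        by_cases hb : o ∈ bad
        · rw [dif_pos hb] at ho'
          exact Finset.mem_image.2 ⟨⟨o, hb⟩, Finset.mem_filter.2 ⟨Finset.mem_attach _ _, ho'⟩, rfl⟩
        · rw [dif_neg hb] at ho'
          exact absurd ho' ((Finset.mem_filter.1 hi).2 o)
      refine (Finset.card_le_card hsub).trans (Finset.card_image_le.trans ?_)
      have : (bad.attach.filter (fun o => ((g o).1 : ι) = i)).card ≤ (univ : Finset (Fin 2)).card := by
        refine Finset.card_le_card_of_injOn (fun o => (g o).2) (fun _ _ => Finset.mem_univ _) ?_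
        intro a ha b hb hab
        have ha' := (Finset.mem_filter.1 ha).2
        have hb' := (Finset.mem_filter.1 hb).2
        apply g.injective
        apply Prod.ext
        · exact Subtype.ext (ha'.trans hb'.symm)
        · exact hab
      simpa using this
    · -- at most one good one
      have : (univ.filter (fun o => (if ho : o ∈ bad then ((g ⟨o, ho⟩).1 : ι) else η o) = i)).card ≤ 1 := by
        rw [Finset.card_le_one]
        intro a ha b hb
        have ha' := (Finset.mem_filter.1 ha).2
        have hb' := (Finset.mem_filter.1 hb).2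
        have key : ∀ o, (if ho : o ∈ bad then ((g ⟨o, ho⟩).1 : ι) else η o) = i → o ∉ bad ∧ η o = i := by
          intro o ho
          by_cases hbo : o ∈ bad
          · rw [dif_pos hbo] at ho
            exact absurd (ho ▸ (g ⟨o, hbo⟩).1.2) hi
          · rw [dif_neg hbo] at ho
            exact ⟨hbo, ho⟩
        obtain ⟨a1, a2⟩ := key a ha'
        obtain ⟨b1, b2⟩ := key b hb'
        by_contra hne
        exact a1 (Finset.mem_filter.2 ⟨Finset.mem_univ _, b, fun h => hne h.symm, b2.trans a2.symm⟩)
      exact this.trans (by norm_num)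

variable {R : Type*} [Field R] [LinearOrder R] [IsStrictOrderedRing R]
variable {V : Type*}

/-- cost of an indexed family of centres -/
def fcost {ι : Type*} [Fintype ι] [Nonempty ι] (d : V → V → R) (w : V → R) (D : Finset V)
    (S : ι → V) : R :=
  ∑ j ∈ D, w j * (univ : Finset ι).inf' univ_nonempty (fun i => d j (S i))

theorem exists_swap {ι κ : Type*} [Fintype ι] [Fintype κ] [DecidableEq ι] [DecidableEq κ]
    [Nonempty ι] [Nonempty κ] (d : V → V → R) (w : V → R) (D : Finset V)
    (hd0 : ∀ x y, 0 ≤ d x y) (hsymm : ∀ x y, d x y = d y x)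
    (htri : ∀ x y z, d x z ≤ d x y + d y z) (hw : ∀ j ∈ D, 0 ≤ w j)
    (S : ι → V) (O : κ → V) (hcard : Fintype.card κ ≤ Fintype.card ι) :
    ∃ (i : ι) (o : κ), (Fintype.card κ : R) * (fcost d w D (Function.update S i (O o)) -
      fcost d w D S) ≤ 5 * fcost d w D O - fcost d w D S := by
  classical
  -- nearest centres
  have hη : ∀ o : κ, ∃ i : ι, ∀ i', d (O o) (S i) ≤ d (O o) (S i') := fun o =>
    let ⟨i, _, hi⟩ := Finset.exists_min_image (univ : Finset ι) (fun i => d (O o) (S i)) univ_nonempty
    ⟨i, fun i' => hi i' (mem_univ _)⟩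
  choose η hη using hη
  have ha : ∀ j : V, ∃ i : ι, (univ : Finset ι).inf' univ_nonempty (fun i => d j (S i)) = d j (S i) := by
    intro j
    obtain ⟨i, _, hi⟩ := Finset.exists_mem_eq_inf' (univ_nonempty (α := ι)) (fun i => d j (S i))
    exact ⟨i, hi⟩
  choose a ha using ha
  have hb : ∀ j : V, ∃ o : κ, (univ : Finset κ).inf' univ_nonempty (fun i => d j (O i)) = d j (O o) := by
    intro j
    obtain ⟨i, _, hi⟩ := Finset.exists_mem_eq_inf' (univ_nonempty (α := κ)) (fun i => d j (O i))
    exact ⟨i, hi⟩
  choose b hb using hb
  obtain ⟨p, hp1, hp2⟩ := exists_pairing hcard η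
  set CS := fcost d w D S with hCS
  set CO := fcost d w D O with hCO
  have eCS : CS = ∑ j ∈ D, w j * d j (S (a j)) := by
    rw [hCS, fcost]; exact Finset.sum_congr rfl (fun j _ => by rw [ha])
  have eCO : CO = ∑ j ∈ D, w j * d j (O (b j)) := by
    rw [hCO, fcost]; exact Finset.sum_congr rfl (fun j _ => by rw [hb])
  -- bound for one swap
  have hswap : ∀ o : κ, fcost d w D (Function.update S (p o) (O o)) - CS ≤
      ∑ j ∈ D, w j * ((if b j = o then d j (O (b j)) - d j (S (a j)) else 0) +
        (if p o = a j then 2 * d j (O (b j)) else 0)) := by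
    intro o
    rw [eCS, fcost, ← Finset.sum_sub_distrib]
    refine Finset.sum_le_sum (fun j hj => ?_)
    rw [← mul_sub]
    refine mul_le_mul_of_nonneg_left ?_ (hw j hj)
    have hle : ∀ i, (univ : Finset ι).inf' univ_nonempty
        (fun i => d j (Function.update S (p o) (O o) i)) ≤ d j (Function.update S (p o) (O o) i) :=
      fun i => Finset.inf'_le _ (mem_univ i)
    have hO0 := hd0 j (O (b j))
    by_cases h1 : b j = o
    · have := hle (p o)
      rw [Function.update_self] at this
      rw [if_pos h1]
      rw [← h1] at this ⊢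
      split_ifs <;> linarith
    · rw [if_neg h1, zero_add]
      by_cases h2 : p o = a j
      · rw [if_pos h2]
        have hne : η (b j) ≠ p o := hp1 o (b j) h1
        have := hle (η (b j))
        rw [Function.update_of_ne hne] at this
        have t1 := htri j (O (b j)) (S (η (b j)))
        have t2 := hη (b j) (a j)
        have t3 := htri (O (b j)) j (S (a j))
        have t4 := hsymm (O (b j)) j
        linarith
      · rw [if_neg h2]
        have := hle (a j)
        rw [Function.update_of_ne (fun h => h2 h.symm)] at this
        linarith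
  -- sum over all o
  have hsum : ∑ o : κ, (fcost d w D (Function.update S (p o) (O o)) - CS) ≤ 5 * CO - CS := by
    refine (Finset.sum_le_sum (fun o _ => hswap o)).trans ?_
    rw [Finset.sum_comm]
    have : ∀ j ∈ D, ∑ o : κ, w j * ((if b j = o then d j (O (b j)) - d j (S (a j)) else 0) +
        (if p o = a j then 2 * d j (O (b j)) else 0)) ≤
        w j * (5 * d j (O (b j))) - w j * d j (S (a j)) := by
      intro j hj
      rw [← Finset.mul_sum, ← mul_sub]
      refine mul_le_mul_of_nonneg_left ?_ (hw j hj)
      rw [Finset.sum_add_distrib, Finset.sum_ite_eq, if_pos (mem_univ _), ← Finset.sum_filter,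
        Finset.sum_const, nsmul_eq_mul]
      have h2 := hp2 (a j)
      have h2' : ((univ.filter (fun o => p o = a j)).card : R) ≤ 2 := by exact_mod_cast h2
      have := mul_le_mul_of_nonneg_right h2' (by have := hd0 j (O (b j)); linarith : (0:R) ≤ 2 * d j (O (b j)))
      linarith
    refine (Finset.sum_le_sum this).trans ?_
    rw [Finset.sum_sub_distrib, ← eCS, eCO, Finset.mul_sum]
    refine sub_le_sub_right (Finset.sum_le_sum (fun j _ => ?_)) _
    exact le_of_eq (by ring)
  -- pick the best one
  obtain ⟨o, _, ho⟩ := Finset.exists_min_image (univ : Finset κ)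
    (fun o => fcost d w D (Function.update S (p o) (O o)) - CS) univ_nonempty
  refine ⟨p o, o, ?_⟩
  refine le_trans ?_ hsum
  have : ∑ _o' : κ, (fcost d w D (Function.update S (p o) (O o)) - CS) ≤
      ∑ o' : κ, (fcost d w D (Function.update S (p o') (O o')) - CS) :=
    Finset.sum_le_sum (fun o' _ => ho o' (mem_univ _))
  rw [Finset.sum_const, nsmul_eq_mul, Finset.card_univ] at this
  exact this

end Crest.Agent.R310.LS
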