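import Crest.Agent.R310.Final
import Crest.Agent.R310.LocalSearch

/-!
# R310: the local search as a `PTF` function

`localS : RI → List ℕ` is `PTF`, and on a valid instance it returns exactly `k` facilities (as a list)
whose cost is at most `6` times the cost of any admissible set.
-/

set_option linter.dupNamespace false
set_option autoImplicit false

namespace Crest.Agent.R310

open Crest.Agent.Lib.PT Crest.Agent.Lib.PT.Arith Crest.LogicCS.KMedian

/-- list of facilities -/
def facL (r : RI) : List ℕ := (List.range (riN r)).filter (fun i => riF r i)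

/-- starting point -/
def lsStart (r : RI) : List ℕ := (facL r).take (min (riK r) (facL r).length)

/-- all single swaps -/
def lsSwaps (r : RI) (c : List ℕ) : List (List ℕ) :=
  (List.range c.length).flatMap (fun i => (facL r).map (fun b => c.set i b))

/-- one step -/
def lsStep (r : RI) (c : List ℕ) : List ℕ := best r (c :: lsSwaps r c)

/-- number of steps -/
def lsN (r : RI) : ℕ := riN r * (3 * sz r + 1)

/-- the local search -/
def localS (r : RI) : List ℕ := (lsStep r)^[lsN r] (lsStart r)

section ptf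
variable {γ : Type} [PTCode γ]

theorem ptf_facL {r : γ → RI} (hr : PTF r) : PTF (fun c => facL (r c)) := by
  refine PTF.filter (l := fun c => List.range (riN (r c))) (p := fun c i => riF (r c) i)
    (PTF.range (ptu_riN hr)) ?_
  exact ptf_riF (PTF.comp hr PTF.fst) PTF.snd

theorem ptf_lsStart {r : γ → RI} (hr : PTF r) : PTF (fun c => lsStart (r c)) :=
  PTF.take (PTF.natMinUn (ptf_riK hr) (PTU.length (ptf_facL hr))) (ptf_facL hr)

theorem ptf_lsSwaps {r : γ → RI} {c : γ → List ℕ} (hr : PTF r) (hc : PTF c) :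
    PTF (fun x => lsSwaps (r x) (c x)) := by
  refine PTF.flatMap (l := fun x => List.range (c x).length)
    (f := fun x i => (facL (r x)).map (fun b => (c x).set i b)) (PTF.range (PTU.length hc)) ?_
  have hr' : PTF (fun p : γ × ℕ => r p.1) := PTF.comp hr PTF.fst
  refine PTF.map (γ := γ × ℕ) (l := fun p => facL (r p.1)) (f := fun p b => (c p.1).set p.2 b)
    (ptf_facL hr') ?_
  have hcl : PTU (fun q : (γ × ℕ) × ℕ => (c q.1.1).length) :=
    PTU.length (PTF.comp hc (PTF.comp PTF.fst PTF.fst))
  have hmin : PTU (fun q : (γ × ℕ) × ℕ => min q.1.2 (c q.1.1).length) :=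
    PTF.natMinUn (PTF.comp PTF.snd PTF.fst) hcl
  refine PTF.of_eq (PTF.set (l := fun q : (γ × ℕ) × ℕ => c q.1.1) (a := fun q => q.2)
    (PTF.comp hc (PTF.comp PTF.fst PTF.fst)) hmin PTF.snd) ?_
  intro q
  rcases le_total q.1.2 (c q.1.1).length with h | h
  · rw [min_eq_left h]
  · rw [min_eq_right h, List.set_eq_of_length_le le_rfl]
    exact (List.set_eq_of_length_le h).symm

theorem ptf_lsStep {r : γ → RI} {c : γ → List ℕ} (hr : PTF r) (hc : PTF c) :
    PTF (fun x => lsStep (r x) (c x)) :=
  ptf_best hr (PTF.listCons hc (ptf_lsSwaps hr hc))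

end ptf

theorem best_mem_or (r : RI) (l : List (List ℕ)) : best r l ∈ l ∨ best r l = [] := by
  unfold best
  have key : ∀ (l : List (List ℕ)) (o : List ℕ), l.foldl (better r) o ∈ l ∨ l.foldl (better r) o = o := by
    intro l
    induction l with
    | nil => intro o; simp
    | cons c l ih =>
      intro o
      rw [List.foldl_cons]
      rcases ih (better r o c) with h | h
      · exact Or.inl (List.mem_cons_of_mem _ h)
      · rw [h]
        unfold better
        split_ifs
        · exact Or.inl (by simp)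
        · exact Or.inr rfl
  exact key l []

/-- entries of the states are entries of `facL`, length at most that of `facL` -/
theorem lsStep_small (r : RI) (c : List ℕ) (hc : c.length ≤ (facL r).length ∧ ∀ a ∈ c, a ∈ facL r) :
    (lsStep r c).length ≤ (facL r).length ∧ ∀ a ∈ lsStep r c, a ∈ facL r := by
  unfold lsStep
  rcases best_mem_or r (c :: lsSwaps r c) with h | h
  · rcases List.mem_cons.1 h with h | h
    · rw [h]; exact hc
    · unfold lsSwaps at h
      obtain ⟨i, _, hi⟩ := List.mem_flatMap.1 h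
      obtain ⟨b, hb, he⟩ := List.mem_map.1 hi
      change _ = best r (c :: lsSwaps r c) at he
      rw [← he]
      refine ⟨by rw [List.length_set]; exact hc.1, fun a ha => ?_⟩
      rcases List.mem_or_eq_of_mem_set ha with ha | ha
      · exact hc.2 a ha
      · rw [ha]; exact hb
  · rw [h]; simp

theorem ptf_localS {γ : Type} [PTCode γ] {r : γ → RI} (hr : PTF r) :
    PTF (fun c => localS (r c)) := by
  have h0 : PTF localS := by
    refine PTF.iterate' (γ := RI) (n := lsN) (f := fun r c => lsStep r c) (a := lsStart)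
      ?_ ?_ (ptf_lsStart PTF.id) (B := fun r => (facL r).length * (2 * sz (facL r) + 1)) ?_ ?_
    · exact PTU.mul (ptu_riN PTF.id) (PTU.add (PTU.mul (PTU.const 3) PTU.sz) (PTU.const 1))
    · exact ptf_lsStep PTF.fst PTF.snd
    · exact PB.mul (PTU.pb (PTU.length (ptf_facL PTF.id)))
        (PB.add (PB.mul (PB.const 2) (PTF.sz (ptf_facL PTF.id))) (PB.const 1))
    · intro r i _
      have hinv : ((lsStep r)^[i] (lsStart r)).length ≤ (facL r).length ∧
          ∀ a ∈ (lsStep r)^[i] (lsStart r), a ∈ facL r := by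
        induction i with
        | zero =>
          simp only [Function.iterate_zero, id]
          unfold lsStart
          exact ⟨by rw [List.length_take]; exact min_le_right _ _,
            fun a ha => List.mem_of_mem_take ha⟩
        | succ i ih =>
          rw [Function.iterate_succ_apply']
          exact lsStep_small r _ (ih (by omega))
      refine (sz_list_le (m := sz (facL r)) (fun a ha => sz_mem_le (hinv.2 a ha))).trans ?_
      exact Nat.mul_le_mul_right _ hinv.1
  exact PTF.comp h0 hr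

/-! ### correctness -/

theorem mem_facL {I : Instance} {i : ℕ} : i ∈ facL (raw I) ↔
    ∃ hi : i < I.N, (⟨i, hi⟩ : Fin I.N) ∈ I.facilities := by
  unfold facL
  rw [List.mem_filter, List.mem_range, riN_raw]
  constructor
  · rintro ⟨_, h⟩; exact riF_raw_true h
  · rintro ⟨hi, hm⟩
    refine ⟨hi, ?_⟩
    have := riF_raw I ⟨i, hi⟩
    simp only at this
    rw [this]; exact decide_eq_true hm

theorem length_facL (I : Instance) : (facL (raw I)).length = I.facilities.card := by
  have h1 : (facL (raw I)).Nodup := List.Nodup.filter _ List.nodup_range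
  rw [← List.toFinset_card_of_nodup h1, ← Finset.card_image_of_injective I.facilities Fin.val_injective]
  congr 1
  ext i
  rw [List.mem_toFinset, mem_facL, Finset.mem_image]
  constructor
  · rintro ⟨hi, hm⟩; exact ⟨⟨i, hi⟩, hm, rfl⟩
  · rintro ⟨x, hx, rfl⟩; exact ⟨x.2, hx⟩

/-- admissible full lists -/
def LsOk (I : Instance) (c : List ℕ) : Prop := c.length = I.k ∧ ∀ a ∈ c, a ∈ facL (raw I)

theorem lsOk_start {I : Instance} (hI : I.Valid) : LsOk I (lsStart (raw I)) := by
  refine ⟨?_, fun a ha => List.mem_of_mem_take ha⟩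
  unfold lsStart
  rw [List.length_take, length_facL]
  have h1 : I.k ≤ I.facilities.card := hI.2.2.2.2.2
  have h2 : riK (raw I) = I.k := rfl
  rw [h2]
  omega

theorem LsOk.ne_nil {I : Instance} (hI : I.Valid) {c : List ℕ} (hc : LsOk I c) : c ≠ [] := by
  rintro rfl
  have := hc.1
  have h1 : 1 ≤ I.k := hI.2.2.2.2.1
  simp at this
  omega

theorem LsOk.lt {I : Instance} {c : List ℕ} (hc : LsOk I c) : ∀ i ∈ c, i < I.N := fun i hi =>
  (mem_facL.1 (hc.2 i hi)).1

theorem LsOk.okL {I : Instance} (hI : I.Valid) {c : List ℕ} (hc : LsOk I c) :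
    okL (raw I) c = true := by
  have hk : riK (raw I) = I.k := rfl
  simp only [Crest.Agent.R310.okL, Bool.and_eq_true, Bool.not_eq_true', List.isEmpty_eq_false_iff,
      List.all_eq_true, decide_eq_true_eq]
  rw [hk]
  refine ⟨hc.ne_nil hI, hc.1.le, fun i hi => ?_⟩
  have := hc.2 i hi
  unfold facL at this
  exact (List.mem_filter.1 this).2

theorem LsOk.set {I : Instance} {c : List ℕ} (hc : LsOk I c) {i b : ℕ} (hb : b ∈ facL (raw I)) :
    LsOk I (c.set i b) := by
  refine ⟨by rw [List.length_set]; exact hc.1, fun a ha => ?_⟩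
  rcases List.mem_or_eq_of_mem_set ha with ha | ha
  · exact hc.2 a ha
  · rw [ha]; exact hb

theorem lsStep_spec {I : Instance} (hI : I.Valid) {c : List ℕ} (hc : LsOk I c) :
    LsOk I (lsStep (raw I) c) ∧ costL (raw I) (lsStep (raw I) c) ≤ costL (raw I) c ∧
    ∀ i b, i < c.length → b ∈ facL (raw I) →
      costL (raw I) (lsStep (raw I) c) ≤ costL (raw I) (c.set i b) := by
  have hall : ∀ c' ∈ c :: lsSwaps (raw I) c, LsOk I c' := by
    intro c' hc'
    rcases List.mem_cons.1 hc' with rfl | hc'
    · exact hc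
    · unfold lsSwaps at hc'
      obtain ⟨i, _, hi⟩ := List.mem_flatMap.1 hc'
      obtain ⟨b, hb, rfl⟩ := List.mem_map.1 hi
      exact hc.set hb
  obtain ⟨b1, b2, b3⟩ := best_spec (raw I) (c :: lsSwaps (raw I) c) ⟨c, by simp, hc.okL hI⟩
  refine ⟨hall _ b2, b3 c (by simp) (hc.okL hI), fun i b hi hb => ?_⟩
  have hm : c.set i b ∈ c :: lsSwaps (raw I) c := by
    apply List.mem_cons_of_mem
    unfold lsSwaps
    exact List.mem_flatMap.2 ⟨i, List.mem_range.2 hi, List.mem_map.2 ⟨b, hb, rfl⟩⟩
  exact b3 _ hm ((hall _ hm).okL hI)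

/-- cost of an indexed family is the cost of its image -/
theorem fcost_eq_cost {I : Instance} {ι : Type} [Fintype ι] [Nonempty ι]
    (S : ι → Fin I.N) :
    LS.fcost (fun x y => I.dist x y) (fun _ => (1 : ℚ)) I.clients S
      = I.cost (Finset.univ.image S) := by
  classical
  have hne : (Finset.univ.image S).Nonempty := Finset.univ_nonempty.image S
  unfold LS.fcost Instance.cost
  rw [dif_pos hne]
  refine Finset.sum_congr rfl (fun j _ => ?_)
  rw [one_mul, Finset.inf'_image]
  rfl

theorem lsStep_decrease {I : Instance} (hI : I.Valid) {c : List ℕ} (hc : LsOk I c)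
    {O : Finset (Fin I.N)} (hO : O ⊆ I.facilities) (hO0 : O.Nonempty) (hOk : O.card ≤ I.k) :
    (O.card : ℚ) * (costL (raw I) (lsStep (raw I) c) - costL (raw I) c)
      ≤ 5 * I.cost O - costL (raw I) c := by
  classical
  have hk : 1 ≤ I.k := hI.2.2.2.2.1
  obtain ⟨s1, s2, s3⟩ := lsStep_spec hI hc
  have hlen : 0 < c.length := by rw [hc.1]; omega
  have : Nonempty (Fin c.length) := ⟨⟨0, hlen⟩⟩
  have : Nonempty O := hO0.to_subtype
  let S : Fin c.length → Fin I.N := fun i => ⟨c.get i, hc.lt _ (List.get_mem _ _)⟩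
  obtain ⟨i, o, h⟩ := LS.exists_swap (ι := Fin c.length) (κ := O) (fun x y => I.dist x y)
    (fun _ => (1 : ℚ)) I.clients (by
      intro x y
      by_cases hxy : x = y
      · rw [hxy, hI.1]
      · exact (hI.2.1 x y hxy).le) hI.2.2.1 hI.2.2.2.1 (fun _ _ => zero_le_one) S (fun o => (o : Fin I.N))
    (by rw [Fintype.card_coe, Fintype.card_fin, hc.1]; exact hOk)
  rw [fcost_eq_cost, fcost_eq_cost, fcost_eq_cost, Fintype.card_coe] at h
  have e1 : Finset.univ.image (fun o : O => (o : Fin I.N)) = O := by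
    ext x; simp
  have e2 : Finset.univ.image S = setOf I c := by
    ext x
    rw [mem_setOf, Finset.mem_image]
    constructor
    · rintro ⟨i, _, rfl⟩; exact List.get_mem _ _
    · intro hx
      obtain ⟨n, hn, he⟩ := List.getElem_of_mem hx
      exact ⟨⟨n, hn⟩, Finset.mem_univ _, Fin.ext he⟩
  have e3 : Finset.univ.image (Function.update S i (o : Fin I.N)) = setOf I (c.set i (o : Fin I.N)) := by
    ext x
    rw [mem_setOf, Finset.mem_image]
    constructor
    · rintro ⟨j, _, rfl⟩
      by_cases hji : j = i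
      · subst hji
        rw [Function.update_self]
        exact List.mem_set (Fin.is_lt _) _
      · rw [Function.update_of_ne hji]
        have : (c.set i (o : Fin I.N)).get ⟨j, by rw [List.length_set]; exact j.2⟩
            = c.get j := by
          rw [List.get_eq_getElem, List.getElem_set, if_neg (fun h => hji (Fin.ext h.symm))]
          rfl
        change c.get j ∈ _
        rw [← this]
        exact List.get_mem _ _
    · intro hx
      obtain ⟨n, hn, he⟩ := List.getElem_of_mem hx
      rw [List.length_set] at hn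
      refine ⟨⟨n, hn⟩, Finset.mem_univ _, Fin.ext ?_⟩
      rw [List.getElem_set] at he
      by_cases hni : (i : ℕ) = n
      · rw [if_pos hni] at he
        have : (⟨n, hn⟩ : Fin c.length) = i := Fin.ext hni.symm
        rw [this, Function.update_self]
        exact he
      · rw [if_neg hni] at he
        rw [Function.update_of_ne (fun h => hni (by rw [← h]))]
        exact he
  rw [e1, e2, e3] at h
  have hset : LsOk I (c.set i (o : Fin I.N)) := hc.set (mem_facL.2 ⟨o.1.2, hO o.2⟩)
  rw [← costL_raw (hset.ne_nil hI) hset.lt, ← costL_raw (hc.ne_nil hI) hc.lt] at h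
  refine le_trans ?_ h
  refine mul_le_mul_of_nonneg_left ?_ (Nat.cast_nonneg _)
  exact sub_le_sub_right (s3 i _ i.2 (mem_facL.2 ⟨o.1.2, hO o.2⟩)) _

/-! ### number scales -/

theorem sz_dist_le (I : Instance) (i j : Fin I.N) : sz (I.dist i j) ≤ sz (raw I) := by
  have h1 : I.dist i j ∈ (List.finRange I.N).map (fun j => I.dist i j) :=
    List.mem_map.2 ⟨j, List.mem_finRange _, rfl⟩
  have h2 : (List.finRange I.N).map (fun j => I.dist i j) ∈
      (List.finRange I.N).map (fun i => (List.finRange I.N).map (fun j => I.dist i j)) :=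
    List.mem_map.2 ⟨i, List.mem_finRange _, rfl⟩
  have h3 := sz_mem_le h1
  have h4 := sz_mem_le h2
  refine h3.trans (h4.trans ?_)
  unfold raw
  simp only [sz_prod]
  omega

theorem N_le_sz (I : Instance) : I.N ≤ sz (raw I) := by
  have h : I.N = ((List.finRange I.N).map (fun i => decide (i ∈ I.clients))).length := by simp
  have h2 := length_le_sz ((List.finRange I.N).map (fun i => decide (i ∈ I.clients)))
  rw [← h] at h2
  refine h2.trans ?_
  unfold raw
  simp only [sz_prod]
  omega

theorem dist_le_two_pow (I : Instance) (i j : Fin I.N) : I.dist i j ≤ 2 ^ sz (raw I) := by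
  have h := sz_dist_le I i j
  rw [sz_rat] at h
  set q := I.dist i j
  have h1 : q ≤ (q.num.natAbs : ℚ) := by
    have hd : (1 : ℚ) ≤ q.den := by exact_mod_cast q.den_pos
    have hn : (q.num : ℚ) ≤ (q.num.natAbs : ℚ) := by
      rw [Nat.cast_natAbs]; exact_mod_cast le_abs_self _
    have : q = q.num / q.den := (Rat.num_div_den q).symm
    rw [this]
    rw [div_le_iff₀ (by positivity)]
    have h0 : (0 : ℚ) ≤ (q.num.natAbs : ℚ) := Nat.cast_nonneg _
    have e : (q.num / q.den : ℚ).num = q.num := by rw [Rat.num_div_den]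
    rw [e]
    nlinarith
  refine h1.trans ?_
  have h2 : q.num.natAbs ≤ 2 ^ sz (raw I) :=
    (Nat.lt_size_self _).le.trans (Nat.pow_le_pow_right (by norm_num) (by omega))
  exact_mod_cast h2

theorem two_pow_le_dist (I : Instance) (i j : Fin I.N) (hpos : 0 < I.dist i j) :
    1 ≤ I.dist i j * 2 ^ sz (raw I) := by
  have h := sz_dist_le I i j
  rw [sz_rat] at h
  set q := I.dist i j
  have h2 : q.den ≤ 2 ^ sz (raw I) :=
    (Nat.lt_size_self _).le.trans (Nat.pow_le_pow_right (by norm_num) (by omega))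
  have h3 : (q.den : ℚ) ≤ 2 ^ sz (raw I) := by exact_mod_cast h2
  have h4 : 1 ≤ q.num := Rat.num_pos.2 hpos
  have h5 : (1 : ℚ) ≤ q.num := by exact_mod_cast h4
  calc (1 : ℚ) ≤ q.num := h5
    _ = q * q.den := (Rat.mul_den_eq_num q).symm
    _ ≤ q * 2 ^ sz (raw I) := mul_le_mul_of_nonneg_left h3 hpos.le

theorem cost_nonneg {I : Instance} (hI : I.Valid) (S : Finset (Fin I.N)) : 0 ≤ I.cost S := by
  unfold Instance.cost
  split_ifs with h
  · refine Finset.sum_nonneg (fun j _ => ?_)
    refine Finset.le_inf' _ _ (fun i _ => ?_)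
    by_cases hji : j = i
    · rw [hji, hI.1]
    · exact (hI.2.1 j i hji).le
  · exact le_rfl

/-- a nonzero cost is at least `2 ^ (- sz)` -/
theorem one_le_cost {I : Instance} (hI : I.Valid) {S : Finset (Fin I.N)} (hpos : 0 < I.cost S) :
    1 ≤ I.cost S * 2 ^ sz (raw I) := by
  unfold Instance.cost at hpos ⊢
  split_ifs at hpos ⊢ with h
  · have hnn : ∀ j ∈ I.clients, 0 ≤ S.inf' h (I.dist j) := by
      intro j _
      refine Finset.le_inf' _ _ (fun i _ => ?_)
      by_cases hji : j = i
      · rw [hji, hI.1]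
      · exact (hI.2.1 j i hji).le
    obtain ⟨j, hj, hjpos⟩ := (Finset.sum_pos_iff_of_nonneg hnn).1 hpos
    obtain ⟨i, hi, he⟩ := Finset.exists_mem_eq_inf' h (I.dist j)
    have h1 := two_pow_le_dist I j i (he ▸ hjpos)
    refine h1.trans (mul_le_mul_of_nonneg_right ?_ (by positivity))
    rw [← he]
    exact Finset.single_le_sum hnn hj
  · exact absurd hpos (lt_irrefl _)

theorem cost_le_two_pow {I : Instance} (S : Finset (Fin I.N)) :
    I.cost S ≤ 2 ^ (2 * sz (raw I)) := by
  unfold Instance.cost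
  split_ifs with h
  · have h1 : ∑ j ∈ I.clients, S.inf' h (I.dist j) ≤ ∑ _j ∈ I.clients, (2 : ℚ) ^ sz (raw I) := by
      refine Finset.sum_le_sum (fun j _ => ?_)
      obtain ⟨i, hi⟩ := h
      exact (Finset.inf'_le _ hi).trans (dist_le_two_pow I j i)
    refine h1.trans ?_
    rw [Finset.sum_const, nsmul_eq_mul, two_mul, pow_add]
    refine mul_le_mul_of_nonneg_right ?_ (by positivity)
    have h2 : I.clients.card ≤ I.N := by
      have := Finset.card_le_univ I.clients
      simpa using this
    have h3 : I.clients.card ≤ 2 ^ sz (raw I) :=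
      (h2.trans (N_le_sz I)).trans Nat.lt_two_pow_self.le
    exact_mod_cast h3
  · positivity

/-! ### convergence -/

theorem lsOk_iter {I : Instance} (hI : I.Valid) (t : ℕ) :
    LsOk I ((lsStep (raw I))^[t] (lsStart (raw I))) := by
  induction t with
  | zero => exact lsOk_start hI
  | succ t ih =>
    rw [Function.iterate_succ_apply']
    exact (lsStep_spec hI ih).1

theorem iter_bound {I : Instance} (hI : I.Valid) {O : Finset (Fin I.N)} (hO : O ⊆ I.facilities)
    (hO0 : O.Nonempty) (hOk : O.card ≤ I.k) (t : ℕ) :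
    costL (raw I) ((lsStep (raw I))^[t] (lsStart (raw I))) - 5 * I.cost O
      ≤ (1 - 1 / (I.k : ℚ)) ^ t * costL (raw I) (lsStart (raw I)) := by
  have hk : 1 ≤ I.k := hI.2.2.2.2.1
  have hkq : (1 : ℚ) ≤ I.k := by exact_mod_cast hk
  have h01 : (0 : ℚ) ≤ 1 - 1 / (I.k : ℚ) := by
    rw [sub_nonneg, div_le_one (by linarith)]; exact hkq
  have hstart : 0 ≤ costL (raw I) (lsStart (raw I)) := by
    rw [costL_raw ((lsOk_start hI).ne_nil hI) (lsOk_start hI).lt]
    exact cost_nonneg hI _
  have hOn := cost_nonneg hI O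
  induction t with
  | zero =>
    simp only [Function.iterate_zero, id, pow_zero, one_mul]
    linarith
  | succ t ih =>
    rw [Function.iterate_succ_apply']
    set c := (lsStep (raw I))^[t] (lsStart (raw I)) with hc
    have hcok : LsOk I c := lsOk_iter hI t
    obtain ⟨_, s2, _⟩ := lsStep_spec hI hcok
    have hdec := lsStep_decrease hI hcok hO hO0 hOk
    rcases le_or_gt (costL (raw I) c - 5 * I.cost O) 0 with hneg | hpos
    · have : (0 : ℚ) ≤ (1 - 1 / (I.k : ℚ)) ^ (t + 1) * costL (raw I) (lsStart (raw I)) := by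
        positivity
      linarith
    · -- `k * Δ ≤ 5 CO - C`
      have hOc : (O.card : ℚ) ≤ I.k := by exact_mod_cast hOk
      have hΔ : costL (raw I) (lsStep (raw I) c) - costL (raw I) c ≤ 0 := by linarith
      have h1 : (I.k : ℚ) * (costL (raw I) (lsStep (raw I) c) - costL (raw I) c)
          ≤ (O.card : ℚ) * (costL (raw I) (lsStep (raw I) c) - costL (raw I) c) :=
        mul_le_mul_of_nonpos_right hOc hΔ
      have h2 : costL (raw I) (lsStep (raw I) c) - costL (raw I) c
          ≤ (5 * I.cost O - costL (raw I) c) / I.k := by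
        rw [le_div_iff₀ (by linarith)]
        linarith
      have h3 : costL (raw I) (lsStep (raw I) c) - 5 * I.cost O ≤
          (1 - 1 / (I.k : ℚ)) * (costL (raw I) c - 5 * I.cost O) := by
        have e : (5 * I.cost O - costL (raw I) c) / I.k =
          -(1 / (I.k : ℚ)) * (costL (raw I) c - 5 * I.cost O) := by ring
        rw [e] at h2
        linarith
      refine h3.trans ?_
      rw [pow_succ', mul_assoc]
      exact mul_le_mul_of_nonneg_left ih h01

theorem pow_half {k : ℕ} (hk : 1 ≤ k) : (1 - 1 / (k : ℚ)) ^ k ≤ 1 / 2 := by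
  have hkq : (1 : ℝ) ≤ k := by exact_mod_cast hk
  have h := Real.one_sub_div_pow_le_exp_neg (n := k) (t := 1) hkq
  have h2 : Real.exp (-1) ≤ 1 / 2 := by
    rw [Real.exp_neg, one_div]
    exact inv_anti₀ (by norm_num) (by have := Real.add_one_le_exp (1 : ℝ); linarith)
  have h3 := h.trans h2
  have h4 : (((1 - 1 / (k : ℚ)) ^ k : ℚ) : ℝ) ≤ ((1 / 2 : ℚ) : ℝ) := by
    push_cast
    exact h3
  exact Rat.cast_le.1 h4

/-- **Local search.** -/
theorem localS_spec {I : Instance} (hI : I.Valid) :
    (localS (raw I)).length = I.k ∧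
    (∀ i ∈ localS (raw I), ∃ hi : i < I.N, (⟨i, hi⟩ : Fin I.N) ∈ I.facilities) ∧
    ∀ O : Finset (Fin I.N), O ⊆ I.facilities → O.Nonempty → O.card ≤ I.k →
      I.cost (setOf I (localS (raw I))) ≤ 6 * I.cost O := by
  have hok : LsOk I (localS (raw I)) := lsOk_iter hI _
  refine ⟨hok.1, fun i hi => mem_facL.1 (hok.2 i hi), fun O hO hO0 hOk => ?_⟩
  have hb := iter_bound hI hO hO0 hOk (lsN (raw I))
  change costL (raw I) (localS (raw I)) - 5 * I.cost O ≤ _ at hb
  rw [costL_raw (hok.ne_nil hI) hok.lt,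
    costL_raw ((lsOk_start hI).ne_nil hI) (lsOk_start hI).lt] at hb
  set L := sz (raw I) with hL
  have hk : 1 ≤ I.k := hI.2.2.2.2.1
  have hkq : (1 : ℚ) ≤ I.k := by exact_mod_cast hk
  have hkN : I.k ≤ I.N := by
    refine hI.2.2.2.2.2.trans ?_
    have := Finset.card_le_univ I.facilities
    simpa using this
  have h0 : (0 : ℚ) ≤ 1 - 1 / (I.k : ℚ) := by
    rw [sub_nonneg, div_le_one (by linarith)]; exact hkq
  have h1 : (1 : ℚ) - 1 / (I.k : ℚ) ≤ 1 := by
    have : (0 : ℚ) < 1 / (I.k : ℚ) := by positivity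
    linarith
  have hp : (1 - 1 / (I.k : ℚ)) ^ lsN (raw I) ≤ (1 / 2) ^ (3 * L + 1) := by
    have e : lsN (raw I) = I.N * (3 * L + 1) := by
      unfold lsN; rw [riN_raw]
    rw [e]
    calc (1 - 1 / (I.k : ℚ)) ^ (I.N * (3 * L + 1)) ≤ (1 - 1 / (I.k : ℚ)) ^ (I.k * (3 * L + 1)) :=
          pow_le_pow_of_le_one h0 h1 (Nat.mul_le_mul_right _ hkN)
      _ = ((1 - 1 / (I.k : ℚ)) ^ I.k) ^ (3 * L + 1) := pow_mul _ _ _
      _ ≤ (1 / 2) ^ (3 * L + 1) := pow_le_pow_left₀ (pow_nonneg h0 _) (pow_half hk) _
  have hup := cost_le_two_pow (setOf I (lsStart (raw I)))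
  have hsmall : (1 - 1 / (I.k : ℚ)) ^ lsN (raw I) * I.cost (setOf I (lsStart (raw I)))
      ≤ (1 / 2) ^ (3 * L + 1) * 2 ^ (2 * L) :=
    mul_le_mul hp hup (cost_nonneg hI _) (by positivity)
  have e2 : (1 / 2 : ℚ) ^ (3 * L + 1) * 2 ^ (2 * L) = (1 / 2) * (1 / 2) ^ L := by
    have : (1 / 2 : ℚ) ^ (2 * L) * 2 ^ (2 * L) = 1 := by
      rw [← mul_pow]; norm_num
    have e3 : 3 * L + 1 = 2 * L + L + 1 := by ring
    rw [e3, pow_succ, pow_add]
    calc (1 / 2 : ℚ) ^ (2 * L) * (1 / 2) ^ L * (1 / 2) * 2 ^ (2 * L)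
        = ((1 / 2 : ℚ) ^ (2 * L) * 2 ^ (2 * L)) * ((1 / 2) * (1 / 2) ^ L) := by ring
      _ = _ := by rw [this, one_mul]
  rw [e2] at hsmall
  have hfin := hb.trans hsmall
  have h2L : (1 / 2 : ℚ) ^ L * 2 ^ L = 1 := by rw [← mul_pow]; norm_num
  have hhalf : (0 : ℚ) < (1 / 2) ^ L := by positivity
  rcases (cost_nonneg hI O).eq_or_lt with hz | hpos
  · rw [← hz, mul_zero, sub_zero] at hfin
    rw [← hz, mul_zero]
    by_contra hcon
    push Not at hcon
    have := one_le_cost hI hcon
    rw [← hL] at this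
    have h3 : I.cost (setOf I (localS (raw I))) * 2 ^ L ≤ 1 / 2 := by
      calc I.cost (setOf I (localS (raw I))) * 2 ^ L ≤ (1 / 2 * (1 / 2) ^ L) * 2 ^ L :=
            mul_le_mul_of_nonneg_right hfin (by positivity)
        _ = 1 / 2 * ((1 / 2 : ℚ) ^ L * 2 ^ L) := by ring
        _ = 1 / 2 := by rw [h2L, mul_one]
    linarith
  · have := one_le_cost hI hpos
    rw [← hL] at this
    have h3 : (1 / 2 : ℚ) ^ L ≤ I.cost O := by
      calc (1 / 2 : ℚ) ^ L = 1 * (1 / 2) ^ L := by rw [one_mul]
        _ ≤ (I.cost O * 2 ^ L) * (1 / 2) ^ L := mul_le_mul_of_nonneg_right this hhalf.le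
        _ = I.cost O * ((1 / 2 : ℚ) ^ L * 2 ^ L) := by ring
        _ = I.cost O := by rw [h2L, mul_one]
    linarith

end Crest.Agent.R310
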