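import Mathlib

/-!
# R310, block NUMBERS (B7): the fine solution in the tight world

Abstract counting facts for a list of copies (index set `E`, locations `loc`, mass `1/m` each) in an
instance in which every rigid centre `t ∈ G` has a single facility `v t` within `β D_t`.
-/

set_option autoImplicit false
set_option linter.unusedSectionVars false

namespace Crest.Agent.R310.Numbers

open Finset

variable {P ε R : Type*} [DecidableEq P] [DecidableEq ε] [Field R] [LinearOrder R]
  [IsStrictOrderedRing R]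

/-- copies at the location `g` -/
def at_ (E : Finset ε) (loc : ε → P) (g : P) : Finset ε := E.filter fun e => loc e = g

/-- deficit of the location `g` -/
def zd (R : Type*) [Field R] [LinearOrder R] (E : Finset ε) (loc : ε → P) (m : ℕ) (g : P) : R :=
  max 0 (1 - ((at_ E loc g).card : R) / m)

omit [DecidableEq ε] in
theorem zd_nonneg (E : Finset ε) (loc : ε → P) (m : ℕ) (g : P) : 0 ≤ zd R E loc m g :=
  le_max_left _ _

/-- **(N1)** total deficit -/
theorem sum_deficit (d : P → P → R) (w : P → R) (D : Finset P) (G : Finset P)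
    (core : P → Finset P) (Δ mass cst0 : P → R) (v : P → P)
    (E : Finset ε) (loc : ε → P) (m : ℕ) (hm : 0 < m) (N : P → Finset ε)
    (β th b LP : R) (hw : ∀ j, 0 ≤ w j) (hd : ∀ x y, 0 ≤ d x y)
    (hcoreD : ∀ t ∈ G, core t ⊆ D)
    (hdisj : ∀ t ∈ G, ∀ t' ∈ G, t ≠ t' → Disjoint (core t) (core t'))
    (hmass : ∀ t ∈ G, mass t = ∑ j ∈ core t, w j)
    (hcst : ∀ t ∈ G, cst0 t = ∑ j ∈ core t, w j * d j t)
    (hb : ∀ t ∈ G, b ≤ mass t * Δ t) (hth : ∀ t ∈ G, cst0 t ≤ th * b)
    (hβ : 0 ≤ β)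
    (hNE : ∀ j ∈ D, N j ⊆ E) (hNm : ∀ j ∈ D, m ≤ (N j).card)
    (hfar : ∀ t ∈ G, ∀ e ∈ E, loc e ≠ v t → ∀ j ∈ core t, β * Δ t - d j t ≤ d (loc e) j)
    (hLP : ∑ j ∈ D, w j * ((1 / (m:R)) * ∑ e ∈ N j, d (loc e) j) ≤ LP) :
    ((β - th) * b) * ∑ t ∈ G, zd R E loc m (v t) ≤ LP := by
  classical
  have hm' : (0:R) < m := by exact_mod_cast hm
  -- each core client pays
  have hpay : ∀ t ∈ G, ∀ j ∈ core t, zd R E loc m (v t) * (β * Δ t - d j t) ≤
      (1 / (m:R)) * ∑ e ∈ N j, d (loc e) j := by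
    intro t ht j hj
    have hjD := hcoreD t ht hj
    set Fo := (N j).filter fun e => loc e ≠ v t with hFo
    have hsub : (N j).filter (fun e => loc e = v t) ⊆ at_ E loc (v t) := by
      intro e he
      rw [mem_filter] at he
      exact mem_filter.2 ⟨hNE j hjD he.1, he.2⟩
    have hcard : m ≤ (at_ E loc (v t)).card + Fo.card := by
      have h1 := Finset.card_filter_add_card_filter_not (s := N j) (fun e => loc e = v t)
      have h2 := Finset.card_le_card hsub
      have h3 := hNm j hjD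
      have h4 : ((N j).filter (fun e => ¬ loc e = v t)).card = Fo.card := rfl
      omega
    have hcardR : (m:R) ≤ (at_ E loc (v t)).card + Fo.card := by exact_mod_cast hcard
    have hz : zd R E loc m (v t) * m ≤ Fo.card := by
      unfold zd
      rcases le_total 0 (1 - ((at_ E loc (v t)).card : R) / m) with h | h
      · rw [max_eq_right h, sub_mul, one_mul, div_mul_cancel₀ _ hm'.ne']
        linarith
      · rw [max_eq_left h, zero_mul]; exact Nat.cast_nonneg _
    have hsum : (Fo.card : R) * max 0 (β * Δ t - d j t) ≤ ∑ e ∈ N j, d (loc e) j := by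
      rw [← nsmul_eq_mul, ← Finset.sum_const]
      refine (Finset.sum_le_sum fun e he => ?_).trans
        (Finset.sum_le_sum_of_subset_of_nonneg (Finset.filter_subset _ _) fun e _ _ => hd _ _)
      rw [hFo, mem_filter] at he
      exact max_le (hd _ _) (hfar t ht e (hNE j hjD he.1) he.2 j hj)
    have h5 : zd R E loc m (v t) * (β * Δ t - d j t) * m ≤ ∑ e ∈ N j, d (loc e) j := by
      calc zd R E loc m (v t) * (β * Δ t - d j t) * m
          ≤ zd R E loc m (v t) * m * max 0 (β * Δ t - d j t) := by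
            have := mul_le_mul_of_nonneg_left (le_max_right 0 (β * Δ t - d j t))
              (mul_nonneg (zd_nonneg (R := R) E loc m (v t)) hm'.le)
            linarith
        _ ≤ Fo.card * max 0 (β * Δ t - d j t) :=
            mul_le_mul_of_nonneg_right hz (le_max_left _ _)
        _ ≤ _ := hsum
    rw [one_div, inv_mul_eq_div, le_div_iff₀ hm']
    exact h5
  -- sum over the core
  have hcore : ∀ t ∈ G, zd R E loc m (v t) * ((β - th) * b) ≤
      ∑ j ∈ core t, w j * ((1 / (m:R)) * ∑ e ∈ N j, d (loc e) j) := by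
    intro t ht
    have h1 : ∑ j ∈ core t, w j * (zd R E loc m (v t) * (β * Δ t - d j t)) ≤
        ∑ j ∈ core t, w j * ((1 / (m:R)) * ∑ e ∈ N j, d (loc e) j) :=
      Finset.sum_le_sum fun j hj => mul_le_mul_of_nonneg_left (hpay t ht j hj) (hw j)
    have h2 : ∑ j ∈ core t, w j * (zd R E loc m (v t) * (β * Δ t - d j t)) =
        zd R E loc m (v t) * (β * (mass t * Δ t) - cst0 t) := by
      rw [hmass t ht, hcst t ht, Finset.sum_mul, Finset.mul_sum, ← Finset.sum_sub_distrib,
        Finset.mul_sum]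
      refine Finset.sum_congr rfl fun j _ => ?_
      ring
    rw [h2] at h1
    refine le_trans ?_ h1
    apply mul_le_mul_of_nonneg_left _ (zd_nonneg _ _ _ _)
    have h3 := mul_le_mul_of_nonneg_left (hb t ht) hβ
    have h4 := hth t ht
    linarith
  rw [mul_comm, Finset.sum_mul]
  refine (Finset.sum_le_sum hcore).trans ?_
  refine le_trans ?_ hLP
  rw [← Finset.sum_biUnion (fun t ht t' ht' hne => hdisj t ht t' ht' hne)]
  refine Finset.sum_le_sum_of_subset_of_nonneg ?_ fun j _ _ => ?_
  · intro j hj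
    obtain ⟨t, ht, hjt⟩ := Finset.mem_biUnion.1 hj
    exact hcoreD t ht hjt
  · exact mul_nonneg (hw j) (mul_nonneg (by positivity) (Finset.sum_nonneg fun e _ => hd _ _))

/-- tight facilities with small deficit -/
def Gf (E : Finset ε) (loc : ε → P) (m : ℕ) (v : P → P) (G : Finset P) (τ : R) : Finset P :=
  G.filter fun t => zd R E loc m (v t) ≤ τ / 2

omit [DecidableEq ε] in
/-- **(N2)** few tight facilities have a large deficit -/
theorem card_large (E : Finset ε) (loc : ε → P) (m : ℕ) (v : P → P) (G : Finset P) (τ : R)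
    (hτ : 0 < τ) :
    (G.card : R) ≤ (Gf E loc m v G τ).card + (2 / τ) * ∑ t ∈ G, zd R E loc m (v t) := by
  classical
  have h1 := Finset.card_filter_add_card_filter_not (s := G)
    (fun t => zd R E loc m (v t) ≤ τ / 2)
  have h2 : (((G.filter fun t => ¬ zd R E loc m (v t) ≤ τ / 2).card : ℕ) : R) * (τ / 2) ≤
      ∑ t ∈ G, zd R E loc m (v t) := by
    rw [← nsmul_eq_mul, ← Finset.sum_const]
    refine (Finset.sum_le_sum fun t ht => ?_).trans
      (Finset.sum_le_sum_of_subset_of_nonneg (Finset.filter_subset _ _)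
        fun t _ _ => zd_nonneg (R := R) _ _ _ _)
    rw [mem_filter, not_le] at ht
    exact ht.2.le
  have h3 : (((G.filter fun t => ¬ zd R E loc m (v t) ≤ τ / 2).card : ℕ) : R) ≤
      (2 / τ) * ∑ t ∈ G, zd R E loc m (v t) := by
    have h4 := mul_le_mul_of_nonneg_left h2 (show 0 ≤ 2 / τ by positivity)
    refine le_trans (le_of_eq ?_) h4
    generalize (((G.filter fun t => ¬ zd R E loc m (v t) ≤ τ / 2).card : ℕ) : R) = X
    field_simp
  have h5 : (G.card : R) = (Gf E loc m v G τ).card +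
      ((G.filter fun t => ¬ zd R E loc m (v t) ≤ τ / 2).card : ℕ) := by
    rw [← h1]; push_cast; rfl
  rw [h5]
  linarith

/-- **(N3)** number of copies outside the tight locations with small deficit -/
theorem card_rest (E : Finset ε) (loc : ε → P) (m : ℕ) (hm : 0 < m) (v : P → P) (G : Finset P)
    (τ : R) (hinj : ∀ t ∈ G, ∀ t' ∈ G, v t = v t' → t = t') :
    (((E.filter fun e => ∀ t ∈ Gf E loc m v G τ, loc e ≠ v t).card : ℕ) : R) / m ≤
      (E.card : R) / m - (Gf E loc m v G τ).card + ∑ t ∈ G, zd R E loc m (v t) := by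
  classical
  have hm' : (0:R) < m := by exact_mod_cast hm
  set Gt := Gf E loc m v G τ with hGt
  have hGG : Gt ⊆ G := Finset.filter_subset _ _
  -- union of the copies at the tight locations
  set U := Gt.biUnion fun t => at_ E loc (v t) with hU
  have hUE : U ⊆ E := by
    intro e he
    obtain ⟨t, _, h⟩ := Finset.mem_biUnion.1 he
    exact (mem_filter.1 h).1
  have hUc : U.card = ∑ t ∈ Gt, (at_ E loc (v t)).card := by
    apply Finset.card_biUnion
    intro t ht t' ht' hne
    show Disjoint (at_ E loc (v t)) (at_ E loc (v t'))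
    rw [Finset.disjoint_left]
    intro e h1 h2
    exact hne (hinj t (hGG ht) t' (hGG ht') ((mem_filter.1 h1).2.symm.trans (mem_filter.1 h2).2))
  have hfil : (E.filter fun e => ∀ t ∈ Gt, loc e ≠ v t) = E \ U := by
    ext e
    simp only [mem_filter, mem_sdiff, hU, mem_biUnion, at_]
    constructor
    · rintro ⟨h1, h2⟩
      exact ⟨h1, fun ⟨t, ht, h3⟩ => h2 t ht h3.2⟩
    · rintro ⟨h1, h2⟩
      exact ⟨h1, fun t ht h3 => h2 ⟨t, ht, h1, h3⟩⟩
  have hcard : (((E \ U).card : ℕ) : R) = E.card - ∑ t ∈ Gt, ((at_ E loc (v t)).card : R) := by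
    rw [Finset.card_sdiff_of_subset hUE, Nat.cast_sub (Finset.card_le_card hUE), hUc]
    push_cast; rfl
  rw [hfil, hcard, sub_div, Finset.sum_div]
  have h1 : (Gt.card : R) - ∑ t ∈ Gt, zd R E loc m (v t) ≤
      ∑ t ∈ Gt, ((at_ E loc (v t)).card : R) / m := by
    have : (Gt.card : R) = ∑ t ∈ Gt, (1:R) := by simp
    rw [this, ← Finset.sum_sub_distrib]
    refine Finset.sum_le_sum fun t _ => ?_
    have := le_max_right 0 (1 - ((at_ E loc (v t)).card : R) / m)
    unfold zd
    linarith
  have h2 : ∑ t ∈ Gt, zd R E loc m (v t) ≤ ∑ t ∈ G, zd R E loc m (v t) :=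
    Finset.sum_le_sum_of_subset_of_nonneg hGG fun t _ _ => zd_nonneg (R := R) _ _ _ _
  linarith

/-- **(N4)** all numbers together, in the units of `s + 1` -/
theorem numbers (E : Finset ε) (loc : ε → P) (m : ℕ) (hm : 0 < m) (v : P → P) (G : Finset P)
    (τ C1 C2 : R) (hτ : 0 < τ) (hinj : ∀ t ∈ G, ∀ t' ∈ G, v t = v t' → t = t')
    (k s : ℕ) (hE : (E.card : R) / m ≤ (k : R) - s + 1)
    (hG : (k : R) ≤ G.card + C1 * (s + 1))
    (hz : ∑ t ∈ G, zd R E loc m (v t) ≤ C2 * (s + 1)) :
    (k : R) ≤ (Gf E loc m v G τ).card + (C1 + 2 * C2 / τ) * (s + 1) ∧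
    (((E.filter fun e => ∀ t ∈ Gf E loc m v G τ, loc e ≠ v t).card : ℕ) : R) / m ≤
      (1 + C1 + C2 + 2 * C2 / τ) * (s + 1) := by
  have h1 := card_large E loc m v G τ hτ
  have h2 := card_rest E loc m hm v G τ hinj
  have h3 := mul_le_mul_of_nonneg_left hz (show 0 ≤ 2 / τ by positivity)
  have h4 : (2 / τ) * (C2 * ((s:R) + 1)) = 2 * C2 / τ * (s + 1) := by ring
  rw [h4] at h3
  have hs : (0:R) ≤ s := Nat.cast_nonneg _
  constructor
  · nlinarith
  · nlinarith

end Crest.Agent.R310.Numbers
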