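import Crest.Prelude.Def_KMedian
import Crest.Agent.Lib.PT.ListFns
import Crest.Agent.Lib.PT.ListFns2
import Crest.Agent.Lib.PT.ArithRat
import Crest.Agent.Lib.PT.OfTM

/-!
# R310, block FINAL, part 1: parsing an encoded k-median instance

`RI` is the type of raw instances `(N, k, client mask, facility mask, distance rows)`.
`parse : List Bool → RI` is `PTF` and `parse I.encode = raw I`.
-/

set_option linter.dupNamespace false
set_option autoImplicit false

namespace Crest.Agent.R310

open Crest.Agent.Lib.PT Crest.Agent.Lib.PT.Arith Crest.LogicCS.KMedian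

/-- raw instances: `(N, k, client mask, facility mask, distance rows)` -/
abbrev RI : Type := ℕ × ℕ × List Bool × List Bool × List (List ℚ)

/-- the raw form of an instance -/
def raw (I : Instance) : RI :=
  (I.N, I.k, (List.finRange I.N).map (fun i => decide (i ∈ I.clients)),
    (List.finRange I.N).map (fun i => decide (i ∈ I.facilities)),
    (List.finRange I.N).map (fun i => (List.finRange I.N).map (fun j => I.dist i j)))

/-! ### reading natural numbers and rationals -/

/-- value of a list of bits, least significant first -/
def ofBits (l : List Bool) : ℕ := l.foldr (fun b n => Nat.bit b n) 0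

theorem ofBits_bits (n : ℕ) : ofBits n.bits = n := by
  unfold ofBits
  induction n using Nat.binaryRec' with
  | zero => simp
  | bit b n h ih => rw [Nat.bits_append_bit n b h]; simp [ih]

theorem size_ofBits_le (l : List Bool) : (ofBits l).size ≤ l.length := by
  induction l with
  | nil => simp [ofBits]
  | cons b l ih =>
    have : ofBits (b :: l) = Nat.bit b (ofBits l) := rfl
    rw [this]
    have := size_bit_le b (ofBits l)
    simp only [List.length_cons]
    omega

/-- read a self-delimiting natural number -/
def takeNat (w : List Bool) : ℕ × List Bool :=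
  (ofBits (Crest.Agent.Lib.PT.fst w), (Crest.Agent.Lib.PT.snd w).tail)

theorem natCode_append (n : ℕ) (r : List Bool) :
    natCode n ++ r = Crest.Agent.Lib.PT.pair n.bits (false :: r) := by
  simp [natCode, Crest.Agent.Lib.PT.pair, List.flatMap]

theorem takeNat_natCode (n : ℕ) (r : List Bool) : takeNat (natCode n ++ r) = (n, r) := by
  rw [natCode_append, takeNat]
  simp [ofBits_bits]

theorem ptf_takeNat : PTF takeNat := by
  have h1 : PTF (fun w : List Bool => Crest.Agent.Lib.PT.fst w) := PT.toPTF_list PT.fst
  have h2 : PTF (fun w : List Bool => Crest.Agent.Lib.PT.snd w) := PT.toPTF_list PT.snd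
  exact PTF.prodMk (PTF.ofBits h1) (PTF.tail h2)

theorem takeNat_len (w : List Bool) :
    2 * (takeNat w).1.size + (takeNat w).2.length ≤ w.length := by
  have h := length_fst_add_snd w
  have h1 := size_ofBits_le (Crest.Agent.Lib.PT.fst w)
  have h2 : ((Crest.Agent.Lib.PT.snd w).tail).length ≤ (Crest.Agent.Lib.PT.snd w).length := by
    simp
  simp only [takeNat]
  omega

/-- read a rational number -/
def takeRat (w : List Bool) : ℚ × List Bool :=
  (mkRat (mkInt (w.head?.getD false) (takeNat w.tail).1) (takeNat (takeNat w.tail).2).1,
    (takeNat (takeNat w.tail).2).2)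

theorem takeRat_ratCode (q : ℚ) (r : List Bool) : takeRat (ratCode q ++ r) = (q, r) := by
  have h : ratCode q ++ r = decide (q.num < 0) :: (natCode q.num.natAbs ++ (natCode q.den ++ r)) := by
    simp [ratCode, List.append_assoc]
  rw [h, takeRat]
  simp only [List.head?_cons, Option.getD_some, List.tail_cons, takeNat_natCode]
  rw [mkInt_eta, Rat.mkRat_self]

theorem ptf_takeRat : PTF takeRat := by
  have h1 : PTF (fun w : List Bool => takeNat w.tail) := PTF.comp ptf_takeNat (by fun_prop)
  have h2 : PTF (fun w : List Bool => takeNat (takeNat w.tail).2) :=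
    PTF.comp ptf_takeNat (PTF.comp PTF.snd h1)
  have h3 : PTF (fun w : List Bool => w.head?.getD false) :=
    PTF.optionGetD (by fun_prop) (by fun_prop)
  exact PTF.prodMk (PTF.ratMk (PTF.intMk h3 (PTF.comp PTF.fst h1)) (PTF.comp PTF.fst h2))
    (PTF.comp PTF.snd h2)

theorem size_le_of_le {a b : ℕ} (h : a ≤ b) : a.size ≤ b.size := Nat.size_le_size h

theorem sz_mkRat_le (z : ℤ) (d : ℕ) : sz (mkRat z d) ≤ 8 + 2 * z.natAbs.size + d.size := by
  have h1 : (mkRat z d).num.natAbs.size ≤ z.natAbs.size := size_le_of_le (natAbs_num_mkRat_le z d)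
  have h2 : (mkRat z d).den.size ≤ d.size + 1 := by
    rcases Nat.eq_zero_or_pos d with rfl | hd
    · simp
    · have : (mkRat z d).den ≤ d := by
        rw [Rat.den_mkRat]
        split_ifs with h
        · omega
        · exact Nat.div_le_self _ _
      have := size_le_of_le this
      omega
  rw [sz_rat]
  omega

theorem natAbs_mkInt (b : Bool) (n : ℕ) : (mkInt b n).natAbs = n := by
  unfold mkInt; cases b <;> simp

theorem takeRat_len (w : List Bool) :
    2 * sz (takeRat w).1 + 6 * (takeRat w).2.length ≤ 16 + 6 * w.length := by
  have h0 : w.tail.length ≤ w.length := by simp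
  have h1 := takeNat_len w.tail
  have h2 := takeNat_len (takeNat w.tail).2
  have h3 := sz_mkRat_le (mkInt (w.head?.getD false) (takeNat w.tail).1)
    (takeNat (takeNat w.tail).2).1
  rw [natAbs_mkInt] at h3
  simp only [takeRat]
  omega

/-- one step of the rational parser: state `(rest, parsed so far in reverse order)` -/
def ratStep (s : List Bool × List ℚ) : List Bool × List ℚ :=
  ((takeRat s.1).2, (takeRat s.1).1 :: s.2)

theorem ptf_ratStep : PTF ratStep := by
  have h1 : PTF (fun s : List Bool × List ℚ => takeRat s.1) := PTF.comp ptf_takeRat PTF.fst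
  exact PTF.prodMk (PTF.comp PTF.snd h1) (PTF.listCons (PTF.comp PTF.fst h1) PTF.snd)

theorem sz_ratStep (s : List Bool × List ℚ) : sz (ratStep s) ≤ sz s + 17 := by
  obtain ⟨w, l⟩ := s
  have h := takeRat_len w
  simp only [ratStep, sz_prod, sz_cons, sz_listBool]
  omega

/-- parse `m` rationals -/
def takeRats (m : ℕ) (w : List Bool) : List ℚ := (ratStep^[m] (w, [])).2.reverse

theorem takeRats_flatten (l : List ℚ) (r : List Bool) :
    takeRats l.length ((l.map ratCode).flatten ++ r) = l := by
  have key : ∀ (l : List ℚ) (acc : List ℚ), ratStep^[l.length] ((l.map ratCode).flatten ++ r, acc) =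
      (r, l.reverse ++ acc) := by
    intro l
    induction l with
    | nil => intro acc; simp
    | cons q l ih =>
      intro acc
      simp only [List.length_cons, Function.iterate_succ_apply, List.map_cons, List.flatten_cons,
        List.append_assoc]
      have : ratStep (ratCode q ++ ((l.map ratCode).flatten ++ r), acc) =
          ((l.map ratCode).flatten ++ r, q :: acc) := by
        simp [ratStep, takeRat_ratCode]
      rw [this, ih]
      simp
  rw [takeRats, key]
  simp

theorem ptf_takeRats {γ : Type} [PTCode γ] {m : γ → ℕ} {w : γ → List Bool} (hm : PTU m)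
    (hw : PTF w) : PTF (fun c => takeRats (m c) (w c)) := by
  have h : PTF (fun c => ratStep^[m c] (w c, ([] : List ℚ))) :=
    PTF.iterate_add (f := fun _ s => ratStep s) (a := fun c => (w c, ([] : List ℚ))) hm
      (PTF.comp ptf_ratStep PTF.snd) (PTF.prodMk hw (PTF.const _)) (G := fun _ => 17)
      (PB.const 17) (fun _ s => sz_ratStep s)
  exact PTF.reverse (PTF.comp PTF.snd h)

/-! ### the parser -/

/-- cut a flat list into `n` rows of length `n` -/
def rowsOf (n : ℕ) (l : List ℚ) : List (List ℚ) :=
  (List.range n).map fun i => (List.range n).map fun j => l.getD (i * n + j) 0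

theorem ptf_rowsOf {γ : Type} [PTCode γ] {n : γ → ℕ} {l : γ → List ℚ} (hn : PTU n)
    (hl : PTF l) : PTF (fun c => rowsOf (n c) (l c)) := by
  have hn1 : PTU (fun p : γ × ℕ => n p.1) := PTU.comp hn PTF.fst
  have hn2 : PTU (fun p : (γ × ℕ) × ℕ => n p.1.1) := PTU.comp (n := n) hn (PTF.comp PTF.fst PTF.fst)
  refine PTF.tabulate hn ?_
  refine PTF.tabulate (γ := γ × ℕ) (n := fun p => n p.1)
    (f := fun p j => (l p.1).getD (p.2 * n p.1 + j) 0) hn1 ?_
  have hidx : PTF (fun p : (γ × ℕ) × ℕ => p.1.2 * n p.1.1 + p.2) :=
    PTF.natAdd (PTF.natMul (by fun_prop) (PTU.toPTF hn2)) (by fun_prop)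
  have hlen : PTU (fun p : (γ × ℕ) × ℕ => (l p.1.1).length) :=
    PTU.length (PTF.comp hl (PTF.comp PTF.fst PTF.fst))
  have hmin : PTU (fun p : (γ × ℕ) × ℕ => min (p.1.2 * n p.1.1 + p.2) (l p.1.1).length) :=
    PTF.natMinUn hidx hlen
  have h := PTF.getD (d := fun _ => (0 : ℚ)) hmin (PTF.comp hl (PTF.comp PTF.fst PTF.fst))
    (PTF.const _)
  refine PTF.of_eq h (fun p => ?_)
  rcases Nat.lt_or_ge (p.1.2 * n p.1.1 + p.2) (l p.1.1).length with h1 | h1
  · rw [min_eq_left h1.le]
  · rw [min_eq_right h1, List.getD_eq_default _ _ le_rfl]
    exact (List.getD_eq_default _ _ h1).symm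

/-- the parser -/
def parse (w : List Bool) : RI :=
  let a := takeNat w
  let b := takeNat a.2
  let n := min a.1 w.length
  let c := b.2.take n
  let w1 := b.2.drop n
  let f := w1.take n
  let w2 := w1.drop n
  (a.1, b.1, c, f, rowsOf n (takeRats (n * n) w2))

theorem ptf_parse : PTF parse := by
  have ha : PTF (fun w : List Bool => takeNat w) := ptf_takeNat
  have hb : PTF (fun w : List Bool => takeNat (takeNat w).2) := PTF.comp ptf_takeNat (PTF.comp PTF.snd ha)
  have hn : PTU (fun w : List Bool => min (takeNat w).1 w.length) :=
    PTF.natMinUn (PTF.comp PTF.fst ha) (PTU.length PTF.id)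
  have hb2 : PTF (fun w : List Bool => (takeNat (takeNat w).2).2) := PTF.comp PTF.snd hb
  have hw1 := PTF.drop hn hb2
  have hw2 := PTF.drop hn hw1
  exact PTF.prodMk (PTF.comp PTF.fst ha) (PTF.prodMk (PTF.comp PTF.fst hb)
    (PTF.prodMk (PTF.take hn hb2) (PTF.prodMk (PTF.take hn hw1)
      (ptf_rowsOf hn (ptf_takeRats (PTU.mul hn hn) hw2)))))

theorem flatten_ratCodes {α : Type} (l : List α) (f : α → List ℚ) :
    (l.map fun i => ((f i).map ratCode).flatten).flatten
    = ((l.map f).flatten.map ratCode).flatten := by
  induction l with
  | nil => simp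
  | cons a l ih => simp [ih]

theorem getD_flatten {α : Type} (d : α) {N : ℕ} (rows : List (List α))
    (h : ∀ r ∈ rows, r.length = N) (i j : ℕ) (hj : j < N) :
    rows.flatten.getD (i * N + j) d = (rows.getD i []).getD j d := by
  induction rows generalizing i with
  | nil => simp
  | cons r rows ih =>
    have hr : r.length = N := h r (by simp)
    have ih' := ih (fun r hr => h r (by simp [hr]))
    rw [List.flatten_cons]
    cases i with
    | zero => rw [Nat.zero_mul, Nat.zero_add, List.getD_append _ _ _ _ (by omega)]; simp
    | succ i =>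
      have e : (i + 1) * N + j = N + (i * N + j) := by ring
      rw [e, List.getD_append_right _ _ _ _ (by omega)]
      have : N + (i * N + j) - r.length = i * N + j := by omega
      rw [this, ih' i]
      simp

theorem getD_finRange_map {α : Type} {N : ℕ} (f : Fin N → α) (d : α) (i : Fin N) :
    ((List.finRange N).map f).getD i d = f i := by
  simp [List.getD_eq_getElem?_getD]

theorem rowsOf_flatten {N : ℕ} (f : Fin N → Fin N → ℚ) :
    rowsOf N ((List.finRange N).map fun i => (List.finRange N).map fun j => f i j).flatten
    = (List.finRange N).map fun i => (List.finRange N).map fun j => f i j := by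
  have hr : List.range N = (List.finRange N).map (fun i : Fin N => (i : ℕ)) := by
    simp
  unfold rowsOf
  rw [hr, List.map_map]
  refine List.map_congr_left (fun i _ => ?_)
  simp only [Function.comp]
  rw [List.map_map]
  refine List.map_congr_left (fun j _ => ?_)
  simp only [Function.comp]
  rw [getD_flatten 0 _ (by simp) _ _ j.2, getD_finRange_map, getD_finRange_map]

theorem parse_encode (I : Instance) : parse I.encode = raw I := by
  have hlen : I.N ≤ I.encode.length := by
    simp only [Instance.encode, List.length_append, List.length_map, List.length_finRange]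
    omega
  unfold parse
  have e : I.encode = natCode I.N ++ (natCode I.k ++
      ((List.finRange I.N).map (fun i => decide (i ∈ I.clients)) ++
      ((List.finRange I.N).map (fun i => decide (i ∈ I.facilities)) ++
      ((List.finRange I.N).map fun i => ((List.finRange I.N).map fun j => ratCode (I.dist i j)).flatten).flatten))) := by
    simp [Instance.encode, List.append_assoc]
  have h1 := takeNat_natCode I.N (natCode I.k ++
      ((List.finRange I.N).map (fun i => decide (i ∈ I.clients)) ++
      ((List.finRange I.N).map (fun i => decide (i ∈ I.facilities)) ++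
      ((List.finRange I.N).map fun i => ((List.finRange I.N).map fun j => ratCode (I.dist i j)).flatten).flatten)))
  rw [← e] at h1
  have hlen' : min I.N I.encode.length = I.N := min_eq_left hlen
  simp only [h1, takeNat_natCode, hlen']
  rw [List.take_left' (by simp), List.drop_left' (by simp), List.take_left' (by simp),
    List.drop_left' (by simp)]
  unfold raw
  congr 4
  have h2 : ((List.finRange I.N).map fun i => ((List.finRange I.N).map fun j => ratCode (I.dist i j)).flatten).flatten
      = ((((List.finRange I.N).map fun i => (List.finRange I.N).map fun j => I.dist i j).flatten).map ratCode).flatten := by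
    have := flatten_ratCodes (List.finRange I.N) (fun i => (List.finRange I.N).map fun j => I.dist i j)
    rw [← this]
    simp [List.map_map, Function.comp_def]
  have h3 : ((List.finRange I.N).map fun i => (List.finRange I.N).map fun j => I.dist i j).flatten.length
      = I.N * I.N := by
    simp [List.length_flatten, Function.comp_def]
  have h4 := takeRats_flatten ((List.finRange I.N).map fun i => (List.finRange I.N).map fun j => I.dist i j).flatten []
  rw [h3, List.append_nil] at h4
  rw [h2, h4, rowsOf_flatten]

end Crest.Agent.R310
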