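import Crest.Agent.R310.EvalPT
import Crest.Agent.R310.TightSmallCode

/-!
# R310, route T: the state-`τ` run (helper372's rules) as a `PTF` function

`RD` = rational data of a location-level fractional solution.  State = (opened list, clocks), the
clock of location `i` is `t i / J`.
* `RD.step`, `RD.run`, `RD.runT` : the algorithm;
* `RD.PTFam.runT'` : it is poly-time.
-/

set_option linter.dupNamespace false
set_option autoImplicit false

namespace Crest.Agent.R310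

open Crest.Agent.Lib.PT Crest.Agent.Lib.PT.Arith Crest.Agent.KM

/-- rational data of a location-level fractional solution and of the run -/
structure RD where
  /-- number of locations -/
  m : ℕ
  /-- number of clients -/
  n : ℕ
  /-- clock resolution and number of nodes of the rational exponential -/
  J : ℕ
  /-- masses are multiples of `1/M` -/
  M : ℕ
  /-- distance location - client -/
  d : ℕ → ℕ → ℚ
  /-- distance opened location - location -/
  D : ℕ → ℕ → ℚ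
  /-- weights -/
  w : ℕ → ℚ
  /-- `M * x i j` -/
  xn : ℕ → ℕ → ℕ
  /-- `M * y i` -/
  yn : ℕ → ℕ
  /-- initial client costs -/
  K0 : ℕ → ℚ
  /-- initial location distances -/
  F0 : ℕ → ℚ
  /-- rigid locations -/
  rig : ℕ → Bool
  /-- penalty threshold -/
  n0 : ℚ
  /-- penalty curvature -/
  P : ℚ
  /-- truncation of the lowered mass per opening -/
  om : ℚ
  /-- allowance per unit of lowered mass -/
  BL : ℚ
  /-- allowance per killed rigid location -/
  chi : ℚ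

namespace RD

variable (Q : RD)

/-- mass -/
def y (i : ℕ) : ℚ := (Q.yn i : ℚ) / Q.M
/-- assignment -/
def x (i j : ℕ) : ℚ := (Q.xn i j : ℚ) / Q.M
/-- fractional cost of a client -/
def C (j : ℕ) : ℚ := ∑ i ∈ Finset.range Q.m, Q.x i j * Q.d i j
/-- key -/
def key (i j : ℕ) : ℚ := (11 * Q.d i j + 5 * Q.C j) / 8
/-- current client cost -/
def K (T : List ℕ) (j : ℕ) : ℚ := minL (Q.K0 j) (T.map (fun κ => Q.d κ j))
/-- current location distance -/
def F (T : List ℕ) (i : ℕ) : ℚ := minL (Q.F0 i) (T.map (fun κ => Q.D κ i))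
/-- residual -/
def u (T : List ℕ) (i j : ℕ) : ℚ := max (Q.K T j - Q.d i j) 0
/-- evaluated star part of location `i` at clock `l` -/
def Gt (T : List ℕ) (i l : ℕ) : ℚ :=
  ∑ j ∈ Finset.range Q.n, Q.w j * Q.x i j * hullc Q.J (expT Q.J) (Q.u T i j) (Q.F T i) (Q.key i j) l
/-- linear part -/
def base (T : List ℕ) : ℚ :=
  ∑ j ∈ Finset.range Q.n, Q.w j * ∑ i ∈ Finset.range Q.m, Q.x i j * min (Q.d i j) (Q.K T j)
/-- clock of a location -/
def ck (t : List ℕ) (i : ℕ) : ℕ := t.getD i 0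
/-- predicted count -/
def cnt (T t : List ℕ) : ℚ :=
  (T.length : ℚ) + ∑ i ∈ Finset.range Q.m, Q.y i * (ck t i : ℚ) / Q.J
/-- price -/
def lam (T t : List ℕ) : ℚ := Q.P * max (Q.cnt T t - Q.n0) 0
/-- penalty -/
def Pi (T t : List ℕ) : ℚ := Q.P / 2 * (max (Q.cnt T t - Q.n0) 0) ^ 2
/-- evaluated potential -/
def Psi (T t : List ℕ) : ℚ :=
  Q.Pi T t + Q.base T + ∑ i ∈ Finset.range Q.m, Q.Gt T i (ck t i)
/-- objective of a clock -/
def obj (T : List ℕ) (p : ℚ) (i l : ℕ) : ℚ := p * Q.y i * (l : ℚ) / Q.J + Q.Gt T i l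
/-- the largest minimiser of the objective on `0..l` -/
def arg (T : List ℕ) (p : ℚ) (i l : ℕ) : ℕ :=
  argQ ((List.range (min l Q.J + 1)).reverse) (Q.obj T p i)
/-- new clock: rigid locations are killed when they move -/
def bst (T : List ℕ) (p : ℚ) (i l : ℕ) : ℕ :=
  if Q.rig i = true ∧ Q.arg T p i l < l then 0 else Q.arg T p i l
/-- full lowered mass of the locations before `i` (other than `k`) -/
def acc (T : List ℕ) (p : ℚ) (k : ℕ) (t : List ℕ) (i : ℕ) : ℚ :=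
  ∑ i' ∈ Finset.range i,
    if i' = k then 0 else Q.y i' * ((ck t i' : ℚ) - (Q.bst T p i' (ck t i') : ℚ)) / Q.J
/-- clocks after the opening of `k` (`T` = opened list including `k`) -/
def newt (T : List ℕ) (p : ℚ) (k : ℕ) (t : List ℕ) : List ℕ :=
  (List.range Q.m).map (fun i => if i = k then 0 else
    if Q.acc T p k t i < Q.om then Q.bst T p i (ck t i) else ck t i)
/-- lowered mass -/
def low (k : ℕ) (t t' : List ℕ) : ℚ :=
  ∑ i ∈ Finset.range Q.m, if i = k then 0 else Q.y i * ((ck t i : ℚ) - (ck t' i : ℚ)) / Q.J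
/-- number of kills -/
def kills (k : ℕ) (t t' : List ℕ) : ℚ :=
  ∑ i ∈ Finset.range Q.m, if i ≠ k ∧ Q.rig i = true ∧ ck t' i < ck t i then 1 else 0
/-- criterion of an opening -/
def crit (T t : List ℕ) (k : ℕ) : ℚ :=
  Q.Psi (k :: T) (Q.newt (k :: T) (Q.lam T t) k t) -
    (Q.P / 2 * (1 - Q.y k * (ck t k : ℚ) / Q.J) +
      Q.BL * Q.low k t (Q.newt (k :: T) (Q.lam T t) k t) +
      Q.chi * Q.kills k t (Q.newt (k :: T) (Q.lam T t) k t))
/-- first location that wants to be lowered -/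
def lowIdx (T t : List ℕ) : Option ℕ :=
  (List.range Q.m).find? (fun i => decide (Q.bst T (Q.lam T t) i (ck t i) < ck t i))
/-- alive locations -/
def alive (t : List ℕ) : List ℕ :=
  (List.range Q.m).filter (fun k => decide (0 < ck t k) && decide (0 < Q.yn k))
/-- one opening -/
def opn (T t : List ℕ) : List ℕ × List ℕ :=
  (argQ (alive Q t) (Q.crit T t) :: T,
    Q.newt (argQ (alive Q t) (Q.crit T t) :: T) (Q.lam T t) (argQ (alive Q t) (Q.crit T t)) t)
/-- one step -/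
def step (st : List ℕ × List ℕ) : List ℕ × List ℕ :=
  ((Q.lowIdx st.1 st.2).map
    (fun i => (st.1, st.2.set i (Q.bst st.1 (Q.lam st.1 st.2) i (ck st.2 i))))).getD
    (if alive Q st.2 = [] then st else Q.opn st.1 st.2)
/-- start -/
def start : List ℕ × List ℕ := ([], List.replicate Q.m Q.J)
/-- the run -/
def run (s : ℕ) : List ℕ × List ℕ := (Q.step)^[s] Q.start
/-- the output -/
def runT : List ℕ := (Q.run (Q.m * (Q.J + 2))).1

end RD

/-! ### poly-time -/

section ptf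

variable {α γ : Type} [PTCode α] [PTCode γ]

/-- the data of a family are poly-time -/
structure RD.PTFam (Q : γ → RD) : Prop where
  m : PTU (fun c => (Q c).m)
  n : PTU (fun c => (Q c).n)
  J : PTU (fun c => (Q c).J)
  M : PTF (fun c => (Q c).M)
  d : PTF (fun x : γ × ℕ × ℕ => (Q x.1).d x.2.1 x.2.2)
  D : PTF (fun x : γ × ℕ × ℕ => (Q x.1).D x.2.1 x.2.2)
  w : PTF (fun x : γ × ℕ => (Q x.1).w x.2)
  xn : PTF (fun x : γ × ℕ × ℕ => (Q x.1).xn x.2.1 x.2.2)
  yn : PTF (fun x : γ × ℕ => (Q x.1).yn x.2)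
  K0 : PTF (fun x : γ × ℕ => (Q x.1).K0 x.2)
  F0 : PTF (fun x : γ × ℕ => (Q x.1).F0 x.2)
  rig : PTF (fun x : γ × ℕ => (Q x.1).rig x.2)
  n0 : PTF (fun c => (Q c).n0)
  P : PTF (fun c => (Q c).P)
  om : PTF (fun c => (Q c).om)
  BL : PTF (fun c => (Q c).BL)
  chi : PTF (fun c => (Q c).chi)

namespace RD.PTFam

variable {Q : γ → RD} (h : RD.PTFam Q)
include h

theorem d' {c : α → γ} {i j : α → ℕ} (hc : PTF c) (hi : PTF i) (hj : PTF j) :
    PTF (fun a => (Q (c a)).d (i a) (j a)) :=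
  PTF.comp (g := fun x : γ × ℕ × ℕ => (Q x.1).d x.2.1 x.2.2) (f := fun a => (c a, i a, j a))
    h.d (PTF.prodMk hc (PTF.prodMk hi hj))

theorem D' {c : α → γ} {i j : α → ℕ} (hc : PTF c) (hi : PTF i) (hj : PTF j) :
    PTF (fun a => (Q (c a)).D (i a) (j a)) :=
  PTF.comp (g := fun x : γ × ℕ × ℕ => (Q x.1).D x.2.1 x.2.2) (f := fun a => (c a, i a, j a))
    h.D (PTF.prodMk hc (PTF.prodMk hi hj))

theorem xn' {c : α → γ} {i j : α → ℕ} (hc : PTF c) (hi : PTF i) (hj : PTF j) :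
    PTF (fun a => (Q (c a)).xn (i a) (j a)) :=
  PTF.comp (g := fun x : γ × ℕ × ℕ => (Q x.1).xn x.2.1 x.2.2) (f := fun a => (c a, i a, j a))
    h.xn (PTF.prodMk hc (PTF.prodMk hi hj))

theorem w' {c : α → γ} {j : α → ℕ} (hc : PTF c) (hj : PTF j) :
    PTF (fun a => (Q (c a)).w (j a)) :=
  PTF.comp (g := fun x : γ × ℕ => (Q x.1).w x.2) (f := fun a => (c a, j a))
    h.w (PTF.prodMk hc hj)

theorem yn' {c : α → γ} {j : α → ℕ} (hc : PTF c) (hj : PTF j) :
    PTF (fun a => (Q (c a)).yn (j a)) :=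
  PTF.comp (g := fun x : γ × ℕ => (Q x.1).yn x.2) (f := fun a => (c a, j a))
    h.yn (PTF.prodMk hc hj)

theorem K0' {c : α → γ} {j : α → ℕ} (hc : PTF c) (hj : PTF j) :
    PTF (fun a => (Q (c a)).K0 (j a)) :=
  PTF.comp (g := fun x : γ × ℕ => (Q x.1).K0 x.2) (f := fun a => (c a, j a))
    h.K0 (PTF.prodMk hc hj)

theorem F0' {c : α → γ} {j : α → ℕ} (hc : PTF c) (hj : PTF j) :
    PTF (fun a => (Q (c a)).F0 (j a)) :=
  PTF.comp (g := fun x : γ × ℕ => (Q x.1).F0 x.2) (f := fun a => (c a, j a))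
    h.F0 (PTF.prodMk hc hj)

theorem rig' {c : α → γ} {j : α → ℕ} (hc : PTF c) (hj : PTF j) :
    PTF (fun a => (Q (c a)).rig (j a)) :=
  PTF.comp (g := fun x : γ × ℕ => (Q x.1).rig x.2) (f := fun a => (c a, j a))
    h.rig (PTF.prodMk hc hj)

theorem M' {c : α → γ} (hc : PTF c) : PTF (fun a => ((Q (c a)).M : ℚ)) :=
  PTF.ratNatCast (PTF.comp (g := fun c => (Q c).M) h.M hc)

theorem n' {c : α → γ} (hc : PTF c) : PTU (fun a => (Q (c a)).n) :=
  PTU.comp (n := fun c => (Q c).n) h.n hc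

theorem m' {c : α → γ} (hc : PTF c) : PTU (fun a => (Q (c a)).m) :=
  PTU.comp (n := fun c => (Q c).m) h.m hc

theorem J' {c : α → γ} (hc : PTF c) : PTU (fun a => (Q (c a)).J) :=
  PTU.comp (n := fun c => (Q c).J) h.J hc

theorem Jq {c : α → γ} (hc : PTF c) : PTF (fun a => ((Q (c a)).J : ℚ)) :=
  PTF.ratNatCast (PTU.toPTF (h.J' hc))

theorem y' {c : α → γ} {i : α → ℕ} (hc : PTF c) (hi : PTF i) :
    PTF (fun a => (Q (c a)).y (i a)) := by
  unfold RD.y
  exact PTF.ratDiv (PTF.ratNatCast (h.yn' hc hi)) (h.M' hc)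

theorem x' {c : α → γ} {i j : α → ℕ} (hc : PTF c) (hi : PTF i) (hj : PTF j) :
    PTF (fun a => (Q (c a)).x (i a) (j a)) := by
  unfold RD.x
  exact PTF.ratDiv (PTF.ratNatCast (h.xn' hc hi hj)) (h.M' hc)

theorem C' {c : α → γ} {j : α → ℕ} (hc : PTF c) (hj : PTF j) :
    PTF (fun a => (Q (c a)).C (j a)) := by
  unfold RD.C
  refine PTF.ratSumRange (f := fun a i => (Q (c a)).x i (j a) * (Q (c a)).d i (j a)) (h.m' hc) ?_
  have hc1 : PTF (fun x : α × ℕ => c x.1) := PTF.comp hc PTF.fst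
  have hj1 : PTF (fun x : α × ℕ => j x.1) := PTF.comp hj PTF.fst
  exact PTF.ratMul (h.x' hc1 PTF.snd hj1) (h.d' hc1 PTF.snd hj1)

theorem key' {c : α → γ} {i j : α → ℕ} (hc : PTF c) (hi : PTF i) (hj : PTF j) :
    PTF (fun a => (Q (c a)).key (i a) (j a)) := by
  unfold RD.key
  have h1 := h.d' hc hi hj
  have h2 := h.C' hc hj
  exact PTF.ratDiv (PTF.ratAdd (PTF.ratMul (PTF.const 11) h1) (PTF.ratMul (PTF.const 5) h2))
    (PTF.const 8)

theorem K' {c : α → γ} {T : α → List ℕ} {j : α → ℕ} (hc : PTF c) (hT : PTF T) (hj : PTF j) :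
    PTF (fun a => (Q (c a)).K (T a) (j a)) := by
  unfold RD.K
  exact ptf_minL (h.K0' hc hj) (PTF.map hT (h.d' (α := α × ℕ) (PTF.comp hc PTF.fst) PTF.snd
    (PTF.comp hj PTF.fst)))

theorem F' {c : α → γ} {T : α → List ℕ} {i : α → ℕ} (hc : PTF c) (hT : PTF T) (hi : PTF i) :
    PTF (fun a => (Q (c a)).F (T a) (i a)) := by
  unfold RD.F
  exact ptf_minL (h.F0' hc hi) (PTF.map hT (h.D' (α := α × ℕ) (PTF.comp hc PTF.fst) PTF.snd
    (PTF.comp hi PTF.fst)))

theorem u' {c : α → γ} {T : α → List ℕ} {i j : α → ℕ} (hc : PTF c) (hT : PTF T) (hi : PTF i)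
    (hj : PTF j) : PTF (fun a => (Q (c a)).u (T a) (i a) (j a)) := by
  unfold RD.u
  exact PTF.ratMax (PTF.ratSub (h.K' hc hT hj) (h.d' hc hi hj)) (PTF.const 0)

theorem Gt' {c : α → γ} {T : α → List ℕ} {i l : α → ℕ} (hc : PTF c) (hT : PTF T) (hi : PTF i)
    (hl : PTF l) : PTF (fun a => (Q (c a)).Gt (T a) (i a) (l a)) := by
  unfold RD.Gt
  refine PTF.ratSumRange (f := fun a j => (Q (c a)).w j * (Q (c a)).x (i a) j *
    hullc (Q (c a)).J (expT (Q (c a)).J) ((Q (c a)).u (T a) (i a) j) ((Q (c a)).F (T a) (i a))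
      ((Q (c a)).key (i a) j) (l a)) (h.n' hc) ?_
  have hc1 : PTF (fun x : α × ℕ => c x.1) := PTF.comp hc PTF.fst
  have hT1 : PTF (fun x : α × ℕ => T x.1) := PTF.comp hT PTF.fst
  have hi1 : PTF (fun x : α × ℕ => i x.1) := PTF.comp hi PTF.fst
  have hl1 : PTF (fun x : α × ℕ => l x.1) := PTF.comp hl PTF.fst
  exact PTF.ratMul (PTF.ratMul (h.w' hc1 PTF.snd) (h.x' hc1 hi1 PTF.snd))
    (ptf_hullc (h.J' hc1) (h.u' hc1 hT1 hi1 PTF.snd) (h.F' hc1 hT1 hi1) (h.key' hc1 hi1 PTF.snd)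
      hl1)

theorem base' {c : α → γ} {T : α → List ℕ} (hc : PTF c) (hT : PTF T) :
    PTF (fun a => (Q (c a)).base (T a)) := by
  unfold RD.base
  refine PTF.ratSumRange (f := fun a j => (Q (c a)).w j * ∑ i ∈ Finset.range (Q (c a)).m,
    (Q (c a)).x i j * min ((Q (c a)).d i j) ((Q (c a)).K (T a) j)) (h.n' hc) ?_
  have hc1 : PTF (fun x : α × ℕ => c x.1) := PTF.comp hc PTF.fst
  have hT1 : PTF (fun x : α × ℕ => T x.1) := PTF.comp hT PTF.fst
  refine PTF.ratMul (h.w' hc1 PTF.snd) (PTF.ratSumRange (α := α × ℕ) (f := fun x i =>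
    (Q (c x.1)).x i x.2 * min ((Q (c x.1)).d i x.2) ((Q (c x.1)).K (T x.1) x.2)) (h.m' hc1) ?_)
  have hc2 : PTF (fun x : (α × ℕ) × ℕ => c x.1.1) := PTF.comp hc (PTF.comp PTF.fst PTF.fst)
  have hT2 : PTF (fun x : (α × ℕ) × ℕ => T x.1.1) := PTF.comp hT (PTF.comp PTF.fst PTF.fst)
  have hj2 : PTF (fun x : (α × ℕ) × ℕ => x.1.2) := PTF.comp PTF.snd PTF.fst
  exact PTF.ratMul (h.x' hc2 PTF.snd hj2) (PTF.ratMin (h.d' hc2 PTF.snd hj2) (h.K' hc2 hT2 hj2))

omit h in
theorem ck' {t : α → List ℕ} {i : α → ℕ} (ht : PTF t) (hi : PTF i) :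
    PTF (fun a => ck (t a) (i a)) := by
  unfold ck
  exact ptf_getDN hi ht (PTF.const _)

omit h in
theorem ckq {t : α → List ℕ} {i : α → ℕ} (ht : PTF t) (hi : PTF i) :
    PTF (fun a => (ck (t a) (i a) : ℚ)) := PTF.ratNatCast (ck' ht hi)

theorem cnt' {c : α → γ} {T t : α → List ℕ} (hc : PTF c) (hT : PTF T) (ht : PTF t) :
    PTF (fun a => (Q (c a)).cnt (T a) (t a)) := by
  unfold RD.cnt
  refine PTF.ratAdd (PTF.ratNatCast (PTU.toPTF (PTU.length hT))) (PTF.ratSumRange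
    (f := fun a i => (Q (c a)).y i * (ck (t a) i : ℚ) / (Q (c a)).J) (h.m' hc) ?_)
  have hc1 : PTF (fun x : α × ℕ => c x.1) := PTF.comp hc PTF.fst
  have ht1 : PTF (fun x : α × ℕ => t x.1) := PTF.comp ht PTF.fst
  exact PTF.ratDiv (PTF.ratMul (h.y' hc1 PTF.snd) (ckq ht1 PTF.snd)) (h.Jq hc1)

theorem ov' {c : α → γ} {T t : α → List ℕ} (hc : PTF c) (hT : PTF T) (ht : PTF t) :
    PTF (fun a => max ((Q (c a)).cnt (T a) (t a) - (Q (c a)).n0) 0) :=
  PTF.ratMax (PTF.ratSub (h.cnt' hc hT ht) (PTF.comp (g := fun c => (Q c).n0) h.n0 hc))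
    (PTF.const 0)

theorem lam' {c : α → γ} {T t : α → List ℕ} (hc : PTF c) (hT : PTF T) (ht : PTF t) :
    PTF (fun a => (Q (c a)).lam (T a) (t a)) := by
  unfold RD.lam
  exact PTF.ratMul (PTF.comp (g := fun c => (Q c).P) h.P hc) (h.ov' hc hT ht)

theorem Pi' {c : α → γ} {T t : α → List ℕ} (hc : PTF c) (hT : PTF T) (ht : PTF t) :
    PTF (fun a => (Q (c a)).Pi (T a) (t a)) := by
  unfold RD.Pi
  exact PTF.ratMul (PTF.ratDiv (PTF.comp (g := fun c => (Q c).P) h.P hc) (PTF.const 2))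
    (PTF.ratPow (h.ov' hc hT ht) (PTU.const 2))

theorem Psi' {c : α → γ} {T t : α → List ℕ} (hc : PTF c) (hT : PTF T) (ht : PTF t) :
    PTF (fun a => (Q (c a)).Psi (T a) (t a)) := by
  unfold RD.Psi
  refine PTF.ratAdd (PTF.ratAdd (h.Pi' hc hT ht) (h.base' hc hT)) (PTF.ratSumRange
    (f := fun a i => (Q (c a)).Gt (T a) i (ck (t a) i)) (h.m' hc) ?_)
  have hc1 : PTF (fun x : α × ℕ => c x.1) := PTF.comp hc PTF.fst
  have hT1 : PTF (fun x : α × ℕ => T x.1) := PTF.comp hT PTF.fst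
  have ht1 : PTF (fun x : α × ℕ => t x.1) := PTF.comp ht PTF.fst
  exact h.Gt' hc1 hT1 PTF.snd (ck' ht1 PTF.snd)

theorem obj' {c : α → γ} {T : α → List ℕ} {p : α → ℚ} {i l : α → ℕ} (hc : PTF c) (hT : PTF T)
    (hp : PTF p) (hi : PTF i) (hl : PTF l) :
    PTF (fun a => (Q (c a)).obj (T a) (p a) (i a) (l a)) := by
  unfold RD.obj
  exact PTF.ratAdd (PTF.ratDiv (PTF.ratMul (PTF.ratMul hp (h.y' hc hi)) (PTF.ratNatCast hl))
    (h.Jq hc)) (h.Gt' hc hT hi hl)

theorem arg' {c : α → γ} {T : α → List ℕ} {p : α → ℚ} {i l : α → ℕ} (hc : PTF c) (hT : PTF T)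
    (hp : PTF p) (hi : PTF i) (hl : PTF l) :
    PTF (fun a => (Q (c a)).arg (T a) (p a) (i a) (l a)) := by
  unfold RD.arg
  refine ptf_argQ (key := fun a l' => (Q (c a)).obj (T a) (p a) (i a) l')
    (PTF.reverse (PTF.range (PTU.succ (PTF.natMinUn hl (h.J' hc))))) ?_
  have hc1 : PTF (fun x : α × ℕ => c x.1) := PTF.comp hc PTF.fst
  have hT1 : PTF (fun x : α × ℕ => T x.1) := PTF.comp hT PTF.fst
  have hp1 : PTF (fun x : α × ℕ => p x.1) := PTF.comp hp PTF.fst
  have hi1 : PTF (fun x : α × ℕ => i x.1) := PTF.comp hi PTF.fst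
  exact h.obj' hc1 hT1 hp1 hi1 PTF.snd

theorem bst' {c : α → γ} {T : α → List ℕ} {p : α → ℚ} {i l : α → ℕ} (hc : PTF c) (hT : PTF T)
    (hp : PTF p) (hi : PTF i) (hl : PTF l) :
    PTF (fun a => (Q (c a)).bst (T a) (p a) (i a) (l a)) := by
  unfold RD.bst
  have h1 := h.arg' hc hT hp hi hl
  exact PTF.ite (PTPred.and (PTF.toPTPred (h.rig' hc hi)) (PTPred.natLt h1 hl)) (PTF.const 0) h1

theorem acc' {c : α → γ} {T t : α → List ℕ} {p : α → ℚ} {k i : α → ℕ} (hc : PTF c) (hT : PTF T)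
    (hp : PTF p) (hk : PTF k) (ht : PTF t) (hi : PTF i) :
    PTF (fun a => (Q (c a)).acc (T a) (p a) (k a) (t a) (min (i a) (Q (c a)).m)) := by
  unfold RD.acc
  refine PTF.ratSumRange (f := fun a i' => if i' = k a then 0 else (Q (c a)).y i' *
    ((ck (t a) i' : ℚ) - ((Q (c a)).bst (T a) (p a) i' (ck (t a) i') : ℚ)) / (Q (c a)).J)
    (PTF.natMinUn hi (h.m' hc)) ?_
  have hc1 : PTF (fun x : α × ℕ => c x.1) := PTF.comp hc PTF.fst
  have hT1 : PTF (fun x : α × ℕ => T x.1) := PTF.comp hT PTF.fst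
  have hp1 : PTF (fun x : α × ℕ => p x.1) := PTF.comp hp PTF.fst
  have hk1 : PTF (fun x : α × ℕ => k x.1) := PTF.comp hk PTF.fst
  have ht1 : PTF (fun x : α × ℕ => t x.1) := PTF.comp ht PTF.fst
  refine PTF.ite (PTPred.natEq PTF.snd hk1) (PTF.const 0) ?_
  exact PTF.ratDiv (PTF.ratMul (h.y' hc1 PTF.snd) (PTF.ratSub (ckq ht1 PTF.snd)
    (PTF.ratNatCast (h.bst' hc1 hT1 hp1 PTF.snd (ck' ht1 PTF.snd))))) (h.Jq hc1)

theorem newt' {c : α → γ} {T t : α → List ℕ} {p : α → ℚ} {k : α → ℕ} (hc : PTF c) (hT : PTF T)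
    (hp : PTF p) (hk : PTF k) (ht : PTF t) :
    PTF (fun a => (Q (c a)).newt (T a) (p a) (k a) (t a)) := by
  have hc1 : PTF (fun x : α × ℕ => c x.1) := PTF.comp hc PTF.fst
  have hT1 : PTF (fun x : α × ℕ => T x.1) := PTF.comp hT PTF.fst
  have hp1 : PTF (fun x : α × ℕ => p x.1) := PTF.comp hp PTF.fst
  have hk1 : PTF (fun x : α × ℕ => k x.1) := PTF.comp hk PTF.fst
  have ht1 : PTF (fun x : α × ℕ => t x.1) := PTF.comp ht PTF.fst
  have hom : PTF (fun x : α × ℕ => (Q (c x.1)).om) :=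
    PTF.comp (g := fun c => (Q c).om) h.om hc1
  have h1 : PTF (fun a => (List.range (Q (c a)).m).map (fun i => if i = k a then 0 else
      if (Q (c a)).acc (T a) (p a) (k a) (t a) (min i (Q (c a)).m) < (Q (c a)).om then
        (Q (c a)).bst (T a) (p a) i (ck (t a) i) else ck (t a) i)) := by
    refine PTF.tabulate (h.m' hc) ?_
    refine PTF.ite (PTPred.natEq PTF.snd hk1) (PTF.const 0) ?_
    exact PTF.ite (PTPred.ratLt (h.acc' hc1 hT1 hp1 hk1 ht1 PTF.snd) hom)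
      (h.bst' hc1 hT1 hp1 PTF.snd (ck' ht1 PTF.snd)) (ck' ht1 PTF.snd)
  refine PTF.of_eq h1 (fun a => ?_)
  unfold RD.newt
  apply List.map_congr_left
  intro i hi
  have : min i (Q (c a)).m = i := min_eq_left (List.mem_range.1 hi).le
  rw [this]

theorem low' {c : α → γ} {k : α → ℕ} {t t2 : α → List ℕ} (hc : PTF c) (hk : PTF k)
    (ht : PTF t) (ht2 : PTF t2) : PTF (fun a => (Q (c a)).low (k a) (t a) (t2 a)) := by
  unfold RD.low
  refine PTF.ratSumRange (f := fun a i => if i = k a then 0 else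
    (Q (c a)).y i * ((ck (t a) i : ℚ) - (ck (t2 a) i : ℚ)) / (Q (c a)).J) (h.m' hc) ?_
  have hc1 : PTF (fun x : α × ℕ => c x.1) := PTF.comp hc PTF.fst
  have hk1 : PTF (fun x : α × ℕ => k x.1) := PTF.comp hk PTF.fst
  have ht1 : PTF (fun x : α × ℕ => t x.1) := PTF.comp ht PTF.fst
  have ht3 : PTF (fun x : α × ℕ => t2 x.1) := PTF.comp ht2 PTF.fst
  refine PTF.ite (PTPred.natEq PTF.snd hk1) (PTF.const 0) ?_
  exact PTF.ratDiv (PTF.ratMul (h.y' hc1 PTF.snd) (PTF.ratSub (ckq ht1 PTF.snd)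
    (ckq ht3 PTF.snd))) (h.Jq hc1)

theorem kills' {c : α → γ} {k : α → ℕ} {t t2 : α → List ℕ} (hc : PTF c) (hk : PTF k)
    (ht : PTF t) (ht2 : PTF t2) : PTF (fun a => (Q (c a)).kills (k a) (t a) (t2 a)) := by
  unfold RD.kills
  refine PTF.ratSumRange (f := fun a i => if i ≠ k a ∧ (Q (c a)).rig i = true ∧
    ck (t2 a) i < ck (t a) i then (1 : ℚ) else 0) (h.m' hc) ?_
  have hc1 : PTF (fun x : α × ℕ => c x.1) := PTF.comp hc PTF.fst
  have hk1 : PTF (fun x : α × ℕ => k x.1) := PTF.comp hk PTF.fst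
  have ht1 : PTF (fun x : α × ℕ => t x.1) := PTF.comp ht PTF.fst
  have ht3 : PTF (fun x : α × ℕ => t2 x.1) := PTF.comp ht2 PTF.fst
  exact PTF.ite (PTPred.and (PTPred.not (PTPred.natEq PTF.snd hk1))
    (PTPred.and (PTF.toPTPred (h.rig' hc1 PTF.snd))
      (PTPred.natLt (ck' ht3 PTF.snd) (ck' ht1 PTF.snd)))) (PTF.const 1) (PTF.const 0)

theorem crit' {c : α → γ} {T t : α → List ℕ} {k : α → ℕ} (hc : PTF c) (hT : PTF T)
    (ht : PTF t) (hk : PTF k) : PTF (fun a => (Q (c a)).crit (T a) (t a) (k a)) := by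
  unfold RD.crit
  have hT' : PTF (fun a => k a :: T a) := PTF.listCons hk hT
  have hl := h.lam' hc hT ht
  have hn := h.newt' hc hT' hl hk ht
  exact PTF.ratSub (h.Psi' hc hT' hn) (PTF.ratAdd (PTF.ratAdd
    (PTF.ratMul (PTF.ratDiv (PTF.comp (g := fun c => (Q c).P) h.P hc) (PTF.const 2))
      (PTF.ratSub (PTF.const 1) (PTF.ratDiv (PTF.ratMul (h.y' hc hk) (ckq ht hk)) (h.Jq hc))))
    (PTF.ratMul (PTF.comp (g := fun c => (Q c).BL) h.BL hc) (h.low' hc hk ht hn)))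
    (PTF.ratMul (PTF.comp (g := fun c => (Q c).chi) h.chi hc) (h.kills' hc hk ht hn)))

theorem lowIdx' {c : α → γ} {T t : α → List ℕ} (hc : PTF c) (hT : PTF T) (ht : PTF t) :
    PTF (fun a => (Q (c a)).lowIdx (T a) (t a)) := by
  unfold RD.lowIdx
  refine PTF.find? (PTF.range (h.m' hc)) ?_
  have hc1 : PTF (fun x : α × ℕ => c x.1) := PTF.comp hc PTF.fst
  have hT1 : PTF (fun x : α × ℕ => T x.1) := PTF.comp hT PTF.fst
  have ht1 : PTF (fun x : α × ℕ => t x.1) := PTF.comp ht PTF.fst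
  exact PTPred.toPTF (PTPred.natLt (h.bst' hc1 hT1 (h.lam' hc1 hT1 ht1) PTF.snd
    (ck' ht1 PTF.snd)) (ck' ht1 PTF.snd))

theorem alive' {c : α → γ} {t : α → List ℕ} (hc : PTF c) (ht : PTF t) :
    PTF (fun a => alive (Q (c a)) (t a)) := by
  unfold RD.alive
  refine PTF.filter (PTF.range (h.m' hc)) ?_
  have hc1 : PTF (fun x : α × ℕ => c x.1) := PTF.comp hc PTF.fst
  have ht1 : PTF (fun x : α × ℕ => t x.1) := PTF.comp ht PTF.fst
  exact PTF.and (PTPred.toPTF (PTPred.natLt (PTF.const 0) (ck' ht1 PTF.snd)))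
    (PTPred.toPTF (PTPred.natLt (PTF.const 0) (h.yn' hc1 PTF.snd)))

theorem opn' {c : α → γ} {T t : α → List ℕ} (hc : PTF c) (hT : PTF T) (ht : PTF t) :
    PTF (fun a => (Q (c a)).opn (T a) (t a)) := by
  have harg : PTF (fun a => argQ (alive (Q (c a)) (t a)) ((Q (c a)).crit (T a) (t a))) := by
    refine ptf_argQ (key := fun a k => (Q (c a)).crit (T a) (t a) k) (h.alive' hc ht) ?_
    have hc1 : PTF (fun x : α × ℕ => c x.1) := PTF.comp hc PTF.fst
    have hT1 : PTF (fun x : α × ℕ => T x.1) := PTF.comp hT PTF.fst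
    have ht1 : PTF (fun x : α × ℕ => t x.1) := PTF.comp ht PTF.fst
    exact h.crit' hc1 hT1 ht1 PTF.snd
  unfold RD.opn
  have hT' := PTF.listCons harg hT
  exact PTF.prodMk hT' (h.newt' hc hT' (h.lam' hc hT ht) harg ht)

theorem step' {c : α → γ} {st : α → List ℕ × List ℕ} (hc : PTF c) (hst : PTF st) :
    PTF (fun a => (Q (c a)).step (st a)) := by
  unfold RD.step
  have hT : PTF (fun a => (st a).1) := PTF.comp PTF.fst hst
  have ht : PTF (fun a => (st a).2) := PTF.comp PTF.snd hst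
  refine PTF.optionGetD (PTF.optionMap (h.lowIdx' hc hT ht) ?_) ?_
  · have hc1 : PTF (fun x : α × ℕ => c x.1) := PTF.comp hc PTF.fst
    have hT1 : PTF (fun x : α × ℕ => (st x.1).1) :=
      PTF.comp (g := fun a => (st a).1) (f := fun x : α × ℕ => x.1) hT PTF.fst
    have ht1 : PTF (fun x : α × ℕ => (st x.1).2) :=
      PTF.comp (g := fun a => (st a).2) (f := fun x : α × ℕ => x.1) ht PTF.fst
    have hb := h.bst' hc1 hT1 (h.lam' hc1 hT1 ht1) PTF.snd (ck' ht1 PTF.snd)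
    refine PTF.prodMk hT1 ?_
    have hmin : PTU (fun x : α × ℕ => min x.2 (st x.1).2.length) :=
      PTF.natMinUn PTF.snd (PTU.length ht1)
    refine PTF.of_eq (PTF.set (l := fun x : α × ℕ => (st x.1).2)
      (a := fun x => (Q (c x.1)).bst (st x.1).1 ((Q (c x.1)).lam (st x.1).1 (st x.1).2) x.2
        (ck (st x.1).2 x.2)) ht1 hmin hb) ?_
    intro x
    rcases le_total x.2 (st x.1).2.length with h2 | h2
    · rw [min_eq_left h2]
    · rw [min_eq_right h2, List.set_eq_of_length_le le_rfl]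
      exact (List.set_eq_of_length_le h2).symm
  · have he : PTF (fun a => (alive (Q (c a)) (st a).2).isEmpty) := PTF.isEmpty (h.alive' hc ht)
    refine PTF.of_eq (PTF.ite (PTF.toPTPred he) hst (h.opn' hc hT ht)) (fun a => ?_)
    by_cases h0 : alive (Q (c a)) (st a).2 = []
    · rw [h0]; rfl
    · rw [if_neg h0, if_neg (by rw [List.isEmpty_iff]; exact h0)]

end RD.PTFam

end ptf

/-! ### the shape of the states -/

namespace RD

variable (Q : RD)

/-- valid states: opened entries are locations, one clock `≤ J` per location -/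
def Ok (st : List ℕ × List ℕ) : Prop :=
  (∀ κ ∈ st.1, κ < Q.m) ∧ st.2.length = Q.m ∧ ∀ l ∈ st.2, l ≤ Q.J

variable {Q}

theorem argJ_le (T : List ℕ) (p : ℚ) (i l : ℕ) : Q.arg T p i l ≤ min l Q.J := by
  have h := (argQ_spec (l := (List.range (min l Q.J + 1)).reverse) (by simp) (Q.obj T p i)).1
  rw [List.mem_reverse, List.mem_range] at h
  exact Nat.lt_succ_iff.1 h

theorem arg_le (T : List ℕ) (p : ℚ) (i l : ℕ) : Q.arg T p i l ≤ l :=
  (argJ_le T p i l).trans (min_le_left _ _)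

theorem bst_le (T : List ℕ) (p : ℚ) (i l : ℕ) : Q.bst T p i l ≤ l := by
  unfold RD.bst
  split_ifs
  · exact Nat.zero_le _
  · exact arg_le T p i l

theorem bstJ_le (T : List ℕ) (p : ℚ) (i l : ℕ) : Q.bst T p i l ≤ Q.J := by
  unfold RD.bst
  split_ifs
  · exact Nat.zero_le _
  · exact (argJ_le T p i l).trans (min_le_right _ _)

theorem ck_le_J {t : List ℕ} (ht : ∀ l ∈ t, l ≤ Q.J) (i : ℕ) : ck t i ≤ Q.J := by
  unfold ck
  rw [List.getD_eq_getElem?_getD]
  rcases h : t[i]? with _ | v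
  · simp
  · simpa using ht v (List.mem_of_getElem? h)

theorem newt_length (T : List ℕ) (p : ℚ) (k : ℕ) (t : List ℕ) : (Q.newt T p k t).length = Q.m := by
  simp [newt]

theorem newt_le_J (T : List ℕ) (p : ℚ) (k : ℕ) {t : List ℕ} (ht : ∀ l ∈ t, l ≤ Q.J) :
    ∀ l ∈ Q.newt T p k t, l ≤ Q.J := by
  intro l hl
  unfold newt at hl
  rw [List.mem_map] at hl
  obtain ⟨i, -, rfl⟩ := hl
  split_ifs
  · exact Nat.zero_le _
  · exact bstJ_le _ _ _ _
  · exact ck_le_J ht i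

theorem lowIdx_some {T t : List ℕ} {i : ℕ} (h : Q.lowIdx T t = some i) :
    i < Q.m ∧ Q.bst T (Q.lam T t) i (ck t i) < ck t i := by
  unfold lowIdx at h
  have h1 := List.mem_of_find?_eq_some h
  have h2 := List.find?_some h
  exact ⟨List.mem_range.1 h1, by simpa using h2⟩

theorem lowIdx_none {T t : List ℕ} (h : Q.lowIdx T t = none) {i : ℕ} (hi : i < Q.m) :
    Q.bst T (Q.lam T t) i (ck t i) = ck t i := by
  unfold lowIdx at h
  rw [List.find?_eq_none] at h
  have h1 := h i (List.mem_range.2 hi)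
  simp only [decide_eq_true_eq, not_lt] at h1
  exact le_antisymm (bst_le _ _ _ _) h1

theorem mem_alive {t : List ℕ} {k : ℕ} : k ∈ alive Q t ↔ k < Q.m ∧ 0 < ck t k ∧ 0 < Q.yn k := by
  unfold alive
  rw [List.mem_filter, List.mem_range]
  simp

/-- case analysis of a step -/
theorem step_cases (st : List ℕ × List ℕ) :
    (∃ i, i < Q.m ∧ Q.bst st.1 (Q.lam st.1 st.2) i (ck st.2 i) < ck st.2 i ∧
      Q.step st = (st.1, st.2.set i (Q.bst st.1 (Q.lam st.1 st.2) i (ck st.2 i)))) ∨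
    ((∀ i < Q.m, Q.bst st.1 (Q.lam st.1 st.2) i (ck st.2 i) = ck st.2 i) ∧
      alive Q st.2 = [] ∧ Q.step st = st) ∨
    ((∀ i < Q.m, Q.bst st.1 (Q.lam st.1 st.2) i (ck st.2 i) = ck st.2 i) ∧
      ∃ k ∈ alive Q st.2, (∀ k' ∈ alive Q st.2, Q.crit st.1 st.2 k ≤ Q.crit st.1 st.2 k') ∧
        Q.step st = (k :: st.1, Q.newt (k :: st.1) (Q.lam st.1 st.2) k st.2)) := by
  rcases hl : Q.lowIdx st.1 st.2 with _ | i
  · right
    have h0 : ∀ i < Q.m, Q.bst st.1 (Q.lam st.1 st.2) i (ck st.2 i) = ck st.2 i :=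
      fun i hi => lowIdx_none hl hi
    by_cases ha : alive Q st.2 = []
    · left
      refine ⟨h0, ha, ?_⟩
      unfold step
      rw [hl, Option.map_none, Option.getD_none, if_pos ha]
    · right
      obtain ⟨h1, h2⟩ := argQ_spec ha (Q.crit st.1 st.2)
      refine ⟨h0, argQ (alive Q st.2) (Q.crit st.1 st.2), h1, h2, ?_⟩
      unfold step
      rw [hl, Option.map_none, Option.getD_none, if_neg ha]
      rfl
  · left
    obtain ⟨h1, h2⟩ := lowIdx_some hl
    refine ⟨i, h1, h2, ?_⟩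
    unfold step
    rw [hl, Option.map_some, Option.getD_some]

theorem Ok.step {st : List ℕ × List ℕ} (h : Q.Ok st) : Q.Ok (Q.step st) := by
  obtain ⟨h1, h2, h3⟩ := h
  rcases step_cases (Q := Q) st with ⟨i, hi, hb, hs⟩ | ⟨-, -, hs⟩ | ⟨-, k, hk, -, hs⟩
  · rw [hs]
    refine ⟨h1, by simpa using h2, ?_⟩
    intro l hl
    rcases List.mem_or_eq_of_mem_set hl with h4 | h4
    · exact h3 l h4
    · rw [h4]; exact bstJ_le _ _ _ _
  · rw [hs]; exact ⟨h1, h2, h3⟩
  · rw [hs]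
    refine ⟨?_, newt_length _ _ _ _, newt_le_J _ _ _ h3⟩
    intro κ hκ
    rcases List.mem_cons.1 hκ with h4 | h4
    · rw [h4]; exact (mem_alive.1 hk).1
    · exact h1 κ h4

theorem Ok.start : Q.Ok Q.start := by
  refine ⟨by simp [RD.start], by simp [RD.start], ?_⟩
  intro l hl
  simp only [RD.start, List.mem_replicate] at hl
  exact hl.2.le

theorem Ok.run (s : ℕ) : Q.Ok (Q.run s) := by
  unfold RD.run
  induction s with
  | zero => exact Ok.start
  | succ s ih => rw [Function.iterate_succ_apply']; exact ih.step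

theorem run_succ (s : ℕ) : Q.run (s + 1) = Q.step (Q.run s) := by
  unfold RD.run
  rw [Function.iterate_succ_apply']

theorem step_length (st : List ℕ × List ℕ) : (Q.step st).1.length ≤ st.1.length + 1 := by
  rcases step_cases (Q := Q) st with ⟨i, hi, hb, hs⟩ | ⟨-, -, hs⟩ | ⟨-, k, hk, -, hs⟩ <;> rw [hs] <;>
    simp

theorem run_length (s : ℕ) : (Q.run s).1.length ≤ s := by
  induction s with
  | zero => simp [RD.run, RD.start]
  | succ s ih =>
    rw [run_succ]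
    exact (step_length _).trans (by omega)

end RD

section ptf

variable {α γ : Type} [PTCode α] [PTCode γ] {Q : γ → RD} (h : RD.PTFam Q)
include h

theorem RD.PTFam.run' {c : α → γ} {n : α → ℕ} (hc : PTF c) (hn : PTU n) :
    PTF (fun a => (Q (c a)).run (n a)) := by
  have hm := h.m' hc
  have hJ := h.J' hc
  have hJ1 : PTF (fun x : α × ℕ => (Q (c x.1)).J) :=
    PTU.toPTF (h.J' (α := α × ℕ) (c := fun x => c x.1) (PTF.comp hc PTF.fst))
  have hstart : PTF (fun a => (Q (c a)).start) := by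
    unfold RD.start
    refine PTF.prodMk (PTF.const _) ?_
    refine PTF.of_eq (PTF.tabulate (f := fun a (_ : ℕ) => (Q (c a)).J) hm hJ1) (fun a => ?_)
    apply List.ext_getElem <;> simp
  unfold RD.run
  refine PTF.iterate' (f := fun a st => (Q (c a)).step st) (a := fun a => (Q (c a)).start)
    (n := n) (B := fun a => 2 * (n a * (2 * (Q (c a)).m + 1)) + 1 +
      (Q (c a)).m * (2 * (Q (c a)).J + 1)) hn ?_ hstart ?_ ?_
  · have hc1 : PTF (fun x : α × (List ℕ × List ℕ) => c x.1) := PTF.comp hc PTF.fst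
    exact h.step' hc1 PTF.snd
  · have := hn.pb
    have := hm.pb
    have := hJ.pb
    fun_prop
  · intro a i hi
    have h1 := RD.Ok.run (Q := Q (c a)) i
    have h2 := RD.run_length (Q := Q (c a)) i
    obtain ⟨h3, h4, h5⟩ := h1
    unfold RD.run at h2 h3 h4 h5
    change sz ((((Q (c a)).step)^[i] (Q (c a)).start)) ≤ _
    rw [sz_prod]
    have e1 := sz_list_le (l := (((Q (c a)).step)^[i] (Q (c a)).start).1) (m := (Q (c a)).m)
      (fun κ hκ => (sz_nat_le κ).trans (h3 κ hκ).le)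
    have e2 := sz_list_le (l := (((Q (c a)).step)^[i] (Q (c a)).start).2) (m := (Q (c a)).J)
      (fun κ hκ => (sz_nat_le κ).trans (h5 κ hκ))
    have e3 : (((Q (c a)).step)^[i] (Q (c a)).start).1.length * (2 * (Q (c a)).m + 1) ≤
        n a * (2 * (Q (c a)).m + 1) := Nat.mul_le_mul_right _ (h2.trans hi)
    rw [h4] at e2
    omega

/-- **the run is poly-time** -/
theorem RD.PTFam.runT' {c : α → γ} (hc : PTF c) : PTF (fun a => (Q (c a)).runT) := by
  unfold RD.runT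
  have hn : PTU (fun a => (Q (c a)).m * ((Q (c a)).J + 2)) :=
    PTU.mul (h.m' hc) (PTU.add (h.J' hc) (PTU.const 2))
  exact PTF.comp PTF.fst (h.run' hc hn)

end ptf

end Crest.Agent.R310
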