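import Crest.Agent.R310.RunCode

/-!
# R310, route T: the sweep of the code run

`newt_cases` : either every location has been moved or at least `om` has been lowered.
-/

set_option linter.dupNamespace false
set_option autoImplicit false

namespace Crest.Agent.R310

open Crest.Agent.KM Finset

/-! ### the sweep -/

namespace RD

variable {Q : RD}

theorem arg_min (T : List ℕ) (p : ℚ) (i : ℕ) {l l' : ℕ} (hl : l ≤ Q.J) (hl' : l' ≤ l) :
    Q.obj T p i (Q.arg T p i l) ≤ Q.obj T p i l' := by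
  have h1 := (argQ_spec (l := (List.range (min l Q.J + 1)).reverse) (by simp) (Q.obj T p i)).2 l'
    (by rw [List.mem_reverse, List.mem_range, min_eq_left hl]; omega)
  exact h1

theorem ck_newt (T : List ℕ) (p : ℚ) (k : ℕ) (t : List ℕ) {i : ℕ} (hi : i < Q.m) :
    ck (Q.newt T p k t) i = if i = k then 0 else
      if Q.acc T p k t i < Q.om then Q.bst T p i (ck t i) else ck t i := by
  have e : ck (Q.newt T p k t) i = (fun i => if i = k then 0 else
      if Q.acc T p k t i < Q.om then Q.bst T p i (ck t i) else ck t i) i := by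
    unfold newt
    rw [ck, List.getD_eq_getElem?_getD, List.getElem?_map, List.getElem?_range hi]
    rfl
  exact e

theorem newt_le (T : List ℕ) (p : ℚ) (k : ℕ) (t : List ℕ) {i : ℕ} (hi : i < Q.m) :
    ck (Q.newt T p k t) i ≤ ck t i := by
  rw [ck_newt T p k t hi]
  split_ifs
  · exact Nat.zero_le _
  · exact bst_le _ _ _ _
  · exact le_rfl

theorem acc_succ (T : List ℕ) (p : ℚ) (k : ℕ) (t : List ℕ) (i : ℕ) :
    Q.acc T p k t (i + 1) = Q.acc T p k t i + (if i = k then 0 else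
      Q.y i * ((ck t i : ℚ) - (Q.bst T p i (ck t i) : ℚ)) / Q.J) := by
  unfold acc
  rw [Finset.sum_range_succ]

theorem term_nonneg (T : List ℕ) (p : ℚ) (k : ℕ) (t : List ℕ) (i : ℕ) :
    0 ≤ (if i = k then 0 else Q.y i * ((ck t i : ℚ) - (Q.bst T p i (ck t i) : ℚ)) / Q.J) := by
  split_ifs
  · exact le_rfl
  · have h1 : (Q.bst T p i (ck t i) : ℚ) ≤ ck t i := by exact_mod_cast bst_le T p i (ck t i)
    have h2 : 0 ≤ Q.y i := by unfold RD.y; positivity
    have h3 : (0 : ℚ) ≤ (ck t i : ℚ) - (Q.bst T p i (ck t i) : ℚ) := by linarith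
    positivity

theorem acc_mono (T : List ℕ) (p : ℚ) (k : ℕ) (t : List ℕ) {i i' : ℕ} (hi : i ≤ i') :
    Q.acc T p k t i ≤ Q.acc T p k t i' := by
  induction i', hi using Nat.le_induction with
  | base => exact le_rfl
  | succ n _ ih =>
    rw [acc_succ]
    have := term_nonneg (Q := Q) T p k t n
    linarith

/-- partial lowered mass -/
def lowp (Q : RD) (k : ℕ) (t t' : List ℕ) (n : ℕ) : ℚ :=
  ∑ i ∈ range n, if i = k then 0 else Q.y i * ((ck t i : ℚ) - (ck t' i : ℚ)) / Q.J

theorem low_eq (k : ℕ) (t t' : List ℕ) : Q.low k t t' = Q.lowp k t t' Q.m := rfl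

theorem sweep (T : List ℕ) (p : ℚ) (k : ℕ) {t : List ℕ} (hJ : 0 < Q.J) (hM : 0 < Q.M)
    (hy : ∀ i < Q.m, Q.yn i ≤ Q.M) (ht : ∀ l ∈ t, l ≤ Q.J) (hom : 0 ≤ Q.om) {n : ℕ}
    (hn : n ≤ Q.m) :
    (Q.acc T p k t n < Q.om → Q.lowp k t (Q.newt T p k t) n = Q.acc T p k t n) ∧
    (Q.om ≤ Q.acc T p k t n → Q.om ≤ Q.lowp k t (Q.newt T p k t) n) ∧
    0 ≤ Q.lowp k t (Q.newt T p k t) n ∧ Q.lowp k t (Q.newt T p k t) n ≤ Q.om + 1 := by
  induction n with
  | zero =>
    have e1 : Q.acc T p k t 0 = 0 := by simp [acc]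
    have e2 : Q.lowp k t (Q.newt T p k t) 0 = 0 := by simp [lowp]
    rw [e1, e2]
    exact ⟨fun _ => rfl, fun h => h, le_rfl, by linarith⟩
  | succ n ih =>
    obtain ⟨i1, i2, i3, i4⟩ := ih (by omega)
    have hn' : n < Q.m := by omega
    have hs : Q.lowp k t (Q.newt T p k t) (n + 1) = Q.lowp k t (Q.newt T p k t) n +
        (if n = k then 0 else Q.y n * ((ck t n : ℚ) - (ck (Q.newt T p k t) n : ℚ)) / Q.J) := by
      unfold lowp; rw [Finset.sum_range_succ]
    have hJq : (0 : ℚ) < Q.J := by exact_mod_cast hJ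
    have hMq : (0 : ℚ) < Q.M := by exact_mod_cast hM
    have hterm : (if n = k then 0 else Q.y n * ((ck t n : ℚ) - (Q.bst T p n (ck t n) : ℚ)) / Q.J)
        ≤ 1 := by
      split_ifs
      · exact zero_le_one
      · have h1 : Q.y n ≤ 1 := by
          unfold RD.y
          rw [div_le_one hMq]; exact_mod_cast hy n hn'
        have h0 : 0 ≤ Q.y n := by unfold RD.y; positivity
        have h2 : (ck t n : ℚ) ≤ Q.J := by exact_mod_cast ck_le_J ht n
        have h3 : (0 : ℚ) ≤ (Q.bst T p n (ck t n) : ℚ) := Nat.cast_nonneg _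
        rw [div_le_one hJq]
        have h4 : (Q.bst T p n (ck t n) : ℚ) ≤ ck t n := by exact_mod_cast bst_le T p n (ck t n)
        nlinarith
    by_cases hc : Q.acc T p k t n < Q.om
    · have hnew : (if n = k then 0 else Q.y n * ((ck t n : ℚ) - (ck (Q.newt T p k t) n : ℚ)) / Q.J)
          = (if n = k then 0 else Q.y n * ((ck t n : ℚ) - (Q.bst T p n (ck t n) : ℚ)) / Q.J) := by
        rw [ck_newt T p k t hn']
        split_ifs <;> rfl
      rw [hnew, i1 hc] at hs
      have hs' : Q.lowp k t (Q.newt T p k t) (n + 1) = Q.acc T p k t (n + 1) := by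
        rw [hs, acc_succ]
      rw [hs']
      refine ⟨fun _ => rfl, fun h => h, ?_, ?_⟩
      · rw [acc_succ, ← i1 hc]
        have := term_nonneg (Q := Q) T p k t n
        linarith
      · rw [acc_succ]; linarith
    · have hnew : (if n = k then 0 else Q.y n * ((ck t n : ℚ) - (ck (Q.newt T p k t) n : ℚ)) / Q.J)
          = 0 := by
        rw [ck_newt T p k t hn', if_neg hc]
        split_ifs <;> simp
      rw [hnew, add_zero] at hs
      push Not at hc
      rw [hs]
      refine ⟨fun h => ?_, fun _ => i2 hc, i3, i4⟩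
      have := acc_mono (Q := Q) T p k t (Nat.le_succ n)
      exfalso; linarith

/-- **the sweep**: either everything has been moved or at least `om` has been lowered -/
theorem newt_cases (T : List ℕ) (p : ℚ) (k : ℕ) {t : List ℕ} (hJ : 0 < Q.J) (hM : 0 < Q.M)
    (hy : ∀ i < Q.m, Q.yn i ≤ Q.M) (ht : ∀ l ∈ t, l ≤ Q.J) (hom : 0 ≤ Q.om) :
    ((∀ i < Q.m, i ≠ k → ck (Q.newt T p k t) i = Q.bst T p i (ck t i)) ∨
      Q.om ≤ Q.low k t (Q.newt T p k t)) ∧
    0 ≤ Q.low k t (Q.newt T p k t) ∧ Q.low k t (Q.newt T p k t) ≤ Q.om + 1 := by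
  obtain ⟨-, h2, h3, h4⟩ := sweep T p k hJ hM hy ht hom (n := Q.m) le_rfl
  rw [low_eq]
  refine ⟨?_, h3, h4⟩
  by_cases hc : ∃ i < Q.m, Q.om ≤ Q.acc T p k t i
  · obtain ⟨i, hi, hi2⟩ := hc
    right
    exact h2 (hi2.trans (acc_mono T p k t hi.le))
  · push Not at hc
    left
    intro i hi hik
    rw [ck_newt T p k t hi, if_neg hik, if_pos (hc i hi)]

end RD

end Crest.Agent.R310
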