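import Crest.Agent.R310.TightSmall

/-!
# R310: structure of stable instances (tight world, all `s`)

`S` = an approximate solution with `k` centres.  `sep t` = distance of `t` to the other centres, `core t` = the
clients within a quarter of it, `wt t`, `cc t` = weight and cost of the core, `ball β t` = the facilities within
`β * sep t`.  `rig θ B` = the centres with `B ≤ wt * sep` and `cc ≤ θ * B`; in the ball of such a centre only the
best facility `m t` for the core is kept (`restr`).

* `merge`, `stab_card`: in a stable instance every cheap solution has almost `k` centres;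
* `card_not_rig`: all but `C (s + 1)` centres of `S` are rigid;
* `far_of_not_mem_ball`, `pay`: not opening `m t` is expensive for the core of `t`;
* `transfer`: every solution can be moved to the restricted facility set, cardinality does not grow.
-/

set_option autoImplicit false
set_option linter.unusedVariables false
set_option linter.unusedSectionVars false

namespace Crest.Agent.R310.Struct

open Finset Crest.Agent.R310.Tight

variable {P R : Type*} [DecidableEq P] [Field R] [LinearOrder R] [IsStrictOrderedRing R]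

/-- A subset of given size whose sum is at most average. -/
theorem exists_cheap (γ : P → R) (N : Finset P) (n : ℕ) (hn : n ≤ N.card) :
    ∃ X ⊆ N, X.card = n ∧ (N.card : R) * ∑ x ∈ X, γ x ≤ n * ∑ x ∈ N, γ x := by
  induction hc : N.card generalizing N with
  | zero =>
    refine ⟨∅, Finset.empty_subset _, ?_, ?_⟩
    · simp; omega
    · have : n = 0 := by omega
      simp [this]
  | succ c ih =>
    rcases Nat.lt_or_ge n (c + 1) with hlt | hge
    · have hne : N.Nonempty := Finset.card_pos.1 (by omega)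
      obtain ⟨x, hx, hmax⟩ := Finset.exists_max_image N γ hne
      have hcard : (N.erase x).card = c := by rw [Finset.card_erase_of_mem hx]; omega
      obtain ⟨X, hXN, hXc, hX⟩ := ih (N.erase x) (by omega) hcard
      refine ⟨X, hXN.trans (Finset.erase_subset _ _), hXc, ?_⟩
      have hsum : ∑ y ∈ N, γ y = γ x + ∑ y ∈ N.erase x, γ y := (Finset.add_sum_erase N γ hx).symm
      have hav : ∑ y ∈ N, γ y ≤ (N.card : R) * γ x := by
        calc ∑ y ∈ N, γ y ≤ ∑ _y ∈ N, γ x := Finset.sum_le_sum fun y hy => hmax y hy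
          _ = _ := by rw [Finset.sum_const, nsmul_eq_mul]
      rw [hc] at hav
      push_cast at hav ⊢
      rcases Nat.eq_zero_or_pos c with hc0 | hc0
      · subst hc0
        have hX0 : X = ∅ := by
          have : (N.erase x) = ∅ := Finset.card_eq_zero.1 hcard
          rw [this] at hXN
          exact Finset.subset_empty.1 hXN
        have hn0 : n = 0 := by rw [← hXc, hX0]; simp
        simp [hX0, hn0]
      · have hcpos : (0 : R) < c := by exact_mod_cast hc0
        have h1 : ((c : R) + 1) * ∑ y ∈ N.erase x, γ y ≤ c * ∑ y ∈ N, γ y := by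
          rw [hsum] at hav ⊢
          linarith
        have h2 : (c : R) * (((c : R) + 1) * ∑ y ∈ X, γ y) ≤ c * (n * ∑ y ∈ N, γ y) := by
          have h3 := mul_le_mul_of_nonneg_left hX (by positivity : (0 : R) ≤ (c : R) + 1)
          have h4 := mul_le_mul_of_nonneg_left h1 (Nat.cast_nonneg n : (0 : R) ≤ n)
          calc (c : R) * (((c : R) + 1) * ∑ y ∈ X, γ y) = ((c : R) + 1) * ((c : R) * ∑ y ∈ X, γ y) := by ring
            _ ≤ ((c : R) + 1) * (n * ∑ y ∈ N.erase x, γ y) := h3
            _ = n * (((c : R) + 1) * ∑ y ∈ N.erase x, γ y) := by ring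
            _ ≤ n * (c * ∑ y ∈ N, γ y) := h4
            _ = _ := by ring
        exact le_of_mul_le_mul_left h2 hcpos
    · have : n = N.card := by omega
      refine ⟨N, Finset.Subset.refl _, this.symm, ?_⟩
      rw [this, hc]

section metric

variable (d : P → P → R) (w : P → R) (D F S : Finset P)

/-- **Merge lemma.** -/
theorem merge (hnn : ∀ x y, 0 ≤ d x y) (hsymm : ∀ x y, d x y = d y x)
    (htri : ∀ x y z, d x z ≤ d x y + d y z) (hw : ∀ j, 0 ≤ w j)
    (O T : Finset P) (hO : O.Nonempty) (hT : T.Nonempty) :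
    ∃ N ⊆ O, ∃ γ : P → R, O.card ≤ N.card + T.card ∧
      ∑ o ∈ N, γ o ≤ 2 * (cst d w D O + cst d w D T) ∧
      ∀ X ⊆ N, (O \ X).Nonempty ∧ cst d w D (O \ X) ≤ cst d w D O + ∑ o ∈ X, γ o := by
  classical
  obtain ⟨a, ha1, ha2, ha3⟩ := exists_nearest d O hO
  obtain ⟨b, hb1, hb2, hb3⟩ := exists_nearest d T hT
  -- representative of a class
  have hrep : ∀ x : P, ∃ o : P, (∃ o' ∈ O, b o' = x) → (o ∈ O ∧ b o = x ∧ ∀ o' ∈ O, b o' = x → d o x ≤ d o' x) := by
    intro x
    by_cases h : ∃ o' ∈ O, b o' = x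
    · obtain ⟨o', ho', hb'⟩ := h
      obtain ⟨o, ho, hmin⟩ := Finset.exists_min_image (O.filter (fun o => b o = x)) (fun o => d o x)
        ⟨o', Finset.mem_filter.2 ⟨ho', hb'⟩⟩
      refine ⟨o, fun _ => ⟨(Finset.mem_filter.1 ho).1, (Finset.mem_filter.1 ho).2, fun o'' h1 h2 => ?_⟩⟩
      exact hmin o'' (Finset.mem_filter.2 ⟨h1, h2⟩)
    · exact ⟨x, fun h' => absurd h' h⟩
  choose ρ hρ using hrep
  have hρO : ∀ o ∈ O, ρ (b o) ∈ O ∧ b (ρ (b o)) = b o ∧ d (ρ (b o)) (b o) ≤ d o (b o) := by
    intro o ho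
    obtain ⟨h1, h2, h3⟩ := hρ (b o) ⟨o, ho, rfl⟩
    exact ⟨h1, h2, h3 o ho rfl⟩
  set N := O.filter (fun o => ρ (b o) ≠ o) with hN
  have hcardN : O.card ≤ N.card + T.card := by
    have hsplit : O.card = N.card + (O.filter (fun o => ¬ ρ (b o) ≠ o)).card :=
      (Finset.card_filter_add_card_filter_not _).symm
    have h1 : (O.filter (fun o => ¬ ρ (b o) ≠ o)).card ≤ T.card := by
      refine Finset.card_le_card_of_injOn b (fun o _ => hb1 o) ?_
      intro x hx y hy hxy
      have hx' := (Finset.mem_filter.1 hx).2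
      have hy' := (Finset.mem_filter.1 hy).2
      push Not at hx' hy'
      rw [← hx', ← hy', hxy]
    omega
  set γ : P → R := fun o => ∑ j ∈ D.filter (fun j => a j = o), w j * (2 * (d j (a j) + d j (b j))) with hγ
  refine ⟨N, Finset.filter_subset _ _, γ, hcardN, ?_, ?_⟩
  · -- total
    rw [ha3 w D, hb3 w D, ← Finset.sum_add_distrib, Finset.mul_sum, hγ]
    have h1 : ∑ o ∈ N, ∑ j ∈ D.filter (fun j => a j = o), w j * (2 * (d j (a j) + d j (b j)))
        = ∑ j ∈ D.filter (fun j => a j ∈ N), w j * (2 * (d j (a j) + d j (b j))) := by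
      rw [← Finset.sum_biUnion]
      · refine Finset.sum_congr ?_ (fun _ _ => rfl)
        ext j
        simp only [Finset.mem_biUnion, Finset.mem_filter]
        constructor
        · rintro ⟨o, ho, hj, rfl⟩; exact ⟨hj, ho⟩
        · rintro ⟨hj, ho⟩; exact ⟨_, ho, hj, rfl⟩
      · intro x _ y _ hxy
        rw [Function.onFun, Finset.disjoint_left]
        intro j hj hj'
        exact hxy ((Finset.mem_filter.1 hj).2.symm.trans (Finset.mem_filter.1 hj').2)
    rw [h1]
    refine (Finset.sum_le_sum_of_subset_of_nonneg (Finset.filter_subset _ _) ?_).trans ?_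
    · intro j _ _
      have := hnn j (a j)
      have := hnn j (b j)
      exact mul_nonneg (hw j) (by linarith)
    · exact Finset.sum_le_sum fun j _ => le_of_eq (by ring)
  · intro X hX
    -- nonempty
    have hXO : X ⊆ O := hX.trans (Finset.filter_subset _ _)
    have hrepmem : ∀ o ∈ O, ρ (b o) ∈ O \ X := by
      intro o ho
      obtain ⟨h1, h2, h3⟩ := hρO o ho
      refine Finset.mem_sdiff.2 ⟨h1, fun h => ?_⟩
      have h4 := (Finset.mem_filter.1 (hX h)).2
      rw [h2] at h4
      exact h4 rfl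
    have hne : (O \ X).Nonempty := by
      obtain ⟨o, ho⟩ := hO
      exact ⟨_, hrepmem o ho⟩
    refine ⟨hne, ?_⟩
    -- assignment
    have h1 := cst_le_assign d w hw D (O \ X) hne (fun j => if a j ∈ X then ρ (b (a j)) else a j) (by
      intro j _
      by_cases h : a j ∈ X
      · simp only [h, if_true]; exact hrepmem _ (ha1 j)
      · simp only [h, if_false]; exact Finset.mem_sdiff.2 ⟨ha1 j, h⟩)
    refine h1.trans ?_
    have h2 : ∑ o ∈ X, γ o = ∑ j ∈ D, (if a j ∈ X then w j * (2 * (d j (a j) + d j (b j))) else 0) := by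
      rw [← Finset.sum_filter, hγ, ← Finset.sum_biUnion]
      · refine Finset.sum_congr ?_ (fun _ _ => rfl)
        ext j
        simp only [Finset.mem_biUnion, Finset.mem_filter]
        constructor
        · rintro ⟨o, ho, hj, rfl⟩; exact ⟨hj, ho⟩
        · rintro ⟨hj, ho⟩; exact ⟨_, ho, hj, rfl⟩
      · intro x _ y _ hxy
        rw [Function.onFun, Finset.disjoint_left]
        intro j hj hj'
        exact hxy ((Finset.mem_filter.1 hj).2.symm.trans (Finset.mem_filter.1 hj').2)
    rw [h2, ha3 w D, ← Finset.sum_add_distrib]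
    refine Finset.sum_le_sum fun j _ => ?_
    by_cases h : a j ∈ X
    · simp only [h, if_true]
      rw [← mul_add]
      refine mul_le_mul_of_nonneg_left ?_ (hw j)
      obtain ⟨g1, g2, g3⟩ := hρO (a j) (ha1 j)
      have t1 := htri j (a j) (ρ (b (a j)))
      have t2 := htri (a j) (b (a j)) (ρ (b (a j)))
      have t3 := hsymm (b (a j)) (ρ (b (a j)))
      have t4 := hb2 (a j) (b j) (hb1 j)
      have t5 := htri (a j) j (b j)
      have t6 := hsymm (a j) j
      have t7 := hnn j (b j)
      linarith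
    · simp only [h, if_false]
      linarith

/-- In a stable instance every cheap solution has almost as many centres as `O`. -/
theorem stab_card (hnn : ∀ x y, 0 ≤ d x y) (hsymm : ∀ x y, d x y = d y x)
    (htri : ∀ x y z, d x z ≤ d x y + d y z) (hw : ∀ j, 0 ≤ w j)
    (O T : Finset P) (hO : O.Nonempty) (hT : T.Nonempty) (hOF : O ⊆ F) (e : R) (he : 0 < e)
    (hcO : 0 < cst d w D O) (s : ℕ)
    (stab : ∀ S' ⊆ F, S'.Nonempty → S'.card + (s + 1) ≤ O.card →
      (1 + e) * cst d w D O < cst d w D S') (hes : e ≤ 2) :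
    ((O.card : R) - T.card) * (e * cst d w D O) ≤
      2 * (cst d w D O + cst d w D T) * (s + 1) := by
  classical
  obtain ⟨N, hNO, γ, hcard, htot, hX⟩ := merge d w D hnn hsymm htri hw O T hO hT
  have hcT : 0 ≤ cst d w D T := by
    obtain ⟨b, hb1, hb2, hb3⟩ := exists_nearest d T hT
    rw [hb3 w D]
    exact Finset.sum_nonneg fun j _ => mul_nonneg (hw j) (hnn _ _)
  have hcardR : (O.card : R) - T.card ≤ N.card := by
    have : (O.card : R) ≤ N.card + T.card := by exact_mod_cast hcard
    linarith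
  have hecO : 0 ≤ e * cst d w D O := by positivity
  rcases Nat.lt_or_ge N.card (s + 1) with hlt | hge
  · have h1 : (N.card : R) ≤ s + 1 := by exact_mod_cast hlt.le
    have h2 : ((O.card : R) - T.card) * (e * cst d w D O) ≤ (s + 1) * (e * cst d w D O) :=
      mul_le_mul_of_nonneg_right (hcardR.trans h1) hecO
    have hs : (0 : R) ≤ (s : R) + 1 := by positivity
    have h3 : (s + 1 : R) * (e * cst d w D O) ≤ (s + 1) * (2 * (cst d w D O + cst d w D T)) := by
      refine mul_le_mul_of_nonneg_left ?_ hs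
      nlinarith
    linarith
  · obtain ⟨X, hXN, hXc, hXs⟩ := exists_cheap γ N (s + 1) hge
    obtain ⟨hne, hcX⟩ := hX X hXN
    have hXO : X ⊆ O := hXN.trans hNO
    have hc1 : (O \ X).card + (s + 1) ≤ O.card := by
      rw [Finset.card_sdiff_of_subset hXO, hXc]
      have := Finset.card_le_card hXO
      omega
    have hst := stab (O \ X) (Finset.sdiff_subset.trans hOF) hne hc1
    have h1 : e * cst d w D O < ∑ o ∈ X, γ o := by linarith
    have hNpos : (0 : R) < N.card := by exact_mod_cast (by omega : 0 < N.card)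
    have h2 : (N.card : R) * (e * cst d w D O) ≤ (s + 1 : ℕ) * ∑ x ∈ N, γ x :=
      (mul_le_mul_of_nonneg_left h1.le hNpos.le).trans hXs
    have h3 : ((s + 1 : ℕ) : R) * ∑ x ∈ N, γ x ≤ (s + 1 : ℕ) * (2 * (cst d w D O + cst d w D T)) :=
      mul_le_mul_of_nonneg_left htot (Nat.cast_nonneg _)
    have h4 : ((O.card : R) - T.card) * (e * cst d w D O) ≤ (N.card : R) * (e * cst d w D O) :=
      mul_le_mul_of_nonneg_right hcardR hecO
    push_cast at h2 h3
    linarith

/-- distance of `t` to the other centres -/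
noncomputable def sep (t : P) : R :=
  if h : (S.erase t).Nonempty then (S.erase t).inf' h (d t) else 0

/-- weight of the core -/
def wt (t : P) : R := ∑ j ∈ core d D S t, w j

/-- cost of the core -/
def cc (t : P) : R := ∑ j ∈ core d D S t, w j * d j t

/-- facilities near `t` -/
noncomputable def ball (β : R) (t : P) : Finset P := F.filter fun f => d f t ≤ β * sep d S t

/-- rigid centres -/
noncomputable def rig (θ B : R) : Finset P :=
  S.filter fun t => B ≤ wt d w D S t * sep d S t ∧ cc d w D S t ≤ θ * B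

/-- restricted facility set -/
noncomputable def restr (G : Finset P) (β : R) (m : P → P) : Finset P :=
  F.filter fun f => ∀ t ∈ G, f ∈ ball d F S β t → f = m t

variable {d w D F S}

theorem mem_core' {t j : P} : j ∈ core d D S t ↔ j ∈ D ∧ ∀ r ∈ S, r ≠ t → 4 * d j t ≤ d t r := by
  unfold core
  exact Finset.mem_filter

theorem mem_ball {β : R} {t f : P} : f ∈ ball d F S β t ↔ f ∈ F ∧ d f t ≤ β * sep d S t := by
  unfold ball
  exact Finset.mem_filter

theorem mem_rig {θ B : R} {t : P} : t ∈ rig d w D S θ B ↔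
    t ∈ S ∧ B ≤ wt d w D S t * sep d S t ∧ cc d w D S t ≤ θ * B := by
  unfold rig
  exact Finset.mem_filter

theorem mem_restr {G : Finset P} {β : R} {m : P → P} {f : P} :
    f ∈ restr d F S G β m ↔ f ∈ F ∧ ∀ t ∈ G, f ∈ ball d F S β t → f = m t := by
  unfold restr
  exact Finset.mem_filter

theorem sep_le {t r : P} (hr : r ∈ S) (hrt : r ≠ t) : sep d S t ≤ d t r := by
  have h : r ∈ S.erase t := Finset.mem_erase.2 ⟨hrt, hr⟩
  rw [sep, dif_pos ⟨r, h⟩]
  exact Finset.inf'_le _ h

theorem exists_sep (h2 : 2 ≤ S.card) (t : P) : ∃ r ∈ S, r ≠ t ∧ sep d S t = d t r := by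
  have hne : (S.erase t).Nonempty := by
    rw [← Finset.card_pos]
    have := Finset.pred_card_le_card_erase (s := S) (a := t)
    omega
  obtain ⟨r, hr, he⟩ := Finset.exists_mem_eq_inf' hne (d t)
  refine ⟨r, (Finset.mem_erase.1 hr).2, (Finset.mem_erase.1 hr).1, ?_⟩
  rw [sep, dif_pos hne, he]

theorem mem_core_iff (h2 : 2 ≤ S.card) {t j : P} : j ∈ core d D S t ↔ j ∈ D ∧ 4 * d j t ≤ sep d S t := by
  rw [mem_core']
  refine and_congr_right fun _ => ⟨fun h => ?_, fun h r hr hrt => h.trans (sep_le hr hrt)⟩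
  obtain ⟨r, hr, hrt, he⟩ := exists_sep (d := d) h2 t
  rw [he]; exact h r hr hrt

theorem core_disjoint (hpos : ∀ x y, x ≠ y → 0 < d x y) (hsymm : ∀ x y, d x y = d y x)
    (htri : ∀ x y z, d x z ≤ d x y + d y z) {t t' : P} (ht : t ∈ S) (ht' : t' ∈ S) (hne : t ≠ t') {j : P}
    (h1 : j ∈ core d D S t) (h2 : j ∈ core d D S t') : False := by
  have a1 := (mem_core'.1 h1).2 t' ht' hne.symm
  have a2 := (mem_core'.1 h2).2 t ht hne
  have a3 := hpos t t' hne
  have a4 := htri t j t'
  have a5 := hsymm t j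
  have a6 := hsymm t' t
  linarith

/-- for a core client, `t` is the nearest centre -/
theorem core_nearest (hnn : ∀ x y, 0 ≤ d x y) (hsymm : ∀ x y, d x y = d y x)
    (htri : ∀ x y z, d x z ≤ d x y + d y z) {t j r : P}
    (h1 : j ∈ core d D S t) (hr : r ∈ S) : d j t ≤ d j r := by
  by_cases hrt : r = t
  · rw [hrt]
  · have a1 := (mem_core'.1 h1).2 r hr hrt
    have a4 := htri t j r
    have a5 := hsymm t j
    have a6 := hnn j t
    linarith

theorem ball_disjoint (hpos : ∀ x y, x ≠ y → 0 < d x y) (hsymm : ∀ x y, d x y = d y x)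
    (htri : ∀ x y z, d x z ≤ d x y + d y z) {β : R} (hβ0 : 0 ≤ β) (hβ : β ≤ 1 / 4)
    {t t' : P} (ht : t ∈ S) (ht' : t' ∈ S) {f : P}
    (h1 : f ∈ ball d F S β t) (h2 : f ∈ ball d F S β t') : t = t' := by
  by_contra hne
  have a1 := (mem_ball.1 h1).2
  have a2 := (mem_ball.1 h2).2
  have b1 := sep_le (d := d) ht' (Ne.symm hne)
  have b2 := sep_le (d := d) ht hne
  have a3 := hpos t t' hne
  have a4 := htri t f t'
  have a5 := hsymm t f
  have a6 := hsymm t' t
  have c1 : β * sep d S t ≤ β * d t t' := mul_le_mul_of_nonneg_left b1 hβ0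
  have c2 : β * sep d S t' ≤ β * d t t' := mul_le_mul_of_nonneg_left (by linarith) hβ0
  nlinarith

theorem sep_pos (hpos : ∀ x y, x ≠ y → 0 < d x y) (h2 : 2 ≤ S.card) (t : P) : 0 < sep d S t := by
  obtain ⟨r, hr, hrt, he⟩ := exists_sep (d := d) h2 t
  rw [he]; exact hpos t r (Ne.symm hrt)

theorem wt_nonneg (hw : ∀ j, 0 ≤ w j) (t : P) : 0 ≤ wt d w D S t := Finset.sum_nonneg fun j _ => hw j

theorem cc_nonneg (hnn : ∀ x y, 0 ≤ d x y) (hw : ∀ j, 0 ≤ w j) (t : P) : 0 ≤ cc d w D S t :=
  Finset.sum_nonneg fun j _ => mul_nonneg (hw j) (hnn _ _)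

/-- the cores are disjoint pieces of the cost of `S` -/
theorem sum_cc_le (hnn : ∀ x y, 0 ≤ d x y) (hpos : ∀ x y, x ≠ y → 0 < d x y)
    (hsymm : ∀ x y, d x y = d y x)
    (htri : ∀ x y z, d x z ≤ d x y + d y z) (hw : ∀ j, 0 ≤ w j) (hS : S.Nonempty)
    (L : Finset P) (hL : L ⊆ S) : ∑ t ∈ L, cc d w D S t ≤ cst d w D S := by
  obtain ⟨a, ha1, ha2, ha3⟩ := exists_nearest d S hS
  rw [ha3 w D]
  unfold cc
  have h1 : ∑ t ∈ L, ∑ j ∈ core d D S t, w j * d j t ≤
      ∑ t ∈ L, ∑ j ∈ core d D S t, w j * d j (a j) :=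
    Finset.sum_le_sum fun t _ => Finset.sum_le_sum fun j hj =>
      mul_le_mul_of_nonneg_left (core_nearest hnn hsymm htri hj (ha1 j)) (hw j)
  refine h1.trans ?_
  rw [← Finset.sum_biUnion]
  · refine Finset.sum_le_sum_of_subset_of_nonneg ?_ (fun j _ _ => mul_nonneg (hw j) (hnn _ _))
    intro j hj
    obtain ⟨t, _, hjt⟩ := Finset.mem_biUnion.1 hj
    exact (mem_core'.1 hjt).1
  · intro x hx y hy hxy
    rw [Function.onFun, Finset.disjoint_left]
    intro j hj hj'
    exact core_disjoint hpos hsymm htri (hL hx) (hL hy) hxy hj hj'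

/-- Closing light centres. -/
theorem close_light (hnn : ∀ x y, 0 ≤ d x y) (hpos : ∀ x y, x ≠ y → 0 < d x y)
    (hsymm : ∀ x y, d x y = d y x)
    (htri : ∀ x y z, d x z ≤ d x y + d y z) (hw : ∀ j, 0 ≤ w j) (h2 : 2 ≤ S.card)
    (B : R) (hB : 0 ≤ B) (L : Finset P) (hLS : L ⊆ S)
    (hL : ∀ t ∈ L, wt d w D S t * sep d S t ≤ B) :
    ∃ T ⊆ S, T.Nonempty ∧ (L.card : R) ≤ 3 * ((S.card : R) - T.card) ∧
      cst d w D T ≤ 5 * cst d w D S + ((S.card : R) - T.card) * B := by
  classical
  have hS : S.Nonempty := Finset.card_pos.1 (by omega)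
  have hex : ∀ t : P, ∃ r, r ∈ S ∧ r ≠ t ∧ sep d S t = d t r := fun t => by
    obtain ⟨r, h1, h2, h3⟩ := exists_sep (d := d) h2 t
    exact ⟨r, h1, h2, h3⟩
  choose f hfS hfne hf using hex
  obtain ⟨X, hXL, hXf, hXc⟩ := exists_indep f L.card L rfl (fun x _ => hfne x)
  have hXS : X ⊆ S := hXL.trans hLS
  obtain ⟨a, ha1, ha2, ha3⟩ := exists_nearest d S hS
  have hT : (S \ X).Nonempty := by
    rcases X.eq_empty_or_nonempty with h | ⟨x, hx⟩
    · rw [h, Finset.sdiff_empty]; exact hS
    · exact ⟨f x, Finset.mem_sdiff.2 ⟨hfS x, hXf x hx⟩⟩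
  have hcardT : (S.card : R) - (S \ X).card = X.card := by
    rw [Finset.card_sdiff_of_subset hXS, Nat.cast_sub (Finset.card_le_card hXS)]
    ring
  refine ⟨S \ X, Finset.sdiff_subset, hT, ?_, ?_⟩
  · rw [hcardT]; exact_mod_cast hXc
  · rw [hcardT]
    have h1 := cst_le_assign d w hw D (S \ X) hT (fun j => if a j ∈ X then f (a j) else a j) (by
      intro j _
      by_cases h : a j ∈ X
      · simp only [h, if_true]; exact Finset.mem_sdiff.2 ⟨hfS _, hXf _ h⟩
      · simp only [h, if_false]; exact Finset.mem_sdiff.2 ⟨ha1 j, h⟩)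
    refine h1.trans ?_
    -- pointwise: extra ≤ [core] sep + 4 d
    have h3 : ∀ j ∈ D, w j * d j (if a j ∈ X then f (a j) else a j) ≤
        5 * (w j * d j (a j)) + ∑ t ∈ X, (if j ∈ core d D S t then w j * sep d S t else 0) := by
      intro j hj
      have hsum0 : 0 ≤ ∑ t ∈ X, (if j ∈ core d D S t then w j * sep d S t else 0) :=
        Finset.sum_nonneg fun t _ => by
          split_ifs
          · exact mul_nonneg (hw j) (sep_pos hpos h2 t).le
          · exact le_rfl
      have hd := mul_nonneg (hw j) (hnn j (a j))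
      by_cases h : a j ∈ X
      · simp only [h, if_true]
        have t1 := htri j (a j) (f (a j))
        rw [← hf (a j)] at t1
        by_cases hc : j ∈ core d D S (a j)
        · have hle : w j * sep d S (a j) ≤
              ∑ t ∈ X, (if j ∈ core d D S t then w j * sep d S t else 0) := by
            have := Finset.single_le_sum (f := fun t => if j ∈ core d D S t then w j * sep d S t else 0)
              (s := X) (fun t _ => by
                split_ifs
                · exact mul_nonneg (hw j) (sep_pos hpos h2 t).le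
                · exact le_rfl) h
            simpa [hc] using this
          have := mul_le_mul_of_nonneg_left t1 (hw j)
          rw [mul_add] at this
          linarith
        · have hfar : sep d S (a j) ≤ 4 * d j (a j) := by
            by_contra hlt
            push Not at hlt
            exact hc ((mem_core_iff h2).2 ⟨hj, hlt.le⟩)
          have : w j * d j (f (a j)) ≤ w j * (d j (a j) + 4 * d j (a j)) :=
            mul_le_mul_of_nonneg_left (by linarith) (hw j)
          linarith
      · simp only [h, if_false]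
        linarith
    refine (Finset.sum_le_sum h3).trans ?_
    rw [Finset.sum_add_distrib, ← Finset.mul_sum, ← ha3 w D]
    refine add_le_add le_rfl ?_
    rw [Finset.sum_comm]
    calc ∑ t ∈ X, ∑ j ∈ D, (if j ∈ core d D S t then w j * sep d S t else 0)
        = ∑ t ∈ X, wt d w D S t * sep d S t := by
          refine Finset.sum_congr rfl fun t _ => ?_
          rw [← Finset.sum_filter, wt, Finset.sum_mul]
          refine Finset.sum_congr ?_ (fun _ _ => rfl)
          ext j
          rw [Finset.mem_filter]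
          exact ⟨fun h => h.2, fun h => ⟨(mem_core'.1 h).1, h⟩⟩
      _ ≤ ∑ _t ∈ X, B := Finset.sum_le_sum fun t ht => hL t (hXL ht)
      _ = X.card * B := by rw [Finset.sum_const, nsmul_eq_mul]

/-- **(1)** all but `C (s + 1)` centres are rigid. -/
theorem card_not_rig (hnn : ∀ x y, 0 ≤ d x y) (hpos : ∀ x y, x ≠ y → 0 < d x y)
    (hsymm : ∀ x y, d x y = d y x)
    (htri : ∀ x y z, d x z ≤ d x y + d y z) (hw : ∀ j, 0 ≤ w j) (h2 : 2 ≤ S.card)
    (O : Finset P) (hO : O.Nonempty) (hOF : O ⊆ F) (hSO : S.card ≤ O.card)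
    (e A θ B : R) (he : 0 < e) (he2 : e ≤ 2) (hA0 : 0 ≤ A) (hθ : 0 < θ) (hB0 : 0 < B)
    (hcO : 0 < cst d w D O) (hA : cst d w D S ≤ A * cst d w D O) (s : ℕ)
    (hB : B * (s + 1) ≤ e / 4 * cst d w D O)
    (stab : ∀ S' ⊆ F, S'.Nonempty → S'.card + (s + 1) ≤ O.card →
      (1 + e) * cst d w D O < cst d w D S') :
    ((S \ rig d w D S θ B).card : R) ≤
      12 * (1 + 5 * A) / e * (s + 1) + A * cst d w D O / (θ * B) := by
  classical
  have hS : S.Nonempty := Finset.card_pos.1 (by omega)
  set L := S.filter (fun t => wt d w D S t * sep d S t ≤ B) with hL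
  set H := S.filter (fun t => θ * B ≤ cc d w D S t) with hH
  have hsub : S \ rig d w D S θ B ⊆ L ∪ H := by
    intro t ht
    obtain ⟨h1, h3⟩ := Finset.mem_sdiff.1 ht
    by_contra hcon
    rw [Finset.mem_union, not_or] at hcon
    apply h3
    rw [mem_rig]
    refine ⟨h1, ?_, ?_⟩
    · by_contra hlt
      exact hcon.1 (Finset.mem_filter.2 ⟨h1, (not_le.1 hlt).le⟩)
    · by_contra hlt
      exact hcon.2 (Finset.mem_filter.2 ⟨h1, (not_le.1 hlt).le⟩)
  have hcard : ((S \ rig d w D S θ B).card : R) ≤ L.card + H.card := by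
    have := (Finset.card_le_card hsub).trans (Finset.card_union_le _ _)
    exact_mod_cast this
  -- heavy
  have hHc : (H.card : R) ≤ A * cst d w D O / (θ * B) := by
    rw [le_div_iff₀ (by positivity)]
    have h1 : (H.card : R) * (θ * B) ≤ ∑ t ∈ H, cc d w D S t := by
      rw [← nsmul_eq_mul, ← Finset.sum_const]
      exact Finset.sum_le_sum fun t ht => (Finset.mem_filter.1 ht).2
    have h3 := sum_cc_le (w := w) (D := D) hnn hpos hsymm htri hw hS H (Finset.filter_subset _ _)
    linarith
  -- light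
  have hLc : (L.card : R) ≤ 12 * (1 + 5 * A) / e * (s + 1) := by
    obtain ⟨T, hTS, hT, hLT, hcT⟩ := close_light hnn hpos hsymm htri hw h2 B hB0.le L
      (Finset.filter_subset _ _) (fun t ht => (Finset.mem_filter.1 ht).2)
    have hst := stab_card d w D F hnn hsymm htri hw O T hO hT hOF e he hcO s stab he2
    set x : R := (S.card : R) - T.card with hx
    have hx0 : 0 ≤ x := by
      have : (T.card : R) ≤ S.card := by exact_mod_cast Finset.card_le_card hTS
      linarith
    have hxO : x ≤ (O.card : R) - T.card := by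
      have : (S.card : R) ≤ O.card := by exact_mod_cast hSO
      linarith
    set cO := cst d w D O with hcOdef
    have hs1 : (0 : R) < (s : R) + 1 := by positivity
    have h1 : x * (e * cO) ≤ 2 * (cO + cst d w D T) * (s + 1) :=
      (mul_le_mul_of_nonneg_right hxO (by positivity)).trans hst
    have h3 : 2 * (cO + cst d w D T) * (s + 1) ≤ 2 * (cO + (5 * (A * cO) + x * B)) * (s + 1) := by
      refine mul_le_mul_of_nonneg_right ?_ hs1.le
      linarith
    have h4 : 2 * (cO + (5 * (A * cO) + x * B)) * (s + 1) =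
        2 * (1 + 5 * A) * (s + 1) * cO + 2 * x * (B * (s + 1)) := by ring
    have h5 : 2 * x * (B * (s + 1)) ≤ 2 * x * (e / 4 * cO) :=
      mul_le_mul_of_nonneg_left hB (by positivity)
    have h6 : x * (e * cO) ≤ 2 * (1 + 5 * A) * (s + 1) * cO + 2 * x * (e / 4 * cO) := by
      linarith
    have h7 : (x * e) * cO ≤ (4 * (1 + 5 * A) * (s + 1)) * cO := by linarith
    have h8 : x * e ≤ 4 * (1 + 5 * A) * (s + 1) := le_of_mul_le_mul_right h7 hcO
    have h9 : x ≤ 4 * (1 + 5 * A) * (s + 1) / e := by rw [le_div_iff₀ he]; exact h8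
    calc (L.card : R) ≤ 3 * x := hLT
      _ ≤ 3 * (4 * (1 + 5 * A) * (s + 1) / e) := by linarith
      _ = _ := by ring
  linarith

/-- **(2)** the clients of the core are far from all other facilities of the restricted instance -/
theorem far_of_mem_restr (hsymm : ∀ x y, d x y = d y x)
    (htri : ∀ x y z, d x z ≤ d x y + d y z) {G : Finset P} {β : R} {m : P → P} {t f j : P}
    (ht : t ∈ G) (hf : f ∈ restr d F S G β m) (hft : f ≠ m t) :
    β * sep d S t - d j t ≤ d j f := by
  obtain ⟨h1, h2⟩ := mem_restr.1 hf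
  have h3 : f ∉ ball d F S β t := fun h => hft (h2 t ht h)
  have h4 : β * sep d S t < d f t := by
    by_contra hle
    exact h3 (mem_ball.2 ⟨h1, not_lt.1 hle⟩)
  have h5 := htri f j t
  have h6 := hsymm f j
  linarith

/-- **(2')** serving the core of `t` by weights `x j ≤ 1` outside costs at least `(β - θ) B` times the least weight:
if every core client sends at least `z` to facilities `≠ m t` then it pays. -/
theorem pay (hw : ∀ j, 0 ≤ w j) {θ β B : R} (hθβ : θ ≤ β) {t : P} (ht : t ∈ rig d w D S θ B)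
    (hβ : 0 ≤ β) :
    (β - θ) * B ≤ ∑ j ∈ core d D S t, w j * (β * sep d S t - d j t) := by
  obtain ⟨h1, h2, h3⟩ := mem_rig.1 ht
  have e1 : ∑ j ∈ core d D S t, w j * (β * sep d S t - d j t) =
      β * (wt d w D S t * sep d S t) - cc d w D S t := by
    unfold wt cc
    rw [Finset.sum_mul, Finset.mul_sum, ← Finset.sum_sub_distrib]
    exact Finset.sum_congr rfl fun j _ => by ring
  rw [e1]
  have h4 := mul_le_mul_of_nonneg_left h2 hβ
  linarith

/-- choice of best facilities -/
theorem exists_best (hS : S ⊆ F) (hd0 : ∀ x, d x x = 0) (hpos : ∀ x y, x ≠ y → 0 < d x y)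
    (h2 : 2 ≤ S.card) {β : R} (hβ : 0 ≤ β) (t : P) (ht : t ∈ S) :
    t ∈ ball d F S β t := by
  rw [mem_ball]
  refine ⟨hS ht, ?_⟩
  rw [hd0]
  exact mul_nonneg hβ (sep_pos hpos h2 t).le

/-- clients outside the core: moving inside the ball costs a factor `1 + 16 β` -/
theorem move_outside (hsymm : ∀ x y, d x y = d y x)
    (htri : ∀ x y z, d x z ≤ d x y + d y z) (hpos : ∀ x y, x ≠ y → 0 < d x y) (h2 : 2 ≤ S.card)
    {β : R} (hβ0 : 0 ≤ β) (hβ : β ≤ 1 / 8)
    {t q u j : P} (hq : q ∈ ball d F S β t) (hu : u ∈ ball d F S β t) (hj : j ∈ D)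
    (hjc : j ∉ core d D S t) : d j u ≤ (1 + 16 * β) * d j q := by
  have h1 : sep d S t < 4 * d j t := by
    by_contra hle
    exact hjc ((mem_core_iff h2).2 ⟨hj, not_lt.1 hle⟩)
  have a1 := (mem_ball.1 hq).2
  have a2 := (mem_ball.1 hu).2
  have t1 := htri j q t
  have t2 := htri j q u
  have t3 := htri q t u
  have t4 := hsymm t u
  have hs := sep_pos hpos h2 t
  have b1 : sep d S t ≤ 8 * d j q := by nlinarith
  have b2 : β * sep d S t ≤ β * (8 * d j q) := mul_le_mul_of_nonneg_left b1 hβ0
  linarith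

/-- number of rigid balls met twice -/
theorem card_twice (hpos : ∀ x y, x ≠ y → 0 < d x y) (hsymm : ∀ x y, d x y = d y x)
    (htri : ∀ x y z, d x z ≤ d x y + d y z) {β : R} (hβ0 : 0 ≤ β) (hβ : β ≤ 1 / 4)
    (G Q : Finset P) (hG : G ⊆ S) :
    (G.filter (fun t => 2 ≤ (Q ∩ ball d F S β t).card)).card + G.card ≤
      Q.card + (G.filter (fun t => Q ∩ ball d F S β t = ∅)).card := by
  classical
  have h1 : ∑ t ∈ G, (Q ∩ ball d F S β t).card ≤ Q.card := by
    rw [← Finset.card_biUnion]
    · apply Finset.card_le_card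
      intro x hx
      obtain ⟨t, _, hxt⟩ := Finset.mem_biUnion.1 hx
      exact (Finset.mem_inter.1 hxt).1
    · intro x hx y hy hxy
      rw [Function.onFun, Finset.disjoint_left]
      intro f hf hf'
      exact hxy (ball_disjoint hpos hsymm htri hβ0 hβ (hG hx) (hG hy)
        (Finset.mem_inter.1 hf).2 (Finset.mem_inter.1 hf').2)
  have h3 : (G.filter (fun t => 2 ≤ (Q ∩ ball d F S β t).card)).card + G.card ≤
      ∑ t ∈ G, (Q ∩ ball d F S β t).card + (G.filter (fun t => Q ∩ ball d F S β t = ∅)).card := by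
    rw [Finset.card_filter, Finset.card_filter, Finset.card_eq_sum_ones G, ← Finset.sum_add_distrib,
      ← Finset.sum_add_distrib]
    refine Finset.sum_le_sum fun t _ => ?_
    rcases Nat.eq_zero_or_pos (Q ∩ ball d F S β t).card with h0 | h0
    · have : Q ∩ ball d F S β t = ∅ := Finset.card_eq_zero.1 h0
      rw [if_neg (by omega), if_pos this]
      omega
    · have : Q ∩ ball d F S β t ≠ ∅ := fun h => by rw [h] at h0; simp at h0
      rw [if_neg this]
      split_ifs <;> omega
  omega

/-- an empty ball costs a lot -/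
theorem empty_ball_cost (hsymm : ∀ x y, d x y = d y x)
    (htri : ∀ x y z, d x z ≤ d x y + d y z) (hw : ∀ j, 0 ≤ w j) {θ β B : R} (hθβ : θ ≤ β) (hβ : 0 ≤ β)
    {t : P} (ht : t ∈ rig d w D S θ B) {Q : Finset P} (hQF : Q ⊆ F)
    (hQt : Q ∩ ball d F S β t = ∅) (a : P → P) (ha : ∀ j, a j ∈ Q) :
    (β - θ) * B ≤ ∑ j ∈ core d D S t, w j * d j (a j) := by
  refine (pay hw hθβ ht hβ).trans (Finset.sum_le_sum fun j hj => ?_)
  refine mul_le_mul_of_nonneg_left ?_ (hw j)
  have h1 : a j ∉ ball d F S β t := fun h => by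
    have : a j ∈ Q ∩ ball d F S β t := Finset.mem_inter.2 ⟨ha j, h⟩
    rw [hQt] at this
    simp at this
  have h4 : β * sep d S t < d (a j) t := by
    by_contra hle
    exact h1 (mem_ball.2 ⟨hQF (ha j), not_lt.1 hle⟩)
  have h5 := htri (a j) j t
  have h6 := hsymm (a j) j
  linarith

/-- sums over disjoint cores -/
theorem sum_cores_le (hpos : ∀ x y, x ≠ y → 0 < d x y)
    (hsymm : ∀ x y, d x y = d y x)
    (htri : ∀ x y z, d x z ≤ d x y + d y z) (g : P → R) (hg : ∀ j ∈ D, 0 ≤ g j)
    (L : Finset P) (hL : L ⊆ S) : ∑ t ∈ L, ∑ j ∈ core d D S t, g j ≤ ∑ j ∈ D, g j := by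
  rw [← Finset.sum_biUnion]
  · refine Finset.sum_le_sum_of_subset_of_nonneg ?_ (fun j hj _ => hg j hj)
    intro j hj
    obtain ⟨t, _, hjt⟩ := Finset.mem_biUnion.1 hj
    exact (mem_core'.1 hjt).1
  · intro x hx y hy hxy
    rw [Function.onFun, Finset.disjoint_left]
    intro j hj hj'
    exact core_disjoint hpos hsymm htri (hL hx) (hL hy) hxy hj hj'

/-- number of rigid centres whose ball is not met -/
theorem card_empty (hnn : ∀ x y, 0 ≤ d x y) (hpos : ∀ x y, x ≠ y → 0 < d x y)
    (hsymm : ∀ x y, d x y = d y x)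
    (htri : ∀ x y z, d x z ≤ d x y + d y z) (hw : ∀ j, 0 ≤ w j) {θ β B : R} (hθβ : θ ≤ β)
    (hβ : 0 ≤ β) {Q : Finset P} (hQ : Q.Nonempty) (hQF : Q ⊆ F) :
    (((rig d w D S θ B).filter (fun t => Q ∩ ball d F S β t = ∅)).card : R) * ((β - θ) * B) ≤
      cst d w D Q := by
  obtain ⟨a, ha1, ha2, ha3⟩ := exists_nearest d Q hQ
  rw [ha3 w D, ← nsmul_eq_mul, ← Finset.sum_const]
  refine (Finset.sum_le_sum fun t ht => ?_).trans
    (sum_cores_le (S := S) hpos hsymm htri (fun j => w j * d j (a j))
      (fun j _ => mul_nonneg (hw j) (hnn _ _))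
      ((rig d w D S θ B).filter (fun t => Q ∩ ball d F S β t = ∅)) ?_)
  · obtain ⟨h1, h2⟩ := Finset.mem_filter.1 ht
    exact empty_ball_cost hsymm htri hw hθβ hβ h1 hQF h2 a ha1
  · intro t ht
    exact (mem_rig.1 (Finset.mem_filter.1 ht).1).1

/-- **(3)** moving a solution to the restricted facility set. -/
theorem transfer_aux (hd0 : ∀ x, d x x = 0) (hnn : ∀ x y, 0 ≤ d x y) (hpos : ∀ x y, x ≠ y → 0 < d x y)
    (hsymm : ∀ x y, d x y = d y x)
    (htri : ∀ x y z, d x z ≤ d x y + d y z) (hw : ∀ j, 0 ≤ w j) (h2 : 2 ≤ S.card) (hSF : S ⊆ F)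
    {θ β B : R} (hθ0 : 0 ≤ θ) (hβ0 : 0 < β) (hβ : β ≤ 1 / 8) (hθβ : 4 * θ ≤ β) (hB : 0 < B)
    (G : Finset P) (hG : G ⊆ rig d w D S θ B) (m : P → P)
    (hm : ∀ t ∈ G, m t ∈ ball d F S β t ∧ ∀ f ∈ ball d F S β t,
      ∑ j ∈ core d D S t, w j * d j (m t) ≤ ∑ j ∈ core d D S t, w j * d j f)
    {Q : Finset P} (hQ : Q.Nonempty) (hQF : Q ⊆ F) :
    ∃ Q' ⊆ restr d F S G β m, Q'.Nonempty ∧ Q'.card ≤ Q.card ∧
      cst d w D Q' ≤ (1 + 16 * β) * cst d w D Q
        + ∑ t ∈ G.filter (fun t => 2 ≤ (Q ∩ ball d F S β t).card), cc d w D S t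
        + 16 * θ / β * ∑ t ∈ G, cc d w D S t := by
  classical
  obtain ⟨a, ha1, ha2, ha3⟩ := exists_nearest d Q hQ
  have hGS : G ⊆ S := fun t ht => (mem_rig.1 (hG ht)).1
  have hβ' : β ≤ 1 / 4 := by linarith
  have hbd : ∀ t ∈ G, ∀ t' ∈ G, ∀ f, f ∈ ball d F S β t → f ∈ ball d F S β t' → t = t' :=
    fun t ht t' ht' f h1 h3 => ball_disjoint hpos hsymm htri hβ0.le hβ' (hGS ht) (hGS ht') h1 h3
  have hcd : ∀ t ∈ G, ∀ t' ∈ G, ∀ j, j ∈ core d D S t → j ∈ core d D S t' → t = t' :=
    fun t ht t' ht' j h1 h3 => by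
      by_contra hne
      exact core_disjoint hpos hsymm htri (hGS ht) (hGS ht') hne h1 h3
  -- the move
  have hmv : ∀ q : P, ∃ u : P, (∀ t ∈ G, q ∈ ball d F S β t → u = m t) ∧
      ((∀ t ∈ G, q ∉ ball d F S β t) → u = q) := by
    intro q
    by_cases h : ∃ t ∈ G, q ∈ ball d F S β t
    · obtain ⟨t, ht, hqt⟩ := h
      refine ⟨m t, fun t' ht' hqt' => ?_, fun h' => absurd hqt (h' t ht)⟩
      rw [hbd t ht t' ht' q hqt hqt']
    · push Not at h
      exact ⟨q, fun t ht hqt => absurd hqt (h t ht), fun _ => rfl⟩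
  choose mv hmv1 hmv2 using hmv
  set Q' := Q.image mv with hQ'
  have hmvF : ∀ q ∈ Q, mv q ∈ restr d F S G β m := by
    intro q hq
    rw [mem_restr]
    by_cases h : ∃ t ∈ G, q ∈ ball d F S β t
    · obtain ⟨t, ht, hqt⟩ := h
      rw [hmv1 q t ht hqt]
      refine ⟨(mem_ball.1 (hm t ht).1).1, fun t' ht' hmt => ?_⟩
      rw [hbd t ht t' ht' _ (hm t ht).1 hmt]
    · push Not at h
      rw [hmv2 q h]
      exact ⟨hQF hq, fun t ht hqt => absurd hqt (h t ht)⟩
  have hQ'ne : Q'.Nonempty := hQ.image mv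
  refine ⟨Q', ?_, hQ'ne, Finset.card_image_le, ?_⟩
  · intro x hx
    obtain ⟨q, hq, rfl⟩ := Finset.mem_image.1 hx
    exact hmvF q hq
  -- the assignment
  set FS : P → Prop := fun t => 2 ≤ (Q ∩ ball d F S β t).card ∨
    ∃ o ∈ Q ∩ ball d F S β t, 2 * cc d w D S t ≤ wt d w D S t * d o t with hFS
  have hFSne : ∀ t, FS t → ∃ o, o ∈ Q ∧ o ∈ ball d F S β t := by
    intro t ht
    rcases ht with ht | ⟨o, ho, _⟩
    · obtain ⟨o, ho⟩ := Finset.card_pos.1 (by omega : 0 < (Q ∩ ball d F S β t).card)
      exact ⟨o, (Finset.mem_inter.1 ho).1, (Finset.mem_inter.1 ho).2⟩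
    · exact ⟨o, (Finset.mem_inter.1 ho).1, (Finset.mem_inter.1 ho).2⟩
  have has : ∀ j : P, ∃ u ∈ Q', (∀ t ∈ G, j ∈ core d D S t → FS t → u = m t) ∧
      ((∀ t ∈ G, j ∈ core d D S t → ¬ FS t) → u = mv (a j)) := by
    intro j
    by_cases h : ∃ t ∈ G, j ∈ core d D S t ∧ FS t
    · obtain ⟨t, ht, hjt, hf⟩ := h
      obtain ⟨o, hoQ, hob⟩ := hFSne t hf
      refine ⟨m t, ?_, fun t' ht' hjt' _ => ?_, fun h' => absurd hf (h' t ht hjt)⟩
      · rw [← hmv1 o t ht hob]; exact Finset.mem_image_of_mem _ hoQ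
      · rw [hcd t ht t' ht' j hjt hjt']
    · push Not at h
      exact ⟨mv (a j), Finset.mem_image_of_mem _ (ha1 j),
        fun t ht hjt hf => absurd hf (h t ht hjt), fun _ => rfl⟩
  choose a' ha'Q ha'1 ha'2 using has
  have hcost := cst_le_assign d w hw D Q' hQ'ne a' (fun j _ => ha'Q j)
  refine hcost.trans ?_
  -- pointwise bound outside of the own core
  have hout : ∀ j ∈ D, (∀ t ∈ G, a j ∈ ball d F S β t → j ∉ core d D S t) →
      d j (mv (a j)) ≤ (1 + 16 * β) * d j (a j) := by
    intro j hj h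
    by_cases hb : ∃ t ∈ G, a j ∈ ball d F S β t
    · obtain ⟨t, ht, hat⟩ := hb
      rw [hmv1 _ t ht hat]
      exact move_outside hsymm htri hpos h2 hβ0.le hβ hat (hm t ht).1 hj (h t ht hat)
    · push Not at hb
      rw [hmv2 _ hb]
      have := hnn j (a j)
      nlinarith
  -- one cluster
  have hcl : ∀ t ∈ G, ∑ j ∈ core d D S t, w j * d j (a' j) ≤
      (1 + 16 * β) * ∑ j ∈ core d D S t, w j * d j (a j) +
      (if 2 ≤ (Q ∩ ball d F S β t).card then cc d w D S t else 0) +
      16 * θ / β * cc d w D S t := by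
    intro t ht
    obtain ⟨htS, htB, htc⟩ := mem_rig.1 (hG ht)
    have hcc0 : 0 ≤ cc d w D S t := cc_nonneg hnn hw t
    have hwt0 : 0 ≤ wt d w D S t := wt_nonneg hw t
    have hsep := sep_pos hpos h2 t
    have hh0 : 0 ≤ ∑ j ∈ core d D S t, w j * d j (a j) :=
      Finset.sum_nonneg fun j _ => mul_nonneg (hw j) (hnn _ _)
    have hite : (0 : R) ≤ (if 2 ≤ (Q ∩ ball d F S β t).card then cc d w D S t else 0) := by
      split_ifs
      · exact hcc0
      · exact le_rfl
    have hθβ0 : 0 ≤ 16 * θ / β * cc d w D S t := by positivity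
    have hmt : ∑ j ∈ core d D S t, w j * d j (m t) ≤ cc d w D S t :=
      (hm t ht).2 t (exists_best hSF hd0 hpos h2 hβ0.le t htS)
    have hwtpos : 0 < wt d w D S t := by
      rcases hwt0.eq_or_lt with h | h
      · rw [← h, zero_mul] at htB; linarith
      · exact h
    have hwb : 4 * cc d w D S t ≤ wt d w D S t * (β * sep d S t) := by
      have e1 : wt d w D S t * (β * sep d S t) = β * (wt d w D S t * sep d S t) := by ring
      have e2 := mul_le_mul_of_nonneg_left htB hβ0.le
      have e3 : 4 * (θ * B) ≤ β * B := by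
        have := mul_le_mul_of_nonneg_right hθβ hB.le
        linarith
      rw [e1]
      linarith
    by_cases hf : FS t
    · -- the whole core goes to `m t`
      have hg : ∑ j ∈ core d D S t, w j * d j (a' j) = ∑ j ∈ core d D S t, w j * d j (m t) :=
        Finset.sum_congr rfl fun j hj => by rw [ha'1 j t ht hj hf]
      rw [hg]
      by_cases hcard : 2 ≤ (Q ∩ ball d F S β t).card
      · rw [if_pos hcard]
        have : 0 ≤ (1 + 16 * β) * ∑ j ∈ core d D S t, w j * d j (a j) := by positivity
        linarith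
      · rw [if_neg hcard]
        rcases hf with hf | ⟨o, ho, hof⟩
        · exact absurd hf hcard
        · have hone : ∀ q ∈ Q ∩ ball d F S β t, q = o := by
            intro q hq
            by_contra hne
            apply hcard
            calc 2 = ({q, o} : Finset P).card := (Finset.card_pair hne).symm
              _ ≤ _ := Finset.card_le_card (by
                intro x hx
                rcases Finset.mem_insert.1 hx with rfl | hx
                · exact hq
                · rw [Finset.mem_singleton.1 hx]; exact ho)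
          -- every core client is at distance `min (d o t) (β sep) - d j t` from its facility
          have hmin : ∀ j ∈ core d D S t, min (d o t) (β * sep d S t) - d j t ≤ d j (a j) := by
            intro j _
            have t1 := htri (a j) j t
            have t2 := hsymm (a j) j
            by_cases hb : a j ∈ ball d F S β t
            · have : a j = o := hone _ (Finset.mem_inter.2 ⟨ha1 j, hb⟩)
              rw [this] at t1 t2 ⊢
              have := min_le_left (d o t) (β * sep d S t)
              linarith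
            · have h4 : β * sep d S t < d (a j) t := by
                by_contra hle
                exact hb (mem_ball.2 ⟨hQF (ha1 j), not_lt.1 hle⟩)
              have := min_le_right (d o t) (β * sep d S t)
              linarith
          have hs : wt d w D S t * min (d o t) (β * sep d S t) - cc d w D S t ≤
              ∑ j ∈ core d D S t, w j * d j (a j) := by
            unfold wt cc
            rw [Finset.sum_mul, ← Finset.sum_sub_distrib]
            refine Finset.sum_le_sum fun j hj => ?_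
            rw [← mul_sub]
            exact mul_le_mul_of_nonneg_left (hmin j hj) (hw j)
          have hmin2 : 2 * cc d w D S t ≤ wt d w D S t * min (d o t) (β * sep d S t) := by
            rcases min_choice (d o t) (β * sep d S t) with h | h
            · rw [h]; exact hof
            · rw [h]; linarith
          have h5 : ∑ j ∈ core d D S t, w j * d j (a j) ≤
              (1 + 16 * β) * ∑ j ∈ core d D S t, w j * d j (a j) := by
            nlinarith
          linarith
    · -- the core is served as before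
      have hg : ∀ j ∈ core d D S t, a' j = mv (a j) := fun j hj =>
        ha'2 j (fun t' ht' hjt' => by rw [← hcd t ht t' ht' j hj hjt']; exact hf)
      have hpw : ∀ j ∈ core d D S t, a j ∉ ball d F S β t →
          d j (mv (a j)) ≤ (1 + 16 * β) * d j (a j) := by
        intro j hj hab
        refine hout j (mem_core'.1 hj).1 (fun t' ht' hat' hjt' => ?_)
        rw [← hcd t ht t' ht' j hj hjt'] at hat'
        exact hab hat'
      have hg' : ∑ j ∈ core d D S t, w j * d j (a' j) = ∑ j ∈ core d D S t, w j * d j (mv (a j)) :=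
        Finset.sum_congr rfl fun j hj => by rw [hg j hj]
      rw [hg']
      rcases (Q ∩ ball d F S β t).eq_empty_or_nonempty with hemp | ⟨o, ho⟩
      · have h1 : ∑ j ∈ core d D S t, w j * d j (mv (a j)) ≤
            (1 + 16 * β) * ∑ j ∈ core d D S t, w j * d j (a j) := by
          rw [Finset.mul_sum]
          refine Finset.sum_le_sum fun j hj => ?_
          have := mul_le_mul_of_nonneg_left (hpw j hj (fun h => by
            have : a j ∈ Q ∩ ball d F S β t := Finset.mem_inter.2 ⟨ha1 j, h⟩
            rw [hemp] at this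
            simp at this)) (hw j)
          linarith
        linarith
      · have hcard : ¬ 2 ≤ (Q ∩ ball d F S β t).card := fun h => hf (Or.inl h)
        have hof : wt d w D S t * d o t < 2 * cc d w D S t := by
          by_contra hle
          exact hf (Or.inr ⟨o, ho, not_lt.1 hle⟩)
        have hob := (Finset.mem_inter.1 ho).2
        have hoQ := (Finset.mem_inter.1 ho).1
        have hone : ∀ q ∈ Q ∩ ball d F S β t, q = o := by
          intro q hq
          by_contra hne
          apply hcard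
          calc 2 = ({q, o} : Finset P).card := (Finset.card_pair hne).symm
            _ ≤ _ := Finset.card_le_card (by
              intro x hx
              rcases Finset.mem_insert.1 hx with rfl | hx
              · exact hq
              · rw [Finset.mem_singleton.1 hx]; exact ho)
        rw [if_neg hcard]
        set C2 := (core d D S t).filter (fun j => ¬ a j = o) with hC2
        have hsplit : ∀ g : P → R, ∑ j ∈ core d D S t, g j =
            ∑ j ∈ (core d D S t).filter (fun j => a j = o), g j + ∑ j ∈ C2, g j := fun g =>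
          (Finset.sum_filter_add_sum_filter_not _ _ _).symm
        -- weight of the clients not served by `o`
        have hC2w : (∑ j ∈ C2, w j) * (β * sep d S t) ≤ 4 * cc d w D S t := by
          have h1 : (∑ j ∈ C2, w j) * (β * sep d S t) ≤ ∑ j ∈ C2, 4 * (w j * d j t) := by
            rw [Finset.sum_mul]
            refine Finset.sum_le_sum fun j hj => ?_
            obtain ⟨hjc, hjo⟩ := Finset.mem_filter.1 hj
            have hab : a j ∉ ball d F S β t := fun h =>
              hjo (hone _ (Finset.mem_inter.2 ⟨ha1 j, h⟩))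
            have h4 : β * sep d S t < d (a j) t := by
              by_contra hle
              exact hab (mem_ball.2 ⟨hQF (ha1 j), not_lt.1 hle⟩)
            have t1 := htri (a j) j t
            have t2 := hsymm (a j) j
            have t3 := ha2 j o hoQ
            have t4 := htri j t o
            have t5 := hsymm t o
            -- d o t ≤ β sep / 2
            have t6 : d o t ≤ β * sep d S t / 2 := by
              have : wt d w D S t * d o t ≤ wt d w D S t * (β * sep d S t / 2) := by linarith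
              exact le_of_mul_le_mul_left this hwtpos
            have t7 : β * sep d S t ≤ 4 * d j t := by linarith
            have := mul_le_mul_of_nonneg_left t7 (hw j)
            linarith
          have h3 : ∑ j ∈ C2, 4 * (w j * d j t) ≤ 4 * cc d w D S t := by
            rw [← Finset.mul_sum]
            refine mul_le_mul_of_nonneg_left ?_ (by norm_num)
            exact Finset.sum_le_sum_of_subset_of_nonneg (Finset.filter_subset _ _)
              (fun j _ _ => mul_nonneg (hw j) (hnn _ _))
          exact h1.trans h3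
        -- distance between `o` and `m t`
        have hom : wt d w D S t * d o (m t) ≤ 4 * cc d w D S t := by
          have h1 : wt d w D S t * d t (m t) ≤ cc d w D S t + ∑ j ∈ core d D S t, w j * d j (m t) := by
            unfold wt cc
            rw [Finset.sum_mul, ← Finset.sum_add_distrib]
            refine Finset.sum_le_sum fun j _ => ?_
            rw [← mul_add]
            refine mul_le_mul_of_nonneg_left ?_ (hw j)
            have := htri t j (m t)
            rw [hsymm t j] at this
            exact this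
          have h3 := mul_le_mul_of_nonneg_left (htri o t (m t)) hwt0
          rw [mul_add] at h3
          linarith
        -- the loss
        have hloss : (∑ j ∈ C2, w j) * d o (m t) ≤ 16 * θ / β * cc d w D S t := by
          have hp0 : 0 ≤ ∑ j ∈ C2, w j := Finset.sum_nonneg fun j _ => hw j
          have h1 : ((∑ j ∈ C2, w j) * (β * sep d S t)) * (wt d w D S t * d o (m t)) ≤
              (4 * cc d w D S t) * (4 * cc d w D S t) :=
            mul_le_mul hC2w hom (mul_nonneg hwt0 (hnn _ _)) (by linarith)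
          have h3 : (4 * cc d w D S t) * (4 * cc d w D S t) ≤
              (4 * cc d w D S t) * (4 * (θ * (wt d w D S t * sep d S t))) := by
            refine mul_le_mul_of_nonneg_left ?_ (by linarith)
            have := mul_le_mul_of_nonneg_left htB hθ0
            linarith
          have h4 : (β * ((∑ j ∈ C2, w j) * d o (m t))) * (wt d w D S t * sep d S t) ≤
              (16 * θ * cc d w D S t) * (wt d w D S t * sep d S t) := by
            calc (β * ((∑ j ∈ C2, w j) * d o (m t))) * (wt d w D S t * sep d S t)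
                = ((∑ j ∈ C2, w j) * (β * sep d S t)) * (wt d w D S t * d o (m t)) := by ring
              _ ≤ _ := h1.trans h3
              _ = _ := by ring
          have h5 : β * ((∑ j ∈ C2, w j) * d o (m t)) ≤ 16 * θ * cc d w D S t :=
            le_of_mul_le_mul_right h4 (mul_pos hwtpos hsep)
          have e : 16 * θ / β * cc d w D S t = (16 * θ * cc d w D S t) / β := by ring
          rw [e, le_div_iff₀ hβ0]
          linarith
        -- served part
        have hC1 : ∑ j ∈ (core d D S t).filter (fun j => a j = o), w j * d j (mv (a j)) ≤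
            ∑ j ∈ (core d D S t).filter (fun j => a j = o), w j * d j (a j) +
            (∑ j ∈ C2, w j) * d o (m t) := by
          have e1 : ∑ j ∈ (core d D S t).filter (fun j => a j = o), w j * d j (mv (a j)) =
              ∑ j ∈ (core d D S t).filter (fun j => a j = o), w j * d j (m t) := by
            refine Finset.sum_congr rfl fun j hj => ?_
            rw [(Finset.mem_filter.1 hj).2, hmv1 o t ht hob]
          have e2 : ∑ j ∈ (core d D S t).filter (fun j => a j = o), w j * d j (a j) =
              ∑ j ∈ (core d D S t).filter (fun j => a j = o), w j * d j o := by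
            refine Finset.sum_congr rfl fun j hj => ?_
            rw [(Finset.mem_filter.1 hj).2]
          rw [e1, e2]
          have h1 := (hm t ht).2 o hob
          rw [hsplit (fun j => w j * d j (m t)), hsplit (fun j => w j * d j o)] at h1
          have h3 : ∑ j ∈ C2, w j * d j o ≤
              ∑ j ∈ C2, w j * d j (m t) + (∑ j ∈ C2, w j) * d o (m t) := by
            rw [Finset.sum_mul, ← Finset.sum_add_distrib]
            refine Finset.sum_le_sum fun j _ => ?_
            rw [← mul_add]
            refine mul_le_mul_of_nonneg_left ?_ (hw j)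
            have := htri j (m t) o
            rw [hsymm (m t) o] at this
            exact this
          linarith
        have hC2' : ∑ j ∈ C2, w j * d j (mv (a j)) ≤ (1 + 16 * β) * ∑ j ∈ C2, w j * d j (a j) := by
          rw [Finset.mul_sum]
          refine Finset.sum_le_sum fun j hj => ?_
          obtain ⟨hjc, hjo⟩ := Finset.mem_filter.1 hj
          have hab : a j ∉ ball d F S β t := fun h =>
            hjo (hone _ (Finset.mem_inter.2 ⟨ha1 j, h⟩))
          have := mul_le_mul_of_nonneg_left (hpw j hjc hab) (hw j)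
          linarith
        have hC1nn : 0 ≤ ∑ j ∈ (core d D S t).filter (fun j => a j = o), w j * d j (a j) :=
          Finset.sum_nonneg fun j _ => mul_nonneg (hw j) (hnn _ _)
        rw [hsplit (fun j => w j * d j (mv (a j))), hsplit (fun j => w j * d j (a j)), mul_add]
        nlinarith
  -- sum up
  set U := G.biUnion (fun t => core d D S t) with hU
  have hUD : U ⊆ D := by
    intro j hj
    obtain ⟨t, _, hjt⟩ := Finset.mem_biUnion.1 hj
    exact (mem_core'.1 hjt).1
  have hUsum : ∀ g : P → R, ∑ j ∈ U, g j = ∑ t ∈ G, ∑ j ∈ core d D S t, g j := by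
    intro g
    rw [hU, Finset.sum_biUnion]
    intro x hx y hy hxy
    rw [Function.onFun, Finset.disjoint_left]
    intro j hj hj'
    exact hxy (hcd x hx y hy j hj hj')
  rw [← Finset.sum_sdiff hUD, ha3 w D, ← Finset.sum_sdiff hUD (f := fun j => w j * d j (a j)),
    hUsum, hUsum]
  have hrest : ∑ j ∈ D \ U, w j * d j (a' j) ≤ (1 + 16 * β) * ∑ j ∈ D \ U, w j * d j (a j) := by
    rw [Finset.mul_sum]
    refine Finset.sum_le_sum fun j hj => ?_
    obtain ⟨hjD, hjU⟩ := Finset.mem_sdiff.1 hj
    have hnc : ∀ t ∈ G, j ∉ core d D S t := fun t ht h => hjU (Finset.mem_biUnion.2 ⟨t, ht, h⟩)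
    rw [ha'2 j (fun t ht h => absurd h (hnc t ht))]
    have := mul_le_mul_of_nonneg_left (hout j hjD (fun t ht _ => hnc t ht)) (hw j)
    linarith
  have hGsum := Finset.sum_le_sum hcl
  rw [Finset.sum_add_distrib, Finset.sum_add_distrib, ← Finset.mul_sum, ← Finset.mul_sum,
    ← Finset.sum_filter] at hGsum
  rw [mul_add]
  linarith

/-- **(2'')** fractional version: `x j i` = part of client `j` served by `i`, `y i ≥ x j i` the opening; the total
deficit of the rigid facilities is at most `cost / ((β - θ) B)`. -/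
theorem frac_pay (hnn : ∀ x y, 0 ≤ d x y) (hpos : ∀ x y, x ≠ y → 0 < d x y)
    (hsymm : ∀ x y, d x y = d y x)
    (htri : ∀ x y z, d x z ≤ d x y + d y z) (hw : ∀ j, 0 ≤ w j)
    {θ β B : R} (hθβ : θ ≤ β) (hβ : 0 ≤ β) (m : P → P) (x : P → P → R) (y : P → R)
    (hx0 : ∀ j i, 0 ≤ x j i) (hxy : ∀ j i, x j i ≤ y i) (hy1 : ∀ i, y i ≤ 1)
    (hx1 : ∀ j ∈ D, ∑ i ∈ restr d F S (rig d w D S θ B) β m, x j i = 1) :
    (∑ t ∈ rig d w D S θ B, (1 - y (m t))) * ((β - θ) * B) ≤
      ∑ j ∈ D, w j * ∑ i ∈ restr d F S (rig d w D S θ B) β m, x j i * d j i := by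
  classical
  set F' := restr d F S (rig d w D S θ B) β m with hF'
  rw [Finset.sum_mul]
  refine (Finset.sum_le_sum fun t ht => ?_).trans
    (sum_cores_le (S := S) hpos hsymm htri (fun j => w j * ∑ i ∈ F', x j i * d j i)
      (fun j _ => mul_nonneg (hw j) (Finset.sum_nonneg fun i _ => mul_nonneg (hx0 j i) (hnn _ _)))
      (rig d w D S θ B) (fun t ht => (mem_rig.1 ht).1))
  have hz : 0 ≤ 1 - y (m t) := by linarith [hy1 (m t)]
  have h1 := mul_le_mul_of_nonneg_left (pay hw hθβ ht hβ) hz
  refine h1.trans ?_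
  rw [Finset.mul_sum]
  refine Finset.sum_le_sum fun j hj => ?_
  have hjD := (mem_core'.1 hj).1
  have key : (1 - y (m t)) * (β * sep d S t - d j t) ≤ ∑ i ∈ F', x j i * d j i := by
    rcases le_or_gt (β * sep d S t - d j t) 0 with hneg | hp
    · have h3 : (1 - y (m t)) * (β * sep d S t - d j t) ≤ 0 :=
        mul_nonpos_of_nonneg_of_nonpos hz hneg
      exact h3.trans (Finset.sum_nonneg fun i _ => mul_nonneg (hx0 j i) (hnn _ _))
    · have h3 : ∑ i ∈ F'.erase (m t), x j i * (β * sep d S t - d j t) ≤ ∑ i ∈ F', x j i * d j i := by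
        refine (Finset.sum_le_sum fun i hi => ?_).trans
          (Finset.sum_le_sum_of_subset_of_nonneg (Finset.erase_subset _ _)
            (fun i _ _ => mul_nonneg (hx0 j i) (hnn _ _)))
        refine mul_le_mul_of_nonneg_left ?_ (hx0 j i)
        exact far_of_mem_restr hsymm htri ht (Finset.mem_erase.1 hi).2 (Finset.mem_erase.1 hi).1
      refine le_trans ?_ h3
      rw [← Finset.sum_mul]
      refine mul_le_mul_of_nonneg_right ?_ hp.le
      have h4 := hx1 j hjD
      by_cases hmem : m t ∈ F'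
      · rw [← Finset.add_sum_erase F' (x j) hmem] at h4
        have := hxy j (m t)
        linarith
      · rw [Finset.erase_eq_of_notMem hmem, h4]
        have := (hx0 j (m t)).trans (hxy j (m t))
        linarith
  have := mul_le_mul_of_nonneg_left key (hw j)
  linarith

theorem rig_mono {θ θ' B : R} (hB : 0 ≤ B) (h : θ ≤ θ') : rig d w D S θ B ⊆ rig d w D S θ' B := by
  intro t ht
  obtain ⟨h1, h2, h3⟩ := mem_rig.1 ht
  exact mem_rig.2 ⟨h1, h2, h3.trans (mul_le_mul_of_nonneg_right h hB)⟩

/-- **(3)** transfer, with the number of doubly met balls estimated (independently of `θ`). -/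
theorem transfer (hd0 : ∀ x, d x x = 0) (hnn : ∀ x y, 0 ≤ d x y) (hpos : ∀ x y, x ≠ y → 0 < d x y)
    (hsymm : ∀ x y, d x y = d y x)
    (htri : ∀ x y z, d x z ≤ d x y + d y z) (hw : ∀ j, 0 ≤ w j) (h2 : 2 ≤ S.card) (hSF : S ⊆ F)
    {θ β B : R} (hθ0 : 0 ≤ θ) (hβ0 : 0 < β) (hβ : β ≤ 1 / 8) (hθβ : 4 * θ ≤ β) (hB : 0 < B)
    (m : P → P)
    (hm : ∀ t ∈ rig d w D S θ B, m t ∈ ball d F S β t ∧ ∀ f ∈ ball d F S β t,
      ∑ j ∈ core d D S t, w j * d j (m t) ≤ ∑ j ∈ core d D S t, w j * d j f)
    {Q : Finset P} (hQ : Q.Nonempty) (hQF : Q ⊆ F) :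
    ∃ Q' ⊆ restr d F S (rig d w D S θ B) β m, Q'.Nonempty ∧ Q'.card ≤ Q.card ∧
      cst d w D Q' ≤ (1 + 16 * β + 4 * θ / (3 * β)) * cst d w D Q
        + θ * B * ((Q.card : R) - ((rig d w D S (β / 4) B).card : R))
        + 16 * θ / β * cst d w D S := by
  classical
  obtain ⟨Q', h1, h3, h4, h5⟩ := transfer_aux hd0 hnn hpos hsymm htri hw h2 hSF hθ0 hβ0 hβ hθβ hB
    (rig d w D S θ B) (Finset.Subset.refl _) m hm hQ hQF
  refine ⟨Q', h1, h3, h4, h5.trans ?_⟩
  have hS : S.Nonempty := Finset.card_pos.1 (by omega)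
  have hsum := sum_cc_le (w := w) (D := D) hnn hpos hsymm htri hw hS (rig d w D S θ B)
    (fun t ht => (mem_rig.1 ht).1)
  have hc1 : 16 * θ / β * ∑ t ∈ rig d w D S θ B, cc d w D S t ≤ 16 * θ / β * cst d w D S :=
    mul_le_mul_of_nonneg_left hsum (by positivity)
  -- doubly met balls
  set G2 := rig d w D S (β / 4) B with hG2
  have hGS : G2 ⊆ S := fun t ht => (mem_rig.1 ht).1
  have hsub : (rig d w D S θ B).filter (fun t => 2 ≤ (Q ∩ ball d F S β t).card) ⊆
      G2.filter (fun t => 2 ≤ (Q ∩ ball d F S β t).card) :=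
    Finset.filter_subset_filter _ (rig_mono hB.le (by linarith))
  have htw := card_twice (F := F) hpos hsymm htri hβ0.le (by linarith : β ≤ 1 / 4) G2 Q hGS
  have hemp := card_empty (w := w) (D := D) (S := S) (F := F) hnn hpos hsymm htri hw (θ := β / 4) (β := β) (B := B)
    (by linarith) hβ0.le hQ hQF
  set n2 := ((rig d w D S θ B).filter (fun t => 2 ≤ (Q ∩ ball d F S β t).card)).card with hn2
  set n0 := (G2.filter (fun t => Q ∩ ball d F S β t = ∅)).card with hn0
  have hn2le : n2 ≤ (G2.filter (fun t => 2 ≤ (Q ∩ ball d F S β t).card)).card :=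
    Finset.card_le_card hsub
  have hn : n2 + G2.card ≤ Q.card + n0 := by omega
  have hnR : (n2 : R) ≤ ((Q.card : R) - G2.card) + n0 := by
    have : (n2 : R) + G2.card ≤ Q.card + n0 := by exact_mod_cast hn
    linarith
  have hcc2 : ∑ t ∈ (rig d w D S θ B).filter (fun t => 2 ≤ (Q ∩ ball d F S β t).card),
      cc d w D S t ≤ θ * B * n2 := by
    calc _ ≤ ∑ _t ∈ (rig d w D S θ B).filter (fun t => 2 ≤ (Q ∩ ball d F S β t).card), θ * B :=
          Finset.sum_le_sum fun t ht => (mem_rig.1 (Finset.mem_filter.1 ht).1).2.2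
      _ = _ := by rw [Finset.sum_const, nsmul_eq_mul, ← hn2]; ring
  have hθB : 0 ≤ θ * B := by positivity
  have h6 : θ * B * n2 ≤ θ * B * (((Q.card : R) - G2.card) + n0) :=
    mul_le_mul_of_nonneg_left hnR hθB
  have h7 : θ * B * n0 ≤ 4 * θ / (3 * β) * cst d w D Q := by
    have e1 : (n0 : R) * (3 / 4 * β * B) ≤ cst d w D Q := by
      have : (β - β / 4) * B = 3 / 4 * β * B := by ring
      rw [this] at hemp
      exact hemp
    have e2 := mul_le_mul_of_nonneg_left e1 (by positivity : 0 ≤ 4 * θ / (3 * β))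
    have e3 : 4 * θ / (3 * β) * ((n0 : R) * (3 / 4 * β * B)) = θ * B * n0 := by
      field_simp
    rw [e3] at e2
    exact e2
  have h8 : (1 + 16 * β + 4 * θ / (3 * β)) * cst d w D Q =
      (1 + 16 * β) * cst d w D Q + 4 * θ / (3 * β) * cst d w D Q := by ring
  rw [h8]
  have h9 : θ * B * (((Q.card : R) - G2.card) + n0) =
      θ * B * ((Q.card : R) - G2.card) + θ * B * n0 := by ring
  linarith

/-- number of rigid centres, compared with `|O|`; `S` may be any nonempty set. -/
theorem card_rig (hd0 : ∀ x, d x x = 0) (hpos : ∀ x y, x ≠ y → 0 < d x y)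
    (hsymm : ∀ x y, d x y = d y x)
    (htri : ∀ x y z, d x z ≤ d x y + d y z) (hw : ∀ j, 0 ≤ w j) (hS : S.Nonempty)
    (O : Finset P) (hO : O.Nonempty) (hOF : O ⊆ F) (hSO : S.card ≤ O.card)
    (e A θ B : R) (he : 0 < e) (he2 : e ≤ 2) (hA0 : 0 ≤ A) (hθ : 0 < θ) (hB0 : 0 < B)
    (hcO : 0 < cst d w D O) (hA : cst d w D S ≤ A * cst d w D O) (s : ℕ)
    (hB : B * (s + 1) ≤ e / 4 * cst d w D O)
    (stab : ∀ S' ⊆ F, S'.Nonempty → S'.card + (s + 1) ≤ O.card →
      (1 + e) * cst d w D O < cst d w D S') :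
    (O.card : R) - ((rig d w D S θ B).card : R) ≤
      (14 + 62 * A) / e * (s + 1) + A * cst d w D O / (θ * B) := by
  have hnn : ∀ x y, 0 ≤ d x y := fun x y => by
    by_cases h : x = y
    · rw [h, hd0]
    · exact (hpos x y h).le
  have hst := stab_card d w D F hnn hsymm htri hw O S hO hS hOF e he hcO s stab he2
  have hs1 : (1 : R) ≤ (s : R) + 1 := by
    have : (0 : R) ≤ s := Nat.cast_nonneg s
    linarith
  have h1 : (O.card : R) - S.card ≤ 2 * (1 + A) / e * (s + 1) := by
    have h3 : ((O.card : R) - S.card) * (e * cst d w D O) ≤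
        (2 * (1 + A) * (s + 1)) * cst d w D O := by
      refine hst.trans ?_
      have : 2 * (cst d w D O + cst d w D S) * ((s : R) + 1) ≤
          2 * (cst d w D O + A * cst d w D O) * (s + 1) :=
        mul_le_mul_of_nonneg_right (by linarith) (by linarith)
      refine this.trans (le_of_eq ?_)
      ring
    have h4 : (((O.card : R) - S.card) * e) * cst d w D O ≤
        (2 * (1 + A) * (s + 1)) * cst d w D O := by linarith
    have h5 := le_of_mul_le_mul_right h4 hcO
    have e1 : 2 * (1 + A) / e * ((s : R) + 1) = (2 * (1 + A) * (s + 1)) / e := by ring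
    rw [e1, le_div_iff₀ he]
    exact h5
  have hsplit : (14 + 62 * A) / e * ((s : R) + 1) =
      2 * (1 + A) / e * (s + 1) + 12 * (1 + 5 * A) / e * (s + 1) := by ring
  have hlast : 0 ≤ A * cst d w D O / (θ * B) := by positivity
  rcases Nat.lt_or_ge S.card 2 with hlt | h2
  · have hc : (S.card : R) ≤ 1 := by exact_mod_cast (by omega : S.card ≤ 1)
    have h3 : (0 : R) ≤ ((rig d w D S θ B).card : R) := Nat.cast_nonneg _
    have h4 : (1 : R) ≤ 12 * (1 + 5 * A) / e * (s + 1) := by
      have e1 : (6 : R) ≤ 12 * (1 + 5 * A) / e := by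
        rw [le_div_iff₀ he]
        nlinarith
      nlinarith
    rw [hsplit]
    linarith
  · have h3 := card_not_rig hnn hpos hsymm htri hw h2 O hO hOF hSO e A θ B he he2 hA0 hθ hB0 hcO hA
      s hB stab
    have hsub : rig d w D S θ B ⊆ S := fun t ht => (mem_rig.1 ht).1
    have h4 : ((S \ rig d w D S θ B).card : R) = (S.card : R) - (rig d w D S θ B).card := by
      rw [Finset.card_sdiff_of_subset hsub, Nat.cast_sub (Finset.card_le_card hsub)]
    rw [h4] at h3
    rw [hsplit]
    linarith

theorem rig_eq_empty (hlt : S.card < 2) {θ B : R} (hB : 0 < B) : rig d w D S θ B = ∅ := by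
  rw [Finset.eq_empty_iff_forall_notMem]
  intro t ht
  obtain ⟨h1, h2, _⟩ := mem_rig.1 ht
  have : ¬ (S.erase t).Nonempty := by
    rw [← Finset.card_pos, Finset.card_erase_of_mem h1]
    omega
  rw [sep, dif_neg this, mul_zero] at h2
  linarith

/-- **Structure theorem.** `O` = a solution with `k` centres in a stable instance, `S` = an `A`-approximation
with `1 ≤ |S| ≤ k` centres, `B (s+1) ≤ (e/4) cost O`.  All but `C (s+1)` of the `k` centres are rigid, and every
solution `Q` with at most `k` centres can be moved to the restricted facility set. -/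
theorem struct_main (hd0 : ∀ x, d x x = 0) (hpos : ∀ x y, x ≠ y → 0 < d x y)
    (hsymm : ∀ x y, d x y = d y x)
    (htri : ∀ x y z, d x z ≤ d x y + d y z) (hw : ∀ j, 0 ≤ w j) (hS : S.Nonempty) (hSF : S ⊆ F)
    {θ β B : R} (hθ0 : 0 < θ) (hβ0 : 0 < β) (hβ : β ≤ 1 / 8) (hθβ : 4 * θ ≤ β) (hB : 0 < B)
    (m : P → P)
    (hm : ∀ t ∈ rig d w D S θ B, m t ∈ ball d F S β t ∧ ∀ f ∈ ball d F S β t,
      ∑ j ∈ core d D S t, w j * d j (m t) ≤ ∑ j ∈ core d D S t, w j * d j f)
    (O : Finset P) (hO : O.Nonempty) (hOF : O ⊆ F) (hSO : S.card ≤ O.card)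
    (e A : R) (he : 0 < e) (he2 : e ≤ 2) (hA0 : 0 ≤ A)
    (hcO : 0 < cst d w D O) (hA : cst d w D S ≤ A * cst d w D O) (s : ℕ)
    (hBs : B * (s + 1) ≤ e / 4 * cst d w D O)
    (stab : ∀ S' ⊆ F, S'.Nonempty → S'.card + (s + 1) ≤ O.card →
      (1 + e) * cst d w D O < cst d w D S') :
    (O.card : R) - ((rig d w D S θ B).card : R) ≤
      (14 + 62 * A) / e * (s + 1) + A * cst d w D O / (θ * B) ∧
    ∀ Q ⊆ F, Q.Nonempty → Q.card ≤ O.card →
      ∃ Q' ⊆ restr d F S (rig d w D S θ B) β m, Q'.Nonempty ∧ Q'.card ≤ Q.card ∧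
      cst d w D Q' ≤ (1 + 16 * β + 4 * θ / (3 * β)) * cst d w D Q
        + θ * (4 + 16 * A + 20 * A / β) * cst d w D O := by
  have hnn : ∀ x y, 0 ≤ d x y := fun x y => by
    by_cases h : x = y
    · rw [h, hd0]
    · exact (hpos x y h).le
  refine ⟨card_rig hd0 hpos hsymm htri hw hS O hO hOF hSO e A θ B he he2 hA0 hθ0 hB hcO hA s
    hBs stab, fun Q hQF hQ hQO => ?_⟩
  have hcQ : 0 ≤ cst d w D Q := by
    obtain ⟨b, hb1, hb2, hb3⟩ := exists_nearest d Q hQ
    rw [hb3 w D]
    exact Finset.sum_nonneg fun j _ => mul_nonneg (hw j) (hnn _ _)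
  rcases Nat.lt_or_ge S.card 2 with hlt | h2
  · refine ⟨Q, fun f hf => ?_, hQ, le_rfl, ?_⟩
    · rw [mem_restr, rig_eq_empty hlt hB]
      exact ⟨hQF hf, fun t ht => absurd ht (Finset.notMem_empty t)⟩
    · have h1 : 0 ≤ 16 * β + 4 * θ / (3 * β) := by positivity
      have h3 : 0 ≤ θ * (4 + 16 * A + 20 * A / β) * cst d w D O := by positivity
      nlinarith
  obtain ⟨Q', h1, h3, h4, h5⟩ := transfer hd0 hnn hpos hsymm htri hw h2 hSF hθ0.le hβ0 hβ hθβ hB m hm
    hQ hQF
  refine ⟨Q', h1, h3, h4, h5.trans ?_⟩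
  have h6 := card_rig hd0 hpos hsymm htri hw hS O hO hOF hSO e A (β / 4) B he he2 hA0
    (by positivity) hB hcO hA s hBs stab
  have hQOR : (Q.card : R) ≤ O.card := by exact_mod_cast hQO
  have h6' : (Q.card : R) - ((rig d w D S (β / 4) B).card : R) ≤
      (14 + 62 * A) / e * (s + 1) + A * cst d w D O / (β / 4 * B) := by linarith
  have h7 := mul_le_mul_of_nonneg_left h6' (by positivity : 0 ≤ θ * B)
  have h8 : θ * B * ((14 + 62 * A) / e * (s + 1) + A * cst d w D O / (β / 4 * B)) =
      θ * ((14 + 62 * A) / e * (B * (s + 1)) + 4 * A / β * cst d w D O) := by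
    field_simp
  rw [h8] at h7
  have h9 : (14 + 62 * A) / e * (B * (s + 1)) ≤ (4 + 16 * A) * cst d w D O := by
    have h10 := mul_le_mul_of_nonneg_left hBs (by positivity : 0 ≤ (14 + 62 * A) / e)
    have e1 : (14 + 62 * A) / e * (e / 4 * cst d w D O) = (14 + 62 * A) / 4 * cst d w D O := by
      field_simp
    rw [e1] at h10
    refine h10.trans (mul_le_mul_of_nonneg_right ?_ hcO.le)
    linarith
  have h10 := mul_le_mul_of_nonneg_left h9 hθ0.le
  have h11 : 16 * θ / β * cst d w D S ≤ 16 * θ / β * (A * cst d w D O) :=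
    mul_le_mul_of_nonneg_left hA (by positivity)
  have h12 : θ * (4 + 16 * A + 20 * A / β) * cst d w D O =
      θ * ((4 + 16 * A) * cst d w D O) + θ * (4 * A / β * cst d w D O) +
      16 * θ / β * (A * cst d w D O) := by
    field_simp
    ring
  rw [h12]
  rw [mul_add] at h7
  linarith

end metric

end Crest.Agent.R310.Struct
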