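import Crest.Agent.R310.TightSmall

/-!
# R310, block STRUCT: the structure lemma of the tight world (helper670)

`S` = an `A`-approximation with at most `|O|` centres, the instance is stable: closing `s + 1` centres
costs a factor `1 + e`.  Then all but `C (s+1)` centres `t` of `S` are *rigid*
(`mass_t * D_t ≥ b`, core cost `≤ θ b`), and every solution can be transferred to the restricted and
collapsed instance, in which every rigid ball `B(t, β D_t)` contains a single facility `v t` and the core
clients of `t` sit at `v t`, at a loss of `1 + ε`.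
-/

set_option autoImplicit false
set_option linter.unusedSectionVars false
set_option linter.unusedVariables false

namespace Crest.Agent.R310.StructM

open Finset Crest.Agent.R310.Tight

variable {P R : Type*} [DecidableEq P] [Field R] [LinearOrder R] [IsStrictOrderedRing R]

/-- Metric, weights, a centre set `S ⊆ F` and its nearest-neighbour map. -/
structure Setup (d : P → P → R) (w : P → R) (F S : Finset P) (nn : P → P) : Prop where
  d0 : ∀ x, d x x = 0
  pos : ∀ x y, x ≠ y → 0 < d x y
  symm : ∀ x y, d x y = d y x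
  tri : ∀ x y z, d x z ≤ d x y + d y z
  w0 : ∀ j, 0 ≤ w j
  SF : S ⊆ F
  Sne : S.Nonempty
  nn_mem : ∀ t ∈ S, nn t ∈ S
  nn_ne : ∀ t ∈ S, nn t ≠ t
  nn_le : ∀ t ∈ S, ∀ r ∈ S, r ≠ t → d t (nn t) ≤ d t r

/-- core clients of `t` -/
def core (d : P → P → R) (D : Finset P) (nn : P → P) (t : P) : Finset P :=
  D.filter fun j => 10 * d j t ≤ d t (nn t)

/-- weight of the core -/
def mass (d : P → P → R) (w : P → R) (D : Finset P) (nn : P → P) (t : P) : R :=
  ∑ j ∈ core d D nn t, w j

/-- cost of the core (at `t`) -/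
def cc (d : P → P → R) (w : P → R) (D : Finset P) (nn : P → P) (t : P) : R :=
  ∑ j ∈ core d D nn t, w j * d j t

/-- rigid centres -/
def Theta (d : P → P → R) (w : P → R) (D S : Finset P) (nn : P → P) (b th : R) : Finset P :=
  S.filter fun t => b ≤ mass d w D nn t * d t (nn t) ∧ cc d w D nn t ≤ th * b

/-- facilities in the ball of radius `β D_t` -/
def ball (d : P → P → R) (F : Finset P) (nn : P → P) (β : R) (t : P) : Finset P :=
  F.filter fun i => d i t ≤ β * d t (nn t)

/-- the restricted facility set -/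
def Fres (d : P → P → R) (F : Finset P) (nn : P → P) (β : R) (Θ : Finset P) (v : P → P) : Finset P :=
  F.filter fun i => ∀ t ∈ Θ, i ∈ ball d F nn β t → i = v t

section growth

variable (d : P → P → R) (w : P → R) (D F O : Finset P)

omit [IsStrictOrderedRing R] in
theorem cst_eq_inf (S : Finset P) (hS : S.Nonempty) :
    cst d w D S = ∑ j ∈ D, w j * S.inf' hS (d j) := by rw [cst, dif_pos hS]

omit [DecidableEq P] in
theorem group_sum (f : P → R) (g : R) (n : ℕ) (hf : ∀ o, 0 ≤ f o) (Z : Finset P)
    (hG : ∀ G ⊆ Z, G.card = n → g ≤ ∑ o ∈ G, f o) :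
    ∀ m : ℕ, ∀ Z' ⊆ Z, m * n ≤ Z'.card → (m : R) * g ≤ ∑ o ∈ Z', f o := by
  classical
  intro m
  induction m with
  | zero =>
    intro Z' _ _
    simp only [Nat.cast_zero, zero_mul]
    exact Finset.sum_nonneg fun o _ => hf o
  | succ m ih =>
    intro Z' hZ' hc
    have hn : n ≤ Z'.card := by nlinarith
    obtain ⟨G, hGZ, hGc⟩ := Finset.exists_subset_card_eq (s := Z') (n := n) hn
    have h1 := hG G (hGZ.trans hZ') hGc
    have h2 := ih (Z' \ G) (Finset.sdiff_subset.trans hZ') (by
      rw [Finset.card_sdiff_of_subset hGZ, hGc]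
      have : (m + 1) * n = m * n + n := by ring
      omega)
    have h3 : ∑ o ∈ Z', f o = ∑ o ∈ Z' \ G, f o + ∑ o ∈ G, f o := (Finset.sum_sdiff hGZ).symm
    rw [h3]
    push_cast
    linarith

/-- **Growth lemma** (779, 448): a solution with `m (s+1)` centres less than `O` costs
`≥ m e cost(O) / 2`. -/
theorem growth (hsymm : ∀ x y, d x y = d y x)
    (htri : ∀ x y z, d x z ≤ d x y + d y z) (hw : ∀ j, 0 ≤ w j) (hnn : ∀ x y, 0 ≤ d x y)
    (hOF : O ⊆ F) (hO : O.Nonempty) (e : R) (he : 0 < e) (s : ℕ)
    (stab : ∀ S' ⊆ F, S'.Nonempty → S'.card + (s + 1) ≤ O.card →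
      (1 + e) * cst d w D O < cst d w D S')
    (Y : Finset P) (hY : Y.Nonempty) (m : ℕ) (hm : Y.card + m * (s + 1) ≤ O.card) :
    (m : R) * (e * cst d w D O / 2) ≤ cst d w D Y := by
  obtain ⟨π, hπO, hπmin, hπc⟩ := exists_nearest d O hO
  obtain ⟨σ, hσY, hσmin, hσc⟩ := exists_nearest d Y hY
  set cO := cst d w D O with hcO
  set Z := O \ Y.image π with hZ
  have hZO : Z ⊆ O := Finset.sdiff_subset
  have himO : Y.image π ⊆ O := fun x hx => by
    obtain ⟨y, _, rfl⟩ := Finset.mem_image.1 hx
    exact hπO y
  have hZc : m * (s + 1) ≤ Z.card := by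
    rw [hZ, Finset.card_sdiff_of_subset himO]
    have := Finset.card_image_le (s := Y) (f := π)
    omega
  set f : P → R := fun o => ∑ j ∈ D.filter (fun j => π j = o), w j * d j (σ j) with hf
  have hf0 : ∀ o, 0 ≤ f o := fun o => Finset.sum_nonneg fun j _ => mul_nonneg (hw j) (hnn _ _)
  have fib : ∀ g : P → R, ∑ j ∈ D, g j = ∑ o ∈ O, ∑ j ∈ D.filter (fun j => π j = o), g j :=
    fun g => (Finset.sum_fiberwise_of_maps_to (fun j _ => hπO j) g).symm
  have hGgain : ∀ G ⊆ Z, G.card = s + 1 → e * cO / 2 ≤ ∑ o ∈ G, f o := by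
    intro G hG hGc
    have hGO : G ⊆ O := hG.trans hZO
    obtain ⟨y0, hy0⟩ := hY
    have hnotG : ∀ y ∈ Y, π y ∉ G := fun y hy h => by
      have := hG h
      rw [hZ, Finset.mem_sdiff] at this
      exact this.2 (Finset.mem_image_of_mem _ hy)
    have hne : (O \ G).Nonempty := ⟨π y0, Finset.mem_sdiff.2 ⟨hπO _, hnotG y0 hy0⟩⟩
    have hcard : (O \ G).card + (s + 1) ≤ O.card := by
      rw [Finset.card_sdiff_of_subset hGO, hGc]
      have := Finset.card_le_card hGO
      omega
    have h1 := stab (O \ G) (Finset.sdiff_subset.trans hOF) hne hcard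
    set ρ : P → P := fun j => if π j ∈ G then π (σ j) else π j with hρ
    have h2 : cst d w D (O \ G) ≤ ∑ j ∈ D, w j * d j (ρ j) := by
      refine cst_le_assign d w hw D (O \ G) hne ρ fun j _ => ?_
      by_cases h : π j ∈ G
      · simp only [hρ, h, if_true]
        exact Finset.mem_sdiff.2 ⟨hπO _, hnotG _ (hσY j)⟩
      · simp only [hρ, h, if_false]
        exact Finset.mem_sdiff.2 ⟨hπO j, h⟩
    have h3 : ∑ j ∈ D, w j * d j (ρ j) ≤
        ∑ j ∈ D, w j * d j (π j) + ∑ j ∈ D.filter (fun j => π j ∈ G), 2 * (w j * d j (σ j)) := by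
      rw [Finset.sum_filter, ← Finset.sum_add_distrib]
      refine Finset.sum_le_sum fun j _ => ?_
      by_cases h : π j ∈ G
      · simp only [hρ, h, if_true]
        have h4 : d j (π (σ j)) ≤ d j (π j) + 2 * d j (σ j) := by
          have a1 := htri j (σ j) (π (σ j))
          have a2 := hπmin (σ j) (π j) (hπO j)
          have a3 := htri (σ j) j (π j)
          rw [hsymm (σ j) j] at a3
          linarith
        have h5 := mul_le_mul_of_nonneg_left h4 (hw j)
        linarith
      · simp only [hρ, h, if_false, add_zero]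
        exact le_refl _
    have h6 : ∑ j ∈ D.filter (fun j => π j ∈ G), 2 * (w j * d j (σ j)) = 2 * ∑ o ∈ G, f o := by
      rw [← Finset.mul_sum]
      congr 1
      rw [hf]
      have h7 : ∑ j ∈ D.filter (fun j => π j ∈ G), w j * d j (σ j) =
          ∑ o ∈ G, ∑ j ∈ (D.filter (fun j => π j ∈ G)).filter (fun j => π j = o),
            w j * d j (σ j) :=
        (Finset.sum_fiberwise_of_maps_to (fun j hj => (Finset.mem_filter.1 hj).2) _).symm
      rw [h7]
      refine Finset.sum_congr rfl fun o ho => ?_
      refine Finset.sum_congr ?_ fun _ _ => rfl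
      ext j
      simp only [Finset.mem_filter]
      constructor
      · rintro ⟨⟨a, _⟩, b⟩; exact ⟨a, b⟩
      · rintro ⟨a, b⟩; exact ⟨⟨a, b ▸ ho⟩, b⟩
    rw [h6, ← hπc w D, ← hcO] at h3
    linarith
  have h1 := group_sum f (e * cO / 2) (s + 1) hf0 Z hGgain m Z (Finset.Subset.refl _) hZc
  have h2 : ∑ o ∈ Z, f o ≤ ∑ o ∈ O, f o :=
    Finset.sum_le_sum_of_subset_of_nonneg hZO fun o _ _ => hf0 o
  have h3 : ∑ o ∈ O, f o = cst d w D Y := by rw [hσc w D, fib]
  linarith

end growth

section main

variable {d : P → P → R} {w : P → R} {D F S : Finset P} {nn : P → P}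

namespace Setup

omit [DecidableEq P] in
theorem nonneg (H : Setup d w F S nn) (x y : P) : 0 ≤ d x y := by
  by_cases h : x = y
  · rw [h, H.d0]
  · exact (H.pos x y h).le

omit [DecidableEq P] in
theorem Dpos (H : Setup d w F S nn) {t : P} (ht : t ∈ S) : 0 < d t (nn t) :=
  H.pos _ _ (Ne.symm (H.nn_ne t ht))

omit [DecidableEq P] in
/-- balls around different centres of `S` of radius `≤ D/4` (or `D/2`, strictly) are disjoint -/
theorem ball_disj (H : Setup d w F S nn) {t r x : P} (ht : t ∈ S) (hr : r ∈ S)
    (h1 : 4 * d x t ≤ d t (nn t)) (h2 : 4 * d x r ≤ d r (nn r)) : t = r := by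
  by_contra hne
  have a1 := H.nn_le t ht r hr (Ne.symm hne)
  have a2 := H.nn_le r hr t ht hne
  have a3 := H.tri t x r
  rw [H.symm t x] at a3
  rw [H.symm r t] at a2
  have a4 := H.Dpos ht
  linarith

omit [DecidableEq P] in
/-- the core clients of `t` are strictly nearer to `t` than to any other centre -/
theorem core_near (H : Setup d w F S nn) {t j r : P} (ht : t ∈ S) (hj : j ∈ core d D nn t)
    (hr : r ∈ S) (hrt : r ≠ t) : d j t < d j r := by
  have h1 := (Finset.mem_filter.1 hj).2
  have h2 := H.nn_le t ht r hr hrt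
  have h3 := H.tri t j r
  rw [H.symm t j] at h3
  have h4 := H.Dpos ht
  linarith

omit [DecidableEq P] in
theorem core_disj (H : Setup d w F S nn) {t r j : P} (ht : t ∈ S) (hr : r ∈ S)
    (h1 : j ∈ core d D nn t) (h2 : j ∈ core d D nn r) : t = r := by
  by_contra hne
  have a1 := H.core_near ht h1 hr (Ne.symm hne)
  have a2 := H.core_near hr h2 ht hne
  linarith

omit [DecidableEq P] in
theorem mass_nonneg (H : Setup d w F S nn) (t : P) : 0 ≤ mass d w D nn t :=
  Finset.sum_nonneg fun j _ => H.w0 j

omit [DecidableEq P] in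
theorem cc_nonneg (H : Setup d w F S nn) (t : P) : 0 ≤ cc d w D nn t :=
  Finset.sum_nonneg fun j _ => mul_nonneg (H.w0 j) (H.nonneg _ _)

/-- sum of a nonnegative function over disjoint cores -/
theorem sum_cores_le (H : Setup d w F S nn) (X : Finset P) (hX : X ⊆ S) (f : P → R)
    (hf : ∀ j, 0 ≤ f j) : ∑ t ∈ X, ∑ j ∈ core d D nn t, f j ≤ ∑ j ∈ D, f j := by
  rw [← Finset.sum_biUnion]
  · refine Finset.sum_le_sum_of_subset_of_nonneg ?_ fun j _ _ => hf j
    intro j hj
    obtain ⟨t, _, hj⟩ := Finset.mem_biUnion.1 hj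
    exact (Finset.mem_filter.1 hj).1
  · intro t ht r hr hne
    rw [Function.onFun, Finset.disjoint_left]
    intro j hj hj'
    exact hne (H.core_disj (hX ht) (hX hr) hj hj')

end Setup

/-- Few centres of `S` have `mass * D < b`. -/
theorem light_card (H : Setup d w F S nn) (O : Finset P)
    (hOF : O ⊆ F) (hO : O.Nonempty) (hcard : S.card ≤ O.card)
    (e A : R) (he : 0 < e) (hA : cst d w D S ≤ A * cst d w D O) (hcO : 0 < cst d w D O) (s : ℕ)
    (stab : ∀ S' ⊆ F, S'.Nonempty → S'.card + (s + 1) ≤ O.card →
      (1 + e) * cst d w D O < cst d w D S')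
    (b : R) (hb : b * (s + 1) ≤ e / 8 * cst d w D O) :
    ((S.filter fun t => mass d w D nn t * d t (nn t) < b).card : R)
      ≤ (90 * A / e + 6) * (s + 1) := by
  set cO := cst d w D O with hcOdef
  set L := S.filter fun t => mass d w D nn t * d t (nn t) < b with hL
  obtain ⟨X, hXL, hX, hXc⟩ := exists_indep nn L.card L rfl
    (fun x hx => H.nn_ne x (Finset.mem_filter.1 hx).1)
  have hXS : X ⊆ S := hXL.trans (Finset.filter_subset _ _)
  set Y := S \ X with hYdef
  have hYne : Y.Nonempty := by
    rcases X.eq_empty_or_nonempty with h | ⟨x, hx⟩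
    · rw [hYdef, h, Finset.sdiff_empty]; exact H.Sne
    · exact ⟨nn x, Finset.mem_sdiff.2 ⟨H.nn_mem x (hXS hx), hX x hx⟩⟩
  have hYc : Y.card + X.card = S.card := Finset.card_sdiff_add_card_eq_card hXS
  set m := X.card / (s + 1) with hm
  have hm1 : m * (s + 1) ≤ X.card := Nat.div_mul_le_self _ _
  have hm2 : X.card < (m + 1) * (s + 1) := by
    rw [hm]
    have := Nat.lt_div_mul_add (a := X.card) (b := s + 1) (by omega)
    calc X.card < X.card / (s + 1) * (s + 1) + (s + 1) := this
      _ = _ := by ring
  have hgr := growth d w D F O H.symm H.tri H.w0 H.nonneg hOF hO e he s stab Y hYne m (by omega)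
  obtain ⟨σ, hσS, hσmin, hσc⟩ := exists_nearest d S H.Sne
  set ρ : P → P := fun o => if o ∈ X then nn o else o with hρ
  have h2 : cst d w D Y ≤ ∑ j ∈ D, w j * d j (ρ (σ j)) := by
    refine cst_le_assign d w H.w0 D Y hYne (fun j => ρ (σ j)) fun j _ => ?_
    by_cases h : σ j ∈ X
    · simp only [hρ, h, if_true]
      exact Finset.mem_sdiff.2 ⟨H.nn_mem _ (hσS j), hX _ h⟩
    · simp only [hρ, h, if_false]
      exact Finset.mem_sdiff.2 ⟨hσS j, h⟩
  have fib : ∀ f : P → R, ∑ j ∈ D, f j = ∑ t ∈ S, ∑ j ∈ D.filter (fun j => σ j = t), f j :=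
    fun f => (Finset.sum_fiberwise_of_maps_to (fun j _ => hσS j) f).symm
  have h3 : ∑ j ∈ D, w j * d j (ρ (σ j)) ≤ 11 * cst d w D S + X.card * b := by
    rw [fib]
    have h4 : ∀ t ∈ S, ∑ j ∈ D.filter (fun j => σ j = t), w j * d j (ρ (σ j)) ≤
        11 * ∑ j ∈ D.filter (fun j => σ j = t), w j * d j t + if t ∈ X then b else 0 := by
      intro t ht
      have hs0 : 0 ≤ ∑ j ∈ D.filter (fun j => σ j = t), w j * d j t :=
        Finset.sum_nonneg fun j _ => mul_nonneg (H.w0 j) (H.nonneg _ _)
      by_cases h : t ∈ X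
      · have hlt : mass d w D nn t * d t (nn t) < b := (Finset.mem_filter.1 (hXL h)).2
        simp only [h, if_true]
        have h5 : ∑ j ∈ D.filter (fun j => σ j = t), w j * d j (ρ (σ j)) ≤
            ∑ j ∈ D.filter (fun j => σ j = t),
              (11 * (w j * d j t) + if 10 * d j t ≤ d t (nn t) then w j * d t (nn t) else 0) := by
          refine Finset.sum_le_sum fun j hj => ?_
          rw [(Finset.mem_filter.1 hj).2]
          simp only [hρ, h, if_true]
          have h6 := H.tri j t (nn t)
          have h7 := H.w0 j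
          have h9 := H.nonneg j t
          by_cases h8 : 10 * d j t ≤ d t (nn t)
          · simp only [h8, if_true]
            nlinarith [mul_le_mul_of_nonneg_left h6 h7, mul_nonneg h7 h9]
          · simp only [h8, if_false, add_zero]
            have h10 : d j (nn t) ≤ 11 * d j t := by linarith [not_le.1 h8]
            nlinarith [mul_le_mul_of_nonneg_left h10 h7]
        refine h5.trans ?_
        rw [Finset.sum_add_distrib, ← Finset.mul_sum]
        have h11 : ∑ j ∈ D.filter (fun j => σ j = t),
            (if 10 * d j t ≤ d t (nn t) then w j * d t (nn t) else 0) ≤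
            mass d w D nn t * d t (nn t) := by
          rw [mass, core, Finset.sum_mul, Finset.sum_filter (fun j => 10 * d j t ≤ d t (nn t))]
          refine Finset.sum_le_sum_of_subset_of_nonneg (Finset.filter_subset _ _) fun j _ _ => ?_
          split_ifs
          · exact mul_nonneg (H.w0 j) (H.nonneg _ _)
          · exact le_refl _
        linarith
      · simp only [h, if_false, add_zero]
        have h5 : ∑ j ∈ D.filter (fun j => σ j = t), w j * d j (ρ (σ j)) =
            ∑ j ∈ D.filter (fun j => σ j = t), w j * d j t := by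
          refine Finset.sum_congr rfl fun j hj => ?_
          rw [(Finset.mem_filter.1 hj).2]
          simp only [hρ, h, if_false]
        rw [h5]; linarith
    refine (Finset.sum_le_sum h4).trans ?_
    rw [Finset.sum_add_distrib, ← Finset.mul_sum, ← Finset.sum_filter]
    have h5 : S.filter (fun t => t ∈ X) = X := by
      ext y; simp only [Finset.mem_filter]
      exact ⟨fun h => h.2, fun h => ⟨hXS h, h⟩⟩
    rw [h5, Finset.sum_const, nsmul_eq_mul]
    have h6 : cst d w D S = ∑ t ∈ S, ∑ j ∈ D.filter (fun j => σ j = t), w j * d j t := by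
      rw [hσc w D, fib]
      refine Finset.sum_congr rfl fun o _ => Finset.sum_congr rfl fun j hj => ?_
      rw [(Finset.mem_filter.1 hj).2]
    rw [h6]
  -- combine
  have hX' : (X.card : R) ≤ ((m : R) + 1) * ((s : R) + 1) := by
    exact_mod_cast hm2.le
  have hs1 : (0 : R) < (s : R) + 1 := by positivity
  have hm0 : (0 : R) ≤ (m : R) := Nat.cast_nonneg m
  have hXb : (X.card : R) * b ≤ ((m : R) + 1) * (e / 8 * cO) := by
    rcases le_or_gt 0 b with hb0 | hb0
    · calc (X.card : R) * b ≤ (((m : R) + 1) * ((s : R) + 1)) * b :=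
            mul_le_mul_of_nonneg_right hX' hb0
        _ = ((m : R) + 1) * (b * ((s : R) + 1)) := by ring
        _ ≤ _ := mul_le_mul_of_nonneg_left hb (by linarith)
    · have h7 : (X.card : R) * b ≤ 0 :=
        mul_nonpos_of_nonneg_of_nonpos (Nat.cast_nonneg _) hb0.le
      have h8 : 0 ≤ ((m : R) + 1) * (e / 8 * cO) := by positivity
      linarith
  have hmain : (m : R) * (3 * e / 8) ≤ 11 * A + e / 8 := by
    have h7 : (m : R) * (e * cO / 2) ≤ 11 * (A * cO) + ((m : R) + 1) * (e / 8 * cO) := by
      have := mul_le_mul_of_nonneg_left hA (by norm_num : (0 : R) ≤ 11)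
      linarith
    have h8 : ((m : R) * (3 * e / 8)) * cO ≤ (11 * A + e / 8) * cO := by nlinarith
    exact le_of_mul_le_mul_right h8 hcO
  have hmb : (m : R) ≤ 30 * A / e + 1 := by
    have h9 : (m : R) * (3 * e / 8) ≤ (30 * A / e + 1) * (3 * e / 8) := by
      have h10 : (30 * A / e + 1) * (3 * e / 8) = 45 / 4 * A + 3 * e / 8 := by
        field_simp
        ring
      have hA0 : 0 ≤ A := by
        by_contra hneg
        push Not at hneg
        have h11 : A * cO < 0 := mul_neg_of_neg_of_pos hneg hcO
        have h12 : 0 ≤ cst d w D S := by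
          rw [hσc w D]
          exact Finset.sum_nonneg fun j _ => mul_nonneg (H.w0 j) (H.nonneg _ _)
        linarith
      rw [h10]
      linarith
    exact le_of_mul_le_mul_right h9 (by positivity)
  have hLX : (L.card : R) ≤ 3 * (X.card : R) := by exact_mod_cast hXc
  calc (L.card : R) ≤ 3 * (X.card : R) := hLX
    _ ≤ 3 * (((m : R) + 1) * ((s : R) + 1)) := by linarith
    _ ≤ 3 * ((30 * A / e + 1 + 1) * ((s : R) + 1)) := by
        have := mul_le_mul_of_nonneg_right (add_le_add_left hmb 1) hs1.le
        linarith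
    _ = (90 * A / e + 6) * ((s : R) + 1) := by ring

/-- `S` has almost as many centres as `O`. -/
theorem card_S (H : Setup d w F S nn) (O : Finset P)
    (hOF : O ⊆ F) (hO : O.Nonempty) 
    (e A : R) (he : 0 < e) (hA : cst d w D S ≤ A * cst d w D O) (hcO : 0 < cst d w D O) (s : ℕ)
    (stab : ∀ S' ⊆ F, S'.Nonempty → S'.card + (s + 1) ≤ O.card →
      (1 + e) * cst d w D O < cst d w D S') :
    (O.card : R) ≤ S.card + (2 * A / e + 1) * (s + 1) := by
  set cO := cst d w D O with hcOdef
  have hs1 : (0 : R) < (s : R) + 1 := by positivity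
  have hcS : 0 ≤ cst d w D S := by
    obtain ⟨σ, hσS, hσmin, hσc⟩ := exists_nearest d S H.Sne
    rw [hσc w D]
    exact Finset.sum_nonneg fun j _ => mul_nonneg (H.w0 j) (H.nonneg _ _)
  have hA0 : 0 ≤ A := by
    by_contra hneg
    push Not at hneg
    have h11 : A * cO < 0 := mul_neg_of_neg_of_pos hneg hcO
    linarith
  have hC0 : 0 ≤ 2 * A / e := by positivity
  rcases le_or_gt O.card S.card with h | h
  · have h1 : (O.card : R) ≤ S.card := by exact_mod_cast h
    have : 0 ≤ (2 * A / e + 1) * ((s : R) + 1) := by positivity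
    linarith
  set x := O.card - S.card with hx
  set m := x / (s + 1) with hm
  have hm1 : m * (s + 1) ≤ x := Nat.div_mul_le_self _ _
  have hm2 : x < (m + 1) * (s + 1) := by
    rw [hm]
    have := Nat.lt_div_mul_add (a := x) (b := s + 1) (by omega)
    calc x < x / (s + 1) * (s + 1) + (s + 1) := this
      _ = _ := by ring
  have hgr := growth d w D F O H.symm H.tri H.w0 H.nonneg hOF hO e he s stab S H.Sne m (by omega)
  have h1 : (m : R) * (e / 2) ≤ A := by
    have h2 : ((m : R) * (e / 2)) * cO ≤ A * cO := by nlinarith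
    exact le_of_mul_le_mul_right h2 hcO
  have h3 : (m : R) ≤ 2 * A / e := by
    rw [le_div_iff₀ he]; linarith
  have h4 : (x : R) ≤ ((m : R) + 1) * ((s : R) + 1) := by exact_mod_cast hm2.le
  have h5 : (O.card : R) = S.card + x := by
    have : O.card = S.card + x := by omega
    exact_mod_cast this
  have h6 : ((m : R) + 1) * ((s : R) + 1) ≤ (2 * A / e + 1) * ((s : R) + 1) :=
    mul_le_mul_of_nonneg_right (by linarith) hs1.le
  linarith

/-- Few centres of `S` have an expensive core. -/
theorem heavy_card (H : Setup d w F S nn) (b th : R) (hb : 0 < b) (hth : 0 < th) :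
    ((S.filter fun t => th * b < cc d w D nn t).card : R) * (th * b) ≤ cst d w D S := by
  obtain ⟨σ, hσS, hσmin, hσc⟩ := exists_nearest d S H.Sne
  set X := S.filter fun t => th * b < cc d w D nn t with hX
  have h1 : ∑ _t ∈ X, th * b ≤ ∑ t ∈ X, ∑ j ∈ core d D nn t, w j * d j (σ j) := by
    refine Finset.sum_le_sum fun t ht => ?_
    obtain ⟨htS, h2⟩ := Finset.mem_filter.1 ht
    refine h2.le.trans (le_of_eq ?_)
    rw [cc]
    refine Finset.sum_congr rfl fun j hj => ?_
    have h3 : σ j = t := by
      by_contra hne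
      have h4 := H.core_near htS hj (hσS j) hne
      have h5 := hσmin j t htS
      linarith
    rw [h3]
  have h2 := H.sum_cores_le (D := D) X (Finset.filter_subset _ _) (fun j => w j * d j (σ j))
    (fun j => mul_nonneg (H.w0 j) (H.nonneg _ _))
  rw [Finset.sum_const, nsmul_eq_mul] at h1
  rw [hσc w D]
  linarith

/-- **(1)** Almost all centres of `O` are matched by rigid centres: `|O| ≤ |Θ(th)| + C (s+1)`. -/
theorem theta_card (H : Setup d w F S nn) (O : Finset P)
    (hOF : O ⊆ F) (hO : O.Nonempty) (hcard : S.card ≤ O.card)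
    (e A : R) (he : 0 < e) (hA : cst d w D S ≤ A * cst d w D O) (hcO : 0 < cst d w D O) (s : ℕ)
    (stab : ∀ S' ⊆ F, S'.Nonempty → S'.card + (s + 1) ≤ O.card →
      (1 + e) * cst d w D O < cst d w D S')
    (b bl th : R) (hbl : 0 < bl) (hth : 0 < th) (hb : b * (s + 1) ≤ e / 8 * cst d w D O)
    (hb' : bl * cst d w D O ≤ b * (s + 1)) :
    (O.card : R) ≤ (Theta d w D S nn b th).card
      + (92 * A / e + 7 + A / (th * bl)) * (s + 1) := by
  have hs1 : (0 : R) < (s : R) + 1 := by positivity
  have hb0 : 0 < b := by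
    by_contra hneg
    push Not at hneg
    have h1 : b * ((s : R) + 1) ≤ 0 := mul_nonpos_of_nonpos_of_nonneg hneg hs1.le
    have h2 : 0 < bl * cst d w D O := mul_pos hbl hcO
    linarith
  have h1 := card_S (D := D) H O hOF hO e A he hA hcO s stab
  have h2 := light_card (D := D) H O hOF hO hcard e A he hA hcO s stab b hb
  have h3 := heavy_card (D := D) H b th hb0 hth
  set L := S.filter fun t => mass d w D nn t * d t (nn t) < b with hL
  set X := S.filter fun t => th * b < cc d w D nn t with hX
  have h4 : S ⊆ Theta d w D S nn b th ∪ (L ∪ X) := by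
    intro t ht
    by_cases h5 : mass d w D nn t * d t (nn t) < b
    · exact Finset.mem_union_right _ (Finset.mem_union_left _ (Finset.mem_filter.2 ⟨ht, h5⟩))
    by_cases h6 : th * b < cc d w D nn t
    · exact Finset.mem_union_right _ (Finset.mem_union_right _ (Finset.mem_filter.2 ⟨ht, h6⟩))
    exact Finset.mem_union_left _ (Finset.mem_filter.2 ⟨ht, not_lt.1 h5, not_lt.1 h6⟩)
  have h5 : (S.card : R) ≤ (Theta d w D S nn b th).card + (L.card + X.card) := by
    have a1 := Finset.card_le_card h4
    have a2 := Finset.card_union_le (Theta d w D S nn b th) (L ∪ X)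
    have a3 := Finset.card_union_le L X
    exact_mod_cast (by omega : S.card ≤ (Theta d w D S nn b th).card + (L.card + X.card))
  have h6 : (X.card : R) ≤ A / (th * bl) * ((s : R) + 1) := by
    have h7 : (X.card : R) * (th * b) ≤ A * cst d w D O := h3.trans hA
    have hA0 : 0 ≤ A := by
      by_contra hneg
      push Not at hneg
      have h11 : A * cst d w D O < 0 := mul_neg_of_neg_of_pos hneg hcO
      have : 0 ≤ (X.card : R) * (th * b) := by positivity
      linarith
    have h8 : A * cst d w D O ≤ A / bl * (b * ((s : R) + 1)) := by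
      have := mul_le_mul_of_nonneg_left hb' (div_nonneg hA0 hbl.le)
      calc A * cst d w D O = A / bl * (bl * cst d w D O) := by field_simp
        _ ≤ _ := this
    have h9 : (X.card : R) * (th * b) ≤ (A / (th * bl) * ((s : R) + 1)) * (th * b) := by
      calc (X.card : R) * (th * b) ≤ A / bl * (b * ((s : R) + 1)) := h7.trans h8
        _ = (A / (th * bl) * ((s : R) + 1)) * (th * b) := by field_simp
    exact le_of_mul_le_mul_right h9 (by positivity)
  have h7 : (92 * A / e + 7 + A / (th * bl)) * ((s : R) + 1) =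
      (2 * A / e + 1) * ((s : R) + 1) + (90 * A / e + 6) * ((s : R) + 1)
        + A / (th * bl) * ((s : R) + 1) := by
    field_simp
    ring
  rw [h7]
  linarith

/-- balls of radius `β D`, `β ≤ 1/20`, lie in the quarter balls -/
theorem ball_quarter (H : Setup d w F S nn) {β : R} (hβ : β ≤ 1 / 20) {t i : P} (ht : t ∈ S)
    (hi : i ∈ ball d F nn β t) : 4 * d i t ≤ d t (nn t) := by
  have h1 := (Finset.mem_filter.1 hi).2
  have h2 := H.Dpos ht
  have h3 : β * d t (nn t) ≤ 1 / 20 * d t (nn t) := mul_le_mul_of_nonneg_right hβ h2.le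
  linarith

theorem self_mem_ball (H : Setup d w F S nn) {β : R} (hβ : 0 ≤ β) {t : P} (ht : t ∈ S) :
    t ∈ ball d F nn β t := by
  refine Finset.mem_filter.2 ⟨H.SF ht, ?_⟩
  rw [H.d0]
  exact mul_nonneg hβ (H.Dpos ht).le

set_option maxHeartbeats 1600000 in
/-- **(2), raw form.**  Transfer of an arbitrary solution `Q` to the restricted + collapsed instance. -/
theorem transfer_raw (H : Setup d w F S nn) (b th β : R) (hth : 0 ≤ th)
    (hβ0 : 0 < β) (hβ : β ≤ 1 / 20) (hthβ : 2 * th ≤ β) (hb : 0 ≤ b) (v φ : P → P)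
    (hv : ∀ t ∈ Theta d w D S nn b th, v t ∈ ball d F nn β t ∧ ∀ u ∈ ball d F nn β t,
      ∑ j ∈ core d D nn t, w j * d j (v t) ≤ ∑ j ∈ core d D nn t, w j * d j u)
    (hφ1 : ∀ t ∈ Theta d w D S nn b th, ∀ j ∈ core d D nn t, φ j = v t)
    (hφ2 : ∀ j ∈ D, (∀ t ∈ Theta d w D S nn b th, j ∉ core d D nn t) → φ j = j)
    (Q : Finset P) (hQF : Q ⊆ F) (hQ : Q.Nonempty) :
    ∃ Q' ⊆ Fres d F nn β (Theta d w D S nn b th) v, Q'.Nonempty ∧ Q'.card ≤ Q.card ∧
      ∃ a : P → P, (∀ j, a j ∈ Q') ∧
        ∑ j ∈ D, w j * (d j (φ j) + d (φ j) (a j)) ≤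
          (1 + 40 * β + 4 * th / β) * cst d w D Q +
          (((Theta d w D S nn b th).filter
            (fun t => 2 ≤ (Q.filter (fun o => 4 * d o t ≤ d t (nn t))).card)).card : R)
              * (th * b) := by
  classical
  set Θ := Theta d w D S nn b th with hΘ
  have hΘS : Θ ⊆ S := Finset.filter_subset _ _
  obtain ⟨π, hπQ, hπmin, hπc⟩ := exists_nearest d Q hQ
  obtain ⟨σ, hσS, hσmin, hσc⟩ := exists_nearest d S H.Sne
  have hrepex : ∀ o, ∃ r, (∃ t ∈ Θ, o ∈ ball d F nn β t ∧ r = v t) ∨
      ((∀ t ∈ Θ, o ∉ ball d F nn β t) ∧ r = o) := by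
    intro o
    by_cases h : ∃ t ∈ Θ, o ∈ ball d F nn β t
    · obtain ⟨t, ht, ho⟩ := h
      exact ⟨v t, Or.inl ⟨t, ht, ho, rfl⟩⟩
    · push Not at h
      exact ⟨o, Or.inr ⟨h, rfl⟩⟩
  choose rep hrep using hrepex
  have hdisj : ∀ {t r x : P}, t ∈ Θ → r ∈ Θ → x ∈ ball d F nn β t → x ∈ ball d F nn β r → t = r :=
    fun ht hr h1 h2 => H.ball_disj (hΘS ht) (hΘS hr) (ball_quarter H hβ (hΘS ht) h1)
      (ball_quarter H hβ (hΘS hr) h2)
  have hrep1 : ∀ {t o : P}, t ∈ Θ → o ∈ ball d F nn β t → rep o = v t := by
    intro t o ht ho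
    rcases hrep o with ⟨t', ht', ho', h⟩ | ⟨h, _⟩
    · rw [h, hdisj ht' ht ho' ho]
    · exact absurd ho (h t ht)
  have hvball : ∀ t ∈ Θ, v t ∈ ball d F nn β t := fun t ht => (hv t ht).1
  have hcoret : ∀ {t j : P}, t ∈ Θ → j ∈ core d D nn t → σ j = t := by
    intro t j ht hj
    by_contra hne
    have h4 := H.core_near (hΘS ht) hj (hσS j) hne
    have h5 := hσmin j t (hΘS ht)
    linarith
  set a : P → P := fun j =>
    if (∃ t ∈ Θ, j ∈ core d D nn t ∧ ∃ o ∈ Q, o ∈ ball d F nn β t) then φ j else rep (π j) with ha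
  refine ⟨Q.image rep, ?_, hQ.image _, Finset.card_image_le, a, ?_, ?_⟩
  · intro x hx
    obtain ⟨o, ho, rfl⟩ := Finset.mem_image.1 hx
    rw [Fres, Finset.mem_filter]
    rcases hrep o with ⟨t, ht, ho', h⟩ | ⟨h, h'⟩
    · rw [h]
      refine ⟨(Finset.mem_filter.1 (hvball t ht)).1, fun t' ht' hb' => ?_⟩
      rw [hdisj ht ht' (hvball t ht) hb']
    · rw [h']
      exact ⟨hQF ho, fun t ht hb' => absurd hb' (h t ht)⟩
  · intro j
    simp only [ha]
    split_ifs with h
    · obtain ⟨t, ht, hj, o, ho, hob⟩ := h
      rw [hφ1 t ht j hj, ← hrep1 ht hob]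
      exact Finset.mem_image_of_mem _ ho
    · exact Finset.mem_image_of_mem _ (hπQ j)
  -- pointwise bound for loose clients
  have hloose : ∀ j ∈ D, (∀ t ∈ Θ, π j ∈ ball d F nn β t → j ∉ core d D nn t) →
      d j (rep (π j)) ≤ (1 + 40 * β) * d j (π j) := by
    intro j hjD hj
    have hnn := H.nonneg j (π j)
    rcases hrep (π j) with ⟨t, ht, ho, h⟩ | ⟨_, h⟩
    · have h1 : ¬ 10 * d j t ≤ d t (nn t) := fun h1 => hj t ht ho (Finset.mem_filter.2 ⟨hjD, h1⟩)
      push Not at h1
      have h2 := (Finset.mem_filter.1 ho).2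
      have h3 := (Finset.mem_filter.1 (hvball t ht)).2
      have hD := H.Dpos (hΘS ht)
      rw [h]
      have a1 := H.tri j (π j) (v t)
      have a2 := H.tri (π j) t (v t)
      rw [H.symm t (v t)] at a2
      have a3 := H.tri j (π j) t
      have a4 : β * d t (nn t) ≤ 1 / 20 * d t (nn t) := mul_le_mul_of_nonneg_right hβ hD.le
      have a5 : d t (nn t) ≤ 20 * d j (π j) := by linarith
      have a6 := mul_le_mul_of_nonneg_left a5 hβ0.le
      linarith
    · rw [h]
      nlinarith
  set K : R := 1 + 40 * β + 4 * th / β with hK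
  have h4 : 0 ≤ 4 * th / β := by positivity
  have hfib : ∀ g : P → R, ∑ j ∈ D, g j = ∑ t ∈ S, ∑ j ∈ D.filter (fun j => σ j = t), g j :=
    fun g => (Finset.sum_fiberwise_of_maps_to (fun j _ => hσS j) g).symm
  set E := Θ.filter (fun t => 2 ≤ (Q.filter (fun o => 4 * d o t ≤ d t (nn t))).card) with hE
  set old : P → R := fun j => w j * d j (π j) with hold
  have hold0 : ∀ j, 0 ≤ old j := fun j => mul_nonneg (H.w0 j) (H.nonneg _ _)
  -- loose clients
  have hnewl : ∀ j ∈ D, (∀ t ∈ Θ, j ∉ core d D nn t) →
      w j * (d j (φ j) + d (φ j) (a j)) ≤ (1 + 40 * β) * old j := by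
    intro j hjD hj
    have h1 : a j = rep (π j) := by
      simp only [ha]
      rw [if_neg]
      rintro ⟨t, ht, hj', _⟩
      exact hj t ht hj'
    rw [hφ2 j hjD hj, h1, H.d0, zero_add, hold]
    have := mul_le_mul_of_nonneg_left (hloose j hjD fun t ht _ => hj t ht) (H.w0 j)
    linarith
  have hfiber : ∀ t ∈ S, ∑ j ∈ D.filter (fun j => σ j = t), w j * (d j (φ j) + d (φ j) (a j)) ≤
      K * ∑ j ∈ D.filter (fun j => σ j = t), old j + if t ∈ E then th * b else 0 := by
    intro t ht
    have hif : 0 ≤ if t ∈ E then th * b else 0 := by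
      split_ifs
      · exact mul_nonneg hth hb
      · exact le_refl _
    by_cases htΘ : t ∈ Θ
    · -- rigid
      have hsub : core d D nn t ⊆ D.filter (fun j => σ j = t) := fun j hj =>
        Finset.mem_filter.2 ⟨(Finset.mem_filter.1 hj).1, hcoret htΘ hj⟩
      have hnc : ∀ j ∈ D.filter (fun j => σ j = t) \ core d D nn t,
          w j * (d j (φ j) + d (φ j) (a j)) ≤ K * old j := by
        intro j hj
        obtain ⟨hj1, hj2⟩ := Finset.mem_sdiff.1 hj
        obtain ⟨hjD, hjt⟩ := Finset.mem_filter.1 hj1
        have h5 := hnewl j hjD fun t' ht' hj' => hj2 (by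
          have h6 := hcoret ht' hj'
          rw [hjt] at h6
          rw [h6]; exact hj')
        have h7 : 0 ≤ 4 * th / β * old j := mul_nonneg h4 (hold0 j)
        rw [hK]
        linarith
      have hsumnc := Finset.sum_le_sum hnc
      rw [← Finset.mul_sum] at hsumnc
      have hcore : ∑ j ∈ core d D nn t, w j * (d j (φ j) + d (φ j) (a j)) ≤
          K * ∑ j ∈ core d D nn t, old j + if t ∈ E then th * b else 0 := by
        have hΘt := (Finset.mem_filter.1 htΘ).2
        have hDt := H.Dpos ht
        have hold0s : 0 ≤ ∑ j ∈ core d D nn t, old j := Finset.sum_nonneg fun j _ => hold0 j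
        have hvt : ∑ j ∈ core d D nn t, w j * d j (v t) ≤ cc d w D nn t :=
          (hv t htΘ).2 t (self_mem_ball H hβ0.le ht)
        by_cases hQb : ∃ o ∈ Q, o ∈ ball d F nn β t
        · -- Q meets the ball
          have h5 : ∑ j ∈ core d D nn t, w j * (d j (φ j) + d (φ j) (a j)) =
              ∑ j ∈ core d D nn t, w j * d j (v t) := by
            refine Finset.sum_congr rfl fun j hj => ?_
            have h6 : a j = φ j := by
              simp only [ha]
              rw [if_pos ⟨t, htΘ, hj, hQb⟩]
            rw [h6, H.d0, add_zero, hφ1 t htΘ j hj]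
          rw [h5]
          by_cases htE : t ∈ E
          · rw [if_pos htE]
            have h7 : 0 ≤ K * ∑ j ∈ core d D nn t, old j :=
              mul_nonneg (by rw [hK]; positivity) hold0s
            linarith [hΘt.2]
          · rw [if_neg htE, add_zero]
            obtain ⟨o, hoQ, hob⟩ := hQb
            have hone : ∀ o' ∈ Q, 4 * d o' t ≤ d t (nn t) → o' = o := by
              intro o' ho' h8
              by_contra hne
              refine htE (Finset.mem_filter.2 ⟨htΘ, ?_⟩)
              have h9 : ({o', o} : Finset P) ⊆ Q.filter (fun o => 4 * d o t ≤ d t (nn t)) := by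
                intro x hx
                rcases Finset.mem_insert.1 hx with rfl | hx
                · exact Finset.mem_filter.2 ⟨ho', h8⟩
                · rw [Finset.mem_singleton.1 hx]
                  exact Finset.mem_filter.2 ⟨hoQ, ball_quarter H hβ ht hob⟩
              have h10 := Finset.card_le_card h9
              rwa [Finset.card_pair hne] at h10
            have h11 : ∑ j ∈ core d D nn t, w j * d j o ≤ ∑ j ∈ core d D nn t, old j := by
              refine Finset.sum_le_sum fun j hj => ?_
              rw [hold]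
              refine mul_le_mul_of_nonneg_left ?_ (H.w0 j)
              by_cases h12 : π j = o
              · rw [h12]
              · have h13 : ¬ 4 * d (π j) t ≤ d t (nn t) := fun h => h12 (hone _ (hπQ j) h)
                push Not at h13
                have h14 := (Finset.mem_filter.1 hj).2
                have h15 := (Finset.mem_filter.1 hob).2
                have a1 := H.tri j t o
                have a2 := H.tri (π j) j t
                rw [H.symm t o] at a1
                rw [H.symm (π j) j] at a2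
                have a4 : β * d t (nn t) ≤ 1 / 20 * d t (nn t) :=
                  mul_le_mul_of_nonneg_right hβ hDt.le
                linarith
            have h16 := (hv t htΘ).2 o hob
            have h17 : ∑ j ∈ core d D nn t, old j ≤ K * ∑ j ∈ core d D nn t, old j := by
              have : 1 ≤ K := by rw [hK]; linarith
              nlinarith
            linarith
        · -- Q misses the ball
          have h5 : ∀ j ∈ core d D nn t, w j * (d j (φ j) + d (φ j) (a j)) ≤
              2 * (w j * d j (v t)) + (1 + 40 * β) * old j := by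
            intro j hj
            have hjD := (Finset.mem_filter.1 hj).1
            have h6 : a j = rep (π j) := by
              simp only [ha]
              rw [if_neg]
              rintro ⟨t', ht', hj', hQ'⟩
              have h7 : t = t' := H.core_disj ht (hΘS ht') hj hj'
              rw [← h7] at hQ'
              exact hQb hQ'
            have h8 := hloose j hjD (by
              intro t' ht' hb' hj'
              have h7 : t = t' := H.core_disj ht (hΘS ht') hj hj'
              rw [← h7] at hb'
              exact hQb ⟨_, hπQ j, hb'⟩)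
            rw [h6, hφ1 t htΘ j hj]
            have h9 := H.tri (v t) j (rep (π j))
            rw [H.symm (v t) j] at h9
            have h10 : d j (v t) + d (v t) (rep (π j)) ≤
                2 * d j (v t) + (1 + 40 * β) * d j (π j) := by linarith
            have h11 := mul_le_mul_of_nonneg_left h10 (H.w0 j)
            rw [hold]
            linarith
          have h6 := Finset.sum_le_sum h5
          rw [Finset.sum_add_distrib, ← Finset.mul_sum, ← Finset.mul_sum] at h6
          have h7 : β * (mass d w D nn t * d t (nn t)) - cc d w D nn t ≤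
              ∑ j ∈ core d D nn t, old j := by
            rw [mass, cc, Finset.sum_mul, Finset.mul_sum, ← Finset.sum_sub_distrib]
            refine Finset.sum_le_sum fun j hj => ?_
            have h8 : ¬ d (π j) t ≤ β * d t (nn t) := fun h =>
              hQb ⟨π j, hπQ j, Finset.mem_filter.2 ⟨hQF (hπQ j), h⟩⟩
            push Not at h8
            have a2 := H.tri (π j) j t
            rw [H.symm (π j) j] at a2
            have h9 : β * d t (nn t) - d j t ≤ d j (π j) := by linarith
            have h10 := mul_le_mul_of_nonneg_left h9 (H.w0 j)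
            rw [hold]
            linarith
          have h8 : β / 2 * b ≤ ∑ j ∈ core d D nn t, old j := by
            have h9 := mul_le_mul_of_nonneg_left hΘt.1 hβ0.le
            have h10 := hΘt.2
            have h11 := mul_le_mul_of_nonneg_right hthβ hb
            linarith
          have h12 : 2 * (th * b) ≤ 4 * th / β * ∑ j ∈ core d D nn t, old j := by
            have h13 := mul_le_mul_of_nonneg_left h8 h4
            have h14 : 4 * th / β * (β / 2 * b) = 2 * (th * b) := by
              field_simp
              ring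
            rw [h14] at h13
            exact h13
          have h15 := hΘt.2
          have h16 : K * ∑ j ∈ core d D nn t, old j =
              (1 + 40 * β) * ∑ j ∈ core d D nn t, old j
                + 4 * th / β * ∑ j ∈ core d D nn t, old j := by rw [hK]; ring
          rw [h16]
          linarith
      rw [← Finset.sum_sdiff hsub, ← Finset.sum_sdiff hsub (f := old), mul_add]
      linarith
    · -- not rigid
      have h5 : ∀ j ∈ D.filter (fun j => σ j = t), w j * (d j (φ j) + d (φ j) (a j)) ≤
          K * old j := by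
        intro j hj
        obtain ⟨hjD, hjt⟩ := Finset.mem_filter.1 hj
        have h5 := hnewl j hjD fun t' ht' hj' => htΘ (by
          have h6 := hcoret ht' hj'
          rw [hjt] at h6
          rw [h6]; exact ht')
        have h7 : 0 ≤ 4 * th / β * old j := mul_nonneg h4 (hold0 j)
        rw [hK]
        linarith
      have h6 := Finset.sum_le_sum h5
      rw [← Finset.mul_sum] at h6
      linarith
  rw [hfib]
  refine (Finset.sum_le_sum hfiber).trans ?_
  rw [Finset.sum_add_distrib, ← Finset.mul_sum, ← hfib, ← Finset.sum_filter, Finset.sum_const,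
    nsmul_eq_mul, hπc w D]
  have h5 : S.filter (fun t => t ∈ E) = E := by
    ext y; simp only [Finset.mem_filter]
    exact ⟨fun h => h.2, fun h => ⟨hΘS (Finset.mem_filter.1 h).1, h⟩⟩
  rw [h5]

end main

end Crest.Agent.R310.StructM
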